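import Vale.Agent.P158.NB.FirstShift

/-!
The last step of `PROOF.md`: if no step lies on a bigeodesic with positive probability, then
almost surely there is no bigeodesic.
-/

open MeasureTheory

namespace Vale.Agent.P158.NB

variable {G : Measure ℝ} [IsProbabilityMeasure G]

/-- Almost surely there is no bigeodesic as soon as every single step is almost surely on none. -/
theorem ae_no_bigeodesic_of_steps
    (h : ∀ p q : ℤ × ℤ, weightMeasure G (BigeoStep p q) = 0) :
    ∀ᵐ t ∂weightMeasure G, ∀ v : ℤ → ℤ × ℤ, ¬ IsBigeodesic t v := by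
  rw [ae_iff]
  have hset : {t | ¬ ∀ v : ℤ → ℤ × ℤ, ¬ IsBigeodesic t v} = {t | ∃ v, IsBigeodesic t v} := by
    ext t
    simp
  rw [hset]
  by_contra hne
  obtain ⟨p, q, -, hpq⟩ := exists_step_pos hne
  exact hpq (h p q)

end Vale.Agent.P158.NB
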