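import Vale.Agent.P158.NB.NetTools

/-!
# Exits of optimal walks are admissible (section 10 of `PROOF.md`)

An optimal walk of the doubled box passes representatives of an exit point on both sides, and these
two are joined cheaply in the doubled box, so the walk between them is cheap.
-/

open MeasureTheory Finset
open scoped ENNReal

namespace Vale.Agent.P158.NB

namespace Box

variable {B : Box} {t : Env} {f : ℕ → V} {m : ℕ} {x y : V}

/-- A piece of an optimal walk is optimal. -/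
lemma piece_le_dist (ht : ∀ e, 0 ≤ t e) (h : B.IsWalk f m x y)
    (hc : pathCost t f m = B.dist t x y) {i j : ℕ} (hij : i ≤ j) (hj : j ≤ m) :
    pathCost t (fun k => f (i + k)) (j - i) ≤ B.dist t (f i) (f j) := by
  have h1 := dist_le ht (h.initSeg (hij.trans hj))
  have h2 := dist_le ht (h.suffix hj)
  have h3 := dist_triangle (B := B) ht h.mem_left (h.2 i (hij.trans hj)) h.mem_right
  have h4 := dist_triangle (B := B) ht (h.2 i (hij.trans hj)) (h.2 j hj) h.mem_right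
  have h5 := pathCost_split t f hj
  have h6 := pathCost_split t f hij
  linarith

/-- Two vertices of a box are joined by a short walk. -/
lemma exists_short_walk (hx : B.Mem x) (hy : B.Mem y) :
    ∃ (n : ℕ) (g : ℕ → V), B.IsWalk g n x y ∧ n ≤ 2 * cheb x y := by
  set a := (y.1 - x.1).natAbs with ha
  set b := (y.2 - x.2).natAbs with hb
  obtain ⟨s, hs, hsa⟩ : ∃ s : ℤ, (s = 1 ∨ s = -1) ∧ y.1 = x.1 + s * a := by
    rcases le_total x.1 y.1 with h | h
    · exact ⟨1, .inl rfl, by omega⟩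
    · exact ⟨-1, .inr rfl, by omega⟩
  obtain ⟨s', hs', hsb⟩ : ∃ s' : ℤ, (s' = 1 ∨ s' = -1) ∧ y.2 = x.2 + s' * b := by
    rcases le_total x.2 y.2 with h | h
    · exact ⟨1, .inl rfl, by omega⟩
    · exact ⟨-1, .inr rfl, by omega⟩
  rw [mem_iff] at hx hy
  refine ⟨a + b, fun i => if i ≤ a then (x.1 + s * i, x.2) else (y.1, x.2 + s' * ((i : ℤ) - a)),
    ⟨⟨by simp, ?_, fun i hi => ?_⟩, fun i hi => ?_⟩, ?_⟩
  · dsimp only
    split_ifs with h
    · ext <;> dsimp only <;> push_cast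
      · rw [hsa, show b = 0 by omega]; simp
      · rw [show y.2 = x.2 by rw [hsb, show b = 0 by omega]; simp]
    · ext <;> dsimp only
      rw [hsb]
      push_cast
      ring
  · dsimp only
    rcases Nat.lt_trichotomy i a with h | h | h
    · rw [if_pos h.le, if_pos (Nat.succ_le_of_lt h)]
      rcases hs with rfl | rfl <;> simp [Nbr]
    · subst h
      rw [if_pos le_rfl, if_neg (by omega)]
      rcases hs' with rfl | rfl <;> simp [Nbr, hsa]
    · rw [if_neg (by omega), if_neg (by omega)]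
      rcases hs' with rfl | rfl <;> simp [Nbr]
  · rw [mem_iff]
    dsimp only
    split_ifs with h <;> dsimp only <;> rcases hs with rfl | rfl <;> rcases hs' with rfl | rfl <;>
      omega
  · simp only [cheb, ha, hb]
    omega

/-- The deterministic exit lemma: the walk goes from `f i` deep inside to `f k` on the boundary,
then on to the boundary of the doubled box. -/
lemma exit_near {c₀ : ℝ} (hc : 0 ≤ c₀) (ht : ∀ e, 0 ≤ t e)
    (hR : B.Ready (B.outBad c₀ t))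
    (hR2 : (Box.mk B.c (2 * B.M)).Ready ((Box.mk B.c (2 * B.M)).allBad c₀ t))
    (hbig : 40 * (rhoOf B.M + rhoOf (2 * B.M) + 1) ≤ B.M)
    (hf : (Box.mk B.c (2 * B.M)).IsWalk f m x y)
    (hopt : pathCost t f m = (Box.mk B.c (2 * B.M)).dist t x y)
    (hy : (Box.mk B.c (2 * B.M)).Bdry y)
    {i k : ℕ} (hik : i ≤ k) (hk : k ≤ m) (hi : (Box.mk B.c (B.M / 2)).Mem (f i))
    (hbd : B.Bdry (f k)) (hin : ∀ l, i ≤ l → l ≤ k → B.Mem (f l)) :
    ∃ u ∈ B.reps (B.outBad c₀ t) (f k), B.dist t (f k) u ≤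
      1000 * (c₀ + 1) * ((rhoOf B.M + rhoOf (2 * B.M) + 1 : ℕ) : ℝ) ^ 3 := by
  set B2 : Box := Box.mk B.c (2 * B.M) with hB2
  set β := B.outBad c₀ t with hβ
  set β2 := B2.allBad c₀ t with hβ2
  set ρ := rhoOf B.M with hρdef
  set ρ2 := rhoOf (2 * B.M) with hρ2def
  set z := f k with hz
  have hS := hR.small
  have hρ4 := hR.big
  have hS2 := hR2.small
  have hρ24 := hR2.big
  have hρ : B.rad β z ≤ ρ := rad_le hS z
  obtain ⟨hzm, hzi⟩ := id hbd
  rw [mem_iff] at hzm hi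
  rw [inner_iff] at hzi
  simp only at hi
  -- inside
  have hg : B.IsWalk (fun l => f (i + l)) (k - i) (f i) z :=
    ⟨(hf.segment hik hk).1, fun l hl => hin (i + l) (by omega) (by omega)⟩
  obtain ⟨l₁, hl₁, hu⟩ := walk_meets_reps hS hρ4 hg (by simp only [cheb]; omega)
  set u := f (i + l₁) with hudef
  have hum : B.Mem u := hin _ (by omega) (by omega)
  have hzu := cheb_reps_le hS hρ4 hbd.1 hu
  refine ⟨u, hu, ?_⟩
  -- `u` is in the large component of the doubled box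
  have hB2m : ∀ w, B.Mem w → B2.Mem w := by
    intro w hw; rw [mem_iff] at hw ⊢; simp only [hB2]; omega
  have hgood2 : ∀ v ∈ B.goodSet β, cheb z v < B.M / 4 → v ∈ B2.goodSet β2 := by
    intro v hv hvz
    refine ⟨hB2m v hv.1, fun hb => hv.2 ⟨hv.1, fun hq => ?_, hb.2⟩⟩
    rw [mem_iff] at hq
    simp only [threeQ] at hq
    simp only [cheb] at hvz
    omega
  have hug := (reps_subset hu).1
  obtain ⟨-, a, b, ha, hb, hab⟩ := reps_subset hu
  obtain ⟨far, hfar, hfard⟩ : ∃ w, Link Nbr (B.goodSet β) u w ∧ B.M / 4 ≤ cheb z w := by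
    by_cases h : B.M / 4 ≤ cheb z a
    · exact ⟨a, ha, h⟩
    · refine ⟨b, hb, ?_⟩
      have := cheb_triangle a z b
      have := cheb_comm a z
      omega
  have hug2 : u ∈ B2.goodSet β2 := hgood2 u hug (by omega)
  obtain ⟨w, hw, hwfar⟩ : ∃ w, Link Nbr (B2.goodSet β2) u w ∧ B.M / 4 - 1 ≤ cheb z w := by
    rcases hfar.induct (P := fun v =>
      (Link Nbr (B2.goodSet β2) u v ∧ (v ∈ B.goodSet β ∧ cheb z v < B.M / 4)) ∨
        ∃ w, Link Nbr (B2.goodSet β2) u w ∧ B.M / 4 - 1 ≤ cheb z w)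
      (.inl ⟨Link.refl u, hug, by omega⟩) (fun p q hp hq hn hP => by
        rcases hP with ⟨hl, hpg, hpz⟩ | hP
        · by_cases hqz : cheb z q < B.M / 4
          · exact .inl ⟨hl.trans (Link.single (hgood2 p hpg hpz) (hgood2 q hq hqz) hn), hq, hqz⟩
          · refine .inr ⟨p, hl, ?_⟩
            have := cheb_triangle z p q
            have := cheb_of_nbr hn
            omega
        · exact .inr hP) with ⟨hl, -, h⟩ | h
    · omega
    · exact h
  have huG : u ∈ B2.giant β2 := by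
    refine giant_of_far hS2 hρ24 hug2 hw ?_
    have h1 : rhoOf B2.M = ρ2 := rfl
    have := cheb_triangle z u w
    omega
  have huR : u ∈ B2.reps β2 u := .inl ⟨huG, rfl⟩
  -- outside
  have hk2 : B2.IsWalk (fun l => f (m - l)) (m - k) y z := by
    refine ⟨⟨?_, ?_, fun l hl => ?_⟩, fun l hl => hf.2 _ (Nat.sub_le m l)⟩
    · simp only [Nat.sub_zero]; exact hf.1.2.1
    · dsimp only
      rw [hz, show m - (m - k) = k by omega]
    · dsimp only
      have e : m - l = m - (l + 1) + 1 := by omega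
      rw [e]
      exact (hf.1.2.2 _ (by omega)).symm
  obtain ⟨l₂, hl₂, hu2⟩ := walk_meets_reps hS2 hρ24 hk2 (by
    have := rad_le hS2 z
    have h1 : rhoOf B2.M = ρ2 := rfl
    obtain ⟨hy1, hy2⟩ := hy
    rw [mem_iff] at hy1
    rw [inner_iff] at hy2
    simp only [hB2] at hy1 hy2
    simp only [cheb]
    omega)
  -- the line from `u` to `z`
  obtain ⟨n, g, hgw, hn⟩ := exists_short_walk (B := B2) (hB2m u hum) (hB2m z hbd.1)
  have hline := dist_reps_walk hS2 hρ24 ht hc hgw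
    (fun l hl w hw v hn => cheap_all (reps_subset hw).1 hn) huR hu2
  have hterm : ∀ l ∈ range (n + 1), 2 * c₀ * ((4 * B2.rad β2 (g l) + 3 : ℕ) : ℝ) ^ 2 + c₀ ≤
      99 * (c₀ + 1) * ((ρ + ρ2 + 1 : ℕ) : ℝ) ^ 2 := by
    intro l _
    have hr : 4 * B2.rad β2 (g l) + 3 ≤ 7 * (ρ + ρ2 + 1) := by
      have := rad_le hS2 (g l)
      have h1 : rhoOf B2.M = ρ2 := rfl
      omega
    have hr' : ((4 * B2.rad β2 (g l) + 3 : ℕ) : ℝ) ^ 2 ≤ (7 * ((ρ + ρ2 + 1 : ℕ) : ℝ)) ^ 2 :=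
      pow_le_pow_left₀ (Nat.cast_nonneg _) (by exact_mod_cast hr) 2
    have h1 : (1 : ℝ) ≤ ((ρ + ρ2 + 1 : ℕ) : ℝ) ^ 2 := one_le_pow₀ (Nat.one_le_cast.2 (by omega))
    nlinarith [mul_le_mul_of_nonneg_left hr' hc, mul_le_mul_of_nonneg_left h1 hc]
  have hsum := sum_le_card_nsmul (range (n + 1))
    (fun l => 2 * c₀ * ((4 * B2.rad β2 (g l) + 3 : ℕ) : ℝ) ^ 2 + c₀) _ hterm
  rw [card_range, nsmul_eq_mul] at hsum
  have hn' : ((n + 1 : ℕ) : ℝ) ≤ 10 * ((ρ + ρ2 + 1 : ℕ) : ℝ) := by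
    have : n + 1 ≤ 10 * (ρ + ρ2 + 1) := by
      have := cheb_comm z u
      omega
    exact_mod_cast this
  have hpiece := piece_le_dist ht hf hopt (i := i + l₁) (j := m - l₂) (by omega) (by omega)
  have hsplit := pathCost_split t (fun l => f (i + l₁ + l))
    (show k - (i + l₁) ≤ m - l₂ - (i + l₁) by omega)
  have hrest := pathCost_nonneg ht (fun l => f (i + l₁ + (k - (i + l₁) + l)))
    (m - l₂ - (i + l₁) - (k - (i + l₁)))
  have hdu : B.dist t z u ≤ pathCost t (fun l => f (i + l₁ + l)) (k - (i + l₁)) := by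
    rw [B.dist_comm]
    refine dist_le ht ⟨⟨rfl, show f (i + l₁ + (k - (i + l₁))) = f k by congr 1; omega, fun l hl => ?_⟩,
      fun l hl => hin _ (by omega) (by omega)⟩
    exact hf.1.2.2 (i + l₁ + l) (by omega)
  have hnn : (0 : ℝ) ≤ 99 * (c₀ + 1) * ((ρ + ρ2 + 1 : ℕ) : ℝ) ^ 2 := by positivity
  have h2 := mul_le_mul_of_nonneg_right hn' hnn
  have h3 : (0 : ℝ) ≤ (c₀ + 1) * ((ρ + ρ2 + 1 : ℕ) : ℝ) ^ 3 := by positivity
  have h4 : 10 * ((ρ + ρ2 + 1 : ℕ) : ℝ) * (99 * (c₀ + 1) * ((ρ + ρ2 + 1 : ℕ) : ℝ) ^ 2) ≤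
      1000 * (c₀ + 1) * ((ρ + ρ2 + 1 : ℕ) : ℝ) ^ 3 := by linarith
  linarith

end Box

lemma rho_pow_bound (K M : ℕ) (hM : K ^ 8 * 3 ^ 63 ≤ M) (hM1 : 1 ≤ M) :
    K ^ 2 * (rhoOf M + rhoOf (2 * M) + 1) ^ 6 ≤ M ∧
      40 * (rhoOf M + rhoOf (2 * M) + 1) ≤ M + 40 * 120 := by
  set X := rhoOf M + rhoOf (2 * M) + 1 with hX
  have h1 := rhoOf_pow_le M
  have h2 := rhoOf_pow_le (2 * M)
  have hX8 : X ^ 8 ≤ 3 ^ 9 * M := by
    set p := max (max (rhoOf M) (rhoOf (2 * M))) 1 with hp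
    have hp8 : p ^ 8 ≤ 3 * M := by
      rcases max_cases (max (rhoOf M) (rhoOf (2 * M))) 1 with ⟨e, -⟩ | ⟨e, -⟩ <;> rw [hp, e]
      · rcases max_cases (rhoOf M) (rhoOf (2 * M)) with ⟨e', -⟩ | ⟨e', -⟩ <;> rw [e'] <;> omega
      · omega
    calc X ^ 8 ≤ (3 * p) ^ 8 := Nat.pow_le_pow_left (by omega) 8
      _ = 3 ^ 8 * p ^ 8 := mul_pow _ _ _
      _ ≤ 3 ^ 8 * (3 * M) := Nat.mul_le_mul_left _ hp8
      _ = 3 ^ 9 * M := by ring
  constructor
  · by_cases hbig : K ^ 2 * 3 ^ 9 ≤ X ^ 2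
    · have h3 : K ^ 2 * X ^ 6 * 3 ^ 9 ≤ X ^ 8 := by
        calc K ^ 2 * X ^ 6 * 3 ^ 9 = (K ^ 2 * 3 ^ 9) * X ^ 6 := by ring
          _ ≤ X ^ 2 * X ^ 6 := Nat.mul_le_mul_right _ hbig
          _ = X ^ 8 := by rw [← pow_add]
      refine Nat.le_of_mul_le_mul_right ?_ (show 0 < 3 ^ 9 by norm_num)
      rw [mul_comm M]
      exact h3.trans hX8
    · calc K ^ 2 * X ^ 6 = K ^ 2 * (X ^ 2) ^ 3 := by rw [← pow_mul]
        _ ≤ K ^ 2 * (K ^ 2 * 3 ^ 9) ^ 3 :=
            Nat.mul_le_mul_left _ (Nat.pow_le_pow_left (by omega) 3)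
        _ = K ^ 8 * 3 ^ 27 := by rw [mul_pow, ← pow_mul, ← pow_mul, ← mul_assoc, ← pow_add]
        _ ≤ K ^ 8 * 3 ^ 63 := Nat.mul_le_mul_left _ (Nat.pow_le_pow_right (by norm_num) (by norm_num))
        _ ≤ M := hM
  · by_cases hsmall : X ≤ 120
    · omega
    · have : 40 * 3 ^ 9 * X ≤ X ^ 8 := by
        rw [pow_succ X 7]
        refine Nat.mul_le_mul_right _ ((show 40 * 3 ^ 9 ≤ 120 ^ 7 by norm_num).trans
          (Nat.pow_le_pow_left (by omega) 7))
      omega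

variable {G : Measure ℝ} [IsProbabilityMeasure G] {c₀ : ℝ}

theorem net_exit_prob (h0 : G (Set.Iio 0) = 0) (hc : 0 ≤ c₀)
    (hq : G (Set.Ioi c₀) ≤ (72⁻¹ : ℝ≥0∞) ^ 2) :
    ∀ ε > (0 : ℝ), ∃ M₀ : ℕ, ∀ B : Box, M₀ ≤ B.M →
      weightMeasure G {t | ¬ B.ExitOk (netAdm c₀) t} ≤ ENNReal.ofReal ε := by
  intro ε hε
  obtain ⟨M₁, hM₁⟩ := ready_prob hq (ENNReal.ofReal_pos.2 hε)
  obtain ⟨K, hK⟩ := exists_nat_ge (1000 * (c₀ + 1))
  refine ⟨M₁ + K ^ 8 * 3 ^ 63 + 1 + 40 * 121, fun B hB => ?_⟩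
  set B2 : Box := Box.mk B.c (2 * B.M) with hB2
  have hnn : weightMeasure G {t | ¬ ∀ e, 0 ≤ t e} = 0 := ae_iff.1 (ae_nonneg h0)
  have h63 : ∀ N, M₁ + N + 1 + 40 * 121 ≤ B.M → N ≤ B.M ∧ 1 ≤ B.M ∧ 40 * 121 ≤ B.M :=
    fun N h => by omega
  obtain ⟨hMK, hM1, hM121⟩ := h63 _ hB
  have hK1 : 1 ≤ K := by
    have : (1 : ℝ) ≤ K := by linarith
    exact_mod_cast this
  have hM63 : 1 ^ 8 * 3 ^ 63 ≤ B.M :=
    (Nat.mul_le_mul_right _ (Nat.pow_le_pow_left hK1 8)).trans hMK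
  obtain ⟨hpow, -⟩ := rho_pow_bound K B.M hMK hM1
  have hbig : 40 * (rhoOf B.M + rhoOf (2 * B.M) + 1) ≤ B.M := by
    set X := rhoOf B.M + rhoOf (2 * B.M) + 1 with hX
    by_cases hsmall : X ≤ 120
    · omega
    · obtain ⟨h', -⟩ := rho_pow_bound 1 B.M hM63 hM1
      have : 40 * X ≤ X ^ 6 := by
        rw [pow_succ X 5]
        exact Nat.mul_le_mul_right _ ((show 40 ≤ 120 ^ 5 by norm_num).trans
          (Nat.pow_le_pow_left (by omega) 5))
      simp only [one_pow, one_mul] at h'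
      rw [← hX] at h'
      omega
  refine le_trans (measure_mono (t := {t | ¬ B2.Ready (B2.allBad c₀ t)} ∪ {t | ¬ ∀ e, 0 ≤ t e})
    fun t (hbad : ¬ B.ExitOk (netAdm c₀) t) => ?_) ?_
  · by_contra hcon
    simp only [Set.mem_union, Set.mem_ofPred_eq, not_or, not_not] at hcon
    obtain ⟨hR2, ht⟩ := hcon
    refine hbad fun m f hf hopt hx hy i k hi hk hmid hbd hin j hj hpos hR => ?_
    rw [hpos]
    have hslack : 1000 * (c₀ + 1) * ((rhoOf B.M + rhoOf (2 * B.M) + 1 : ℕ) : ℝ) ^ 3 ≤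
        Real.sqrt B.M := by
      refine (mul_le_mul_of_nonneg_right hK (by positivity)).trans (Real.le_sqrt_of_sq_le ?_)
      rw [mul_pow, ← pow_mul]
      exact_mod_cast hpow
    rcases le_total i k with hik | hki
    · obtain ⟨u, hu, hd⟩ := Box.exit_near hc ht hR hR2 hbig hf hopt hy hik hk hmid hbd
        fun l h1 h2 => hin l (by omega) (by omega)
      exact ⟨u, hu, hd.trans hslack⟩
    · have hrev := hf.reverse
      obtain ⟨u, hu, hd⟩ := Box.exit_near (i := m - i) (k := m - k) hc ht hR hR2 hbig hrev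
        (by rw [Box.pathCost_reverse, hopt, B2.dist_comm])
        hx (by omega) (Nat.sub_le m k) (by rwa [show m - (m - i) = i by omega])
        (by rwa [show m - (m - k) = k by omega])
        (fun l h1 h2 => hin (m - l) (by omega) (by omega))
      rw [show m - (m - k) = k by omega] at hu hd
      exact ⟨u, hu, hd.trans hslack⟩
  · refine (measure_union_le _ _).trans ?_
    rw [hnn, add_zero]
    exact hM₁ B2 (le_trans (Nat.le_add_right M₁ _) (le_trans (Nat.le_add_right _ _) (le_trans (Nat.le_add_right _ _) (hB.trans (Nat.le_mul_of_pos_left B.M two_pos))))) _ fun t => Box.allBad_subset _ _ _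

end Vale.Agent.P158.NB
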