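import Vale.Agent.P158.NB.NetTools

/-!
# Frames and reach of tiles for an arbitrary law (section 10 of `PROOF.md`)

The frame of the tile `Box x r` consists of the edges at the representatives of the vertices of the
ring `Box x (r + r / 2)` inside `Box x (2 r)`; all of them are cheap and there are linearly many.
-/

open MeasureTheory Finset
open scoped ENNReal

namespace Vale.Agent.P158.NB

/-- The box around a tile. -/
def tileBox (x : V) (r : ℕ) : Box := ⟨x, 2 * r⟩

/-- The ring between a tile and the boundary of its box. -/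
def tileRing (x : V) (r : ℕ) : Box := ⟨x, r + r / 2⟩

/-- The squared sizes of the holes at the ring. -/
noncomputable def ringMass (x : V) (r : ℕ) (β : Set V) : ℕ :=
  ∑ j ∈ range ((tileRing x r).len + 1), (4 * (tileBox x r).rad β ((tileRing x r).pos j) + 3) ^ 2

open scoped Classical in
/-- The weight of the frame of a tile. -/
noncomputable def netTileW (c₀ : ℝ) (x : V) (r : ℕ) (t : Env) : ℝ :=
  if (tileBox x r).Ready ((tileBox x r).allBad c₀ t) then
    8 * c₀ * (ringMass x r ((tileBox x r).allBad c₀ t) : ℝ)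
  else (tileBox x r).arcSum t 0 (tileBox x r).len

namespace Box

variable {B : Box} {β : Set V} {c₀ : ℝ} {t : Env}

lemma frame_of_finset (ψ : V → ℝ) (E : Finset (V × V)) :
    ∃ (N : ℕ) (z w : ℕ → V), (∀ i < N, (z i, w i) ∈ E) ∧
      (∀ g : V → V → ℝ, ∑ i ∈ range N, g (z i) (w i) = ∑ e ∈ E, g e.1 e.2) ∧
      ∑ i ∈ range N, |ψ (z i) - ψ (w i)| = ∑ e ∈ E, |ψ e.1 - ψ e.2| := by
  classical
  let pick : ℕ → V × V := fun i =>
    if h : i < E.card then (E.equivFin.symm ⟨i, h⟩).1 else (0, 0)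
  have hsum : ∀ g : V → V → ℝ,
      ∑ i ∈ range E.card, g (pick i).1 (pick i).2 = ∑ e ∈ E, g e.1 e.2 := by
    intro g
    rw [← Fin.sum_univ_eq_sum_range (fun i => g (pick i).1 (pick i).2) E.card,
      ← Finset.sum_coe_sort E]
    exact Fintype.sum_equiv E.equivFin.symm _ _ fun i => by simp [pick, i.2]
  refine ⟨E.card, fun i => (pick i).1, fun i => (pick i).2, fun i hi => ?_, hsum,
    hsum fun a b => |ψ a - ψ b|⟩
  simp only [pick, dif_pos hi]
  exact (E.equivFin.symm ⟨i, hi⟩).2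

/-- Along chains of pairs a function changes by at most the sum over all pairs. -/
lemma abs_sub_le_sum {E : Finset (V × V)} (ψ : V → ℝ) {a b : V}
    (h : Link (fun u v => (u, v) ∈ E) Set.univ a b) :
    |ψ a - ψ b| ≤ ∑ e ∈ E, |ψ e.1 - ψ e.2| := by
  classical
  obtain ⟨m, f, h0, hm, hf, hsimp⟩ := h.exists_chain
  have htel : ∀ k ≤ m, |ψ a - ψ (f k)| ≤ ∑ i ∈ range k, |ψ (f i) - ψ (f (i + 1))| := by
    intro k
    induction k with
    | zero => intro _; simp [h0]
    | succ k ih =>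
      intro hk
      rw [sum_range_succ]
      have := ih (by omega)
      have := abs_sub_le (ψ a) (ψ (f k)) (ψ (f (k + 1)))
      linarith
  have hinj : Set.InjOn (fun i => (f i, f (i + 1))) (range m) := fun i hi j hj e => by
    simp only [coe_range, Set.mem_Iio] at hi hj
    exact hsimp i (by omega) j (by omega) (congrArg Prod.fst e)
  refine (hm ▸ htel m le_rfl).trans ?_
  have e : ∑ i ∈ range m, |ψ (f i) - ψ (f (i + 1))| =
      ∑ q ∈ (range m).image (fun i => (f i, f (i + 1))), |ψ q.1 - ψ q.2| :=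
    (Finset.sum_image (g := fun i => (f i, f (i + 1))) (f := fun q : V × V => |ψ q.1 - ψ q.2|)
      hinj).symm
  rw [e]
  refine sum_le_sum_of_subset_of_nonneg (fun q hq => ?_) fun q _ _ => abs_nonneg _
  obtain ⟨i, hi, rfl⟩ := Finset.mem_image.1 hq
  exact (hf i (mem_range.1 hi)).2.2

/-- The pairs of neighbours in a box which touch a set. -/
noncomputable def touching (B : Box) (U : Set V) : Finset (V × V) :=
  open scoped Classical in
  (B.memFinset ×ˢ B.memFinset).filter fun q => Nbr q.1 q.2 ∧ (q.1 ∈ U ∨ q.2 ∈ U)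

lemma mem_touching {U : Set V} {u v : V} :
    (u, v) ∈ B.touching U ↔ B.Mem u ∧ B.Mem v ∧ Nbr u v ∧ (u ∈ U ∨ v ∈ U) := by
  simp [touching, mem_memFinset, and_assoc]

lemma card_touching_le {U : Finset V} : (B.touching (↑U : Set V)).card ≤ 8 * U.card := by
  classical
  have hsub : B.touching (↑U : Set V) ⊆
      (U ×ˢ (univ : Finset (Fin 4))).image (fun q => (q.1, q.1 + unit4 q.2)) ∪
      (U ×ˢ (univ : Finset (Fin 4))).image (fun q => (q.1 + unit4 q.2, q.1)) := by
    rintro ⟨u, v⟩ h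
    obtain ⟨-, -, hn, hu | hv⟩ := mem_touching.1 h
    · obtain ⟨c, rfl⟩ := exists_unit4 hn
      exact mem_union_left _ (mem_image.2 ⟨(u, c), by simpa using hu, rfl⟩)
    · obtain ⟨c, rfl⟩ := exists_unit4 hn.symm
      exact mem_union_right _ (mem_image.2 ⟨(v, c), by simpa using hv, rfl⟩)
  refine (card_le_card hsub).trans ((card_union_le _ _).trans ?_)
  refine (add_le_add card_image_le card_image_le).trans (le_of_eq ?_)
  rw [card_product, card_univ, Fintype.card_fin]
  ring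

/-- King neighbours of a set are joined by touching pairs. -/
lemma link_touching {U : Set V} {a b : V} (ha : B.Mem a) (hb : B.Mem b) (hau : a ∈ U)
    (hbu : b ∈ U) (hk : King a b) : Link (fun u v => (u, v) ∈ B.touching U) Set.univ a b := by
  by_cases hab : a = b
  · subst hab; exact Link.refl a
  by_cases hn : Nbr a b
  · exact Link.single (Set.mem_univ _) (Set.mem_univ _) (mem_touching.2 ⟨ha, hb, hn, .inl hau⟩)
  have hw : B.Mem (a.1, b.2) := by
    rw [mem_iff] at ha hb ⊢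
    dsimp only
    omega
  simp only [King, abs_le] at hk
  obtain ⟨n1, n2⟩ : Nbr a (a.1, b.2) ∧ Nbr (a.1, b.2) b := by
    rcases (show b.1 = a.1 ∨ b.1 = a.1 + 1 ∨ b.1 = a.1 - 1 by omega) with e1 | e1 | e1 <;>
      rcases (show b.2 = a.2 ∨ b.2 = a.2 + 1 ∨ b.2 = a.2 - 1 by omega) with e2 | e2 | e2 <;>
      first
      | exact absurd (Prod.ext e1.symm e2.symm) hab
      | (refine absurd ?_ hn; simp [Nbr, e1, e2]; done)
      | constructor <;> simp [Nbr, e1, e2]
  exact (Link.single (Set.mem_univ _) (Set.mem_univ _) (mem_touching.2 ⟨ha, hw, n1, .inl hau⟩)).trans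
    (Link.single (Set.mem_univ _) (Set.mem_univ _) (mem_touching.2 ⟨hw, hb, n2, .inr hbu⟩))

/-- A set through which outside points are seen gives a frame. -/
lemma frame_of_hit {S T : Box} {U : Set V} (ht : ∀ e, 0 ≤ t e) (hS : ∀ z, S.Mem z → B.Mem z)
    (hT : ∀ z, T.Mem z → S.Mem z) (hU : ∀ u ∈ U, S.Mem u) {E : Finset (V × V)}
    (hE : ∀ a ∈ U, ∀ b ∈ U, Link (fun u v => (u, v) ∈ E) Set.univ a b)
    (hhit : ∀ z y, T.Mem z → B.Mem y → ¬ S.Inner y →
      ∃ u ∈ U, B.dist t z y = S.dist t z u + B.dist t u y)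
    {y y' : V} (hy : B.Mem y) (hy' : B.Mem y') (hyo : ¬ S.Inner y) (hyo' : ¬ S.Inner y') :
    OscLe T (B.diff t y y') (∑ e ∈ E, |B.diff t y y' e.1 - B.diff t y y' e.2|) := by
  intro a b ha hb
  obtain ⟨u, hu, eu⟩ := hhit a y' ha hy' hyo'
  obtain ⟨v, hv, ev⟩ := hhit b y hb hy hyo
  have h1 := dist_le_hit (B := B) ht hS (hT a ha) (hU u hu) hy
  have h2 := dist_le_hit (B := B) ht hS (hT b hb) (hU v hv) hy'
  have h3 := abs_sub_le_sum (B.diff t y y') (hE u hu v hv)
  have h4 := le_abs_self (B.diff t y y' u - B.diff t y y' v)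
  simp only [diff] at h3 h4 ⊢
  linarith

end Box

section tile

variable {x : V} {r : ℕ} {t : Env} {B : Box} {c₀ : ℝ}

lemma tile_mem_box {z : V} (hz : (Box.mk x r).Mem z) : (tileBox x r).Mem z := by
  rw [Box.mem_iff] at hz ⊢
  simp only [tileBox] at *
  omega

lemma ring_mem_box {z : V} (hz : (tileRing x r).Mem z) : (tileBox x r).Mem z := by
  rw [Box.mem_iff] at hz ⊢
  simp only [tileBox, tileRing] at *
  omega

/-- The union of the representatives of the ring. -/
noncomputable def ringReps (x : V) (r : ℕ) (β : Set V) : Finset V :=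
  open scoped Classical in (range ((tileRing x r).len + 1)).biUnion fun j =>
    (tileBox x r).memFinset.filter fun u => u ∈ (tileBox x r).reps β ((tileRing x r).pos j)

lemma mem_ringReps {β : Set V} {u : V} :
    u ∈ ringReps x r β ↔ ∃ j ≤ (tileRing x r).len,
      u ∈ (tileBox x r).reps β ((tileRing x r).pos j) := by
  simp only [ringReps, Finset.mem_biUnion, mem_range, Finset.mem_filter, Box.mem_memFinset,
    Nat.lt_succ_iff]
  exact ⟨fun ⟨j, hj, _, h⟩ => ⟨j, hj, h⟩,
    fun ⟨j, hj, h⟩ => ⟨j, hj, (Box.reps_subset h).1.1, h⟩⟩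

variable {β : Set V} (hR : (tileBox x r).Ready β)
include hR

lemma ready_r : 8 * rhoOf (2 * r) + 8 < r := by
  have := hR.2
  simp only [tileBox] at this
  omega

lemma card_ringReps_le : (ringReps x r β).card ≤ ringMass x r β := by
  classical
  refine card_biUnion_le.trans (sum_le_sum fun j hj => ?_)
  have hz := ring_mem_box ((tileRing x r).pos_mem (Nat.lt_succ_iff.1 (mem_range.1 hj)))
  set z := (tileRing x r).pos j
  set ℓ := 2 * (tileBox x r).rad β z + 1 with hℓ
  refine (card_le_card (t := Finset.Icc (z.1 - ℓ) (z.1 + ℓ) ×ˢ Finset.Icc (z.2 - ℓ) (z.2 + ℓ))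
    fun u hu => ?_).trans ?_
  · have := Box.cheb_reps_le hR.small hR.big hz (Finset.mem_filter.1 hu).2
    simp only [cheb] at this
    simp only [Finset.mem_product, Finset.mem_Icc]
    omega
  · rw [card_product, Int.card_Icc, Int.card_Icc,
      show (z.1 + (ℓ : ℤ) + 1 - (z.1 - ℓ)).toNat = 4 * (tileBox x r).rad β z + 3 by omega,
      show (z.2 + (ℓ : ℤ) + 1 - (z.2 - ℓ)).toNat = 4 * (tileBox x r).rad β z + 3 by omega, ← sq]

lemma ringReps_linked {a b : V} (ha : a ∈ ringReps x r β) (hb : b ∈ ringReps x r β) :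
    Link (fun u v => (u, v) ∈ (tileBox x r).touching ↑(ringReps x r β)) Set.univ a b := by
  set S := tileBox x r
  set U := ringReps x r β with hU
  set L := fun u v => (u, v) ∈ S.touching (↑U : Set V) with hL
  have hLs : ∀ u v, L u v → L v u := fun u v h => by
    simp only [hL, Box.mem_touching] at h ⊢
    exact ⟨h.2.1, h.1, h.2.2.1.symm, h.2.2.2.symm⟩
  have hmemU : ∀ j ≤ (tileRing x r).len, ∀ u ∈ S.reps β ((tileRing x r).pos j), u ∈ U :=
    fun j hj u hu => mem_ringReps.2 ⟨j, hj, hu⟩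
  have hS : ∀ {z u : V}, u ∈ S.reps β z → S.Mem u := fun hu => (Box.reps_subset hu).1.1
  have hin : ∀ j ≤ (tileRing x r).len, ∀ u ∈ S.reps β ((tileRing x r).pos j),
      ∀ v ∈ S.reps β ((tileRing x r).pos j), Link L Set.univ u v := fun j hj u hu v hv =>
    (Box.reps_linked hR.small hR.big (ring_mem_box ((tileRing x r).pos_mem hj)) hu hv).induct
      (P := fun w => Link L Set.univ u w) (Link.refl u) fun p q hp hq hpq h =>
        h.trans (Box.link_touching (hS hp) (hS hq) (hmemU j hj p hp) (hmemU j hj q hq) hpq)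
  have h0 : (tileBox x r).Mem ((tileRing x r).pos 0) :=
    ring_mem_box ((tileRing x r).pos_mem (Nat.zero_le _))
  obtain ⟨u₀, hu₀⟩ := Box.reps_nonempty hR.small hR.big h0
  have key : ∀ j ≤ (tileRing x r).len, ∀ u ∈ S.reps β ((tileRing x r).pos j),
      Link L Set.univ u₀ u := by
    intro j
    induction j with
    | zero => intro h u hu; exact hin 0 h u₀ hu₀ u hu
    | succ j ih =>
      intro hj u hu
      have hj' : j ≤ (tileRing x r).len := by omega
      have hz := ring_mem_box ((tileRing x r).pos_mem hj')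
      rcases Box.reps_adjacent hz (ring_mem_box ((tileRing x r).pos_mem hj))
          ((tileRing x r).nbr_pos hj) (Box.reps_nonempty hR.small hR.big hz) with
        ⟨w, hw, hw'⟩ | ⟨hw, hw'⟩
      · exact (ih hj' w hw).trans (hin (j + 1) hj w hw' u hu)
      · exact ((ih hj' _ hw).trans (Box.link_touching (hS hw) (hS hw') (hmemU j hj' _ hw)
          (hmemU _ hj _ hw') (king_of_nbr ((tileRing x r).nbr_pos hj)))).trans
            (hin (j + 1) hj _ hw' u hu)
  obtain ⟨i, hi, hai⟩ := mem_ringReps.1 ha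
  obtain ⟨j, hj, hbj⟩ := mem_ringReps.1 hb
  exact ((key i hi a hai).symm hLs).trans (key j hj b hbj)

lemma tile_hit (ht : ∀ e, 0 ≤ t e) (hB : ∀ z, (tileBox x r).Mem z → B.Mem z) {z y : V}
    (hz : (Box.mk x r).Mem z) (hy : B.Mem y) (hyo : ¬ (tileBox x r).Inner y) :
    ∃ u ∈ ringReps x r β, B.dist t z y = (tileBox x r).dist t z u + B.dist t u y := by
  have hr := ready_r hR
  have hzS := tile_mem_box hz
  obtain ⟨w, hw, e⟩ := Box.exists_hit (B := B) ht hB hzS hy hyo
  obtain ⟨m, f, hf, -, hc⟩ := Box.exists_optimal ht hw.1 hzS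
  have hwo : ¬ (tileRing x r).Inner w := by
    have h1 := hw.1
    have h2 := hw.2
    rw [Box.mem_iff] at h1
    rw [Box.inner_iff] at h2 ⊢
    simp only [tileRing, tileBox] at *
    omega
  have hzi : (tileRing x r).Inner z := by
    rw [Box.mem_iff] at hz
    rw [Box.inner_iff]
    simp only [tileRing] at *
    omega
  obtain ⟨k, hkm, hkb, -⟩ := Box.last_exit hf hwo hzi
  obtain ⟨j, hj, hjk⟩ := Box.exists_pos hkb
  have hfar : 2 * (tileBox x r).rad β (f k) < cheb (f k) w := by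
    have h1 := Box.rad_le hR.small (β := β) (f k)
    have h2 := hkb.1
    have h3 := hw.2
    have h4 := hw.1
    rw [Box.mem_iff] at h2 h4
    rw [Box.inner_iff] at h3
    simp only [cheb, tileBox, tileRing] at *
    omega
  obtain ⟨l, hlk, hl⟩ := Box.walk_meets_reps hR.small hR.big (hf.initSeg hkm.le) hfar
  refine ⟨f l, mem_ringReps.2 ⟨j, hj, hjk ▸ hl⟩, le_antisymm
    (Box.dist_le_hit ht hB hzS (hf.2 l (by omega)) hy) ?_⟩
  have hlm : l ≤ m := by omega
  have h1 := pathCost_split t f hlm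
  have h2 := Box.dist_le ht (hf.initSeg hlm)
  have h3 := Box.dist_le ht (hf.suffix hlm)
  have h4 := Box.dist_le_sub (B := B) ht hB hw.1 (hf.2 l hlm)
  have h5 := Box.dist_triangle (B := B) ht (hB _ (hf.2 l hlm)) (hB w hw.1) hy
  rw [Box.dist_comm (tileBox x r) t (f l) z] at h3
  rw [Box.dist_comm B t (f l) w] at h5
  rw [Box.dist_comm (tileBox x r) t z w] at e
  linarith

omit hR in
lemma tile_hit_bdry (ht : ∀ e, 0 ≤ t e) (hB : ∀ z, (tileBox x r).Mem z → B.Mem z) {z y : V}
    (hz : (Box.mk x r).Mem z) (hy : B.Mem y) (hyo : ¬ (tileBox x r).Inner y) :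
    ∃ u ∈ {u | (tileBox x r).Bdry u},
      B.dist t z y = (tileBox x r).dist t z u + B.dist t u y :=
  Box.exists_hit ht hB (tile_mem_box hz) hy hyo

omit hR in
/-- The frame of a tile. -/
theorem tile_frame (hc : 0 ≤ c₀) (x : V) (r : ℕ) (t : Env) (ht : ∀ e, 0 ≤ t e) (B : Box)
    (hB : ∀ z, (Box.mk x (2 * r)).Mem z → B.Mem z) :
    ∃ (N : ℕ) (z w : ℕ → V), (∀ i < N, B.Mem (z i) ∧ B.Mem (w i)) ∧
      (∑ i ∈ range N, B.dist t (z i) (w i)) ≤ netTileW c₀ x r t ∧
      ∀ y y', B.Mem y → B.Mem y' → ¬ (Box.mk x (2 * r)).Inner y →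
        ¬ (Box.mk x (2 * r)).Inner y' → OscLe (Box.mk x r) (B.diff t y y')
          (∑ i ∈ range N, |B.diff t y y' (z i) - B.diff t y y' (w i)|) := by
  classical
  set S := tileBox x r with hS
  have hB' : ∀ z, S.Mem z → B.Mem z := hB
  suffices H : ∃ (E : Finset (V × V)) (U : Set V), (∀ u ∈ U, S.Mem u) ∧
      (∀ q ∈ E, B.Mem q.1 ∧ B.Mem q.2) ∧
      (∀ a ∈ U, ∀ b ∈ U, Link (fun u v => (u, v) ∈ E) Set.univ a b) ∧
      (∑ q ∈ E, B.dist t q.1 q.2 ≤ netTileW c₀ x r t) ∧
      ∀ z y, (Box.mk x r).Mem z → B.Mem y → ¬ S.Inner y →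
        ∃ u ∈ U, B.dist t z y = S.dist t z u + B.dist t u y by
    obtain ⟨E, U, hU, hE, hlink, hcost, hhit⟩ := H
    obtain ⟨N, z, w, hzw, hsum, -⟩ := Box.frame_of_finset (fun _ => (0 : ℝ)) E
    refine ⟨N, z, w, fun i hi => hE _ (hzw i hi), ?_, fun y y' hy hy' hyo hyo' => ?_⟩
    · rw [hsum fun a b => B.dist t a b]
      exact hcost
    · rw [hsum fun a b => |B.diff t y y' a - B.diff t y y' b|]
      exact Box.frame_of_hit ht hB' (fun z hz => tile_mem_box hz) hU hlink hhit hy hy' hyo hyo'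
  by_cases hR : S.Ready (S.allBad c₀ t)
  · set β := S.allBad c₀ t with hβ
    have hUS : ∀ u ∈ (↑(ringReps x r β) : Set V), S.Mem u := fun u hu => by
      obtain ⟨j, -, h⟩ := mem_ringReps.1 (Finset.mem_coe.1 hu)
      exact (Box.reps_subset h).1.1
    refine ⟨S.touching ↑(ringReps x r β), ↑(ringReps x r β), hUS, fun q hq => ?_,
      fun a ha b hb => ringReps_linked hR ha hb, ?_, fun z y hz hy hyo => ?_⟩
    · obtain ⟨h1, h2, -⟩ := Box.mem_touching.1 hq
      exact ⟨hB' _ h1, hB' _ h2⟩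
    · rw [netTileW, if_pos hR]
      calc ∑ q ∈ S.touching ↑(ringReps x r β), B.dist t q.1 q.2
          ≤ ∑ _q ∈ S.touching ↑(ringReps x r β), c₀ := by
            refine sum_le_sum fun q hq => ?_
            obtain ⟨h1, h2, hn, hu⟩ := Box.mem_touching.1 hq
            refine (Box.dist_le_edge ht (hB' _ h1) (hB' _ h2) hn).trans ?_
            rcases hu with hu | hu
            · obtain ⟨j, -, h⟩ := mem_ringReps.1 (Finset.mem_coe.1 hu)
              exact Box.cheap_all (Box.reps_subset h).1 hn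
            · obtain ⟨j, -, h⟩ := mem_ringReps.1 (Finset.mem_coe.1 hu)
              rw [Sym2.eq_swap]
              exact Box.cheap_all (Box.reps_subset h).1 hn.symm
        _ ≤ (((8 * ringMass x r β : ℕ)) : ℝ) * c₀ := by
            rw [sum_const, nsmul_eq_mul]
            refine mul_le_mul_of_nonneg_right (Nat.cast_le.2 ?_) hc
            exact Box.card_touching_le.trans (Nat.mul_le_mul_left 8 (card_ringReps_le hR))
        _ = _ := by push_cast; ring
    · obtain ⟨u, hu, e⟩ := tile_hit hR ht hB' hz hy hyo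
      exact ⟨u, Finset.mem_coe.2 hu, e⟩
  · refine ⟨(range S.len).image (fun k => (S.pos k, S.pos (k + 1))), {u | S.Bdry u},
      fun u hu => hu.1, fun q hq => ?_, fun a ha b hb => ?_, ?_,
      fun z y hz hy hyo => tile_hit_bdry ht hB' hz hy hyo⟩
    · obtain ⟨k, hk, rfl⟩ := Finset.mem_image.1 hq
      rw [mem_range] at hk
      exact ⟨hB' _ (S.pos_mem hk.le), hB' _ (S.pos_mem hk)⟩
    · set L := fun u v => (u, v) ∈ (range S.len).image (fun k => (S.pos k, S.pos (k + 1)))
      have key : ∀ i j, i ≤ j → j ≤ S.len → Link L Set.univ (S.pos i) (S.pos j) := by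
        intro i j hij
        induction j, hij using Nat.le_induction with
        | base => intro _; exact Link.refl _
        | succ j _ ih =>
          intro hj
          exact (ih (by omega)).trans (Link.single (Set.mem_univ _) (Set.mem_univ _)
            (Finset.mem_image.2 ⟨j, mem_range.2 hj, rfl⟩))
      obtain ⟨i, hi, rfl⟩ := Box.exists_pos ha
      obtain ⟨j, hj, rfl⟩ := Box.exists_pos hb
      refine (key i S.len hi le_rfl).trans ?_
      rw [S.pos_len]
      exact key 0 j (Nat.zero_le j) hj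
    · rw [netTileW, if_neg hR, Box.arcSum, ← range_eq_Ico]
      refine (sum_image_le_of_nonneg fun q hq => ?_).trans
        (sum_le_sum fun k hk => ?_)
      · obtain ⟨k, hk, rfl⟩ := Finset.mem_image.1 hq
        rw [mem_range] at hk
        exact Box.dist_nonneg ht (hB' _ (S.pos_mem hk.le)) (hB' _ (S.pos_mem hk))
      · rw [mem_range] at hk
        exact Box.dist_le_edge ht (hB' _ (S.pos_mem hk.le)) (hB' _ (S.pos_mem hk)) (S.nbr_pos hk)

end tile

/-! ### Probabilities -/

lemma allBad_measurable_pred (S : Box) (c₀ : ℝ) (P : Set V → Prop) :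
    MeasurableSet {t | P (S.allBad c₀ t)} := by
  refine Box.measurableSet_bad_pred (B := S) (fun t z hz => hz.1) (fun z => ?_) P
  by_cases hz : S.Mem z
  · simpa [Box.allBad, hz] using Box.measurableSet_badV c₀ z
  · simp [Box.allBad, hz]

variable {G : Measure ℝ} [IsProbabilityMeasure G] {c₀ : ℝ}

/-- The radii along a list of vertices sum to a linear amount. -/
lemma rad_sum_markov (hq : G (Set.Ioi c₀) ≤ (72⁻¹ : ℝ≥0∞) ^ 2) (S : Box) (s : Finset ℕ)
    (g : ℕ → V) {m L : ℕ} (hs : s.card ≤ m) (hL : 0 < L) :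
    weightMeasure G {t | L < ∑ j ∈ s, (4 * S.rad (S.allBad c₀ t) (g j) + 3) ^ 2} ≤
      (m : ℝ≥0∞) * ((3 ^ 2 : ℕ) + ∑' ℓ, radSeries 2 ℓ) / L := by
  set C₂ : ℝ≥0∞ := (3 ^ 2 : ℕ) + ∑' ℓ, radSeries 2 ℓ
  have hmeas : ∀ j, Measurable fun t =>
      (((4 * S.rad (S.allBad c₀ t) (g j) + 3) ^ 2 : ℕ) : ℝ≥0∞) := fun j =>
    measurable_from_top.comp (measurable_to_countable' fun n =>
      allBad_measurable_pred S c₀ fun β => (4 * S.rad β (g j) + 3) ^ 2 = n)
  refine le_trans (measure_mono fun t ht => ?_) ((meas_ge_le_lintegral_div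
    (f := fun t => ∑ j ∈ s, (((4 * S.rad (S.allBad c₀ t) (g j) + 3) ^ 2 : ℕ) : ℝ≥0∞))
    (Finset.aemeasurable_fun_sum s fun j _ => (hmeas j).aemeasurable)
    (ε := (L : ℝ≥0∞)) (by exact_mod_cast hL.ne') (ENNReal.natCast_ne_top _)).trans ?_)
  · simp only [Set.mem_ofPred_eq] at ht ⊢
    exact_mod_cast ht.le
  · refine ENNReal.div_le_div_right ?_ _
    rw [lintegral_finsetSum s fun j _ => hmeas j]
    refine (sum_le_card_nsmul _ _ C₂ fun j _ =>
      lintegral_rad_le hq 2 S (g j) _ fun t => S.allBad_subset c₀ t).trans ?_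
    rw [nsmul_eq_mul]
    exact mul_le_mul_left (Nat.cast_le.2 hs) _

/-- The constant in Markov's inequality. -/
lemma exists_markov_level (m : ℕ) {ε : ℝ} (hε : 0 < ε) :
    ∃ K : ℕ, 0 < K ∧ ∀ r : ℕ, 0 < r →
      ((m * r : ℕ) : ℝ≥0∞) * ((3 ^ 2 : ℕ) + ∑' ℓ, radSeries 2 ℓ) / ((K * r : ℕ) : ℝ≥0∞) ≤
        ENNReal.ofReal ε := by
  set C₂ : ℝ≥0∞ := (3 ^ 2 : ℕ) + ∑' ℓ, radSeries 2 ℓ
  have hC : (m : ℝ≥0∞) * C₂ ≠ ⊤ := ENNReal.mul_ne_top (ENNReal.natCast_ne_top _)
    (ENNReal.add_ne_top.2 ⟨ENNReal.natCast_ne_top _, radSeries_ne_top 2⟩)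
  obtain ⟨K, hK⟩ := exists_nat_gt (((m : ℝ≥0∞) * C₂).toReal / ε)
  have hK0 : (0 : ℝ) < K := lt_of_le_of_lt (by positivity) hK
  refine ⟨K, by exact_mod_cast hK0, fun r hr => ?_⟩
  have hr0 : (r : ℝ≥0∞) ≠ 0 := by exact_mod_cast hr.ne'
  push_cast
  rw [mul_right_comm, ENNReal.mul_div_mul_right _ _ hr0 (ENNReal.natCast_ne_top r)]
  refine ENNReal.div_le_of_le_mul ?_
  rw [← ENNReal.ofReal_toReal hC, ← ENNReal.ofReal_natCast K, ← ENNReal.ofReal_mul hε.le]
  refine ENNReal.ofReal_le_ofReal ?_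
  rw [div_lt_iff₀ hε] at hK
  linarith

/-- Large tiles are ready with high probability. -/
lemma exists_tile_ready (hq : G (Set.Ioi c₀) ≤ (72⁻¹ : ℝ≥0∞) ^ 2) {ε : ℝ} (hε : 0 < ε) :
    ∃ r₀ : ℕ, ∀ x : V, ∀ r ≥ r₀,
      weightMeasure G {t | ¬ (tileBox x r).Ready ((tileBox x r).allBad c₀ t)} ≤
        ENNReal.ofReal ε := by
  obtain ⟨M₀, h⟩ := ready_prob hq (ENNReal.ofReal_pos.2 hε)
  exact ⟨M₀, fun x r hr => h (tileBox x r) (by simp only [tileBox]; omega) _
    fun t => (tileBox x r).allBad_subset c₀ t⟩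

/-- Frames have linear weight. -/
theorem tile_weight_prob (hc : 0 ≤ c₀) (hq : G (Set.Ioi c₀) ≤ (72⁻¹ : ℝ≥0∞) ^ 2) :
    ∀ ε > (0 : ℝ), ∃ (K : ℝ) (r₀ : ℕ), ∀ x : V, ∀ r ≥ r₀,
      weightMeasure G {t | K * r < netTileW c₀ x r t} ≤ ENNReal.ofReal ε := by
  intro ε hε
  obtain ⟨K, hK, hKr⟩ := exists_markov_level 13 (half_pos hε)
  obtain ⟨r₀, hr₀⟩ := exists_tile_ready hq (half_pos hε)
  refine ⟨8 * c₀ * K, max r₀ 1, fun x r hr => ?_⟩
  rw [ge_iff_le, max_le_iff] at hr
  refine (measure_mono (t := {t | ¬ (tileBox x r).Ready ((tileBox x r).allBad c₀ t)} ∪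
    {t | K * r < ringMass x r ((tileBox x r).allBad c₀ t)}) fun t ht => ?_).trans ?_
  · simp only [Set.mem_union, Set.mem_ofPred_eq] at ht ⊢
    refine (em' _).imp_right fun hready => ?_
    rw [netTileW, if_pos hready] at ht
    by_contra hle
    have h : ((ringMass x r ((tileBox x r).allBad c₀ t) : ℕ) : ℝ) ≤ (K : ℝ) * r := by
      exact_mod_cast not_lt.1 hle
    have := mul_le_mul_of_nonneg_left h (by linarith : (0 : ℝ) ≤ 8 * c₀)
    linarith
  refine (measure_union_le _ _).trans ?_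
  rw [show ε = ε / 2 + ε / 2 by ring, ENNReal.ofReal_add (by positivity) (by positivity)]
  refine add_le_add (hr₀ x r hr.1) ((rad_sum_markov hq _ _ _ ?_ (Nat.mul_pos hK hr.2)).trans
    (hKr r hr.2))
  rw [card_range]
  simp only [Box.len, tileRing]
  omega

lemma edges_bounded (G : Measure ℝ) [IsProbabilityMeasure G] (L : ℕ) {ε : ℝ} (hε : 0 < ε) :
    ∃ T : ℝ, ∀ g : ℕ → Sym2 V,
      weightMeasure G {t | ∃ i < L, T < t (g i)} ≤ ENNReal.ofReal ε := by
  have hanti : Antitone fun k : ℕ => Set.Ioi (k : ℝ) := fun a b hab =>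
    Set.Ioi_subset_Ioi (Nat.cast_le.2 hab)
  have hi : (⋂ k : ℕ, Set.Ioi (k : ℝ)) = ∅ := by
    refine Set.eq_empty_of_forall_notMem fun r hr => ?_
    obtain ⟨k, hk⟩ := exists_nat_ge r
    exact absurd (Set.mem_iInter.1 hr k) (not_lt.2 hk)
  have hT := tendsto_measure_iInter_atTop (μ := G) (fun k => measurableSet_Ioi.nullMeasurableSet)
    hanti ⟨0, measure_ne_top _ _⟩
  rw [hi, measure_empty] at hT
  have hε' : (0 : ℝ) < ε / (L + 1) := div_pos hε (by positivity)
  obtain ⟨k, hk⟩ := (hT.eventually (eventually_le_nhds (ENNReal.ofReal_pos.2 hε'))).exists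
  refine ⟨k, fun g => (measure_mono (t := ⋃ i ∈ range L, (fun t : Env => t (g i)) ⁻¹' Set.Ioi (k : ℝ))
    (by rintro t ⟨i, hi, h⟩; exact Set.mem_iUnion₂.2 ⟨i, mem_range.2 hi, h⟩)).trans ?_⟩
  refine (measure_biUnion_finset_le _ _).trans ((sum_le_card_nsmul _ _
    (ENNReal.ofReal (ε / (L + 1))) fun i _ => ?_).trans ?_)
  · rw [← Measure.map_apply (measurable_pi_apply _) measurableSet_Ioi, map_eval_weights]
    exact hk
  · rw [card_range, ← ENNReal.ofReal_nsmul]
    refine ENNReal.ofReal_le_ofReal ?_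
    rw [nsmul_eq_mul, mul_div_assoc', div_le_iff₀ (by positivity)]
    nlinarith

/-- A short segment reaches a representative. -/
lemma exists_rep_near {x z : V} {r L : ℕ} {t : Env} {T : ℝ} {β : Set V}
    (hR : (tileBox x r).Ready β) (ht : ∀ e, 0 ≤ t e) (hz : (Box.mk x r).Mem z) (hL : L ≤ r)
    (hrad : 2 * (tileBox x r).rad β z < L)
    (hT : ∀ i < L, t s(z + ((i : ℤ), 0), z + (((i + 1 : ℕ) : ℤ), 0)) ≤ T) :
    ∃ u ∈ (tileBox x r).reps β z, (tileBox x r).dist t z u ≤ L * T := by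
  have hw : (tileBox x r).IsWalk (fun i : ℕ => z + ((i : ℤ), 0)) L z (z + ((L : ℤ), 0)) := by
    refine ⟨⟨by ext <;> simp, rfl, fun i _ => ?_⟩, fun i hi => ?_⟩
    · simp [Nbr]
    · rw [Box.mem_iff] at hz ⊢
      simp only [tileBox, Prod.fst_add, Prod.snd_add] at *
      omega
  have hfar : 2 * (tileBox x r).rad β z < cheb z (z + ((L : ℤ), 0)) := by
    simp only [cheb, Prod.fst_add, Prod.snd_add]
    omega
  obtain ⟨l, hl, hrep⟩ := Box.walk_meets_reps hR.small hR.big hw.reverse hfar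
  refine ⟨_, hrep, (Box.dist_le ht (hw.initSeg (Nat.sub_le L l))).trans ?_⟩
  refine (sum_le_card_nsmul _ _ T fun i hi => hT i ?_).trans ?_
  · have := mem_range.1 hi
    omega
  · rw [card_range, nsmul_eq_mul]
    refine mul_le_mul_of_nonneg_right (Nat.cast_le.2 (Nat.sub_le L l)) ?_
    exact (ht _).trans (hT 0 (by omega))

/-- A walk of at most `2 r` steps inside a tile. -/
lemma exists_straight {x p : V} {r : ℕ} (hp : (Box.mk x r).Mem p) :
    ∃ n f, n ≤ 2 * r ∧ (Box.mk x r).IsWalk f n x p := by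
  have step : ∀ (k : ℕ) (p : V), (Box.mk x r).Mem p →
      (x.1 - p.1).natAbs + (x.2 - p.2).natAbs = k →
        ∃ f, (Box.mk x r).IsWalk f k x p := by
    intro k
    induction k with
    | zero =>
      intro p hp h
      obtain rfl : x = p := by ext <;> omega
      exact ⟨_, Box.isWalk_zero hp⟩
    | succ k ih =>
      intro p hp h
      rw [Box.mem_iff] at hp
      dsimp only at hp
      obtain ⟨w, hwm, hn, hk⟩ : ∃ w, (Box.mk x r).Mem w ∧ Nbr w p ∧
          (x.1 - w.1).natAbs + (x.2 - w.2).natAbs = k := by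
        rcases lt_trichotomy x.1 p.1 with h1 | h1 | h1
        · exact ⟨(p.1 - 1, p.2), Box.mem_iff.2 (by dsimp only; omega), by simp [Nbr],
            by dsimp only; omega⟩
        · rcases lt_trichotomy x.2 p.2 with h2 | h2 | h2
          · exact ⟨(p.1, p.2 - 1), Box.mem_iff.2 (by dsimp only; omega), by simp [Nbr],
              by dsimp only; omega⟩
          · omega
          · exact ⟨(p.1, p.2 + 1), Box.mem_iff.2 (by dsimp only; omega), by simp [Nbr],
              by dsimp only; omega⟩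
        · exact ⟨(p.1 + 1, p.2), Box.mem_iff.2 (by dsimp only; omega), by simp [Nbr],
            by dsimp only; omega⟩
      obtain ⟨f, hf⟩ := ih w hwm hk
      exact ⟨_, hf.append (Box.isWalk_edge hwm (Box.mem_iff.2 hp) hn)⟩
  obtain ⟨f, hf⟩ := step _ p hp rfl
  have hp' := Box.mem_iff.1 hp
  dsimp only at hp'
  exact ⟨_, f, by omega, hf⟩

/-- Points of a tile are within linear distance of its centre. -/
theorem tile_reach_prob (h0 : G (Set.Iio 0) = 0) (hc : 0 ≤ c₀)
    (hq : G (Set.Ioi c₀) ≤ (72⁻¹ : ℝ≥0∞) ^ 2) :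
    ∀ ε > (0 : ℝ), ∃ (C : ℝ) (r₀ : ℕ), ∀ x : V, ∀ r ≥ r₀, ∀ p : V,
      (Box.mk x r).Mem p →
        weightMeasure G {t | C * r < (Box.mk x (2 * r)).dist t x p} ≤ ENNReal.ofReal ε := by
  intro ε hε
  have h6 : 0 < ε / 6 := by positivity
  obtain ⟨d, hd⟩ := rad_tail hq (ENNReal.ofReal_pos.2 h6)
  set L := 2 * d + 1
  obtain ⟨T, hT⟩ := edges_bounded G L h6
  obtain ⟨K, hK, hKr⟩ := exists_markov_level 3 h6
  obtain ⟨r₁, hr₁⟩ := exists_tile_ready hq h6
  refine ⟨2 * L * |T| + 2 * c₀ * K + 3 * c₀, max r₁ L, fun x r hr p hp => ?_⟩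
  rw [ge_iff_le, max_le_iff] at hr
  have hr1 : 0 < r := by omega
  obtain ⟨n, f, hn, hf⟩ := exists_straight hp
  set S := tileBox x r with hS
  have hx : (Box.mk x r).Mem x := by rw [Box.mem_iff]; dsimp only; omega
  set N : Set Env := {t | ¬ ∀ e, 0 ≤ t e}
  set A : Set Env := {t | ¬ S.Ready (S.allBad c₀ t)}
  set D : V → Set Env := fun z => {t | d ≤ S.rad (S.allBad c₀ t) z}
  set W : V → Set Env := fun z => {t | ∃ i < L, T <
    t ((fun i : ℕ => s(z + ((i : ℤ), 0), z + (((i + 1 : ℕ) : ℤ), 0))) i)}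
  set P : Set Env := {t | K * r < ∑ i ∈ range (n + 1), (4 * S.rad (S.allBad c₀ t) (f i) + 3) ^ 2}
  have hsub : {t | (2 * L * |T| + 2 * c₀ * K + 3 * c₀) * r < (Box.mk x (2 * r)).dist t x p} ⊆
      N ∪ A ∪ D x ∪ D p ∪ W x ∪ W p ∪ P := by
    intro t ht
    by_contra hgood
    simp only [N, A, D, W, P, Set.mem_union, Set.mem_ofPred_eq, not_or, not_not, not_le,
      not_exists, not_and, not_lt] at hgood
    obtain ⟨⟨⟨⟨⟨⟨hpos, hready⟩, hdx⟩, hdp⟩, hwx⟩, hwp⟩, hsum⟩ := hgood
    obtain ⟨u, hu, hdu⟩ := exists_rep_near hready hpos hx hr.2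
      (show 2 * S.rad _ x < L by omega) hwx
    obtain ⟨v, hv, hdv⟩ := exists_rep_near hready hpos hp hr.2
      (show 2 * S.rad _ p < L by omega) hwp
    have hsub' : ∀ w, (Box.mk x r).Mem w → S.Mem w := fun w hw => tile_mem_box hw
    have hmid := Box.dist_reps_walk hready.small hready.big hpos hc (hf.of_subset hsub')
      (fun i _ w hw v hn => Box.cheap_all (Box.reps_subset hw).1 hn) hu hv
    have hmid' : S.dist t u v ≤ 2 * c₀ * ((K : ℝ) * r) + (n + 1) * c₀ := by
      refine hmid.trans ?_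
      rw [sum_add_distrib, ← mul_sum, sum_const, card_range, nsmul_eq_mul]
      push_cast
      refine add_le_add (mul_le_mul_of_nonneg_left ?_ (by linarith)) le_rfl
      exact_mod_cast hsum
    have huS : S.Mem u := (Box.reps_subset hu).1.1
    have hvS : S.Mem v := (Box.reps_subset hv).1.1
    have h1 := Box.dist_triangle (B := S) hpos (hsub' x hx) huS (hsub' p hp)
    have h2 := Box.dist_triangle (B := S) hpos huS hvS (hsub' p hp)
    rw [Box.dist_comm S t v p] at h2
    have hT' : (L : ℝ) * T ≤ L * |T| := mul_le_mul_of_nonneg_left (le_abs_self T) (Nat.cast_nonneg L)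
    have hr' : (1 : ℝ) ≤ r := by exact_mod_cast hr1
    have hLT : (L : ℝ) * |T| ≤ L * |T| * r := le_mul_of_one_le_right (by positivity) hr'
    have hn' : ((n : ℝ) + 1) * c₀ ≤ 3 * r * c₀ :=
      mul_le_mul_of_nonneg_right (by exact_mod_cast (by omega : n + 1 ≤ 3 * r)) hc
    simp only [Set.mem_ofPred_eq] at ht
    change _ < S.dist t x p at ht
    nlinarith
  have hN : weightMeasure G N = 0 := ae_iff.1 (ae_nonneg h0)
  have hP : weightMeasure G P ≤ ENNReal.ofReal (ε / 6) :=
    (rad_sum_markov hq S (range (n + 1)) f (m := 3 * r) (by rw [card_range]; omega)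
      (Nat.mul_pos hK hr1)).trans (hKr r hr1)
  have hD : ∀ z, weightMeasure G (D z) ≤ ENNReal.ofReal (ε / 6) := fun z =>
    hd S z _ fun t => S.allBad_subset c₀ t
  refine (measure_mono hsub).trans ?_
  calc weightMeasure G (N ∪ A ∪ D x ∪ D p ∪ W x ∪ W p ∪ P)
      ≤ weightMeasure G N + weightMeasure G A + weightMeasure G (D x) + weightMeasure G (D p)
          + weightMeasure G (W x) + weightMeasure G (W p) + weightMeasure G P := by
        refine (measure_union_le _ _).trans (add_le_add ?_ le_rfl)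
        refine (measure_union_le _ _).trans (add_le_add ?_ le_rfl)
        refine (measure_union_le _ _).trans (add_le_add ?_ le_rfl)
        refine (measure_union_le _ _).trans (add_le_add ?_ le_rfl)
        refine (measure_union_le _ _).trans (add_le_add ?_ le_rfl)
        exact measure_union_le _ _
    _ ≤ 0 + ENNReal.ofReal (ε / 6) + ENNReal.ofReal (ε / 6) + ENNReal.ofReal (ε / 6)
          + ENNReal.ofReal (ε / 6) + ENNReal.ofReal (ε / 6) + ENNReal.ofReal (ε / 6) :=
        add_le_add (add_le_add (add_le_add (add_le_add (add_le_add (add_le_add hN.le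
          (hr₁ x r hr.1)) (hD x)) (hD p)) (hT _)) (hT _)) hP
    _ = ENNReal.ofReal ε := by
        rw [zero_add]
        repeat rw [← ENNReal.ofReal_add (by positivity) h6.le]
        congr 1
        ring

end Vale.Agent.P158.NB
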