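import Vale.Agent.P158.NB.NetBins
import Vale.Agent.P158.NB.NetExit
import Vale.Agent.P158.NB.NetTile

/-!
# Nets exist for every law on the nonnegative numbers (section 10 of `PROOF.md`)
-/

open MeasureTheory
open scoped ENNReal

namespace Vale.Agent.P158.NB

/-- The nets of a law, at a level above which weights are rare. -/
noncomputable def netsOf (G : Measure ℝ) [IsProbabilityMeasure G] (h0 : G (Set.Iio 0) = 0)
    {c₀ : ℝ} (hc : 0 ≤ c₀) (hq : G (Set.Ioi c₀) ≤ (72⁻¹ : ℝ≥0∞) ^ 2) : Nets G where
  Adm := netAdm c₀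
  binW := netBinW c₀
  tileW := netTileW c₀
  dist_le := net_dist_le hc
  adm_lower := net_adm_lower
  binW_lower := net_binW_lower
  adm_meas := net_adm_meas
  adm_shift := net_adm_shift
  adm_prob := net_adm_prob h0 hq
  exit_prob := net_exit_prob h0 hc hq
  bins_prob := net_bins_prob hc hq
  frame := tile_frame hc
  tile_prob := tile_weight_prob hc hq
  reach_prob := tile_reach_prob h0 hc hq

/-- Every law on the nonnegative numbers has nets. -/
theorem exists_nets (G : Measure ℝ) [IsProbabilityMeasure G] (h0 : G (Set.Iio 0) = 0) :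
    Nonempty (Nets G) :=
  let ⟨_, hc, hq⟩ := exists_level G
  ⟨netsOf G h0 hc hq⟩

end Vale.Agent.P158.NB
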