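import Vale.Agent.P158.NB.Stmts
import Vale.Agent.P158.NB.Final
import Vale.Agent.P158.NB.NetInst

/-!
Assembly of `PROOF.md`: nets and the main step give the absence of bigeodesics.
-/

open MeasureTheory

namespace Vale.Agent.P158.NB

/-- No bigeodesics, from nets and the main step of section 9. -/
theorem ae_no_bigeodesic_of_nets {G : Measure ℝ} [IsProbabilityMeasure G] (hG : GoodLaw G)
    (N : Nets G)
    (hMain : FrameStmt N → GridStmt N → ContStmt N → UStmt N →
      ∀ p q : V, weightMeasure G (BigeoStep p q) = 0) :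
    ∀ᵐ t ∂weightMeasure G, ∀ v : ℤ → ℤ × ℤ, ¬ IsBigeodesic t v :=
  have h := allStmts hG N
  ae_no_bigeodesic_of_steps (hMain h.1 h.2.1 h.2.2.1 h.2.2.2)

/-- No bigeodesics, from the main step of section 9 alone: nets exist for every law. -/
theorem ae_no_bigeodesic_of_main {G : Measure ℝ} [IsProbabilityMeasure G] (hG : GoodLaw G)
    (hMain : ∀ N : Nets G, FrameStmt N → GridStmt N → ContStmt N → UStmt N →
      ∀ p q : V, weightMeasure G (BigeoStep p q) = 0) :
    ∀ᵐ t ∂weightMeasure G, ∀ v : ℤ → ℤ × ℤ, ¬ IsBigeodesic t v :=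
  (exists_nets G hG.nonneg).elim fun N => ae_no_bigeodesic_of_nets hG N (hMain N)

end Vale.Agent.P158.NB
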