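import Vale.Agent.P158.NB.Box
import Vale.Agent.P158.Peierls

/-!
Linear growth of self-avoiding walks inside boxes (Q2 of `PROOF.md`).
-/

open MeasureTheory Finset
open scoped ENNReal

namespace Vale.Agent.P158.NB

/-- The vertices of a box as a finite set. -/
noncomputable def Box.verts (B : Box) : Finset V :=
  Finset.Icc (B.c.1 - B.M) (B.c.1 + B.M) ×ˢ Finset.Icc (B.c.2 - B.M) (B.c.2 + B.M)

lemma Box.mem_verts {B : Box} {z : V} : z ∈ B.verts ↔ B.Mem z := by
  simp only [Box.verts, Box.Mem, mem_product, Finset.mem_Icc, abs_le]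
  omega

lemma Box.card_verts (B : Box) : B.verts.card = (2 * B.M + 1) ^ 2 := by
  simp only [Box.verts, card_product, Int.card_Icc, sq]
  congr 1 <;> omega

/-- Some self-avoiding walk starting in `B`, with at least `n` steps, has cost less than `a` per
step. -/
def CheapWalk (a : ℝ) (B : Box) (n : ℕ) : Set Env :=
  {t | ∃ (m : ℕ) (f : ℕ → V), n ≤ m ∧ B.Mem (f 0) ∧ (∀ i < m, Nbr (f i) (f (i + 1))) ∧
    IsSimple f m ∧ pathCost t f m < a * m}

/-- Off `CheapWalk a B n`, cheap simple walks from the box are short. -/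
lemma length_le_of_not_cheapWalk {a : ℝ} {B : Box} {n : ℕ} {t : Env} (ha : 0 < a)
    (ht : t ∉ CheapWalk a B n) {m : ℕ} {f : ℕ → V} (h0 : B.Mem (f 0))
    (hN : ∀ i < m, Nbr (f i) (f (i + 1))) (hs : IsSimple f m) :
    (m : ℝ) ≤ max (n : ℝ) (pathCost t f m / a) := by
  by_cases hnm : n ≤ m
  · refine le_max_of_le_right ((le_div_iff₀ ha).2 ?_)
    by_contra hlt
    exact ht ⟨m, f, hnm, h0, hN, hs, by linarith⟩
  · exact le_max_of_le_left (by exact_mod_cast (not_le.1 hnm).le)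

variable (G : Measure ℝ) [IsProbabilityMeasure G]

/-- Growth: cheap long walks in a box are exponentially unlikely. -/
theorem exists_growth (h : G (Set.Iic 0) = 0) : ∃ a > (0 : ℝ), ∀ (B : Box) (n : ℕ),
    weightMeasure G (CheapWalk a B n) ≤ 2 * ((2 * B.M + 1) ^ 2 : ℕ) * (1 / 2) ^ n := by
  obtain ⟨a, ha, hle⟩ := cheap_paths_le G h
  refine ⟨a, ha, fun B n => ?_⟩
  set E : V → ℕ → Set Env := fun x k =>
    {t | ∃ f, IsSAP x k f ∧ ∑ i ∈ range k, t s(f i, f (i + 1)) < a * k}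
  have hsub : CheapWalk a B n ⊆ ⋃ x ∈ B.verts, ⋃ j : ℕ, E x (n + j) := by
    rintro t ⟨m, f, hnm, h0, hN, hs, hc⟩
    obtain ⟨j, rfl⟩ := Nat.exists_eq_add_of_le hnm
    simp only [Set.mem_iUnion]
    exact ⟨f 0, Box.mem_verts.2 h0, j, f, ⟨rfl, hN, fun i hi k hk e => hs i hi k hk e⟩, hc⟩
  refine (measure_mono hsub).trans ((measure_biUnion_finset_le _ _).trans ?_)
  refine (sum_le_card_nsmul _ _ (2 * (1 / 2) ^ n) fun x _ => ?_).trans ?_
  · refine (measure_iUnion_le _).trans ((ENNReal.tsum_le_tsum fun j => hle x (n + j)).trans ?_)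
    simp_rw [pow_add, ENNReal.tsum_mul_left, one_div, ENNReal.tsum_geometric_two]
    rw [mul_comm]
  · rw [nsmul_eq_mul, Box.card_verts]
    exact le_of_eq (by ring)

end Vale.Agent.P158.NB
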