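import Vale.Agent.P158.NB.EventsMeas
import Vale.Agent.P158.NB.Growth

/-!
Averages over the centres in the half box: union bounds, double counting, choice of a centre and
translation to a choice of box offset.
-/

open MeasureTheory Finset

namespace Vale.Agent.P158.NB

/-- The centres of windows: the half box of `Box 0 M`. -/
noncomputable def half (M : ℕ) : Finset V := (Box.mk 0 (M / 2)).verts

/-- The average probability of a family of events over the half box. -/
noncomputable def avg (G : Measure ℝ) (M : ℕ) (E : V → Set Env) : ℝ :=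
  (∑ x ∈ half M, (weightMeasure G).real (E x)) / ((half M).card : ℝ)

lemma sq_le_card_half (M : ℕ) : (M : ℝ) ^ 2 ≤ ((half M).card : ℝ) := by
  rw [half, Box.card_verts]
  push_cast
  refine pow_le_pow_left₀ (Nat.cast_nonneg M) ?_ 2
  exact_mod_cast (show M ≤ 2 * (M / 2) + 1 by omega)

lemma card_half_pos (M : ℕ) : (0 : ℝ) < ((half M).card : ℝ) := by
  rw [half, Box.card_verts]
  push_cast
  positivity

lemma half_nonempty (M : ℕ) : (half M).Nonempty :=
  card_pos.1 (by exact_mod_cast card_half_pos M)

lemma mem_half {M : ℕ} {x : V} : x ∈ half M ↔ (Box.mk 0 (M / 2)).Mem x := Box.mem_verts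

variable (G : Measure ℝ)

section

variable [IsProbabilityMeasure G]

lemma weight_real_mono {A B : Set Env} (h : A ⊆ B) :
    (weightMeasure G).real A ≤ (weightMeasure G).real B := measureReal_mono h

end

variable {M : ℕ} {E E' : V → Set Env}

lemma avg_nonneg : 0 ≤ avg G M E :=
  div_nonneg (sum_nonneg fun _ _ => measureReal_nonneg) (Nat.cast_nonneg _)

lemma avg_mono [IsProbabilityMeasure G] (h : ∀ x ∈ half M, E x ⊆ E' x) : avg G M E ≤ avg G M E' :=
  div_le_div_of_nonneg_right (sum_le_sum fun x hx => weight_real_mono G (h x hx))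
    (Nat.cast_nonneg _)

lemma avg_const (A : Set Env) : avg G M (fun _ => A) = (weightMeasure G).real A := by
  have := card_half_pos M
  rw [avg, sum_const, nsmul_eq_mul]
  field_simp

lemma avg_union_le : avg G M (fun x => E x ∪ E' x) ≤ avg G M E + avg G M E' := by
  rw [avg, avg, avg, ← add_div, ← sum_add_distrib]
  exact div_le_div_of_nonneg_right (sum_le_sum fun x _ => measureReal_union_le _ _)
    (Nat.cast_nonneg _)

lemma avg_biUnion_le {ι : Type*} (s : Finset ι) (F : ι → V → Set Env) :
    avg G M (fun x => ⋃ i ∈ s, F i x) ≤ ∑ i ∈ s, avg G M (F i) := by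
  simp only [avg, ← sum_div]
  refine div_le_div_of_nonneg_right ?_ (Nat.cast_nonneg _)
  rw [sum_comm]
  exact sum_le_sum fun x _ => measureReal_biUnion_finset_le _ _

/-- Some centre is at most as bad as the average. -/
theorem exists_le_avg : ∃ x ∈ half M, (weightMeasure G).real (E x) ≤ avg G M E := by
  refine exists_le_of_sum_le (half_nonempty M) (le_of_eq ?_)
  have := card_half_pos M
  rw [sum_const, nsmul_eq_mul, avg]
  field_simp

/-- Double counting: outside `bad`, at most `N` of the events happen at once. -/
theorem avg_le_of_count [IsProbabilityMeasure G] (hE : ∀ x ∈ half M, MeasurableSet (E x)) {bad : Set Env} {N : ℝ}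
    (hN : 0 ≤ N) (h : ∀ t ∉ bad, ∀ s ⊆ half M, (∀ x ∈ s, t ∈ E x) → (s.card : ℝ) ≤ N) :
    avg G M E ≤ (weightMeasure G).real bad + N / ((half M).card : ℝ) := by
  classical
  set P := weightMeasure G
  set W := toMeasurable P bad
  have hW : MeasurableSet W := measurableSet_toMeasurable P bad
  have hWr : P.real W = P.real bad := by simp [W, measureReal_def, measure_toMeasurable]
  have hm : ∀ x ∈ half M, MeasurableSet (E x \ W) := fun x hx => (hE x hx).diff hW
  have h1 : ∑ x ∈ half M, P.real (E x \ W) ≤ N := by
    calc ∑ x ∈ half M, P.real (E x \ W)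
        = ∫ t, ∑ x ∈ half M, (E x \ W).indicator (fun _ => (1 : ℝ)) t ∂P := by
          rw [integral_finsetSum _ fun x hx => (integrable_const (1 : ℝ)).indicator (hm x hx)]
          exact sum_congr rfl fun x hx => (integral_indicator_one (hm x hx)).symm
      _ ≤ ∫ _t, N ∂P := by
          refine integral_mono (integrable_finsetSum _ fun x hx =>
            (integrable_const (1 : ℝ)).indicator (hm x hx)) (integrable_const N) fun t => ?_
          dsimp only
          by_cases ht : t ∈ W
          · rw [sum_eq_zero fun x _ => Set.indicator_of_notMem (fun hx => hx.2 ht) _]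
            exact hN
          · simp only [Set.indicator_apply, sum_boole]
            exact h t (fun hb => ht (subset_toMeasurable P bad hb)) _ (filter_subset _ _)
              fun x hx => (mem_filter.1 hx).2.1
      _ = N := by simp
  have h2 : ∑ x ∈ half M, P.real (E x) ≤ ∑ x ∈ half M, (P.real W + P.real (E x \ W)) :=
    sum_le_sum fun x _ =>
      (weight_real_mono G (show E x ⊆ W ∪ (E x \ W) from fun t ht => by
        by_cases hw : t ∈ W
        exacts [Or.inl hw, Or.inr ⟨ht, hw⟩])).trans (measureReal_union_le _ _)
  rw [sum_add_distrib, sum_const, nsmul_eq_mul] at h2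
  rw [avg, ← hWr, div_le_iff₀ (card_half_pos M), add_mul, div_mul_cancel₀ N (card_half_pos M).ne']
  linarith

/-- Translating a window in a box at the origin moves the box. -/
theorem real_shift [IsProbabilityMeasure G] (v : V) (A : Set Env) :
    (weightMeasure G).real (P158.shift v ⁻¹' A) = (weightMeasure G).real A := by
  simp [measureReal_def, prob_shift]

/-- One offset for all windows: a translation invariant family that is rarely bad on average has a
box position relative to the window at which it is rarely bad. -/
theorem exists_offset [IsProbabilityMeasure G] (M r : ℕ) (Ev : Box → Box → Set Env)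
    (hcov : ∀ v B S, Ev (Box.shift B v) (Box.shift S v) = P158.shift v ⁻¹' Ev B S) :
    ∃ o : V, (Box.mk 0 (M / 2)).Mem o ∧ ∀ z : V,
      (weightMeasure G).real (Ev (Box.mk (z + o) M) (Box.mk z r)) ≤
        avg G M fun x => Ev (Box.mk 0 M) (Box.mk x r) := by
  obtain ⟨x, hx, hle⟩ := exists_le_avg G (M := M) (E := fun x => Ev (Box.mk 0 M) (Box.mk x r))
  refine ⟨-x, ?_, fun z => ?_⟩
  · have := mem_half.1 hx
    simpa [Box.Mem] using this
  · have h := hcov (z - x) (Box.mk 0 M) (Box.mk x r)
    simp only [Box.shift, zero_add, add_sub_cancel] at h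
    rw [← sub_eq_add_neg, h, real_shift]
    exact hle

end Vale.Agent.P158.NB
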