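import Vale.Agent.P158.Geo

/-!
# Box metrics (interface of the no-bigeodesic proof, see `PROOF.md`, section 0)
-/

open Finset

namespace Vale.Agent.P158.NB

/-- Lattice vertices. -/
abbrev V := ℤ × ℤ

/-- Weight configurations. -/
abbrev Env := Sym2 V → ℝ

/-- A square box with centre `c` and radius `M`. -/
structure Box where
  c : V
  M : ℕ

namespace Box

/-- Membership in a box. -/
def Mem (B : Box) (z : V) : Prop := |z.1 - B.c.1| ≤ B.M ∧ |z.2 - B.c.2| ≤ B.M

/-- Strict membership. -/
def Inner (B : Box) (z : V) : Prop := |z.1 - B.c.1| < B.M ∧ |z.2 - B.c.2| < B.M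

/-- Boundary. -/
def Bdry (B : Box) (z : V) : Prop := B.Mem z ∧ ¬ B.Inner z

/-- The box translated by `v`. -/
def shift (B : Box) (v : V) : Box := ⟨B.c + v, B.M⟩

/-- A walk that stays in the box. -/
def IsWalk (B : Box) (f : ℕ → V) (m : ℕ) (x y : V) : Prop :=
  IsPath f m x y ∧ ∀ i ≤ m, B.Mem (f i)

/-- Costs of the walks from `x` to `y` inside the box. -/
def costs (B : Box) (t : Env) (x y : V) : Set ℝ :=
  {r | ∃ m f, B.IsWalk f m x y ∧ pathCost t f m = r}

/-- The metric of the box. -/
noncomputable def dist (B : Box) (t : Env) (x y : V) : ℝ := sInf (B.costs t x y)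

/-- Number of boundary steps. -/
def len (B : Box) : ℕ := 8 * B.M

/-- The boundary cycle, anticlockwise from the lower left corner; `pos 0 = pos len`. -/
def pos (B : Box) (k : ℕ) : V :=
  if k ≤ 2 * B.M then (B.c.1 - B.M + k, B.c.2 - B.M)
  else if k ≤ 4 * B.M then (B.c.1 + B.M, B.c.2 - B.M + (k - 2 * B.M : ℤ))
  else if k ≤ 6 * B.M then (B.c.1 + B.M - (k - 4 * B.M : ℤ), B.c.2 + B.M)
  else (B.c.1 - B.M, B.c.2 + B.M - (k - 6 * B.M : ℤ))

/-- The boundary position reversed. -/
def posRev (B : Box) (k : ℕ) : V := B.pos (B.len - k)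

/-- The boundary cycle started at position `s`. -/
def posRot (B : Box) (s k : ℕ) : V := B.pos ((s + k) % B.len)

end Box

/-- Raise the weight of the edge `e` by `D`. -/
noncomputable def raise (t : Env) (e : Sym2 V) (D : ℝ) : Env :=
  open scoped Classical in Function.update t e (t e + D)

namespace Box

/-- An optimal path from `x` to `y` goes through `p` and then directly to `q`. -/
def Thru (B : Box) (t : Env) (x y p q : V) : Prop :=
  Nbr p q ∧ B.Mem p ∧ B.Mem q ∧ B.dist t x y = B.dist t x p + t s(p, q) + B.dist t q y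

/-- Raising `e` by `D` costs `D` between `x` and `y`. -/
def Marg (B : Box) (t : Env) (x y : V) (e : Sym2 V) (D : ℝ) : Prop :=
  B.dist t x y + D ≤ B.dist (raise t e D) x y

/-- A margin segment through the directed edge `(p, q)` between two boundary positions. -/
def Seg (B : Box) (t : Env) (i j : ℕ) (p q : V) (D : ℝ) : Prop :=
  i ≤ B.len ∧ j ≤ B.len ∧ B.Thru t (B.pos i) (B.pos j) p q ∧
    B.Marg t (B.pos i) (B.pos j) s(p, q) D

/-- The gain of a directed edge with respect to the target `K`. -/
noncomputable def gain (B : Box) (t : Env) (K p q : V) : ℝ :=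
  t s(p, q) + B.dist t q K - B.dist t p K

end Box

/-- The oscillation of `φ` on a box is at most `C`. -/
def OscLe (S : Box) (φ : V → ℝ) (C : ℝ) : Prop :=
  ∀ z w, S.Mem z → S.Mem w → φ z - φ w ≤ C

/-- Difference of the distance functions to two targets. -/
noncomputable def Box.diff (B : Box) (t : Env) (x y : V) : V → ℝ :=
  fun z => B.dist t z x - B.dist t z y

/-- Total boundary weight of a range of positions. -/
noncomputable def Box.arcSum (B : Box) (t : Env) (i j : ℕ) : ℝ :=
  ∑ k ∈ Finset.Ico i j, t s(B.pos k, B.pos (k + 1))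

end Vale.Agent.P158.NB
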