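import Vale.Agent.P158.NB.Box
import Vale.Agent.P158.Shift

/-!
Basic facts on box metrics and margins (`PROOF.md`, section 0: B1-B5, translations).
-/

open Finset

namespace Vale.Agent.P158.NB

namespace Box

variable {B S : Box} {t t' : Env} {x y z p q : V} {f g : ℕ → V} {m n : ℕ} {D : ℝ}

lemma mem_iff : B.Mem z ↔ (B.c.1 - B.M ≤ z.1 ∧ z.1 ≤ B.c.1 + B.M) ∧
    (B.c.2 - B.M ≤ z.2 ∧ z.2 ≤ B.c.2 + B.M) := by
  simp only [Mem, abs_le]; omega

lemma inner_iff : B.Inner z ↔ (B.c.1 - B.M < z.1 ∧ z.1 < B.c.1 + B.M) ∧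
    (B.c.2 - B.M < z.2 ∧ z.2 < B.c.2 + B.M) := by
  simp only [Inner, abs_lt]; omega

lemma Inner.mem (h : B.Inner z) : B.Mem z := ⟨h.1.le, h.2.le⟩

lemma nbr_cases (h : Nbr x y) : (y.1 = x.1 + 1 ∧ y.2 = x.2) ∨ (y.1 = x.1 - 1 ∧ y.2 = x.2) ∨
    (y.1 = x.1 ∧ y.2 = x.2 + 1) ∨ (y.1 = x.1 ∧ y.2 = x.2 - 1) := by
  simp only [Nbr] at h
  rcases abs_choice (x.1 - y.1) with a | a <;> rcases abs_choice (x.2 - y.2) with b | b <;>
    (have := abs_nonneg (x.1 - y.1); have := abs_nonneg (x.2 - y.2); omega)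

lemma Inner.mem_of_nbr (h : B.Inner z) (hn : Nbr z y) : B.Mem y := by
  rw [inner_iff] at h
  rw [mem_iff]
  have := nbr_cases hn
  omega

lemma Inner.of_subset (hsub : ∀ w, S.Mem w → B.Mem w) (h : S.Inner z) : B.Inner z := by
  have h1 := hsub (z.1 + 1, z.2) (h.mem_of_nbr (by simp [Nbr]))
  have h2 := hsub (z.1 - 1, z.2) (h.mem_of_nbr (by simp [Nbr]))
  have h3 := hsub (z.1, z.2 + 1) (h.mem_of_nbr (by simp [Nbr]))
  have h4 := hsub (z.1, z.2 - 1) (h.mem_of_nbr (by simp [Nbr]))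
  rw [mem_iff] at h1 h2 h3 h4
  rw [inner_iff]
  omega

/-! ### Boundary positions -/

lemma pos_bdry (B : Box) {k : ℕ} (hk : k ≤ B.len) : B.Bdry (B.pos k) := by
  simp only [len] at hk
  refine ⟨?_, ?_⟩
  · rw [mem_iff]
    unfold pos
    split_ifs <;> dsimp only <;> omega
  · rw [inner_iff]
    unfold pos
    split_ifs <;> dsimp only <;> omega

lemma pos_mem (B : Box) {k : ℕ} (hk : k ≤ B.len) : B.Mem (B.pos k) := (B.pos_bdry hk).1

lemma pos_len (B : Box) : B.pos B.len = B.pos 0 := by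
  unfold pos len
  split_ifs <;> ext <;> dsimp only <;> omega

lemma nbr_pos (B : Box) {k : ℕ} (hk : k < B.len) : Nbr (B.pos k) (B.pos (k + 1)) := by
  simp only [len] at hk
  unfold pos Nbr
  split_ifs <;> dsimp only <;> (rw [Nat.cast_add, Nat.cast_one] at *) <;>
    simp only [abs_eq_max_neg, max_def] <;> split_ifs <;> omega

lemma exists_pos (h : B.Bdry z) : ∃ k, k ≤ B.len ∧ B.pos k = z := by
  obtain ⟨hm, hi⟩ := h
  rw [mem_iff] at hm
  rw [inner_iff] at hi
  by_cases h1 : z.2 = B.c.2 - B.M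
  · refine ⟨(z.1 - (B.c.1 - B.M)).toNat, ?_, ?_⟩
    · simp only [len]; omega
    · unfold pos
      split_ifs <;> ext <;> dsimp only <;> omega
  by_cases h2 : z.1 = B.c.1 + B.M
  · refine ⟨2 * B.M + (z.2 - (B.c.2 - B.M)).toNat, ?_, ?_⟩
    · simp only [len]; omega
    · unfold pos
      split_ifs <;> ext <;> dsimp only <;> omega
  by_cases h3 : z.2 = B.c.2 + B.M
  · refine ⟨4 * B.M + (B.c.1 + B.M - z.1).toNat, ?_, ?_⟩
    · simp only [len]; omega
    · unfold pos
      split_ifs <;> ext <;> dsimp only <;> omega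
  · refine ⟨6 * B.M + (B.c.2 + B.M - z.2).toNat, ?_, ?_⟩
    · simp only [len]; omega
    · unfold pos
      split_ifs <;> ext <;> dsimp only <;> omega

/-! ### Walks -/

/-- `f` up to step `m`, then `g`. -/
def append (f : ℕ → V) (m : ℕ) (g : ℕ → V) : ℕ → V := fun k => if k ≤ m then f k else g (k - m)

lemma append_left {k : ℕ} (h : k ≤ m) : append f m g k = f k := by simp [append, h]

lemma append_right (hjoin : f m = g 0) (k : ℕ) : append f m g (m + k) = g k := by
  simp only [append]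
  split_ifs with h
  · obtain rfl : k = 0 := by omega
    simpa using hjoin
  · simp

lemma IsWalk.append (h : B.IsWalk f m x z) (h' : B.IsWalk g n z y) :
    B.IsWalk (Box.append f m g) (m + n) x y := by
  have hjoin : f m = g 0 := by rw [h.1.2.1, h'.1.1]
  refine ⟨⟨?_, ?_, fun i hi => ?_⟩, fun i hi => ?_⟩
  · rw [append_left m.zero_le]; exact h.1.1
  · rw [append_right hjoin]; exact h'.1.2.1
  · by_cases hm : i < m
    · rw [append_left hm.le, append_left hm]
      exact h.1.2.2 i hm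
    · obtain ⟨d, rfl⟩ := Nat.exists_eq_add_of_le (not_lt.1 hm)
      rw [add_assoc, append_right hjoin, append_right hjoin]
      exact h'.1.2.2 d (by omega)
  · by_cases hm : i ≤ m
    · rw [append_left hm]; exact h.2 i hm
    · obtain ⟨d, rfl⟩ := Nat.exists_eq_add_of_le (not_le.1 hm).le
      rw [append_right hjoin]; exact h'.2 d (by omega)

lemma pathCost_append (t : Env) (hjoin : f m = g 0) (n : ℕ) :
    pathCost t (append f m g) (m + n) = pathCost t f m + pathCost t g n := by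
  simp only [pathCost, sum_range_add]
  congr 1
  · refine sum_congr rfl fun i hi => ?_
    have := mem_range.1 hi
    rw [append_left this.le, append_left (Nat.succ_le_of_lt this)]
  · refine sum_congr rfl fun i _ => ?_
    rw [add_assoc, append_right hjoin, append_right hjoin]

lemma IsWalk.reverse (h : B.IsWalk f m x y) : B.IsWalk (fun k => f (m - k)) m y x := by
  obtain ⟨⟨h0, hm, hs⟩, hb⟩ := h
  refine ⟨⟨by simpa using hm, by simpa using h0, fun i hi => ?_⟩, fun i _ => hb _ (Nat.sub_le m i)⟩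
  show Nbr (f (m - i)) (f (m - (i + 1)))
  have e : m - i = m - (i + 1) + 1 := by omega
  rw [e]
  exact (hs _ (by omega)).symm

lemma pathCost_reverse (t : Env) (f : ℕ → V) (m : ℕ) :
    pathCost t (fun k => f (m - k)) m = pathCost t f m := by
  rw [pathCost, pathCost, ← sum_range_reflect]
  refine sum_congr rfl fun i hi => ?_
  have := mem_range.1 hi
  have e1 : m - (m - 1 - i) = i + 1 := by omega
  have e2 : m - (m - 1 - i + 1) = i := by omega
  rw [e1, e2, Sym2.eq_swap]

lemma IsWalk.mem_left (h : B.IsWalk f m x y) : B.Mem x := h.1.1 ▸ h.2 0 m.zero_le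

lemma IsWalk.mem_right (h : B.IsWalk f m x y) : B.Mem y := h.1.2.1 ▸ h.2 m le_rfl

lemma IsWalk.segment (h : B.IsWalk f m x y) {i j : ℕ} (hij : i ≤ j) (hj : j ≤ m) :
    B.IsWalk (fun k => f (i + k)) (j - i) (f i) (f j) :=
  ⟨h.1.segment hij hj, fun k hk => h.2 (i + k) (by omega)⟩

lemma IsWalk.initSeg (h : B.IsWalk f m x y) {i : ℕ} (hi : i ≤ m) : B.IsWalk f i x (f i) :=
  ⟨⟨h.1.1, rfl, fun k hk => h.1.2.2 k (by omega)⟩, fun k hk => h.2 k (by omega)⟩

lemma IsWalk.suffix (h : B.IsWalk f m x y) {i : ℕ} (hi : i ≤ m) :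
    B.IsWalk (fun k => f (i + k)) (m - i) (f i) y := by
  have := h.segment hi le_rfl
  rwa [h.1.2.1] at this

lemma isWalk_zero (h : B.Mem x) : B.IsWalk (fun _ => x) 0 x x :=
  ⟨⟨rfl, rfl, fun i hi => absurd hi (Nat.not_lt_zero i)⟩, fun _ _ => h⟩

lemma isWalk_edge (hp : B.Mem p) (hq : B.Mem q) (hn : Nbr p q) :
    B.IsWalk (fun k => if k = 0 then p else q) 1 p q := by
  refine ⟨⟨by simp, by simp, fun i hi => ?_⟩, fun i _ => ?_⟩
  · obtain rfl : i = 0 := by omega
    simpa using hn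
  · show B.Mem (if i = 0 then p else q)
    split_ifs <;> assumption

lemma exists_isWalk (hx : B.Mem x) (hy : B.Mem y) : ∃ m f, B.IsWalk f m x y := by
  have step : ∀ (k : ℕ) (y : V), B.Mem y → (x.1 - y.1).natAbs + (x.2 - y.2).natAbs = k →
      ∃ m f, B.IsWalk f m x y := by
    intro k
    induction k with
    | zero =>
      intro y hy h
      obtain rfl : x = y := by ext <;> omega
      exact ⟨0, _, isWalk_zero hx⟩
    | succ k ih =>
      intro y hy h
      obtain ⟨w, hwm, hw, hk⟩ : ∃ w, B.Mem w ∧ Nbr w y ∧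
          (x.1 - w.1).natAbs + (x.2 - w.2).natAbs = k := by
        have hx' := mem_iff.1 hx
        have hy' := mem_iff.1 hy
        rcases lt_trichotomy x.1 y.1 with h1 | h1 | h1
        · exact ⟨(y.1 - 1, y.2), mem_iff.2 (by dsimp only; omega), by simp [Nbr],
            by dsimp only; omega⟩
        · rcases lt_trichotomy x.2 y.2 with h2 | h2 | h2
          · exact ⟨(y.1, y.2 - 1), mem_iff.2 (by dsimp only; omega), by simp [Nbr],
              by dsimp only; omega⟩
          · omega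
          · exact ⟨(y.1, y.2 + 1), mem_iff.2 (by dsimp only; omega), by simp [Nbr],
              by dsimp only; omega⟩
        · exact ⟨(y.1 + 1, y.2), mem_iff.2 (by dsimp only; omega), by simp [Nbr],
            by dsimp only; omega⟩
      obtain ⟨m, f, hf⟩ := ih w hwm hk
      exact ⟨_, _, hf.append (isWalk_edge hwm hy hw)⟩
  exact step _ y hy rfl

/-- A walk in the box contains a self-avoiding walk which is not more expensive. -/
lemma IsWalk.exists_simple (ht : ∀ e, 0 ≤ t e) :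
    ∀ {m : ℕ} {f : ℕ → V}, B.IsWalk f m x y →
      ∃ m' g, B.IsWalk g m' x y ∧ IsSimple g m' ∧ pathCost t g m' ≤ pathCost t f m := by
  intro m
  induction m using Nat.strong_induction_on with
  | _ m ih =>
    intro f hf
    by_cases hs : IsSimple f m
    · exact ⟨m, f, hf, hs, le_rfl⟩
    simp only [IsSimple, not_forall] at hs
    obtain ⟨a, ha, b, hb, hab, hne⟩ := hs
    obtain ⟨i, j, hij, hj, he⟩ : ∃ i j, i < j ∧ j ≤ m ∧ f i = f j := by
      rcases lt_or_gt_of_ne hne with h | h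
      exacts [⟨a, b, h, hb, hab⟩, ⟨b, a, h, ha, hab.symm⟩]
    have h1 := hf.initSeg (i := i) (by omega)
    have h2 := hf.suffix (i := j) hj
    rw [← he] at h2
    obtain ⟨m', g', h3, h4, h5⟩ := ih (i + (m - j)) (by omega) (h1.append h2)
    refine ⟨m', g', h3, h4, h5.trans ?_⟩
    rw [pathCost_append t (by simp [he]), pathCost_split t f hj, pathCost_split t f hij.le]
    linarith [pathCost_nonneg ht (fun k => f (i + k)) (j - i)]

lemma simple_length_lt (h : B.IsWalk f m x y) (hs : IsSimple f m) :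
    m < (2 * B.M + 1) ^ 2 := by
  have hcard := card_le_card_of_injOn (s := range (m + 1)) (t := Icc (B.c.1 - B.M) (B.c.1 + B.M)
      ×ˢ Icc (B.c.2 - B.M) (B.c.2 + B.M)) f
    (fun i hi => by
      have := mem_iff.1 (h.2 i (by simpa using Nat.lt_succ_iff.1 (mem_range.1 hi)))
      simp only [coe_product, Set.mem_prod, coe_Icc, Set.mem_Icc]
      omega)
    (fun i hi j hj e => hs i (Nat.lt_succ_iff.1 (mem_range.1 hi)) j
      (Nat.lt_succ_iff.1 (mem_range.1 hj)) e)
  rw [card_range, card_product, Int.card_Icc, Int.card_Icc] at hcard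
  rw [show (B.c.1 + B.M + 1 - (B.c.1 - B.M)).toNat = 2 * B.M + 1 by omega,
    show (B.c.2 + B.M + 1 - (B.c.2 - B.M)).toNat = 2 * B.M + 1 by omega] at hcard
  nlinarith

/-! ### The metric -/

lemma dist_le (ht : ∀ e, 0 ≤ t e) (h : B.IsWalk f m x y) : B.dist t x y ≤ pathCost t f m :=
  csInf_le ⟨0, by rintro r ⟨k, g, -, rfl⟩; exact pathCost_nonneg ht g k⟩ ⟨m, f, h, rfl⟩

lemma costs_nonempty (hx : B.Mem x) (hy : B.Mem y) : (B.costs t x y).Nonempty :=
  let ⟨m, f, h⟩ := exists_isWalk hx hy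
  ⟨_, m, f, h, rfl⟩

lemma le_dist (hx : B.Mem x) (hy : B.Mem y) {r : ℝ}
    (h : ∀ m f, B.IsWalk f m x y → r ≤ pathCost t f m) : r ≤ B.dist t x y :=
  le_csInf (costs_nonempty hx hy) fun s ⟨m, f, hf, e⟩ => e ▸ h m f hf

/-- The distance is attained by a self-avoiding walk in the box. -/
theorem exists_optimal (ht : ∀ e, 0 ≤ t e) (hx : B.Mem x) (hy : B.Mem y) :
    ∃ m f, B.IsWalk f m x y ∧ IsSimple f m ∧ pathCost t f m = B.dist t x y := by
  classical
  let F : (k : ℕ) × (Fin k → Fin 4) → ℝ := fun u => pathCost t (walk x u.2) u.1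
  let A : Finset ((k : ℕ) × (Fin k → Fin 4)) :=
    ((range ((2 * B.M + 1) ^ 2)).sigma fun _ => Finset.univ).filter fun u =>
      B.IsWalk (walk x u.2) u.1 x y ∧ IsSimple (walk x u.2) u.1
  have repr : ∀ m f, B.IsWalk f m x y → IsSimple f m → ∃ u ∈ A, F u = pathCost t f m := by
    intro m f hf hs
    obtain ⟨σ, hσ⟩ := exists_walk hf.1
    refine ⟨⟨m, σ⟩, ?_, pathCost_congr t hσ⟩
    simp only [A, mem_filter, mem_sigma, mem_range, mem_univ, and_true]
    refine ⟨simple_length_lt hf hs, ⟨⟨?_, ?_, fun i hi => ?_⟩, fun i hi => ?_⟩,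
      hs.congr fun k hk => (hσ k hk).symm⟩
    · rw [hσ 0 m.zero_le, hf.1.1]
    · rw [hσ m le_rfl, hf.1.2.1]
    · rw [hσ i hi.le, hσ (i + 1) hi]; exact hf.1.2.2 i hi
    · rw [hσ i hi]; exact hf.2 i hi
  obtain ⟨m₀, f₀, hf₀⟩ := exists_isWalk hx hy
  obtain ⟨m₁, f₁, hf₁, hs₁, -⟩ := hf₀.exists_simple ht
  obtain ⟨u₁, hu₁, -⟩ := repr m₁ f₁ hf₁ hs₁
  obtain ⟨u, hu, hmin⟩ := A.exists_min_image F ⟨u₁, hu₁⟩
  simp only [A, mem_filter] at hu
  refine ⟨u.1, walk x u.2, hu.2.1, hu.2.2, le_antisymm (le_dist hx hy fun m f hf => ?_)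
    (dist_le ht hu.2.1)⟩
  obtain ⟨m', g, hg, hgs, hgc⟩ := hf.exists_simple ht
  obtain ⟨v, hv, hFv⟩ := repr m' g hg hgs
  exact (hmin v hv).trans (hFv.le.trans hgc)

lemma dist_nonneg (ht : ∀ e, 0 ≤ t e) (hx : B.Mem x) (hy : B.Mem y) : 0 ≤ B.dist t x y :=
  le_dist hx hy fun m f _ => pathCost_nonneg ht f m

lemma dist_self (ht : ∀ e, 0 ≤ t e) (hx : B.Mem x) : B.dist t x x = 0 :=
  le_antisymm ((dist_le ht (isWalk_zero hx)).trans (by simp [pathCost])) (dist_nonneg ht hx hx)

lemma dist_comm (B : Box) (t : Env) (x y : V) : B.dist t x y = B.dist t y x := by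
  unfold dist
  congr 1
  ext r
  constructor <;>
    exact fun ⟨m, f, h, e⟩ => ⟨m, _, h.reverse, (pathCost_reverse t f m).trans e⟩

lemma dist_triangle (ht : ∀ e, 0 ≤ t e) (hx : B.Mem x) (hy : B.Mem y) (hz : B.Mem z) :
    B.dist t x z ≤ B.dist t x y + B.dist t y z := by
  obtain ⟨m, f, hf, -, hc⟩ := exists_optimal ht hx hy
  obtain ⟨n, g, hg, -, hc'⟩ := exists_optimal ht hy hz
  refine (dist_le ht (hf.append hg)).trans (le_of_eq ?_)
  rw [pathCost_append t (by rw [hf.1.2.1, hg.1.1]), hc, hc']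

lemma dist_le_edge (ht : ∀ e, 0 ≤ t e) (hp : B.Mem p) (hq : B.Mem q) (hn : Nbr p q) :
    B.dist t p q ≤ t s(p, q) :=
  (dist_le ht (isWalk_edge hp hq hn)).trans (by simp [pathCost])

lemma dist_mono (ht : ∀ e, 0 ≤ t e) (hle : ∀ e, t e ≤ t' e) (hx : B.Mem x) (hy : B.Mem y) :
    B.dist t x y ≤ B.dist t' x y :=
  le_dist hx hy fun _ _ hf => (dist_le ht hf).trans (sum_le_sum fun _ _ => hle _)

/-- Lowering the weights of the edges in `F` lowers a distance by at most the total lowering. -/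
lemma dist_lower (ht' : ∀ e, 0 ≤ t' e) (hle : ∀ e, t' e ≤ t e) (F : Finset (Sym2 V))
    (hF : ∀ e, e ∉ F → t' e = t e) (hx : B.Mem x) (hy : B.Mem y) :
    B.dist t x y - ∑ e ∈ F, (t e - t' e) ≤ B.dist t' x y := by
  classical
  obtain ⟨m, f, hf, hs, hc⟩ := exists_optimal ht' hx hy
  have h1 := dist_le (fun e => (ht' e).trans (hle e)) hf
  have h2 : pathCost t f m ≤ pathCost t' f m + ∑ e ∈ F, (t e - t' e) := by
    rw [pathCost_eq_sum_edges t hs, pathCost_eq_sum_edges t' hs]
    calc ∑ e ∈ pathEdges f m, t e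
        = ∑ e ∈ pathEdges f m, t' e + ∑ e ∈ pathEdges f m, (t e - t' e) := by
          rw [← sum_add_distrib]; simp
      _ ≤ _ := by
          refine add_le_add le_rfl ?_
          calc ∑ e ∈ pathEdges f m, (t e - t' e)
              = ∑ e ∈ pathEdges f m ∩ F, (t e - t' e) :=
                (sum_subset inter_subset_left fun e he he' => by
                  rw [hF e fun h => he' (mem_inter.2 ⟨he, h⟩)]; simp).symm
            _ ≤ _ := sum_le_sum_of_subset_of_nonneg inter_subset_right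
                fun e _ _ => sub_nonneg.2 (hle e)
  linarith

/-! ### Thru -/

lemma Thru.mem_left (h : B.Thru t x y p q) : B.Mem p := h.2.1

lemma Thru.mem_right (h : B.Thru t x y p q) : B.Mem q := h.2.2.1

lemma dist_le_through (ht : ∀ e, 0 ≤ t e) (hx : B.Mem x) (hy : B.Mem y) (hp : B.Mem p)
    (hq : B.Mem q) (hn : Nbr p q) :
    B.dist t x y ≤ B.dist t x p + t s(p, q) + B.dist t q y := by
  linarith [dist_triangle ht hx hp hy, dist_triangle ht hp hq hy, dist_le_edge ht hp hq hn]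

/-- An optimal walk goes through each of its steps. -/
lemma thru_of_optimal (ht : ∀ e, 0 ≤ t e) (h : B.IsWalk f m x y)
    (hc : pathCost t f m = B.dist t x y) {k : ℕ} (hk : k < m) :
    B.Thru t x y (f k) (f (k + 1)) ∧ B.dist t x (f k) = pathCost t f k ∧
      B.dist t (f (k + 1)) y = pathCost t (fun l => f (k + 1 + l)) (m - (k + 1)) := by
  have h1 := h.initSeg (i := k) hk.le
  have h2 := h.suffix (i := k + 1) hk
  have e : pathCost t f m = pathCost t f k + t s(f k, f (k + 1))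
      + pathCost t (fun l => f (k + 1 + l)) (m - (k + 1)) := by
    rw [pathCost_split t f (show k + 1 ≤ m from hk)]
    congr 1
    simp [pathCost, sum_range_succ]
  have := dist_le ht h1
  have := dist_le ht h2
  have := dist_le_through ht h.mem_left h.mem_right (h.2 k hk.le) (h.2 (k + 1) hk) (h.1.2.2 k hk)
  exact ⟨⟨h.1.2.2 k hk, h.2 k hk.le, h.2 (k + 1) hk, by linarith⟩, by linarith, by linarith⟩

lemma Thru.dist_left (h : B.Thru t x y p q) (ht : ∀ e, 0 ≤ t e) (hx : B.Mem x) (hy : B.Mem y) :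
    B.dist t x q = B.dist t x p + t s(p, q) := by
  obtain ⟨hn, hp, hq, he⟩ := h
  linarith [dist_triangle ht hx hp hq, dist_le_edge ht hp hq hn, dist_triangle ht hx hq hy]

lemma Thru.dist_right (h : B.Thru t x y p q) (ht : ∀ e, 0 ≤ t e) (hx : B.Mem x) (hy : B.Mem y) :
    B.dist t p y = t s(p, q) + B.dist t q y := by
  obtain ⟨hn, hp, hq, he⟩ := h
  linarith [dist_triangle ht hp hq hy, dist_le_edge ht hp hq hn, dist_triangle ht hx hp hy]

lemma Thru.symm (h : B.Thru t x y p q) : B.Thru t y x q p := by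
  obtain ⟨hn, hp, hq, he⟩ := h
  refine ⟨hn.symm, hq, hp, ?_⟩
  rw [dist_comm B t y x, he, dist_comm B t y q, dist_comm B t p x, Sym2.eq_swap]
  ring

lemma Thru.not_swap (h : B.Thru t x y p q) (h' : B.Thru t x y q p) (ht : ∀ e, 0 ≤ t e)
    (hpos : 0 < t s(p, q)) (hx : B.Mem x) (hy : B.Mem y) : False := by
  have e := h'.2.2.2
  rw [Sym2.eq_swap] at e
  linarith [h.2.2.2, dist_triangle ht hx h.mem_left hy, dist_triangle ht hx h.mem_right hy]

/-- Segments with a common root use a common edge in the same direction. -/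
lemma Thru.same_root {x' p' q' : V} (h : B.Thru t x y p q) (h' : B.Thru t x' y p' q')
    (ht : ∀ e, 0 ≤ t e) (hpos : 0 < t s(p, q)) (hx : B.Mem x) (hx' : B.Mem x') (hy : B.Mem y)
    (he : s(p', q') = s(p, q)) : p' = p ∧ q' = q := by
  rcases Sym2.eq_iff.1 he with h0 | ⟨rfl, rfl⟩
  · exact h0
  · exfalso
    have e1 := h.dist_right ht hx hy
    have e2 := h'.dist_right ht hx' hy
    rw [Sym2.eq_swap] at e2
    linarith

/-! ### Raising one weight and margins -/

lemma raise_apply_self (t : Env) (e : Sym2 V) (D : ℝ) : raise t e D e = t e + D := by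
  simp [raise]

lemma raise_apply_ne {e d : Sym2 V} (h : d ≠ e) (t : Env) (D : ℝ) : raise t e D d = t d := by
  simp [raise, h]

lemma le_raise (t : Env) (e : Sym2 V) (hD : 0 ≤ D) (d : Sym2 V) : t d ≤ raise t e D d := by
  by_cases h : d = e
  · subst h; rw [raise_apply_self]; linarith
  · rw [raise_apply_ne h]

lemma raise_nonneg (ht : ∀ e, 0 ≤ t e) (e : Sym2 V) (hD : 0 ≤ D) (d : Sym2 V) :
    0 ≤ raise t e D d := (ht d).trans (le_raise t e hD d)

lemma pathCost_raise_of_avoid {e : Sym2 V} (h : ∀ k < m, s(f k, f (k + 1)) ≠ e) (t : Env)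
    (D : ℝ) : pathCost (raise t e D) f m = pathCost t f m :=
  sum_congr rfl fun k hk => raise_apply_ne (h k (mem_range.1 hk)) t D

lemma pathCost_raise_of_mem {e : Sym2 V} (hs : IsSimple f m) {k : ℕ} (hk : k < m)
    (he : s(f k, f (k + 1)) = e) (t : Env) (D : ℝ) :
    pathCost (raise t e D) f m = pathCost t f m + D := by
  have h : ∀ i ∈ range m, raise t e D s(f i, f (i + 1))
      = t s(f i, f (i + 1)) + if i = k then D else 0 := by
    intro i hi
    by_cases hik : i = k
    · subst hik; rw [if_pos rfl, he, raise_apply_self]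
    · rw [if_neg hik, add_zero, raise_apply_ne]
      exact fun h => hik (hs.edge_inj (mem_range.1 hi) hk (h.trans he.symm))
  simp only [pathCost]
  rw [sum_congr rfl h, sum_add_distrib, sum_ite_eq' (range m) k, if_pos (mem_range.2 hk)]

lemma dist_le_raise (ht : ∀ e, 0 ≤ t e) (e : Sym2 V) (hD : 0 ≤ D) (hx : B.Mem x) (hy : B.Mem y) :
    B.dist t x y ≤ B.dist (raise t e D) x y :=
  dist_mono ht (le_raise t e hD) hx hy

lemma dist_raise_le (ht : ∀ e, 0 ≤ t e) (e : Sym2 V) (hD : 0 ≤ D) (hx : B.Mem x) (hy : B.Mem y) :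
    B.dist (raise t e D) x y ≤ B.dist t x y + D := by
  obtain ⟨m, f, hf, hs, hc⟩ := exists_optimal ht hx hy
  refine (dist_le (raise_nonneg ht e hD) hf).trans ?_
  by_cases h : ∃ k < m, s(f k, f (k + 1)) = e
  · obtain ⟨k, hk, he⟩ := h
    rw [pathCost_raise_of_mem hs hk he, hc]
  · simp only [not_exists, not_and] at h
    rw [pathCost_raise_of_avoid h, hc]; linarith

/-- An optimal walk from `x` to `p` avoids `pq` if some optimal `x y` walk goes `p, q`. -/
lemma Thru.avoid_left (h : B.Thru t x y p q) (ht : ∀ e, 0 ≤ t e) (hpos : 0 < t s(p, q))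
    (hx : B.Mem x) (hy : B.Mem y) (hw : B.IsWalk f m x p) (hc : pathCost t f m = B.dist t x p) :
    ∀ k < m, s(f k, f (k + 1)) ≠ s(p, q) := by
  intro k hk he
  obtain ⟨h1, h2, -⟩ := thru_of_optimal ht hw hc hk
  have e := h.dist_left ht hx hy
  have e1 := h1.dist_left ht hx hw.mem_right
  have e3 := dist_le ht (hw.initSeg hk.le)
  have e4 := h1.2.2.2
  have e5 := dist_nonneg ht h1.mem_right hw.mem_right
  rw [he] at e1 e4
  rcases Sym2.eq_iff.1 he with ⟨a, b⟩ | ⟨a, b⟩
  · rw [a] at e1 e4; linarith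
  · rw [a] at e1 e4; rw [b] at e4 e1; linarith

lemma Thru.avoid_right (h : B.Thru t x y p q) (ht : ∀ e, 0 ≤ t e) (hpos : 0 < t s(p, q))
    (hx : B.Mem x) (hy : B.Mem y) (hw : B.IsWalk f m q y) (hc : pathCost t f m = B.dist t q y) :
    ∀ k < m, s(f k, f (k + 1)) ≠ s(p, q) := by
  intro k hk he
  have h' := h.symm.avoid_left ht (by rwa [Sym2.eq_swap]) hy hx hw.reverse
    (by rw [pathCost_reverse, hc, dist_comm])
  refine h' (m - (k + 1)) (by omega) ?_
  rw [show m - (m - (k + 1)) = k + 1 by omega, show m - (m - (k + 1) + 1) = k by omega,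
    Sym2.eq_swap, he, Sym2.eq_swap]

/-- Raising the edge does not change the two halves of a segment through it (B3). -/
lemma Thru.dist_raise_left (h : B.Thru t x y p q) (ht : ∀ e, 0 ≤ t e) (hpos : 0 < t s(p, q))
    (hx : B.Mem x) (hy : B.Mem y) (hD : 0 ≤ D) :
    B.dist (raise t s(p, q) D) x p = B.dist t x p := by
  obtain ⟨m, f, hf, -, hc⟩ := exists_optimal ht hx h.mem_left
  refine le_antisymm ?_ (dist_le_raise ht _ hD hx h.mem_left)
  exact (dist_le (raise_nonneg ht _ hD) hf).trans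
    (by rw [pathCost_raise_of_avoid (h.avoid_left ht hpos hx hy hf hc), hc])

lemma Thru.dist_raise_right (h : B.Thru t x y p q) (ht : ∀ e, 0 ≤ t e) (hpos : 0 < t s(p, q))
    (hx : B.Mem x) (hy : B.Mem y) (hD : 0 ≤ D) :
    B.dist (raise t s(p, q) D) q y = B.dist t q y := by
  have := h.symm.dist_raise_left ht (by rwa [Sym2.eq_swap]) hy hx hD
  rwa [Sym2.eq_swap, dist_comm, dist_comm B t y q] at this

lemma Marg.eq {e : Sym2 V} (h : B.Marg t x y e D) (ht : ∀ e, 0 ≤ t e) (hD : 0 ≤ D)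
    (hx : B.Mem x) (hy : B.Mem y) : B.dist (raise t e D) x y = B.dist t x y + D :=
  le_antisymm (dist_raise_le ht e hD hx hy) h

/-- With a positive margin every optimal walk uses the edge. -/
lemma Marg.uses {e : Sym2 V} (h : B.Marg t x y e D) (ht : ∀ e, 0 ≤ t e) (hD : 0 < D)
    (hw : B.IsWalk f m x y) (hc : pathCost t f m = B.dist t x y) :
    ∃ k < m, s(f k, f (k + 1)) = e := by
  by_contra hh
  simp only [not_exists, not_and] at hh
  have h1 := dist_le (raise_nonneg ht e hD.le) hw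
  rw [pathCost_raise_of_avoid hh, hc] at h1
  unfold Marg at h
  linarith

lemma Marg.thru (h : B.Marg t x y s(p, q) D) (ht : ∀ e, 0 ≤ t e) (hD : 0 < D)
    (hx : B.Mem x) (hy : B.Mem y) : B.Thru t x y p q ∨ B.Thru t x y q p := by
  obtain ⟨m, f, hf, -, hc⟩ := exists_optimal ht hx hy
  obtain ⟨k, hk, he⟩ := h.uses ht hD hf hc
  have h1 := (thru_of_optimal ht hf hc hk).1
  rcases Sym2.eq_iff.1 he with ⟨a, b⟩ | ⟨a, b⟩ <;> rw [a, b] at h1
  exacts [Or.inl h1, Or.inr h1]

lemma Marg.comm {e : Sym2 V} (h : B.Marg t x y e D) : B.Marg t y x e D := by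
  unfold Marg at *
  rwa [dist_comm B t y x, dist_comm B (raise t e D) y x]

lemma Marg.mono {e : Sym2 V} (h : B.Marg t x y e D) (ht : ∀ e, 0 ≤ t e) {D' : ℝ} (h0 : 0 ≤ D')
    (hle : D' ≤ D) (hx : B.Mem x) (hy : B.Mem y) : B.Marg t x y e D' := by
  obtain ⟨m, f, hf, hs, hc⟩ := exists_optimal (raise_nonneg ht e h0) hx hy
  unfold Marg at *
  rw [← hc]
  by_cases hu : ∃ k < m, s(f k, f (k + 1)) = e
  · obtain ⟨k, hk, he⟩ := hu
    rw [pathCost_raise_of_mem hs hk he]
    linarith [dist_le ht hf]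
  · simp only [not_exists, not_and] at hu
    have h1 := dist_le (raise_nonneg ht e (h0.trans hle)) hf
    rw [pathCost_raise_of_avoid hu] at h1
    rw [pathCost_raise_of_avoid hu]
    linarith

lemma Seg.symm {i j : ℕ} (h : B.Seg t i j p q D) : B.Seg t j i q p D := by
  obtain ⟨hi, hj, h1, h2⟩ := h
  exact ⟨hj, hi, h1.symm, by rw [Sym2.eq_swap]; exact h2.comm⟩

/-! ### Gains -/

lemma gain_nonneg (ht : ∀ e, 0 ≤ t e) {K : V} (hK : B.Mem K) (hp : B.Mem p) (hq : B.Mem q)
    (hn : Nbr p q) : 0 ≤ B.gain t K p q := by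
  have := dist_triangle ht hp hq hK
  have := dist_le_edge ht hp hq hn
  unfold gain
  linarith

/-- The gains along a walk telescope. -/
lemma sum_gain (B : Box) (t : Env) (K : V) (f : ℕ → V) (m : ℕ) :
    ∑ k ∈ range m, B.gain t K (f k) (f (k + 1))
      = pathCost t f m + B.dist t (f m) K - B.dist t (f 0) K := by
  induction m with
  | zero => simp [pathCost]
  | succ m ih =>
    rw [sum_range_succ, ih]
    simp only [gain, pathCost, sum_range_succ]
    ring

/-! ### Sub-boxes -/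

lemma IsWalk.of_subset (hsub : ∀ w, S.Mem w → B.Mem w) (h : S.IsWalk f m x y) :
    B.IsWalk f m x y :=
  ⟨h.1, fun i hi => hsub _ (h.2 i hi)⟩

lemma dist_le_sub (ht : ∀ e, 0 ≤ t e) (hsub : ∀ w, S.Mem w → B.Mem w) (hx : S.Mem x)
    (hy : S.Mem y) : B.dist t x y ≤ S.dist t x y :=
  le_dist hx hy fun _ _ hf => dist_le ht (hf.of_subset hsub)

/-- A walk from outside to an inner vertex: the part after the last visit to the boundary. -/
lemma last_exit (hw : B.IsWalk f m x y) (hx : ¬ S.Inner x) (hy : S.Inner y) :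
    ∃ k < m, S.Bdry (f k) ∧ S.IsWalk (fun l => f (k + l)) (m - k) (f k) y := by
  classical
  have hne : ((range (m + 1)).filter fun k => ¬ S.Inner (f k)).Nonempty :=
    ⟨0, by simp [hw.1.1, hx]⟩
  obtain ⟨k, hk, hmax⟩ := exists_max_image _ id hne
  simp only [mem_filter, mem_range, id] at hk hmax
  have hkm : k < m := by
    rcases (Nat.lt_succ_iff.1 hk.1).lt_or_eq with h | h
    · exact h
    · exact absurd hy (by rw [← hw.1.2.1, ← h]; exact hk.2)
  have hin : ∀ l, k < l → l ≤ m → S.Inner (f l) := fun l h1 h2 => by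
    by_contra h
    have := hmax l ⟨Nat.lt_succ_of_le h2, h⟩
    omega
  have hmem : S.Mem (f k) := (hin (k + 1) (by omega) hkm).mem_of_nbr (hw.1.2.2 k hkm).symm
  refine ⟨k, hkm, ⟨hmem, hk.2⟩, ⟨(hw.suffix hkm.le).1, fun l hl => ?_⟩⟩
  rcases Nat.eq_zero_or_pos l with h | h
  · subst h; simpa using hmem
  · exact (hin (k + l) (by omega) (by omega)).mem

/-- Sub-box exits of a margin segment (B4). -/
theorem Seg.sub {i j : ℕ} (h : B.Seg t i j p q D) (ht : ∀ e, 0 ≤ t e) (hpos : 0 < t s(p, q))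
    (hD : 0 ≤ D) (hsub : ∀ w, S.Mem w → B.Mem w) (hp : S.Inner p) (hq : S.Inner q) :
    ∃ i' j', S.Seg t i' j' p q D ∧ S.dist t (S.pos i') p = B.dist t (S.pos i') p ∧
      S.dist t q (S.pos j') = B.dist t q (S.pos j') ∧
      B.dist t (B.pos i) p = B.dist t (B.pos i) (S.pos i') + B.dist t (S.pos i') p ∧
      B.dist t q (B.pos j) = B.dist t q (S.pos j') + B.dist t (S.pos j') (B.pos j) := by
  obtain ⟨hi, hj, hthru, hmarg⟩ := h
  set x := B.pos i
  set y := B.pos j
  have hx : B.Mem x := B.pos_mem hi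
  have hy : B.Mem y := B.pos_mem hj
  have hxo : ¬ S.Inner x := fun h => (B.pos_bdry hi).2 (h.of_subset hsub)
  have hyo : ¬ S.Inner y := fun h => (B.pos_bdry hj).2 (h.of_subset hsub)
  obtain ⟨m, f, hf, -, hcf⟩ := exists_optimal ht hx hthru.mem_left
  obtain ⟨n, g, hg, -, hcg⟩ := exists_optimal ht hy hthru.mem_right
  obtain ⟨k, hk, hka, hkw⟩ := last_exit hf hxo hp
  obtain ⟨l, hl, hlb, hlw⟩ := last_exit hg hyo hq
  set a := f k
  set b := g l
  have haB : B.Mem a := hsub _ hka.1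
  have hbB : B.Mem b := hsub _ hlb.1
  have f1 := dist_le ht (hf.initSeg hk.le)
  have f2 := dist_le ht hkw
  have f3 := pathCost_split t f hk.le
  have f4 := dist_triangle ht hx haB hthru.mem_left
  have f5 := dist_le_sub (x := a) (y := p) ht hsub hka.1 hp.mem
  have g1 := dist_le ht (hg.initSeg hl.le)
  have g2 := dist_le ht hlw
  have g3 := pathCost_split t g hl.le
  have g4 := dist_triangle ht hy hbB hthru.mem_right
  have g5 := dist_le_sub (x := b) (y := q) ht hsub hlb.1 hq.mem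
  have c1 := dist_comm B t q b
  have c2 := dist_comm S t q b
  have c3 := dist_comm B t q y
  have c4 := dist_comm B t b y
  have he := hthru.2.2.2
  have hSle := dist_le_through ht hka.1 hlb.1 hp.mem hq.mem hthru.1
  have h6 := dist_le_sub (x := a) (y := b) ht hsub hka.1 hlb.1
  have h7 := dist_le_through ht haB hbB hthru.mem_left hthru.mem_right hthru.1
  have h8 := dist_triangle ht hx haB hy
  have h9 := dist_triangle ht haB hbB hy
  have hr : ∀ e, 0 ≤ raise t s(p, q) D e := raise_nonneg ht _ hD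
  -- the outer pieces avoid the edge
  have r1 : B.dist (raise t s(p, q) D) x a ≤ pathCost t f k := by
    refine (dist_le hr (hf.initSeg hk.le)).trans (le_of_eq ?_)
    exact pathCost_raise_of_avoid
      (fun l hl' => hthru.avoid_left ht hpos hx hy hf hcf l (by omega)) t D
  have r2 : B.dist (raise t s(p, q) D) y b ≤ pathCost t g l := by
    refine (dist_le hr (hg.initSeg hl.le)).trans (le_of_eq ?_)
    refine pathCost_raise_of_avoid (fun l' hl' => ?_) t D
    rw [Sym2.eq_swap (a := p)]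
    exact hthru.symm.avoid_left ht (by rwa [Sym2.eq_swap]) hy hx hg hcg l' (by omega)
  have r3 := dist_triangle hr hx haB hy
  have r4 := dist_triangle hr haB hbB hy
  have r5 := dist_comm B (raise t s(p, q) D) y b
  have r6 := dist_le_sub (x := a) (y := b) hr hsub hka.1 hlb.1
  unfold Marg at hmarg
  obtain ⟨i', hi', hia⟩ := exists_pos hka
  obtain ⟨j', hj', hjb⟩ := exists_pos hlb
  refine ⟨i', j', ⟨hi', hj', ?_, ?_⟩, ?_, ?_, ?_, ?_⟩ <;> rw [hia] at * <;> try rw [hjb] at *
  · exact ⟨hthru.1, hp.mem, hq.mem, by linarith⟩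
  · unfold Marg; linarith
  all_goals linarith

/-- Entering decomposition (B5). -/
theorem exists_hit (ht : ∀ e, 0 ≤ t e) (hsub : ∀ w, S.Mem w → B.Mem w) (hz : S.Mem z)
    (hy : B.Mem y) (hyo : ¬ S.Inner y) :
    ∃ w, S.Bdry w ∧ B.dist t z y = S.dist t z w + B.dist t w y := by
  by_cases hzi : S.Inner z
  · obtain ⟨m, f, hf, -, hc⟩ := exists_optimal ht hy (hsub z hz)
    obtain ⟨k, hk, hkb, hkw⟩ := last_exit hf hyo hzi
    refine ⟨f k, hkb, le_antisymm ?_ ?_⟩
    · linarith [dist_triangle ht (hsub z hz) (hsub _ hkb.1) hy,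
        dist_le_sub (x := z) (y := f k) ht hsub hz hkb.1]
    · rw [dist_comm B t z y, ← hc, pathCost_split t f hk.le, dist_comm S t z, dist_comm B t _ y]
      linarith [dist_le ht (hf.initSeg hk.le), dist_le ht hkw]
  · exact ⟨z, ⟨hz, hzi⟩, by rw [dist_self ht hz, zero_add]⟩

lemma dist_le_hit (ht : ∀ e, 0 ≤ t e) (hsub : ∀ w, S.Mem w → B.Mem w) (hz : S.Mem z)
    {w : V} (hw : S.Mem w) (hy : B.Mem y) :
    B.dist t z y ≤ S.dist t z w + B.dist t w y :=
  (dist_triangle ht (hsub z hz) (hsub w hw) hy).trans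
    (add_le_add (dist_le_sub ht hsub hz hw) le_rfl)

/-- A difference of two outside distance functions takes its extremes on the boundary. -/
theorem diff_between (ht : ∀ e, 0 ≤ t e) (hsub : ∀ w, S.Mem w → B.Mem w) (hz : S.Mem z)
    {y' : V} (hy : B.Mem y) (hyo : ¬ S.Inner y) (hy' : B.Mem y') (hyo' : ¬ S.Inner y') :
    ∃ w w', S.Bdry w ∧ S.Bdry w' ∧ B.diff t y y' w ≤ B.diff t y y' z ∧
      B.diff t y y' z ≤ B.diff t y y' w' := by
  obtain ⟨w, hw, e⟩ := exists_hit ht hsub hz hy hyo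
  obtain ⟨w', hw', e'⟩ := exists_hit ht hsub hz hy' hyo'
  have := dist_le_hit ht hsub hz hw.1 hy'
  have := dist_le_hit ht hsub hz hw'.1 hy
  exact ⟨w, w', hw, hw', by simp only [diff]; linarith, by simp only [diff]; linarith⟩

/-! ### Translations -/

lemma shift_mem (v : V) : (B.shift v).Mem (z + v) ↔ B.Mem z := by
  simp [Mem, Box.shift]

lemma shift_inner (v : V) : (B.shift v).Inner (z + v) ↔ B.Inner z := by
  simp [Inner, Box.shift]

lemma shift_len (v : V) : (B.shift v).len = B.len := rfl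

lemma shift_pos (v : V) (k : ℕ) : (B.shift v).pos k = B.pos k + v := by
  unfold pos
  rw [show (B.shift v).M = B.M from rfl, show (B.shift v).c = B.c + v from rfl]
  split_ifs <;> ext <;> simp only [Prod.fst_add, Prod.snd_add] <;> omega

lemma dist_shift (B : Box) (t : Env) (v x y : V) :
    (B.shift v).dist t (x + v) (y + v) = B.dist (P158.shift v t) x y := by
  unfold dist
  congr 1
  ext r
  constructor
  · rintro ⟨m, f, ⟨⟨h0, hm, hs⟩, hb⟩, rfl⟩
    refine ⟨m, fun k => f k - v, ⟨⟨by simp [h0], by simp [hm],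
      fun i hi => (nbr_add v).1 (by simpa using hs i hi)⟩,
      fun i hi => (shift_mem v).1 (by simpa using hb i hi)⟩, ?_⟩
    simp [pathCost]
  · rintro ⟨m, f, ⟨⟨h0, hm, hs⟩, hb⟩, rfl⟩
    exact ⟨m, fun k => f k + v, ⟨⟨by simp [h0], by simp [hm],
      fun i hi => (nbr_add v).2 (hs i hi)⟩,
      fun i hi => (shift_mem v).2 (hb i hi)⟩, rfl⟩

lemma shift_raise (v : V) (t : Env) (a b : V) (D : ℝ) :
    P158.shift v (raise t s(a + v, b + v) D) = raise (P158.shift v t) s(a, b) D := by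
  funext e
  by_cases he : e = s(a, b)
  · subst he
    simp [raise_apply_self]
  · rw [raise_apply_ne he]
    refine raise_apply_ne (fun h => he ?_) _ _
    have h' : (pairShift v) e = (pairShift v) s(a, b) := h
    exact (pairShift v).injective h'

lemma seg_shift (v : V) (i j : ℕ) :
    (B.shift v).Seg t i j (p + v) (q + v) D ↔ B.Seg (P158.shift v t) i j p q D := by
  simp only [Seg, Thru, Marg, shift_len, shift_pos, shift_mem, dist_shift, shift_raise, nbr_add,
    shift_apply]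

end Box

end Vale.Agent.P158.NB
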