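import Vale.Agent.P158.NB.Box

/-!
Few edges per class (`PROOF.md`, section 6): margin segments of one box at edges of a tile whose
endpoint functions differ little on the tile use few edges.
-/

open Finset

namespace Vale.Agent.P158.NB

namespace Classes

variable {B : Box} {t u : Env} {x y z p q a b : V} {e : Sym2 V} {D : ℝ}

lemma nbr_symm (h : Nbr x y) : Nbr y x := by
  simp only [Nbr, abs_sub_comm y.1, abs_sub_comm y.2] at h ⊢
  exact h

lemma dist_le (ht : ∀ e, 0 ≤ t e) {f : ℕ → V} {m : ℕ} (h : B.IsWalk f m x y) :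
    B.dist t x y ≤ pathCost t f m :=
  csInf_le ⟨0, by rintro r ⟨m, f, -, rfl⟩; exact sum_nonneg fun _ _ => ht _⟩ ⟨m, f, h, rfl⟩

lemma walk_append {f g : ℕ → V} {m n : ℕ} (hf : B.IsWalk f m x y) (hg : B.IsWalk g n y z) :
    ∃ h, B.IsWalk h (m + n) x z ∧ ∀ w : Env, pathCost w h (m + n) = pathCost w f m + pathCost w g n := by
  obtain ⟨⟨f0, fm, fs⟩, fM⟩ := hf
  obtain ⟨⟨g0, gn, gs⟩, gM⟩ := hg
  refine ⟨fun i => if i ≤ m then f i else g (i - m), ⟨⟨by simp [f0], ?_, fun i hi => ?_⟩, fun i hi => ?_⟩,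
    fun w => ?_⟩
  · by_cases h : m + n ≤ m
    · obtain rfl : n = 0 := by omega
      simp [fm, ← g0, gn]
    · simp [h, gn]
  · by_cases h1 : i + 1 ≤ m
    · simpa [h1, (by omega : i ≤ m)] using fs i (by omega)
    · by_cases h2 : i ≤ m
      · obtain rfl : i = m := by omega
        simpa [h1, fm, g0] using gs 0 (by omega)
      · simpa [h1, h2, show i + 1 - m = i - m + 1 by omega] using gs (i - m) (by omega)
  · show B.Mem (if i ≤ m then f i else g (i - m))
    split_ifs with h
    · exact fM i h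
    · exact gM (i - m) (by omega)
  · rw [pathCost, sum_range_add]
    congr 1
    · refine sum_congr rfl fun i hi => ?_
      rw [mem_range] at hi
      simp [(by omega : i ≤ m), (by omega : i + 1 ≤ m)]
    · refine sum_congr rfl fun i _ => ?_
      rcases i with _ | i
      · simp [fm, g0]
      · simp [(by omega : ¬ m + (i + 1) ≤ m), (by omega : ¬ m + (i + 1) + 1 ≤ m),
          (by omega : m + (i + 1) + 1 - m = i + 1 + 1), Nat.add_sub_cancel_left]

lemma walk_rev {f : ℕ → V} {m : ℕ} (hf : B.IsWalk f m x y) :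
    ∃ h, B.IsWalk h m y x ∧ ∀ w : Env, pathCost w h m = pathCost w f m := by
  obtain ⟨⟨f0, fm, fs⟩, fM⟩ := hf
  refine ⟨fun i => f (m - i), ⟨⟨by simp [fm], by simp [f0], fun i hi => ?_⟩,
    fun i _ => fM _ (Nat.sub_le _ _)⟩, fun w => ?_⟩
  · have := nbr_symm (fs (m - (i + 1)) (by omega))
    simpa [show m - (i + 1) + 1 = m - i by omega] using this
  · rw [pathCost, pathCost, ← sum_range_reflect]
    refine sum_congr rfl fun i hi => ?_
    rw [mem_range] at hi
    rw [Sym2.eq_swap, show m - (m - 1 - i) = i + 1 by omega,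
      show m - (m - 1 - i + 1) = i by omega]

lemma exists_walk (hx : B.Mem x) (hy : B.Mem y) : ∃ f m, B.IsWalk f m x y := by
  induction hn : (x.1 - y.1).natAbs + (x.2 - y.2).natAbs using Nat.strong_induction_on
    generalizing x with
  | _ n ih =>
    subst hn
    by_cases hxy : x = y
    · subst hxy
      exact ⟨fun _ => x, 0, ⟨rfl, rfl, fun i hi => by omega⟩, fun _ _ => hx⟩
    obtain ⟨z, hz, hxz, hlt⟩ : ∃ z, B.Mem z ∧ Nbr x z ∧
        (z.1 - y.1).natAbs + (z.2 - y.2).natAbs < (x.1 - y.1).natAbs + (x.2 - y.2).natAbs := by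
      simp only [Box.Mem, abs_le] at hx hy ⊢
      rcases lt_trichotomy x.1 y.1 with h | h | h
      · exact ⟨(x.1 + 1, x.2), by constructor <;> constructor <;> dsimp only <;> omega,
          by simp [Nbr], by dsimp only; omega⟩
      · rcases lt_trichotomy x.2 y.2 with h' | h' | h'
        · exact ⟨(x.1, x.2 + 1), by constructor <;> constructor <;> dsimp only <;> omega,
            by simp [Nbr], by dsimp only; omega⟩
        · exact absurd (Prod.ext h h') hxy
        · exact ⟨(x.1, x.2 - 1), by constructor <;> constructor <;> dsimp only <;> omega,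
            by simp [Nbr], by dsimp only; omega⟩
      · exact ⟨(x.1 - 1, x.2), by constructor <;> constructor <;> dsimp only <;> omega,
          by simp [Nbr], by dsimp only; omega⟩
    obtain ⟨f, m, hf⟩ := ih _ hlt hz rfl
    obtain ⟨h, hh, -⟩ := walk_append (f := fun i => if i = 0 then x else z) (m := 1) (x := x) (y := z)
      ⟨⟨by simp, by simp, fun i hi => by simpa [(by omega : i = 0)] using hxz⟩,
        fun i hi => by dsimp only; split_ifs <;> assumption⟩ hf
    exact ⟨h, 1 + m, hh⟩

lemma costs_nonempty (hx : B.Mem x) (hy : B.Mem y) : (B.costs t x y).Nonempty :=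
  let ⟨f, m, hf⟩ := exists_walk hx hy
  ⟨_, m, f, hf, rfl⟩

lemma le_dist {r : ℝ} (hx : B.Mem x) (hy : B.Mem y)
    (h : ∀ f m, B.IsWalk f m x y → r ≤ pathCost t f m) : r ≤ B.dist t x y :=
  le_csInf (costs_nonempty hx hy) (by rintro s ⟨m, f, hf, rfl⟩; exact h f m hf)

lemma dist_triangle (ht : ∀ e, 0 ≤ t e) (hx : B.Mem x) (hy : B.Mem y) (hz : B.Mem z) :
    B.dist t x z ≤ B.dist t x y + B.dist t y z := by
  rw [← sub_le_iff_le_add]
  refine le_dist hx hy fun f m hf => ?_
  rw [sub_le_iff_le_add, ← sub_le_iff_le_add']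
  refine le_dist hy hz fun g n hg => ?_
  obtain ⟨h, hh, hc⟩ := walk_append hf hg
  linarith [dist_le ht hh, hc t]

lemma dist_comm_le (ht : ∀ e, 0 ≤ t e) (hx : B.Mem x) (hy : B.Mem y) :
    B.dist t x y ≤ B.dist t y x :=
  le_dist hy hx fun f _ hf => by
    obtain ⟨h, hh, hc⟩ := walk_rev hf
    exact (dist_le ht hh).trans (hc t).le

lemma dist_comm (ht : ∀ e, 0 ≤ t e) (hx : B.Mem x) (hy : B.Mem y) :
    B.dist t x y = B.dist t y x :=
  le_antisymm (dist_comm_le ht hx hy) (dist_comm_le ht hy hx)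

lemma dist_step (ht : ∀ e, 0 ≤ t e) (hx : B.Mem x) (hy : B.Mem y) (h : Nbr x y) :
    B.dist t x y ≤ t s(x, y) := by
  refine le_trans (dist_le ht (f := fun i => if i = 0 then x else y) (m := 1)
    ⟨⟨by simp, by simp, fun i hi => by simpa [(by omega : i = 0)] using h⟩,
      fun i hi => by dsimp only; split_ifs <;> assumption⟩) ?_
  simp [pathCost]

lemma raise_of_ne {e' : Sym2 V} (h : e' ≠ e) : raise t e D e' = t e' := by
  classical
  simp [raise, Function.update_of_ne h]

lemma le_raise (hD : 0 ≤ D) (e' : Sym2 V) : t e' ≤ raise t e D e' := by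
  classical
  by_cases h : e' = e
  · subst h; simp [raise]; linarith
  · rw [raise_of_ne h]

/-- Either raising the edge does not matter, or an optimal path goes through it. -/
lemma raise_le_or_via (ht : ∀ e, 0 ≤ t e) (hD : 0 ≤ D) (hx : B.Mem x) (hy : B.Mem y)
    (hp : B.Mem p) (hq : B.Mem q) (hpq : Nbr p q) :
    B.dist (raise t s(p, q) D) x y ≤ B.dist t x y ∨
      B.dist t x p + t s(p, q) + B.dist t q y = B.dist t x y ∨
      B.dist t x q + t s(p, q) + B.dist t p y = B.dist t x y := by
  set r := min (B.dist (raise t s(p, q) D) x y)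
    (min (B.dist t x p + t s(p, q) + B.dist t q y) (B.dist t x q + t s(p, q) + B.dist t p y))
  have htr : ∀ e', 0 ≤ raise t s(p, q) D e' := fun e' => (ht e').trans (le_raise hD e')
  have hr : r ≤ B.dist t x y := by
    refine le_dist hx hy fun f m hf => ?_
    by_cases h : ∀ i < m, s(f i, f (i + 1)) ≠ s(p, q)
    · refine (min_le_left _ _).trans ((dist_le htr hf).trans (le_of_eq ?_))
      exact sum_congr rfl fun i hi => raise_of_ne (h i (mem_range.1 hi))
    push Not at h
    obtain ⟨i, hi, he⟩ := h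
    obtain ⟨⟨f0, fm, fs⟩, fM⟩ := hf
    have h1 : B.IsWalk f i x (f i) :=
      ⟨⟨f0, rfl, fun k hk => fs k (by omega)⟩, fun k hk => fM k (by omega)⟩
    have h2 : B.IsWalk (fun k => f (i + 1 + k)) (m - (i + 1)) (f (i + 1)) y :=
      ⟨⟨by simp, by simp [Nat.add_sub_cancel' (by omega : i + 1 ≤ m), fm],
        fun k hk => fs (i + 1 + k) (by omega)⟩, fun k hk => fM _ (by omega)⟩
    have hc : pathCost t f m = pathCost t f i + t s(p, q) +
        pathCost t (fun k => f (i + 1 + k)) (m - (i + 1)) := by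
      obtain ⟨k, rfl⟩ := Nat.exists_eq_add_of_le (by omega : i + 1 ≤ m)
      simp only [pathCost, Nat.add_sub_cancel_left, sum_range_add, sum_range_succ, he]
      simp [add_assoc]
    have g1 := dist_le ht h1
    have g2 := dist_le ht h2
    rw [hc]
    rcases Sym2.eq_iff.1 he with ⟨e1, e2⟩ | ⟨e1, e2⟩ <;> rw [e1] at g1 <;> rw [e2] at g2
    · exact le_trans ((min_le_right _ _).trans (min_le_left _ _)) (by linarith)
    · exact le_trans ((min_le_right _ _).trans (min_le_right _ _)) (by linarith)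
  have u1 : B.dist t x y ≤ B.dist t x p + t s(p, q) + B.dist t q y := by
    linarith [dist_triangle ht hx hp hy, dist_triangle ht hp hq hy, dist_step ht hp hq hpq]
  have u2 : B.dist t x y ≤ B.dist t x q + t s(p, q) + B.dist t p y := by
    have := dist_step ht hq hp (nbr_symm hpq)
    rw [Sym2.eq_swap] at this
    linarith [dist_triangle ht hx hq hy, dist_triangle ht hq hp hy]
  rcases min_le_iff.1 hr with h | h
  · exact Or.inl h
  rcases min_le_iff.1 h with h | h
  · exact Or.inr (Or.inl (le_antisymm h u1))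
  · exact Or.inr (Or.inr (le_antisymm h u2))

/-- The margin segment at `(p', q')` that nearly passes through `(p, q)` separates `p` from `p'`. -/
lemma dist_le_increment (ht : ∀ e, 0 < t e) {p' q' : V} {ε δ : ℝ} (ha : B.Mem a) (hb : B.Mem b)
    (hp : B.Mem p) (hq : B.Mem q) (hpq : Nbr p q) (h2 : B.Thru t a b p' q')
    (hm : B.Marg t a b s(p', q') δ) (hne : s(p, q) ≠ s(p', q'))
    (hx : B.dist t p a + t s(p, q) + B.dist t q b ≤ B.dist t a b + ε) (hδ : 0 ≤ ε)
    (hεδ : ε < δ) : B.dist t p p' - ε ≤ |B.dist t p a - B.dist t p' a| := by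
  have h0 : ∀ e, 0 ≤ t e := fun e => (ht e).le
  obtain ⟨hn, hp', hq', heq⟩ := h2
  have hD : 0 ≤ δ := hδ.trans hεδ.le
  have h0' : ∀ e', 0 ≤ raise t s(p', q') δ e' := fun e' => (h0 e').trans (le_raise hD e')
  have hap : B.dist t p a = B.dist t a p := dist_comm h0 hp ha
  have hap' : B.dist t p' a = B.dist t a p' := dist_comm h0 hp' ha
  have hpos := ht s(p', q')
  have hsum : B.dist (raise t s(p', q') δ) a b ≤ B.dist (raise t s(p', q') δ) a p + t s(p, q) +
      B.dist (raise t s(p', q') δ) q b := by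
    have h := dist_step h0' hp hq hpq
    rw [raise_of_ne hne] at h
    linarith [dist_triangle h0' ha hp hb, dist_triangle h0' hp hq hb]
  have hm' : B.dist t a b + δ ≤ B.dist (raise t s(p', q') δ) a b := hm
  rcases raise_le_or_via h0 hD ha hp hp' hq' hn with h | h | h
  · rcases raise_le_or_via h0 hD hq hb hp' hq' hn with g | g | g
    · linarith
    · -- the second half runs through the edge
      have e1 : B.dist t a b ≤ B.dist t a p' + B.dist t p' b := dist_triangle h0 ha hp' hb
      have e2 : B.dist t p p' ≤ t s(p, q) + B.dist t q p' := by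
        linarith [dist_triangle h0 hp hq hp', dist_step h0 hp hq hpq]
      have e3 : B.dist t p' b ≤ t s(p', q') + B.dist t q' b := by
        linarith [dist_triangle h0 hp' hq' hb, dist_step h0 hp' hq' hn]
      refine le_abs.2 (Or.inr ?_)
      linarith
    · have e1 : B.dist t a b ≤ B.dist t a p' + B.dist t p' b := dist_triangle h0 ha hp' hb
      have e2 : B.dist t q' b ≤ t s(p', q') + B.dist t p' b := by
        have h := dist_step h0 hq' hp' (nbr_symm hn)
        rw [Sym2.eq_swap] at h
        linarith [dist_triangle h0 hq' hp' hb]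
      have e3 : B.dist t q b ≤ B.dist t q p' + B.dist t p' b := dist_triangle h0 hq hp' hb
      have e4 : B.dist t p' b ≤ t s(p', q') + B.dist t q' b := by
        linarith [dist_triangle h0 hp' hq' hb, dist_step h0 hp' hq' hn]
      have e5 : B.dist t q b ≤ B.dist t q q' + B.dist t q' b := dist_triangle h0 hq hq' hb
      linarith
  · -- the first half runs through the edge
    have e1 : B.dist t p p' ≤ t s(p', q') + B.dist t q' p := by
      rw [dist_comm h0 hp hp']
      linarith [dist_triangle h0 hp' hq' hp, dist_step h0 hp' hq' hn]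
    refine le_abs.2 (Or.inl ?_)
    linarith
  · have e1 : B.dist t a b ≤ B.dist t a q' + B.dist t q' b := dist_triangle h0 ha hq' hb
    have e2 : B.dist t a p ≤ B.dist t a p' + B.dist t p' p := dist_triangle h0 ha hp' hp
    linarith

/-- Points with pairwise separated values in a short range are few. -/
lemma card_separated {ι : Type*} (s : Finset ι) (φ : ι → ℝ) {m w η : ℝ} (hη : 0 < η)
    (hw : 0 ≤ w) (hrange : ∀ i ∈ s, |φ i - m| ≤ w)
    (hsep : ∀ i ∈ s, ∀ j ∈ s, i ≠ j → η ≤ |φ i - φ j|) :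
    (s.card : ℝ) ≤ 2 * w / η + 1 := by
  have hmap : ∀ i ∈ s, ⌊(φ i - m + w) / η⌋₊ ∈ range (⌊2 * w / η⌋₊ + 1) := fun i hi => by
    refine mem_range.2 (Nat.lt_succ_of_le (Nat.floor_le_floor ?_))
    gcongr
    linarith [(abs_le.1 (hrange i hi)).2]
  have hinj : Set.InjOn (fun i => ⌊(φ i - m + w) / η⌋₊) s := by
    intro i hi j hj hij
    by_contra hne
    have hi0 : 0 ≤ (φ i - m + w) / η := div_nonneg (by linarith [(abs_le.1 (hrange i hi)).1]) hη.le
    have hj0 : 0 ≤ (φ j - m + w) / η := div_nonneg (by linarith [(abs_le.1 (hrange j hj)).1]) hη.le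
    have a1 := Nat.floor_le hi0
    have a2 := Nat.lt_floor_add_one ((φ i - m + w) / η)
    have b1 := Nat.floor_le hj0
    have b2 := Nat.lt_floor_add_one ((φ j - m + w) / η)
    simp only at hij
    rw [hij] at a1 a2
    have h := hsep i hi j hj hne
    have h' : |(φ i - m + w) / η - (φ j - m + w) / η| < 1 := abs_lt.2 ⟨by linarith, by linarith⟩
    rw [← sub_div, abs_div, abs_of_pos hη, div_lt_one hη] at h'
    simp only [add_sub_add_right_eq_sub, sub_sub_sub_cancel_right] at h'
    linarith
  have h := card_le_card_of_injOn _ hmap hinj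
  rw [card_range] at h
  calc (s.card : ℝ) ≤ ((⌊2 * w / η⌋₊ + 1 : ℕ) : ℝ) := by exact_mod_cast h
    _ ≤ 2 * w / η + 1 := by
      push_cast
      linarith [Nat.floor_le (div_nonneg (by linarith : (0 : ℝ) ≤ 2 * w) hη.le)]

/-- The four edges at a vertex. -/
def star (p : V) : Finset (Sym2 V) :=
  {s(p, (p.1 + 1, p.2)), s(p, (p.1 - 1, p.2)), s(p, (p.1, p.2 + 1)), s(p, (p.1, p.2 - 1))}

lemma mem_star (h : Nbr p q) : s(p, q) ∈ star p := by
  obtain ⟨q1, q2⟩ := q
  have h' : (q1 = p.1 + 1 ∧ q2 = p.2) ∨ (q1 = p.1 - 1 ∧ q2 = p.2) ∨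
      (q1 = p.1 ∧ q2 = p.2 + 1) ∨ (q1 = p.1 ∧ q2 = p.2 - 1) := by
    simp only [Nbr] at h
    rcases abs_cases (p.1 - q1) with ⟨e1, e1'⟩ | ⟨e1, e1'⟩ <;>
      rcases abs_cases (p.2 - q2) with ⟨e2, e2'⟩ | ⟨e2, e2'⟩ <;> omega
  rcases h' with ⟨rfl, rfl⟩ | ⟨rfl, rfl⟩ | ⟨rfl, rfl⟩ | ⟨rfl, rfl⟩ <;> simp [star]

lemma card_star : (star p).card ≤ 4 := card_le_four

end Classes

open Classes

/-- Margin segments at edges of a tile whose two endpoint functions pairwise differ by at most
`ε` in oscillation on the tile use at most `4 * (2 ρ / (η - 3 ε) + 1)` edges, when distinct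
initial vertices are `η` apart and all lie within `ρ` of one vertex. -/
theorem card_class_edges (B : Box) {t : Env} (ht : ∀ e, 0 < t e) (S : Box)
    (hS : ∀ z, S.Mem z → B.Mem z) {ι : Type*} (s : Finset ι) (a b p q : ι → V) {c : V}
    {δ η ε ρ : ℝ} (hc : B.Mem c) (hρ : 0 ≤ ρ) (hε : 0 ≤ ε) (hεδ : 2 * ε < δ) (hεη : 3 * ε < η)
    (hab : ∀ i ∈ s, B.Mem (a i) ∧ B.Mem (b i))
    (hseg : ∀ i ∈ s, B.Thru t (a i) (b i) (p i) (q i) ∧ B.Marg t (a i) (b i) s(p i, q i) δ)
    (hin : ∀ i ∈ s, S.Mem (p i) ∧ S.Mem (q i))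
    (hosc : ∀ i ∈ s, ∀ j ∈ s,
      OscLe S (B.diff t (a i) (a j)) ε ∧ OscLe S (B.diff t (b i) (b j)) ε)
    (hiso : ∀ i ∈ s, ∀ j ∈ s, p i ≠ p j → η ≤ B.dist t (p i) (p j))
    (hreach : ∀ i ∈ s, B.dist t c (p i) ≤ ρ) :
    ((s.image fun i => s(p i, q i)).card : ℝ) ≤ 4 * (2 * ρ / (η - 3 * ε) + 1) := by
  classical
  have h0 : ∀ e, 0 ≤ t e := fun e => (ht e).le
  rcases s.eq_empty_or_nonempty with rfl | ⟨i₀, hi₀⟩
  · simp only [image_empty, card_empty, Nat.cast_zero]
    have : 0 < η - 3 * ε := by linarith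
    positivity
  set φ : V → ℝ := fun v => B.dist t v (a i₀)
  set P := s.image p
  have hP : ((P.card : ℕ) : ℝ) ≤ 2 * ρ / (η - 3 * ε) + 1 := by
    refine card_separated P φ (m := φ c) (by linarith) hρ ?_ ?_
    · intro v hv
      obtain ⟨i, hi, rfl⟩ := mem_image.1 hv
      have hpi := hS _ (hin i hi).1
      have ha := (hab i₀ hi₀).1
      have := dist_triangle h0 hc hpi ha
      have := dist_triangle h0 hpi hc ha
      have := dist_comm h0 hpi hc
      have := hreach i hi
      exact abs_le.2 ⟨by simp only [φ]; linarith, by simp only [φ]; linarith⟩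
    · intro v hv w hw hvw
      obtain ⟨i, hi, rfl⟩ := mem_image.1 hv
      obtain ⟨j, hj, rfl⟩ := mem_image.1 hw
      have hpi := hS _ (hin i hi).1
      have hqi := hS _ (hin i hi).2
      obtain ⟨⟨hni, -, -, hOi⟩, -⟩ := hseg i hi
      obtain ⟨⟨hnj, hpj, hqj, hOj⟩, hmj⟩ := hseg j hj
      obtain ⟨hai, hbi⟩ := hab i hi
      obtain ⟨haj, hbj⟩ := hab j hj
      have hne : s(p i, q i) ≠ s(p j, q j) := by
        intro he
        rcases Sym2.eq_iff.1 he with ⟨e, -⟩ | ⟨e1, e2⟩
        · exact hvw e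
        · -- opposite orientations of one edge
          have f := (hosc i hi j hj).1 _ _ (hin j hj).1 (hin i hi).1
          have g := (hosc i hi j hj).2 _ _ (hin j hj).2 (hin i hi).2
          rw [e1, e2] at hOi; rw [e1] at f; rw [e2] at g
          simp only [Box.diff] at f g
          have := ht s(p j, q j)
          have w1 : B.dist t (a i) (b i) ≤
              B.dist t (a i) (p j) + t s(p j, q j) + B.dist t (q j) (b i) := by
            linarith [dist_triangle h0 hai hpj hbi, dist_triangle h0 hpj hqj hbi,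
              dist_step h0 hpj hqj hnj]
          have w2 : B.dist t (a j) (b j) ≤ B.dist t (a j) (p j) + B.dist t (p j) (b j) :=
            dist_triangle h0 haj hpj hbj
          have w3 : B.dist t (a j) (b j) ≤ B.dist t (a j) (q j) + B.dist t (q j) (b j) :=
            dist_triangle h0 haj hqj hbj
          rw [Sym2.eq_swap] at hOi
          have := dist_comm h0 hpj haj
          have := dist_comm h0 hqj haj
          have := dist_comm h0 hpj hai
          have := dist_comm h0 hqj hai
          have hiso' := hiso i hi j hj hvw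
          have hqp := dist_step h0 hpj hqj hnj
          rw [e1, dist_comm h0 hqj hpj] at hiso'
          linarith
      have key : B.dist t (p i) (p j) - 2 * ε ≤
          |B.dist t (p i) (a j) - B.dist t (p j) (a j)| := by
        refine dist_le_increment ht haj hbj hpi hqi hni ⟨hnj, hpj, hqj, hOj⟩ hmj hne ?_
          (by linarith) hεδ
        have f := (hosc i hi j hj).1 _ _ (hin j hj).1 (hin i hi).1
        have f' := (hosc j hj i hi).1 _ _ (hin i hi).1 (hin j hj).1
        have g' := (hosc j hj i hi).2 _ _ (hin i hi).2 (hin j hj).2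
        simp only [Box.diff] at f f' g'
        have w1 : B.dist t (a i) (b i) ≤
            B.dist t (a i) (p j) + t s(p j, q j) + B.dist t (q j) (b i) := by
          linarith [dist_triangle h0 hai hpj hbi, dist_triangle h0 hpj hqj hbi,
            dist_step h0 hpj hqj hnj]
        have := dist_comm h0 hpi hai
        have := dist_comm h0 hpj hai
        have := dist_comm h0 hpj haj
        linarith
      have f := (hosc i₀ hi₀ j hj).1 _ _ (hin i hi).1 (hin j hj).1
      have f' := (hosc i₀ hi₀ j hj).1 _ _ (hin j hj).1 (hin i hi).1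
      have hiso' := hiso i hi j hj hvw
      simp only [Box.diff] at f f'
      simp only [φ]
      rcases le_abs.1 key with h | h
      · exact le_abs.2 (Or.inl (by linarith))
      · exact le_abs.2 (Or.inr (by linarith))
  have hsub : (s.image fun i => s(p i, q i)) ⊆ P.biUnion star := by
    intro e he
    obtain ⟨i, hi, rfl⟩ := mem_image.1 he
    exact mem_biUnion.2 ⟨p i, mem_image_of_mem _ hi, mem_star (hseg i hi).1.1⟩
  calc ((s.image fun i => s(p i, q i)).card : ℝ) ≤ ((P.card * 4 : ℕ) : ℝ) := by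
        exact_mod_cast (card_le_card hsub).trans (card_biUnion_le_card_mul _ _ _ fun _ _ => card_star)
    _ ≤ 4 * (2 * ρ / (η - 3 * ε) + 1) := by push_cast; linarith

end Vale.Agent.P158.NB
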