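import Vale.Agent.P158.NB.BoxBasic

/-!
Labels of ordered endpoint pairs (`PROOF.md`, section 5): partial sums of the increments over
the pairs of a frame of the tile, cut into pieces of length `C`.
-/

open Finset

namespace Vale.Agent.P158.NB

namespace Labels

variable {B S : Box} {t : Env}

/-- A difference of two endpoints close to their representatives is close to that of the
representatives. -/
lemma oscLe_slack {a a' r r' : V} {η C : ℝ} (h : OscLe S (B.diff t a r) η)
    (h' : OscLe S (B.diff t a' r') η) (hr : OscLe S (B.diff t r r') C) :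
    OscLe S (B.diff t a a') (C + 2 * η) := by
  intro z w hz hw
  have := h z w hz hw
  have := h' w z hw hz
  have := hr z w hz hw
  simp only [Box.diff] at *
  linarith

/-- The increments over the pairs `z i, w i` between consecutive positions of a sequence. -/
noncomputable def step (B : Box) (t : Env) (N : ℕ) (z w : ℕ → V) (k : ℕ → ℕ) (u : ℕ) : ℝ :=
  ∑ i ∈ range N,
    |B.diff t (B.pos (k (u + 1))) (B.pos (k u)) (z i) -
      B.diff t (B.pos (k (u + 1))) (B.pos (k u)) (w i)|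

variable {N : ℕ} {z w : ℕ → V}

lemma step_nonneg (k : ℕ → ℕ) (u : ℕ) : 0 ≤ step B t N z w k u :=
  sum_nonneg fun _ _ => abs_nonneg _

lemma sum_step_le {c X : ℝ} (hc : 0 ≤ c) (hmem : ∀ i < N, B.Mem (z i) ∧ B.Mem (w i))
    (hX : ∑ i ∈ range N, B.dist t (z i) (w i) ≤ X)
    (hbv : ∀ z w, B.Mem z → B.Mem w → ∀ k : ℕ → ℕ, Monotone k → (∀ u, k u ≤ B.len) → ∀ n,
      ∑ u ∈ range n, |(B.dist t z (B.pos (k (u + 1))) - B.dist t w (B.pos (k (u + 1)))) -
        (B.dist t z (B.pos (k u)) - B.dist t w (B.pos (k u)))| ≤ c * B.dist t z w)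
    {k : ℕ → ℕ} (hk : Monotone k) (hkl : ∀ u, k u ≤ B.len) (n : ℕ) :
    ∑ u ∈ range n, step B t N z w k u ≤ c * X := by
  simp only [step]
  rw [sum_comm]
  refine le_trans (sum_le_sum fun i hi => ?_)
    ((mul_sum _ _ c).symm.le.trans (mul_le_mul_of_nonneg_left hX hc))
  rw [mem_range] at hi
  refine le_trans (le_of_eq ?_) (hbv _ _ (hmem i hi).1 (hmem i hi).2 k hk hkl n)
  refine sum_congr rfl fun u _ => ?_
  simp only [Box.diff]
  congr 1
  ring

lemma oscLe_steps
    (hframe : ∀ a b, a ≤ B.len → b ≤ B.len → OscLe S (B.diff t (B.pos a) (B.pos b))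
      (∑ i ∈ range N, |B.diff t (B.pos a) (B.pos b) (z i) - B.diff t (B.pos a) (B.pos b) (w i)|))
    {k : ℕ → ℕ} (hkl : ∀ u, k u ≤ B.len) {a b : ℕ} (hab : a ≤ b) :
    OscLe S (B.diff t (B.pos (k b)) (B.pos (k a))) (∑ u ∈ Ico a b, step B t N z w k u) ∧
    OscLe S (B.diff t (B.pos (k a)) (B.pos (k b))) (∑ u ∈ Ico a b, step B t N z w k u) := by
  have key : OscLe S (B.diff t (B.pos (k b)) (B.pos (k a)))
      (∑ u ∈ Ico a b, step B t N z w k u) := by
    intro x y hx hy
    refine (hframe _ _ (hkl b) (hkl a) x y hx hy).trans ?_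
    simp only [step]
    rw [sum_comm]
    refine sum_le_sum fun i _ => ?_
    refine le_trans (le_of_eq ?_) (abs_sum_le_sum_abs _ _)
    congr 1
    have := sum_Ico_sub (fun u => B.dist t (z i) (B.pos (k u)) - B.dist t (w i) (B.pos (k u))) hab
    simp only [Box.diff]
    refine Eq.trans ?_ (this.symm.trans (sum_congr rfl fun u _ => ?_)) <;> ring
  refine ⟨key, fun x y hx hy => ?_⟩
  have := key y x hy hx
  simp only [Box.diff] at *
  linarith

/-- Comonotone pairs of positions get few labels, so that pairs with one label give nearly the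
same endpoint functions on `S`. -/
theorem exists_labels {c X : ℝ} (hc : 0 ≤ c) (hmem : ∀ i < N, B.Mem (z i) ∧ B.Mem (w i))
    (hX : ∑ i ∈ range N, B.dist t (z i) (w i) ≤ X)
    (hframe : ∀ a b, a ≤ B.len → b ≤ B.len → OscLe S (B.diff t (B.pos a) (B.pos b))
      (∑ i ∈ range N, |B.diff t (B.pos a) (B.pos b) (z i) - B.diff t (B.pos a) (B.pos b) (w i)|))
    (hbv : ∀ z w, B.Mem z → B.Mem w → ∀ k : ℕ → ℕ, Monotone k → (∀ u, k u ≤ B.len) → ∀ n,
      ∑ u ∈ range n, |(B.dist t z (B.pos (k (u + 1))) - B.dist t w (B.pos (k (u + 1)))) -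
        (B.dist t z (B.pos (k u)) - B.dist t w (B.pos (k u)))| ≤ c * B.dist t z w)
    {ι : Type*} (s : Finset ι) (I J : ι → ℕ) (hI : ∀ i ∈ s, I i ≤ B.len)
    (hJ : ∀ i ∈ s, J i ≤ B.len) (hcom : ∀ i ∈ s, ∀ j ∈ s, I i < I j → J i ≤ J j)
    {C : ℝ} (hC : 0 < C) :
    ∃ lab : ι → ℕ, (∀ i ∈ s, (lab i : ℝ) ≤ 2 * c * X / C) ∧
      ∀ i ∈ s, ∀ j ∈ s, lab i = lab j →
        OscLe S (B.diff t (B.pos (I i)) (B.pos (I j))) C ∧
        OscLe S (B.diff t (B.pos (J i)) (B.pos (J j))) C := by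
  classical
  set P : ℕ → Finset ι := fun n => s.filter fun i => I i + J i ≤ n with hP
  set k : ℕ → ℕ := fun n => (P n).sup I with hkdef
  set l : ℕ → ℕ := fun n => (P n).sup J with hldef
  have hPm : ∀ m n, m ≤ n → P m ⊆ P n := fun m n h i hi => by
    simp only [hP, mem_filter] at hi ⊢; exact ⟨hi.1, hi.2.trans h⟩
  have hk : Monotone k := fun m n h => Finset.sup_mono (hPm m n h)
  have hl : Monotone l := fun m n h => Finset.sup_mono (hPm m n h)
  have hkl : ∀ n, k n ≤ B.len := fun n =>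
    Finset.sup_le fun i hi => hI i (mem_filter.1 hi).1
  have hll : ∀ n, l n ≤ B.len := fun n =>
    Finset.sup_le fun i hi => hJ i (mem_filter.1 hi).1
  have kI : ∀ i ∈ s, k (I i + J i) = I i ∧ l (I i + J i) = J i := by
    intro i hi
    have hmem : i ∈ P (I i + J i) := mem_filter.2 ⟨hi, le_rfl⟩
    refine ⟨le_antisymm (Finset.sup_le fun j hj => ?_) (Finset.le_sup hmem),
      le_antisymm (Finset.sup_le fun j hj => ?_) (Finset.le_sup hmem)⟩
    · obtain ⟨hjs, hle⟩ := mem_filter.1 hj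
      by_contra hlt
      have := hcom i hi j hjs (not_le.1 hlt)
      omega
    · obtain ⟨hjs, hle⟩ := mem_filter.1 hj
      by_contra hlt
      rcases lt_or_ge (I j) (I i) with h | h
      · have := hcom j hjs i hi h
        omega
      · omega
  set D : ℕ → ℝ := fun u => step B t N z w k u + step B t N z w l u with hD
  set pre : ℕ → ℝ := fun n => ∑ u ∈ range n, D u with hpre
  have hD0 : ∀ u, 0 ≤ D u := fun u => add_nonneg (step_nonneg _ _) (step_nonneg _ _)
  have hpre0 : ∀ n, 0 ≤ pre n := fun n => sum_nonneg fun u _ => hD0 u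
  refine ⟨fun i => ⌊pre (I i + J i) / C⌋₊, fun i _ => ?_, fun i hi j hj hij => ?_⟩
  · refine (Nat.floor_le (div_nonneg (hpre0 _) hC.le)).trans (div_le_div_of_nonneg_right ?_ hC.le)
    simp only [hpre, hD, sum_add_distrib]
    linarith [sum_step_le hc hmem hX hbv hk hkl (I i + J i),
      sum_step_le hc hmem hX hbv hl hll (I i + J i)]
  have hdiff : |pre (I i + J i) - pre (I j + J j)| < C := by
    have a1 := Nat.floor_le (div_nonneg (hpre0 (I i + J i)) hC.le)
    have a2 := Nat.lt_floor_add_one (pre (I i + J i) / C)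
    have b1 := Nat.floor_le (div_nonneg (hpre0 (I j + J j)) hC.le)
    have b2 := Nat.lt_floor_add_one (pre (I j + J j) / C)
    simp only at hij
    rw [hij] at a1 a2
    rw [le_div_iff₀ hC] at a1 b1
    rw [div_lt_iff₀ hC] at a2 b2
    rw [abs_lt]
    constructor <;> linarith
  obtain ⟨h1, h2⟩ := kI i hi
  obtain ⟨h3, h4⟩ := kI j hj
  have main : ∀ a b, a ≤ b → pre b - pre a ≤ C →
      (OscLe S (B.diff t (B.pos (k b)) (B.pos (k a))) C ∧
        OscLe S (B.diff t (B.pos (k a)) (B.pos (k b))) C) ∧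
      (OscLe S (B.diff t (B.pos (l b)) (B.pos (l a))) C ∧
        OscLe S (B.diff t (B.pos (l a)) (B.pos (l b))) C) := by
    intro a b hab hle
    have e : pre b - pre a = ∑ u ∈ Ico a b, D u := (sum_Ico_eq_sub _ hab).symm
    simp only [hD, sum_add_distrib] at e
    have n1 : 0 ≤ ∑ u ∈ Ico a b, step B t N z w k u := sum_nonneg fun u _ => step_nonneg _ _
    have n2 : 0 ≤ ∑ u ∈ Ico a b, step B t N z w l u := sum_nonneg fun u _ => step_nonneg _ _
    obtain ⟨p1, p2⟩ := oscLe_steps hframe hkl hab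
    obtain ⟨q1, q2⟩ := oscLe_steps hframe hll hab
    exact ⟨⟨fun z w hz hw => (p1 z w hz hw).trans (by linarith),
        fun z w hz hw => (p2 z w hz hw).trans (by linarith)⟩,
      fun z w hz hw => (q1 z w hz hw).trans (by linarith),
      fun z w hz hw => (q2 z w hz hw).trans (by linarith)⟩
  rw [abs_lt] at hdiff
  rcases le_total (I i + J i) (I j + J j) with h | h
  · obtain ⟨⟨-, p⟩, -, q⟩ := main _ _ h (by linarith)
    rw [h1, h3] at p; rw [h2, h4] at q
    exact ⟨p, q⟩
  · obtain ⟨⟨p, -⟩, q, -⟩ := main _ _ h (by linarith)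
    rw [h1, h3] at p; rw [h2, h4] at q
    exact ⟨p, q⟩

end Labels

end Vale.Agent.P158.NB
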