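import Vale.Agent.P158.NB.Box
import Vale.Agent.P158.Shift

/-!
# Interface of section 10 of `PROOF.md`: what replaces the finite mean

`Nets` collects the consequences of connections by cheap edges that the proof uses. A finite mean
gives them with `Adm` everywhere and boundary weight sums; `NB/Net.lean` gives them for every law.
-/

open MeasureTheory Finset
open scoped ENNReal

namespace Vale.Agent.P158.NB

/-- The `l`-th grid position, out of `n`, on the boundary of a box. -/
def Box.gridPos (B : Box) (n l : ℕ) : ℕ := l * B.len / n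

/-- `t'` is a lowering of `t` that changes only edges inside the three-quarter box. -/
def Box.InnerLowering (B : Box) (t t' : Env) : Prop :=
  (∀ e, 0 ≤ t' e ∧ t' e ≤ t e) ∧
    ∀ u v : V, ¬ (Box.mk B.c (3 * B.M / 4)).Mem u → t' s(u, v) = t s(u, v)

/-- Every optimal walk of the doubled box which joins two of its boundary vertices and visits the
half box leaves `B` through admissible positions. -/
def Box.ExitOk (Adm : Box → Env → ℕ → Prop) (B : Box) (t : Env) : Prop :=
  ∀ (m : ℕ) (f : ℕ → V), (Box.mk B.c (2 * B.M)).IsWalk f m (f 0) (f m) →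
    pathCost t f m = (Box.mk B.c (2 * B.M)).dist t (f 0) (f m) →
    (Box.mk B.c (2 * B.M)).Bdry (f 0) → (Box.mk B.c (2 * B.M)).Bdry (f m) →
    ∀ i k, i ≤ m → k ≤ m → (Box.mk B.c (B.M / 2)).Mem (f i) → B.Bdry (f k) →
      (∀ l, min i k ≤ l → l ≤ max i k → B.Mem (f l)) →
      ∀ j ≤ B.len, B.pos j = f k → Adm B t j

/-- The consequences of cheap connections used in the proof, for the law `G`. -/
structure Nets (G : Measure ℝ) where
  /-- Admissible positions: those that may be endpoints of segments. -/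
  Adm : Box → Env → ℕ → Prop
  /-- The width of a bin. -/
  binW : Box → Env → ℕ → ℕ → ℝ
  /-- The weight of the separating frame of `Box x r` inside `Box x (2r)`. -/
  tileW : V → ℕ → Env → ℝ
  /-- Two admissible positions in one bin are close. -/
  dist_le : ∀ (B : Box) (t : Env), (∀ e, 0 ≤ t e) → ∀ n l k k' : ℕ, l < n →
    B.gridPos n l ≤ k → k ≤ B.gridPos n (l + 1) → B.gridPos n l ≤ k' → k' ≤ B.gridPos n (l + 1) →
    Adm B t k → Adm B t k' → B.dist t (B.pos k) (B.pos k') ≤ binW B t n l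
  /-- Admissibility survives inner lowerings. -/
  adm_lower : ∀ (B : Box) (t t' : Env), B.InnerLowering t t' → ∀ k, Adm B t k → Adm B t' k
  /-- Inner lowerings do not change the bins. -/
  binW_lower : ∀ (B : Box) (t t' : Env), B.InnerLowering t t' → ∀ n l, binW B t' n l = binW B t n l
  /-- Admissibility is measurable. -/
  adm_meas : ∀ (B : Box) (k : ℕ), MeasurableSet {t | Adm B t k}
  /-- Admissibility commutes with translations. -/
  adm_shift : ∀ (B : Box) (v : V) (t : Env) (k : ℕ),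
    Adm (B.shift v) t k ↔ Adm B (P158.shift v t) k
  /-- A fixed position is admissible with high probability. -/
  adm_prob : ∀ ε > (0 : ℝ), ∃ M₀ : ℕ, ∀ B : Box, M₀ ≤ B.M → ∀ k ≤ B.len,
    weightMeasure G {t | ¬ Adm B t k} ≤ ENNReal.ofReal ε
  /-- Exits are admissible with high probability. -/
  exit_prob : ∀ ε > (0 : ℝ), ∃ M₀ : ℕ, ∀ B : Box, M₀ ≤ B.M →
    weightMeasure G {t | ¬ B.ExitOk Adm t} ≤ ENNReal.ofReal ε
  /-- The squared bin widths are small compared with the area. -/
  bins_prob : ∀ δ > (0 : ℝ), ∀ ε > (0 : ℝ), ∃ n₀ : ℕ, ∀ n ≥ n₀, ∃ M₀ : ℕ, ∀ B : Box, M₀ ≤ B.M →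
    weightMeasure G {t | δ * (B.M : ℝ) ^ 2 < ∑ l ∈ range n, binW B t n l ^ 2}
      ≤ ENNReal.ofReal ε
  /-- The frame: few boundary pairs control oscillations on a tile. -/
  frame : ∀ (x : V) (r : ℕ) (t : Env), (∀ e, 0 ≤ t e) → ∀ B : Box,
    (∀ z, (Box.mk x (2 * r)).Mem z → B.Mem z) →
    ∃ (N : ℕ) (z w : ℕ → V), (∀ i < N, B.Mem (z i) ∧ B.Mem (w i)) ∧
      (∑ i ∈ range N, B.dist t (z i) (w i)) ≤ tileW x r t ∧
      ∀ y y', B.Mem y → B.Mem y' → ¬ (Box.mk x (2 * r)).Inner y →
        ¬ (Box.mk x (2 * r)).Inner y' → OscLe (Box.mk x r) (B.diff t y y')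
          (∑ i ∈ range N, |B.diff t y y' (z i) - B.diff t y y' (w i)|)
  /-- Frames have linear weight. -/
  tile_prob : ∀ ε > (0 : ℝ), ∃ (K : ℝ) (r₀ : ℕ), ∀ x : V, ∀ r ≥ r₀,
    weightMeasure G {t | K * r < tileW x r t} ≤ ENNReal.ofReal ε
  /-- Points of a tile are within linear distance of its centre. -/
  reach_prob : ∀ ε > (0 : ℝ), ∃ (C : ℝ) (r₀ : ℕ), ∀ x : V, ∀ r ≥ r₀, ∀ p : V,
    (Box.mk x r).Mem p →
      weightMeasure G {t | C * r < (Box.mk x (2 * r)).dist t x p} ≤ ENNReal.ofReal ε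

end Vale.Agent.P158.NB
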