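import Vale.Agent.P158.NB.BoxBasic

/-!
Nested margin segments (`PROOF.md`, P6) and the order of the bins of segments (`PROOF.md`,
section 5).
-/

open Finset

namespace Vale.Agent.P158.NB

namespace Order

variable {B : Box} {t : Env} {f g : ℕ → V} {m n : ℕ} {x y z : V}

/-- The two walks share a vertex. -/
def Meets (f : ℕ → V) (m : ℕ) (g : ℕ → V) (n : ℕ) : Prop := ∃ a ≤ m, ∃ b ≤ n, f a = g b

lemma Meets.symm (h : Meets f m g n) : Meets g n f m :=
  let ⟨a, ha, b, hb, e⟩ := h
  ⟨b, hb, a, ha, e.symm⟩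

lemma Meets.of_append {h : ℕ → V} {k : ℕ} (hm : Meets h k (Box.append f m g) (m + n))
    (hj : f m = g 0) :
    Meets h k f m ∨ Meets h k g n := by
  obtain ⟨a, ha, b, hb, e⟩ := hm
  by_cases hbm : b ≤ m
  · exact Or.inl ⟨a, ha, b, hbm, by rw [e, Box.append_left hbm]⟩
  · refine Or.inr ⟨a, ha, b - m, by omega, ?_⟩
    have := Box.append_right (g := g) hj (b - m)
    rw [show m + (b - m) = b by omega] at this
    rw [e, this]

lemma Meets.of_reverse {h : ℕ → V} {k : ℕ} (hm : Meets h k (fun i => f (m - i)) m) :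
    Meets h k f m :=
  let ⟨a, ha, b, _, e⟩ := hm
  ⟨a, ha, m - b, Nat.sub_le _ _, e⟩

/-- A piece of an optimal walk is optimal. -/
lemma subwalk_opt (ht : ∀ e, 0 ≤ t e) (hf : B.IsWalk f m x y)
    (hc : pathCost t f m = B.dist t x y) {i j : ℕ} (hij : i ≤ j) (hj : j ≤ m) :
    pathCost t (fun k => f (i + k)) (j - i) = B.dist t (f i) (f j) := by
  have h1 := hf.initSeg (hij.trans hj)
  have h2 := hf.segment hij hj
  have h3 := hf.suffix hj
  have e1 := pathCost_split t f hj
  have e2 := pathCost_split t f hij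
  have := Box.dist_le ht h1
  have := Box.dist_le ht h2
  have := Box.dist_le ht h3
  have := Box.dist_triangle ht hf.mem_left h1.mem_right hf.mem_right
  have := Box.dist_triangle ht h1.mem_right h2.mem_right hf.mem_right
  linarith

/-- An optimal walk cannot meet both halves of a margin segment away from its edge. -/
lemma not_meets_both (ht : ∀ e, 0 < t e) {p q a b : V} {δ : ℝ} (hδ : 0 < δ)
    (hS : B.Thru t a b p q) (hM : B.Marg t a b s(p, q) δ) (ha : B.Mem a) (hb : B.Mem b)
    {fa fb : ℕ → V} {ma mb : ℕ} (hfa : B.IsWalk fa ma a p) (hfac : pathCost t fa ma = B.dist t a p)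
    (hfb : B.IsWalk fb mb q b) (hfbc : pathCost t fb mb = B.dist t q b)
    (hf : B.IsWalk f m x y) (hc : pathCost t f m = B.dist t x y)
    (hav : ∀ l ≤ m, f l ≠ p) (h1 : Meets f m fa ma) (h2 : Meets f m fb mb) : False := by
  have h0 : ∀ e, 0 ≤ t e := fun e => (ht e).le
  obtain ⟨l1, hl1, r1, hr1, e1⟩ := h1
  obtain ⟨l2, hl2, r2, hr2, e2⟩ := h2
  -- a walk between the meeting points, optimal and off the edge
  obtain ⟨k, w, hw, hwc, hwa⟩ : ∃ k w, B.IsWalk w k (f l1) (f l2) ∧
      pathCost t w k = B.dist t (f l1) (f l2) ∧ ∀ i < k, s(w i, w (i + 1)) ≠ s(p, q) := by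
    have step : ∀ i j, i ≤ j → j ≤ m → ∀ l < j - i, s(f (i + l), f (i + (l + 1))) ≠ s(p, q) := by
      intro i j hij hj l hl he
      rcases Sym2.eq_iff.1 he with ⟨e, -⟩ | ⟨-, e⟩
      · exact hav _ (by omega) e
      · exact hav _ (by omega) e
    rcases le_total l1 l2 with h | h
    · exact ⟨_, _, hf.segment h hl2, subwalk_opt h0 hf hc h hl2, step _ _ h hl2⟩
    · refine ⟨_, _, (hf.segment h hl1).reverse, ?_, fun i hi he => ?_⟩
      · rw [Box.pathCost_reverse t (fun k => f (l2 + k)), subwalk_opt h0 hf hc h hl1,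
          Box.dist_comm]
      · refine step _ _ h hl1 (l1 - l2 - (i + 1)) (by omega) ?_
        rw [Sym2.eq_swap, show l1 - l2 - (i + 1) + 1 = l1 - l2 - i by omega]
        exact he
  rw [e1, e2] at hw hwc
  have wa := hfa.initSeg hr1
  have wb := hfb.suffix hr2
  have hall := (wa.append hw).append wb
  have hcost : pathCost (raise t s(p, q) δ)
      (Box.append (Box.append fa r1 w) (r1 + k) fun i => fb (r2 + i)) (r1 + k + (mb - r2)) =
      pathCost t fa r1 + pathCost t w k + pathCost t (fun i => fb (r2 + i)) (mb - r2) := by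
    rw [Box.pathCost_append _ ((wa.append hw).1.2.1.trans wb.1.1.symm),
      Box.pathCost_append _ (wa.1.2.1.trans hw.1.1.symm),
      Box.pathCost_raise_of_avoid (fun i hi => hS.avoid_left h0 (ht _) ha hb hfa hfac i (by omega)),
      Box.pathCost_raise_of_avoid hwa,
      Box.pathCost_raise_of_avoid (fun i hi => by
        have := hS.avoid_right h0 (ht _) ha hb hfb hfbc (r2 + i) (by omega)
        simpa [add_assoc] using this)]
  have hle := Box.dist_le (Box.raise_nonneg h0 s(p, q) hδ.le) hall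
  rw [hcost, hwc] at hle
  have hu := wa.mem_right
  have hv := wb.mem_left
  have := Box.dist_le h0 (hfa.suffix hr1)
  have := Box.dist_le h0 (hfb.initSeg hr2)
  have := Box.dist_le_through h0 hu hv hS.mem_left hS.mem_right hS.1
  have := pathCost_split t fa hr1
  have := pathCost_split t fb hr2
  unfold Box.Marg at hM
  have := hS.2.2.2
  linarith

/-- Nested margin segments: every optimal walk between the two gaps meets the connection of the
two edges (P6). -/
theorem nested_meet
    (hcross : ∀ {f g : ℕ → V} {m n i k j l : ℕ}, i ≤ k → k ≤ j → j ≤ l → l ≤ B.len →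
      B.IsWalk f m (B.pos i) (B.pos j) → B.IsWalk g n (B.pos k) (B.pos l) → Meets f m g n)
    (ht : ∀ e, 0 < t e) {δ : ℝ} (hδ : 0 < δ) {i i' j j' A C : ℕ} {p q p' q' : V}
    (h1 : B.Seg t i j p q δ) (h2 : B.Seg t i' j' p' q' δ)
    (o1 : i ≤ A) (o2 : A ≤ i') (o3 : i' ≤ j') (o4 : j' ≤ C) (o5 : C ≤ j)
    {P : ℕ → V} {k : ℕ} (hP : B.IsWalk P k p p')
    (hf : B.IsWalk f m (B.pos A) (B.pos C)) (hc : pathCost t f m = B.dist t (B.pos A) (B.pos C)) :
    (∃ l ≤ m, ∃ r ≤ k, f l = P r) ∨ (∃ l ≤ m, f l = q ∨ f l = q') := by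
  classical
  by_contra hno
  simp only [not_or, not_exists, not_and] at hno
  obtain ⟨hnP, hnq⟩ := hno
  have h0 : ∀ e, 0 ≤ t e := fun e => (ht e).le
  obtain ⟨hi, hj, hS, hM⟩ := h1
  obtain ⟨hi', hj', hS', hM'⟩ := h2
  have pi := B.pos_mem hi
  have pj := B.pos_mem hj
  have pi' := B.pos_mem hi'
  have pj' := B.pos_mem hj'
  obtain ⟨ma, fa, hfa, -, hfac⟩ := Box.exists_optimal h0 pi hS.mem_left
  obtain ⟨mb, fb, hfb, -, hfbc⟩ := Box.exists_optimal h0 hS.mem_right pj
  obtain ⟨ma', fa', hfa', -, hfac'⟩ := Box.exists_optimal h0 pi' hS'.mem_left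
  obtain ⟨mb', fb', hfb', -, hfbc'⟩ := Box.exists_optimal h0 hS'.mem_right pj'
  have we := Box.isWalk_edge hS.mem_left hS.mem_right hS.1
  have we' := Box.isWalk_edge hS'.mem_left hS'.mem_right hS'.1
  have hnP' : ¬ Meets f m P k := fun ⟨l, hl, r, hr, e⟩ => hnP l hl r hr e
  have hnP'' : ¬ Meets f m (fun i => P (k - i)) k := fun h => hnP' h.of_reverse
  have hp : ∀ l ≤ m, f l ≠ p := fun l hl e => hnP l hl 0 k.zero_le (by rw [e, hP.1.1])
  have hp' : ∀ l ≤ m, f l ≠ p' := fun l hl e => hnP l hl k le_rfl (by rw [e, hP.1.2.1])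
  have hne : ¬ Meets f m (fun i => if i = 0 then p else q) 1 := by
    rintro ⟨l, hl, r, -, e⟩
    by_cases hr : r = 0
    · exact hp l hl (by simpa [hr] using e)
    · exact (hnq l hl).1 (by simpa [hr] using e)
  have hne' : ¬ Meets f m (fun i => if i = 0 then p' else q') 1 := by
    rintro ⟨l, hl, r, -, e⟩
    by_cases hr : r = 0
    · exact hp' l hl (by simpa [hr] using e)
    · exact (hnq l hl).2 (by simpa [hr] using e)
  have aa : Meets f m fa ma ∨ Meets f m fa' ma' := by
    have w1 := hfa.append hP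
    have w := w1.append hfa'.reverse
    have h := (hcross o1 o2 (o3.trans o4) (o5.trans hj) w hf).symm
    rcases h.of_append (w1.1.2.1.trans hfa'.reverse.1.1.symm) with h | h
    · rcases h.of_append (hfa.1.2.1.trans hP.1.1.symm) with h | h
      · exact Or.inl h
      · exact absurd h hnP'
    · exact Or.inr h.of_reverse
  have bb : Meets f m fb' mb' ∨ Meets f m fb mb := by
    have w1 := hfb'.reverse.append we'.reverse
    have w2 := w1.append hP.reverse
    have w3 := w2.append we
    have w := w3.append hfb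
    have h := hcross (o2.trans o3) o4 o5 hj hf w
    rcases h.of_append (w3.1.2.1.trans hfb.1.1.symm) with h | h
    · rcases h.of_append (w2.1.2.1.trans we.1.1.symm) with h | h
      · rcases h.of_append (w1.1.2.1.trans hP.reverse.1.1.symm) with h | h
        · rcases h.of_append (hfb'.reverse.1.2.1.trans we'.reverse.1.1.symm) with h | h
          · exact Or.inl h.of_reverse
          · exact absurd h.of_reverse hne'
        · exact absurd h hnP''
      · exact absurd h hne
    · exact Or.inr h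
  have ab : Meets f m fa ma ∨ Meets f m fb' mb' := by
    have w1 := hfa.append hP
    have w2 := w1.append we'
    have w := w2.append hfb'
    have h := (hcross o1 (o2.trans o3) o4 (o5.trans hj) w hf).symm
    rcases h.of_append (w2.1.2.1.trans hfb'.1.1.symm) with h | h
    · rcases h.of_append (w1.1.2.1.trans we'.1.1.symm) with h | h
      · rcases h.of_append (hfa.1.2.1.trans hP.1.1.symm) with h | h
        · exact Or.inl h
        · exact absurd h hnP'
      · exact absurd h hne'
    · exact Or.inr h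
  have ba : Meets f m fa' ma' ∨ Meets f m fb mb := by
    have w1 := hfa'.append hP.reverse
    have w2 := w1.append we
    have w := w2.append hfb
    have h := hcross o2 (o3.trans o4) o5 hj hf w
    rcases h.of_append (w2.1.2.1.trans hfb.1.1.symm) with h | h
    · rcases h.of_append (w1.1.2.1.trans we.1.1.symm) with h | h
      · rcases h.of_append (hfa'.1.2.1.trans hP.reverse.1.1.symm) with h | h
        · exact Or.inl h
        · exact absurd h hnP''
      · exact absurd h hne
    · exact Or.inr h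
  have n1 : ¬ (Meets f m fa ma ∧ Meets f m fb mb) := fun h =>
    not_meets_both ht hδ hS hM pi pj hfa hfac hfb hfbc hf hc hp h.1 h.2
  have n2 : ¬ (Meets f m fa' ma' ∧ Meets f m fb' mb') := fun h =>
    not_meets_both ht hδ hS' hM' pi' pj' hfa' hfac' hfb' hfbc' hf hc hp' h.1 h.2
  tauto

/-- If some optimal walk between any two grid positions avoids the window `W`, then the low and high
bins of margin segments at edges of `W` are ordered alike. -/
theorem bins_comonotone
    (hcross : ∀ {f g : ℕ → V} {m n i k j l : ℕ}, i ≤ k → k ≤ j → j ≤ l → l ≤ B.len →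
      B.IsWalk f m (B.pos i) (B.pos j) → B.IsWalk g n (B.pos k) (B.pos l) → Meets f m g n)
    (ht : ∀ e, 0 < t e) {δ : ℝ} (hδ : 0 < δ) {W : Box} (hsub : ∀ z, W.Mem z → B.Mem z)
    {grid : ℕ → ℕ} {N : ℕ} (hg : Monotone grid)
    (hfree : ∀ A ≤ N, ∀ C ≤ N, ∃ f m, B.IsWalk f m (B.pos (grid A)) (B.pos (grid C)) ∧
      pathCost t f m = B.dist t (B.pos (grid A)) (B.pos (grid C)) ∧ ∀ l ≤ m, ¬ W.Mem (f l))
    {i i' j j' u u' v v' : ℕ} {p q p' q' : V}
    (h1 : B.Seg t i j p q δ) (h2 : B.Seg t i' j' p' q' δ)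
    (hp : W.Mem p) (hq : W.Mem q) (hp' : W.Mem p') (hq' : W.Mem q')
    (hi : i ≤ grid (u + 1)) (hi' : grid u' ≤ i') (hi'2 : i' ≤ grid (u' + 1))
    (hj : grid v ≤ j) (hj'1 : grid v' ≤ j') (hj' : j' ≤ grid (v' + 1))
    (hlow : u' < v') (hvN : v ≤ N) (huu : u < u') : v ≤ v' := by
  by_contra hvv
  obtain ⟨f, m, hf, hc, hav⟩ := hfree (u + 1) (by omega) (v' + 1) (by omega)
  obtain ⟨k, P, hP⟩ := Box.exists_isWalk hp hp'
  rcases nested_meet hcross ht hδ h1 h2 hi ((hg huu).trans hi')
    (hi'2.trans ((hg hlow).trans hj'1)) hj' ((hg (not_le.1 hvv)).trans hj)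
    (hP.of_subset hsub) hf hc with ⟨l, hl, r, hr, e⟩ | ⟨l, hl, e | e⟩
  · exact hav l hl (e ▸ hP.2 r hr)
  · exact hav l hl (e ▸ hq)
  · exact hav l hl (e ▸ hq')

end Order

end Vale.Agent.P158.NB
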