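import Mathlib

/-!
Total variation of a real sequence without alternating patterns of length four (PROOF.md, P4).
-/

open Finset

namespace Vale.Agent.P158.NB

/-- Either both middle-odd values exceed both even ones or the reverse. -/
def Alt4 (p q r s : ℝ) : Prop := max q s < min p r ∨ max p r < min q s

/-- A Boolean sequence with `j` changes has an alternating subsequence with `j + 1` terms. -/
lemma exists_alternating (b : ℕ → Bool) (m : ℕ) : ∀ j,
    j ≤ ((range m).filter fun i => b i ≠ b (i + 1)).card →
      ∃ x : ℕ → ℕ, (∀ i < j, x i < x (i + 1) ∧ b (x i) ≠ b (x (i + 1))) ∧ x j ≤ m ∧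
        (j = ((range m).filter fun i => b i ≠ b (i + 1)).card → b (x j) = b m) := by
  induction m with
  | zero =>
    intro j hj
    simp only [range_zero, filter_empty, card_empty, Nat.le_zero] at hj
    subst hj
    exact ⟨fun _ => 0, fun i hi => absurd hi (Nat.not_lt_zero i), le_rfl, fun _ => rfl⟩
  | succ m ih =>
    intro j hj
    rw [range_add_one, filter_insert] at hj ⊢
    by_cases hm : b m = b (m + 1)
    · rw [if_neg (not_not.2 hm)] at hj ⊢
      obtain ⟨x, hx, hle, hlast⟩ := ih j hj
      exact ⟨x, hx, hle.trans (Nat.le_succ m), fun h => (hlast h).trans hm⟩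
    · rw [if_pos hm, card_insert_of_notMem (by simp)] at hj ⊢
      rcases hj.eq_or_lt with h | h
      · obtain ⟨x, hx, hle, hlast⟩ := ih _ le_rfl
        refine ⟨fun i => if i < j then x i else m + 1, fun i hi => ?_, ?_, fun _ => ?_⟩
        · simp only [if_pos hi]
          split_ifs with h1
          · exact hx i (by omega)
          · obtain rfl : i = ((range m).filter fun i => b i ≠ b (i + 1)).card := by omega
            exact ⟨by omega, by rw [hlast rfl]; exact hm⟩
        · simp
        · simp
      · obtain ⟨x, hx, hle, -⟩ := ih j (by omega)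
        exact ⟨x, hx, hle.trans (Nat.le_succ m), fun h' => absurd h' (by omega)⟩

/-- Every level is crossed at most three times. -/
lemma changes_le {a : ℕ → ℝ} {m : ℕ}
    (h : ∀ i j k l, i ≤ j → j ≤ k → k ≤ l → l ≤ m → ¬ Alt4 (a i) (a j) (a k) (a l)) (c : ℝ) :
    ((range m).filter fun i => decide (c < a i) ≠ decide (c < a (i + 1))).card ≤ 3 := by
  by_contra hc
  obtain ⟨x, hx, hle, -⟩ := exists_alternating (fun i => decide (c < a i)) m 4 (by omega)
  have h0 := hx 0 (by omega)
  have h1 := hx 1 (by omega)
  have h2 := hx 2 (by omega)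
  have h3 := hx 3 (by omega)
  simp only [Nat.zero_add, Nat.reduceAdd, ne_eq, decide_eq_decide] at h0 h1 h2 h3
  refine h (x 0) (x 1) (x 2) (x 3) h0.1.le h1.1.le h2.1.le (by omega) ?_
  simp only [Alt4, max_lt_iff, lt_min_iff]
  by_cases e : c < a (x 0)
  · have e1 : ¬ c < a (x 1) := fun e1 => h0.2 ⟨fun _ => e1, fun _ => e⟩
    have e2 : c < a (x 2) := by
      by_contra e2
      exact h1.2 ⟨fun h => absurd h e1, fun h => absurd h e2⟩
    have e3 : ¬ c < a (x 3) := fun e3 => h2.2 ⟨fun _ => e3, fun _ => e2⟩
    exact .inl ⟨⟨by linarith, by linarith⟩, by linarith, by linarith⟩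
  · have e1 : c < a (x 1) := by
      by_contra e1
      exact h0.2 ⟨fun h => absurd h e, fun h => absurd h e1⟩
    have e2 : ¬ c < a (x 2) := fun e2 => h1.2 ⟨fun _ => e2, fun _ => e1⟩
    have e3 : c < a (x 3) := by
      by_contra e3
      exact h2.2 ⟨fun h => absurd h e2, fun h => absurd h e3⟩
    exact .inr ⟨⟨by linarith, by linarith⟩, by linarith, by linarith⟩

/-- A sequence without alternating patterns of length four has variation at most three times
its range. -/
theorem variation_le {m : ℕ} : ∀ {a : ℕ → ℝ} {lo hi : ℝ}, lo ≤ hi →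
    (∀ i ≤ m, lo ≤ a i ∧ a i ≤ hi) →
    (∀ i j k l, i ≤ j → j ≤ k → k ≤ l → l ≤ m → ¬ Alt4 (a i) (a j) (a k) (a l)) →
    ∑ i ∈ range m, |a (i + 1) - a i| ≤ 3 * (hi - lo) := by
  intro a
  induction hn : ((range (m + 1)).image a).card using Nat.strong_induction_on generalizing a with
  | _ n ih =>
  subst hn
  intro lo hi hlh hb h
  set V := (range (m + 1)).image a with hV
  have hne : V.Nonempty := ⟨a 0, mem_image_of_mem a (mem_range.2 (Nat.succ_pos m))⟩
  have hmem : ∀ i ≤ m, a i ∈ V := fun i hi => mem_image_of_mem a (mem_range.2 (Nat.lt_succ_of_le hi))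
  set top := V.max' hne with htop
  have hle : ∀ i ≤ m, a i ≤ top := fun i hi => V.le_max' _ (hmem i hi)
  obtain ⟨i₀, hi₀, hi₀e⟩ := mem_image.1 (V.max'_mem hne)
  rw [mem_range] at hi₀
  have htophi : top ≤ hi := hi₀e.symm.trans_le (hb i₀ (by omega)).2
  rcases (V.erase top).eq_empty_or_nonempty with he | hne'
  · have hall : ∀ i ≤ m, a i = top := fun i hi => by
      by_contra hne2
      exact (eq_empty_iff_forall_notMem.1 he _) (mem_erase.2 ⟨hne2, hmem i hi⟩)
    rw [sum_eq_zero fun i hi => by
      rw [mem_range] at hi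
      rw [hall i hi.le, hall (i + 1) hi, sub_self, abs_zero]]
    linarith
  set c := (V.erase top).max' hne' with hc
  have hcm : c ∈ V.erase top := max'_mem _ hne'
  have hct : c < top := lt_of_le_of_ne (V.le_max' _ (mem_of_mem_erase hcm)) (ne_of_mem_erase hcm)
  obtain ⟨i₁, hi₁, hi₁e⟩ := mem_image.1 (mem_of_mem_erase hcm)
  rw [mem_range] at hi₁
  have hlc : lo ≤ c := hi₁e ▸ (hb i₁ (by omega)).1
  have dich : ∀ i ≤ m, a i = top ∨ a i ≤ c := fun i hi => by
    by_cases e : a i = top
    · exact .inl e
    · exact .inr (le_max' _ _ (mem_erase.2 ⟨e, hmem i hi⟩))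
  set a' := fun i => min (a i) c with ha'
  have hlt : ((range (m + 1)).image a').card < V.card := by
    refine (card_le_card ?_).trans_lt (card_erase_lt_of_mem (V.max'_mem hne))
    intro v hv
    obtain ⟨i, hi, rfl⟩ := mem_image.1 hv
    rw [mem_range] at hi
    rcases dich i (by omega) with e | e
    · simp only [ha', e, min_eq_right hct.le]
      exact hcm
    · simp only [ha', min_eq_left e]
      exact mem_erase.2 ⟨ne_of_lt (e.trans_lt hct), hmem i (by omega)⟩
  have hrec := ih _ hlt rfl hlc (fun i hi => ⟨le_min (hb i hi).1 hlc, min_le_right _ _⟩)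
    fun i j k l hij hjk hkl hl hA => h i j k l hij hjk hkl hl (by
      have mono : ∀ {x y : ℝ}, min x c < min y c → x < y := fun hxy =>
        lt_of_not_ge fun hh => not_le.2 hxy (min_le_min_right c hh)
      simp only [Alt4, max_lt_iff] at hA ⊢
      exact hA.imp
        (fun p => ⟨lt_min (mono (p.1.trans_le (min_le_left _ _))) (mono (p.1.trans_le (min_le_right _ _))),
          lt_min (mono (p.2.trans_le (min_le_left _ _))) (mono (p.2.trans_le (min_le_right _ _)))⟩)
        fun p => ⟨lt_min (mono (p.1.trans_le (min_le_left _ _))) (mono (p.1.trans_le (min_le_right _ _))),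
          lt_min (mono (p.2.trans_le (min_le_left _ _))) (mono (p.2.trans_le (min_le_right _ _)))⟩)
  have key : ∀ i < m, |a (i + 1) - a i| = |a' (i + 1) - a' i| +
      (top - c) * if decide (c < a i) ≠ decide (c < a (i + 1)) then 1 else 0 := by
    intro i hi
    rcases dich i hi.le with e | e <;> rcases dich (i + 1) hi with e' | e'
    · simp [ha', e, e']
    · simp only [ha', e, min_eq_right hct.le, min_eq_left e', hct, not_lt.2 e', decide_true,
        decide_false, ne_eq, Bool.true_eq_false, not_false_eq_true, if_true]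
      rw [abs_of_nonpos (by linarith), abs_of_nonpos (by linarith)]
      ring
    · simp only [ha', e', min_eq_right hct.le, min_eq_left e, hct, not_lt.2 e, decide_true,
        decide_false, ne_eq, Bool.false_eq_true, not_false_eq_true, if_true]
      rw [abs_of_nonneg (by linarith), abs_of_nonneg (by linarith)]
      ring
    · simp [ha', min_eq_left e, min_eq_left e', not_lt.2 e, not_lt.2 e']
  rw [sum_congr rfl fun i hi => key i (mem_range.1 hi), sum_add_distrib, ← mul_sum, sum_boole]
  have hch : (((range m).filter fun i => decide (c < a i) ≠ decide (c < a (i + 1))).card : ℝ) ≤ 3 :=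
    by exact_mod_cast changes_le h c
  nlinarith [mul_le_mul_of_nonneg_left hch (sub_nonneg.2 hct.le), htophi]

end Vale.Agent.P158.NB
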