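import Vale.Agent.P158.NB.Crossing
import Vale.Agent.P158.NB.Variation

/-!
Planar facts for box metrics (`PROOF.md`, section 1: crossing with cyclic variants, Monge, four
points, bounded variation).
-/

open Finset

namespace Vale.Agent.P158.NB

namespace Box

variable {B : Box} {t : Env} {f g : ℕ → V} {m n : ℕ} {x y z w : V}

/-- Four indices are in cyclic order. -/
def Cyc (a b c e : ℕ) : Prop :=
  (a ≤ b ∧ b ≤ c ∧ c ≤ e) ∨ (b ≤ c ∧ c ≤ e ∧ e ≤ a) ∨ (c ≤ e ∧ e ≤ a ∧ a ≤ b) ∨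
    (e ≤ a ∧ a ≤ b ∧ b ≤ c)

/-- Walks between cyclically interlacing positions share a vertex. -/
theorem crossing_cyc {i k j l : ℕ} (h : Cyc i k j l) (hi : i ≤ B.len) (hk : k ≤ B.len)
    (hj : j ≤ B.len) (hl : l ≤ B.len) (hf : B.IsWalk f m (B.pos i) (B.pos j))
    (hg : B.IsWalk g n (B.pos k) (B.pos l)) : ∃ a ≤ m, ∃ b ≤ n, f a = g b := by
  rcases h with ⟨a1, a2, a3⟩ | ⟨a1, a2, a3⟩ | ⟨a1, a2, a3⟩ | ⟨a1, a2, a3⟩
  · exact crossing a1 a2 a3 hl hf hg
  · obtain ⟨a, ha, b, hb, e⟩ := crossing a1 a2 a3 hi hg hf.reverse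
    exact ⟨m - b, Nat.sub_le m b, a, ha, e.symm⟩
  · obtain ⟨a, ha, b, hb, e⟩ := crossing a1 a2 a3 hk hf.reverse hg.reverse
    exact ⟨m - a, Nat.sub_le m a, n - b, Nat.sub_le n b, e⟩
  · obtain ⟨a, ha, b, hb, e⟩ := crossing a1 a2 a3 hj hg.reverse hf
    exact ⟨b, hb, n - a, Nat.sub_le n a, e.symm⟩

/-- The position behind a rotated index. -/
lemma posRot_eq (B : Box) {s x : ℕ} (hs : s ≤ B.len) (hx : x ≤ B.len) :
    B.posRot s x = B.pos (if s + x ≤ B.len then s + x else s + x - B.len) := by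
  unfold posRot
  rcases Nat.eq_zero_or_pos B.len with h0 | h0
  · rw [show s = 0 by omega, show x = 0 by omega]
    simp
  split_ifs with h
  · rcases h.eq_or_lt with e | e
    · rw [e, Nat.mod_self, B.pos_len]
    · rw [Nat.mod_eq_of_lt e]
  · by_cases h2 : s + x = 2 * B.len
    · rw [h2, show 2 * B.len - B.len = B.len by omega, B.pos_len,
        show (2 * B.len) % B.len = 0 from Nat.mul_mod_left 2 B.len]
    · rw [show s + x = s + x - B.len + B.len by omega, Nat.add_mod_right,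
        Nat.mod_eq_of_lt (by omega), Nat.add_sub_cancel]

/-- Crossing for the boundary cycle started at any position. -/
theorem crossing_rot {s i k j l : ℕ} (hs : s ≤ B.len) (hik : i ≤ k) (hkj : k ≤ j) (hjl : j ≤ l)
    (hl : l ≤ B.len) (hf : B.IsWalk f m (B.posRot s i) (B.posRot s j))
    (hg : B.IsWalk g n (B.posRot s k) (B.posRot s l)) : ∃ a ≤ m, ∃ b ≤ n, f a = g b := by
  rw [posRot_eq B hs (by omega), posRot_eq B hs (by omega)] at hf hg
  refine crossing_cyc ?_ ?_ ?_ ?_ ?_ hf hg <;> (try unfold Cyc) <;> split_ifs <;> omega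

/-- A walk through a vertex costs at least the two distances. -/
lemma dist_add_le_pathCost (ht : ∀ e, 0 ≤ t e) (hf : B.IsWalk f m x y) {a : ℕ} (ha : a ≤ m) :
    B.dist t x (f a) + B.dist t (f a) y ≤ pathCost t f m := by
  rw [pathCost_split t f ha]
  exact add_le_add (dist_le ht (hf.initSeg ha)) (dist_le ht (hf.suffix ha))

/-- Monge inequalities (P2). -/
theorem monge {i k j l : ℕ} (h : Cyc i k j l) (ht : ∀ e, 0 ≤ t e) (hi : i ≤ B.len)
    (hk : k ≤ B.len) (hj : j ≤ B.len) (hl : l ≤ B.len) :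
    B.dist t (B.pos i) (B.pos k) + B.dist t (B.pos j) (B.pos l)
        ≤ B.dist t (B.pos i) (B.pos j) + B.dist t (B.pos k) (B.pos l) ∧
      B.dist t (B.pos i) (B.pos l) + B.dist t (B.pos k) (B.pos j)
        ≤ B.dist t (B.pos i) (B.pos j) + B.dist t (B.pos k) (B.pos l) := by
  obtain ⟨m, f, hf, -, hcf⟩ := exists_optimal ht (B.pos_mem hi) (B.pos_mem hj)
  obtain ⟨n, g, hg, -, hcg⟩ := exists_optimal ht (B.pos_mem hk) (B.pos_mem hl)
  obtain ⟨a, ha, b, hb, e⟩ := crossing_cyc h hi hk hj hl hf hg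
  have h1 := dist_add_le_pathCost ht hf ha
  have h2 := dist_add_le_pathCost ht hg hb
  rw [← e] at h2
  have hu := hf.2 a ha
  have c1 := dist_comm B t (B.pos k) (f a)
  have c2 := dist_comm B t (B.pos j) (f a)
  constructor
  · linarith [dist_triangle ht (B.pos_mem hi) hu (B.pos_mem hk),
      dist_triangle ht (B.pos_mem hj) hu (B.pos_mem hl)]
  · linarith [dist_triangle ht (B.pos_mem hi) hu (B.pos_mem hl),
      dist_triangle ht (B.pos_mem hk) hu (B.pos_mem hj)]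

/-- The linear form of the Monge inequalities. -/
theorem monge_le {i k j l : ℕ} (ht : ∀ e, 0 ≤ t e) (hik : i ≤ k) (hkj : k ≤ j) (hjl : j ≤ l)
    (hl : l ≤ B.len) :
    B.dist t (B.pos i) (B.pos k) + B.dist t (B.pos j) (B.pos l)
        ≤ B.dist t (B.pos i) (B.pos j) + B.dist t (B.pos k) (B.pos l) ∧
      B.dist t (B.pos i) (B.pos l) + B.dist t (B.pos k) (B.pos j)
        ≤ B.dist t (B.pos i) (B.pos j) + B.dist t (B.pos k) (B.pos l) :=
  monge (.inl ⟨hik, hkj, hjl⟩) ht (by omega) (by omega) (by omega) hl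

/-- The Monge inequalities for the boundary cycle started at any position. -/
theorem monge_rot {s i k j l : ℕ} (ht : ∀ e, 0 ≤ t e) (hs : s ≤ B.len) (hik : i ≤ k)
    (hkj : k ≤ j) (hjl : j ≤ l) (hl : l ≤ B.len) :
    B.dist t (B.posRot s i) (B.posRot s k) + B.dist t (B.posRot s j) (B.posRot s l)
        ≤ B.dist t (B.posRot s i) (B.posRot s j) + B.dist t (B.posRot s k) (B.posRot s l) ∧
      B.dist t (B.posRot s i) (B.posRot s l) + B.dist t (B.posRot s k) (B.posRot s j)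
        ≤ B.dist t (B.posRot s i) (B.posRot s j) + B.dist t (B.posRot s k) (B.posRot s l) := by
  rw [posRot_eq B hs (show i ≤ B.len by omega), posRot_eq B hs (show k ≤ B.len by omega),
    posRot_eq B hs (show j ≤ B.len by omega), posRot_eq B hs hl]
  refine monge ?_ ht ?_ ?_ ?_ ?_ <;> (try unfold Cyc) <;> split_ifs <;> omega

/-- Four points (P3). -/
theorem four_point {k₁ k₂ k₃ k₄ : ℕ} (ht : ∀ e, 0 ≤ t e) (hz : B.Mem z) (hw : B.Mem w)
    (h₁₂ : k₁ ≤ k₂) (h₂₃ : k₂ ≤ k₃) (h₃₄ : k₃ ≤ k₄) (h₄ : k₄ ≤ B.len) :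
    ¬ max (B.dist t z (B.pos k₂) - B.dist t w (B.pos k₂))
          (B.dist t z (B.pos k₄) - B.dist t w (B.pos k₄)) <
        min (B.dist t z (B.pos k₁) - B.dist t w (B.pos k₁))
          (B.dist t z (B.pos k₃) - B.dist t w (B.pos k₃)) := by
  intro hlt
  simp only [max_lt_iff, lt_min_iff] at hlt
  have g₁ : k₁ ≤ B.len := by omega
  have g₂ : k₂ ≤ B.len := by omega
  have g₃ : k₃ ≤ B.len := by omega
  obtain ⟨m₁, f₁, hf₁, -, c₁⟩ := exists_optimal ht hw (B.pos_mem g₁)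
  obtain ⟨m₃, f₃, hf₃, -, c₃⟩ := exists_optimal ht hw (B.pos_mem g₃)
  obtain ⟨m₂, f₂, hf₂, -, c₂⟩ := exists_optimal ht hz (B.pos_mem g₂)
  obtain ⟨m₄, f₄, hf₄, -, c₄⟩ := exists_optimal ht hz (B.pos_mem h₄)
  -- no vertex is on an optimal walk from `w` and on one from `z` to these positions
  have miss : ∀ {ka kb : ℕ} {ma mb : ℕ} {fa fb : ℕ → V} (_ : ka ≤ B.len) (_ : kb ≤ B.len),
      B.IsWalk fa ma w (B.pos ka) → pathCost t fa ma = B.dist t w (B.pos ka) →
      B.IsWalk fb mb z (B.pos kb) → pathCost t fb mb = B.dist t z (B.pos kb) →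
      B.dist t z (B.pos kb) - B.dist t w (B.pos kb) <
        B.dist t z (B.pos ka) - B.dist t w (B.pos ka) →
      ∀ a ≤ ma, ∀ b ≤ mb, fa a ≠ fb b := by
    intro ka kb ma mb fa fb ga gb hfa ca hfb cb hab a ha b hb e
    have h1 := dist_add_le_pathCost ht hfa ha
    have h2 := dist_add_le_pathCost ht hfb hb
    rw [← e] at h2
    have hu := hfa.2 a ha
    linarith [dist_triangle ht hz hu (B.pos_mem ga), dist_triangle ht hw hu (B.pos_mem gb)]
  obtain ⟨a, ha, b, hb, e⟩ := crossing h₁₂ h₂₃ h₃₄ h₄ (hf₁.reverse.append hf₃)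
    (hf₂.reverse.append hf₄)
  have j₁ : (fun k => f₁ (m₁ - k)) m₁ = f₃ 0 := by simp [hf₁.1.1, hf₃.1.1]
  have j₂ : (fun k => f₂ (m₂ - k)) m₂ = f₄ 0 := by simp [hf₂.1.1, hf₄.1.1]
  by_cases ha' : a ≤ m₁ <;> by_cases hb' : b ≤ m₂
  · rw [append_left ha', append_left hb'] at e
    exact miss g₁ g₂ hf₁ c₁ hf₂ c₂ hlt.1.1 _ (Nat.sub_le _ a) _ (Nat.sub_le _ b) e
  · obtain ⟨b', rfl⟩ := Nat.exists_eq_add_of_le (not_le.1 hb').le
    rw [append_left ha', append_right (f := fun k => f₂ (m₂ - k)) (m := m₂) j₂] at e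
    exact miss g₁ h₄ hf₁ c₁ hf₄ c₄ hlt.1.2 _ (Nat.sub_le _ a) b' (by omega) e
  · obtain ⟨a', rfl⟩ := Nat.exists_eq_add_of_le (not_le.1 ha').le
    rw [append_right (f := fun k => f₁ (m₁ - k)) (m := m₁) j₁, append_left hb'] at e
    exact miss g₃ g₂ hf₃ c₃ hf₂ c₂ hlt.2.1 a' (by omega) _ (Nat.sub_le _ b) e
  · obtain ⟨a', rfl⟩ := Nat.exists_eq_add_of_le (not_le.1 ha').le
    obtain ⟨b', rfl⟩ := Nat.exists_eq_add_of_le (not_le.1 hb').le
    rw [append_right (f := fun k => f₁ (m₁ - k)) (m := m₁) j₁, append_right (f := fun k => f₂ (m₂ - k)) (m := m₂) j₂] at e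
    exact miss g₃ h₄ hf₃ c₃ hf₄ c₄ hlt.2.2 a' (by omega) b' (by omega) e

/-- Bounded variation along the boundary (P4). -/
theorem bv {k : ℕ → ℕ} {N : ℕ} (ht : ∀ e, 0 ≤ t e) (hz : B.Mem z) (hw : B.Mem w)
    (hk : ∀ i j, i ≤ j → j ≤ N → k i ≤ k j) (hlen : ∀ i ≤ N, k i ≤ B.len) :
    ∑ i ∈ range N, |(B.dist t z (B.pos (k (i + 1))) - B.dist t w (B.pos (k (i + 1)))) -
        (B.dist t z (B.pos (k i)) - B.dist t w (B.pos (k i)))| ≤ 6 * B.dist t z w := by
  have h := variation_le (m := N)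
    (a := fun i => B.dist t z (B.pos (k i)) - B.dist t w (B.pos (k i)))
    (lo := -B.dist t z w) (hi := B.dist t z w) (by linarith [dist_nonneg ht hz hw])
    (fun i hi => by
      have hm := B.pos_mem (hlen i hi)
      have := dist_comm B t z w
      constructor <;> linarith [dist_triangle ht hz hw hm, dist_triangle ht hw hz hm])
    (fun a b c e hab hbc hce he hA => by
      have o1 := hk a b hab (by omega)
      have o2 := hk b c hbc (by omega)
      have o3 := hk c e hce he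
      rcases hA with hA | hA
      · exact four_point ht hz hw o1 o2 o3 (hlen e he) hA
      · refine four_point ht hw hz o1 o2 o3 (hlen e he) ?_
        simp only [max_lt_iff, lt_min_iff] at hA ⊢
        refine ⟨⟨?_, ?_⟩, ?_, ?_⟩ <;> linarith)
  linarith

/-- Bounded variation along a monotone family of positions, in the form for monotone maps. -/
theorem bv_monotone {k : ℕ → ℕ} {N : ℕ} (ht : ∀ e, 0 ≤ t e) (hz : B.Mem z) (hw : B.Mem w)
    (hk : Monotone k) (hlen : ∀ i, k i ≤ B.len) :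
    ∑ i ∈ range N, |(B.dist t z (B.pos (k (i + 1))) - B.dist t w (B.pos (k (i + 1)))) -
        (B.dist t z (B.pos (k i)) - B.dist t w (B.pos (k i)))| ≤ 6 * B.dist t z w :=
  bv ht hz hw (fun _ _ h _ => hk h) fun i _ => hlen i

end Box

end Vale.Agent.P158.NB
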