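import Vale.Agent.P158.NB.Events
import Vale.Agent.P158.NB.NetSpec
import Vale.Agent.P158.NB.Order
import Vale.Agent.P158.NB.Planar
import Vale.Agent.P158.NB.Labels
import Vale.Agent.P158.NB.Classes

/-!
Order and labels on a frame (`PROOF.md`, section 5): on a good window the segments are classified
by few labels, and segments with one label have nearly the same endpoint functions on the tile.
-/

open Finset

namespace Vale.Agent.P158.NB

namespace Frame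

variable {F : Frame} {W S : Box} {t : Env}

/-- A segment through the window, with its first endpoint in the lower bin `l`. -/
def LowSeg (F : Frame) (W : Box) (δ : ℝ) (t : Env) (l m i j : ℕ) (p q : V) : Prop :=
  F.Seg t i j p q δ ∧ W.Mem p ∧ W.Mem q ∧ F.InBin l i ∧ F.InBin m j ∧ l < m

/-- Every segment through the window has an orientation with the lower bin first. -/
lemma exists_lowSeg (hv : F.Valid) (hn : 0 < F.n) (ht : ∀ e, 0 ≤ t e) (hs : F.Short W t)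
    {p q : V} {δ : ℝ} {i j : ℕ} (h : F.Seg t i j p q δ) (hp : W.Mem p) (hq : W.Mem q) :
    ∃ l m, F.LowSeg W δ t l m i j p q ∨ F.LowSeg W δ t l m j i q p := by
  obtain ⟨l, hl⟩ := hv.exists_bin hn h.1.1
  obtain ⟨m, hm⟩ := hv.exists_bin hn h.1.2.1
  rcases lt_trichotomy l m with hlm | rfl | hlm
  · exact ⟨l, m, Or.inl ⟨h, hp, hq, hl, hm, hlm⟩⟩
  · exact absurd hm (hs.ne_bin h hp ht hl)
  · exact ⟨m, l, Or.inr ⟨h.symm, hq, hp, hm, hl, hlm⟩⟩

/-- A window without `GridBad` has, for every grid pair, an optimal walk avoiding it. -/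
lemma exists_free (hg : ¬ F.GridBad W t) {A C : ℕ} (hA : A ≤ F.n) (hC : C ≤ F.n) :
    ∃ f m, F.B.IsWalk f m (F.B.pos (F.g A)) (F.B.pos (F.g C)) ∧
      pathCost t f m = F.B.dist t (F.B.pos (F.g A)) (F.B.pos (F.g C)) ∧
      ∀ l ≤ m, ¬ W.Mem (f l) := by
  by_contra hno
  push Not at hno
  exact hg ⟨A, C, hA, hC, fun m f hw _ hc => hno f m hw hc⟩

variable {l m l' m' i j i' j' : ℕ} {p q p' q' : V} {δ : ℝ}

/-- The order property. -/
theorem order
    (hv : F.Valid) (ht : ∀ e, 0 < t e) (hδ : 0 < δ) (hW : ∀ z, W.Mem z → F.B.Mem z)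
    (hg : ¬ F.GridBad W t) (h : F.LowSeg W δ t l m i j p q)
    (h' : F.LowSeg W δ t l' m' i' j' p' q') (hll : l < l') : m ≤ m' := by
  obtain ⟨hs, hp, hq, hi, hj, -⟩ := h
  obtain ⟨hs', hp', hq', hi', hj', hlm'⟩ := h'
  exact Order.bins_comonotone Box.crossing ht hδ hW hv.mono
    (fun A hA C hC => exists_free hg hA hC) hs.1 hs'.1 hp hq hp' hq'
    hi.2.2 hi'.2.1 hi'.2.2 hj.2.1 hj'.2.1 hj'.2.2 hlm' hj.1.le hll

/-- Labels of the bin pairs. -/
theorem exists_classes {N : ℕ} {z w : ℕ → V} {X : ℝ}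
    (hmem : ∀ i < N, F.B.Mem (z i) ∧ F.B.Mem (w i))
    (hX : ∑ i ∈ range N, F.B.dist t (z i) (w i) ≤ X)
    (hframe : ∀ a b, a ≤ F.B.len → b ≤ F.B.len → OscLe S (F.B.diff t (F.B.pos a) (F.B.pos b))
      (∑ i ∈ range N,
        |F.B.diff t (F.B.pos a) (F.B.pos b) (z i) - F.B.diff t (F.B.pos a) (F.B.pos b) (w i)|))
    (hv : F.Valid) (ht : ∀ e, 0 < t e) (hδ : 0 < δ) (hW : ∀ z, W.Mem z → F.B.Mem z)
    (hS : ∀ z, S.Mem z → W.Mem z) {η C : ℝ} (hC : 0 < C) (hg : ¬ F.GridBad W t)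
    (hcont : ¬ F.ContBad W δ η t) :
    ∃ lab : ℕ → ℕ → ℕ,
      (∀ l m i j p q, F.LowSeg W δ t l m i j p q →
        (lab l m : ℝ) ≤ 12 * X / C) ∧
      ∀ l m i j p q l' m' i' j' p' q', F.LowSeg W δ t l m i j p q →
        F.LowSeg W δ t l' m' i' j' p' q' → lab l m = lab l' m' →
        OscLe S (F.B.diff t (F.B.pos i) (F.B.pos i')) (C + 2 * η) ∧
        OscLe S (F.B.diff t (F.B.pos j) (F.B.pos j')) (C + 2 * η) := by
  classical
  have h0 : ∀ e, 0 ≤ t e := fun e => (ht e).le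
  set s := ((range F.n) ×ˢ range F.n).filter fun u =>
    ∃ i j p q, F.LowSeg W δ t u.1 u.2 i j p q with hsdef
  have mem_s : ∀ {l m i j p q}, F.LowSeg W δ t l m i j p q → (l, m) ∈ s := fun {l m i j p q} h =>
    mem_filter.2 ⟨mem_product.2 ⟨mem_range.2 h.2.2.2.1.1, mem_range.2 h.2.2.2.2.1.1⟩,
      i, j, p, q, h⟩
  obtain ⟨lab, hb, hl⟩ := Labels.exists_labels (c := 6) (by norm_num) hmem hX hframe
    (fun _ _ hz hw _ hk hkl _ => Box.bv_monotone h0 hz hw hk hkl) s (fun u => F.g (u.1 + 1))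
    (fun u => F.g (u.2 + 1)) (fun _ _ => hv.le _) (fun _ _ => hv.le _)
    (fun u hu u' hu' hlt => by
      obtain ⟨i, j, p, q, h⟩ := (mem_filter.1 hu).2
      obtain ⟨i', j', p', q', h'⟩ := (mem_filter.1 hu').2
      have hll : u.1 < u'.1 := by
        by_contra hle
        exact absurd (hv.mono (Nat.succ_le_succ (not_lt.1 hle))) (not_le.2 hlt)
      exact hv.mono (Nat.succ_le_succ (order hv ht hδ hW hg h h' hll))) hC
  refine ⟨fun l m => lab (l, m), fun l m i j p q h => (hb _ (mem_s h)).trans_eq (by norm_num), ?_⟩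
  intro l m i j p q l' m' i' j' p' q' h h' he
  obtain ⟨hI, hJ⟩ := hl _ (mem_s h) _ (mem_s h') he
  have slack : ∀ {l i j : ℕ} {p q : V}, F.Seg t i j p q δ → W.Mem p → W.Mem q → F.InBin l j →
      OscLe S (F.B.diff t (F.B.pos j) (F.B.pos (F.g (l + 1)))) η := by
    intro l i j p q hs hp hq hj z w hz hw
    by_contra hlt
    refine hcont ⟨p, q, i, j, l, _, hp, hq, hs, hj, Or.inr rfl, fun hosc => hlt ?_⟩
    have := hosc w z (hS w hw) (hS z hz)
    simp only [Box.diff] at *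
    linarith
  obtain ⟨hs, hp, hq, hi, hj, -⟩ := h
  obtain ⟨hs', hp', hq', hi', hj', -⟩ := h'
  exact ⟨Labels.oscLe_slack (slack hs.symm hq hp hi) (slack hs'.symm hq' hp' hi') hI,
    Labels.oscLe_slack (slack hs hp hq hj) (slack hs' hp' hq' hj') hJ⟩

/-- The frame of `Nets` satisfies the hypotheses of `exists_classes` with `X = tileW`. -/
theorem exists_tile_frame {G : MeasureTheory.Measure ℝ} (Ns : Nets G) (ht : ∀ e, 0 ≤ t e) (x : V)
    (r : ℕ) (h2 : ∀ z, (Box.mk x (2 * r)).Mem z → F.B.Mem z) :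
    ∃ (N : ℕ) (z w : ℕ → V), (∀ i < N, F.B.Mem (z i) ∧ F.B.Mem (w i)) ∧
      (∑ i ∈ range N, F.B.dist t (z i) (w i)) ≤ Ns.tileW x r t ∧
      ∀ a b, a ≤ F.B.len → b ≤ F.B.len → OscLe (Box.mk x r) (F.B.diff t (F.B.pos a) (F.B.pos b))
        (∑ i ∈ range N,
          |F.B.diff t (F.B.pos a) (F.B.pos b) (z i) - F.B.diff t (F.B.pos a) (F.B.pos b) (w i)|) := by
  obtain ⟨N, z, w, h1, h3, h4⟩ := Ns.frame x r t ht F.B h2
  exact ⟨N, z, w, h1, h3, fun a b ha hb => h4 _ _ (F.B.pos_mem ha) (F.B.pos_mem hb)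
    (fun h => (F.B.pos_bdry ha).2 (h.of_subset h2)) fun h => (F.B.pos_bdry hb).2 (h.of_subset h2)⟩

/-- Section 6 on a frame: few regular edges of the tile carry segments which pairwise differ by at
most `ε` on it. -/
theorem card_label_edges (ht : ∀ e, 0 < t e) (hW : ∀ z, W.Mem z → F.B.Mem z)
    (hS : ∀ z, S.Mem z → W.Mem z) (U : Finset (Sym2 V)) {η' ε ρ : ℝ} (hρ : 0 ≤ ρ) (hε : 0 ≤ ε)
    (hεδ : 2 * ε < δ) (hεη : 3 * ε < η') (sel : Sym2 V → ℕ × ℕ × V × V)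
    (hseg : ∀ e ∈ U, F.Seg t (sel e).1 (sel e).2.1 (sel e).2.2.1 (sel e).2.2.2 δ ∧
      s((sel e).2.2.1, (sel e).2.2.2) = e ∧
      Reg S η' ρ (sel e).2.2.1 t ∧ S.Mem (sel e).2.2.1 ∧ S.Mem (sel e).2.2.2)
    (hosc : ∀ e ∈ U, ∀ e' ∈ U,
      OscLe S (F.B.diff t (F.B.pos (sel e).1) (F.B.pos (sel e').1)) ε ∧
      OscLe S (F.B.diff t (F.B.pos (sel e).2.1) (F.B.pos (sel e').2.1)) ε) :
    (U.card : ℝ) ≤ 4 * (2 * ρ / (η' - 3 * ε) + 1) := by
  classical
  have h0 : ∀ e, 0 ≤ t e := fun e => (ht e).le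
  have hsub : ∀ z, S.Mem z → F.B.Mem z := fun z hz => hW z (hS z hz)
  have hcS : S.Mem S.c := by simp [Box.Mem]
  have h := card_class_edges F.B ht S hsub U (fun e => F.B.pos (sel e).1)
    (fun e => F.B.pos (sel e).2.1) (fun e => (sel e).2.2.1) (fun e => (sel e).2.2.2)
    (c := S.c) (δ := δ) (η := η') (ρ := ρ) (hsub _ hcS) hρ hε hεδ hεη
    (fun e he => ⟨(hseg e he).1.mem_left, (hseg e he).1.mem_right⟩)
    (fun e he => ⟨(hseg e he).1.1.2.2.1, (hseg e he).1.1.2.2.2⟩)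
    (fun e he => ⟨(hseg e he).2.2.2.1, (hseg e he).2.2.2.2⟩) hosc
    (fun e he e' he' hne => (hseg e he).2.2.1.1.le_dist h0 (hsub _ (hseg e he).2.2.2.1)
      (hsub _ (hseg e' he').2.2.2.1) hne)
    (fun e he => (Box.dist_le_sub h0 hsub hcS (hseg e he).2.2.2.1).trans (hseg e he).2.2.1.2)
  have e : U.image (fun e => s((sel e).2.2.1, (sel e).2.2.2)) = U := by
    rw [image_congr (fun e he => (hseg e he).2.1), image_id']
  rwa [e] at h

end Frame

end Vale.Agent.P158.NB
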