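import Vale.Agent.P158.NB.BoxBasic

/-!
The events of `PROOF.md`, sections 3-9, as predicates of the weights.

A `Frame` is a box with a grid of positions and a set of admissible positions; in the finite mean
case all positions are admissible (`Frame.full`). Windows and tiles are boxes.
-/

open MeasureTheory

namespace Vale.Agent.P158.NB

namespace Box

/-- What the best path from `x` to `y` through the step `p q` loses against the optimum. -/
noncomputable def excess (B : Box) (t : Env) (x y p q : V) : ℝ :=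
  B.dist t x p + t s(p, q) + B.dist t q y - B.dist t x y

/-- Every optimal self-avoiding walk from `x` to `y` meets `S`. -/
def Hit (B S : Box) (t : Env) (x y : V) : Prop :=
  ∀ m f, B.IsWalk f m x y → IsSimple f m → pathCost t f m = B.dist t x y → ∃ k ≤ m, S.Mem (f k)

end Box

/-- All edges at `p` weigh at least `η`. -/
def Iso (η : ℝ) (p : V) (t : Env) : Prop := ∀ y, Nbr p y → η ≤ t s(p, y)

/-- A regular vertex of the tile `S`: `η` isolated and within `C` of the centre inside the tile. -/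
def Reg (S : Box) (η C : ℝ) (p : V) (t : Env) : Prop := Iso η p t ∧ S.dist t S.c p ≤ C

/-- A box with `n` bins cut by the grid `g` and a set `T` of admissible positions. -/
structure Frame where
  B : Box
  n : ℕ
  g : ℕ → ℕ
  T : Set ℕ

namespace Frame

/-- The frame with equal bins and all positions admissible. -/
def full (B : Box) (n : ℕ) : Frame :=
  ⟨B, n, fun l => min l n * B.len / n, Set.univ⟩

/-- The basic properties of a frame. -/
structure Valid (F : Frame) : Prop where
  zero : F.g 0 = 0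
  last : F.g F.n = F.B.len
  mono : Monotone F.g
  le : ∀ l, F.g l ≤ F.B.len
  adm : ∀ l ≤ F.n, F.g l ∈ F.T

/-- The translated frame. -/
def shift (F : Frame) (v : V) : Frame := ⟨F.B.shift v, F.n, F.g, F.T⟩

/-- The position `j` is in the closed bin `l`. -/
def InBin (F : Frame) (l j : ℕ) : Prop := l < F.n ∧ F.g l ≤ j ∧ j ≤ F.g (l + 1)

/-- `K` is an end of the bin `l`. -/
def IsEnd (F : Frame) (l K : ℕ) : Prop := K = F.g l ∨ K = F.g (l + 1)

/-- A margin segment with admissible ends. -/
def Seg (F : Frame) (t : Env) (i j : ℕ) (p q : V) (D : ℝ) : Prop :=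
  F.B.Seg t i j p q D ∧ i ∈ F.T ∧ j ∈ F.T

/-- The step `p q` carries a margin segment. -/
def HasSeg (F : Frame) (p q : V) (D : ℝ) (t : Env) : Prop := ∃ i j, F.Seg t i j p q D

/-- No optimal path between two positions of one bin visits `S`. -/
def Short (F : Frame) (S : Box) (t : Env) : Prop :=
  ∀ l i j, F.InBin l i → F.InBin l j → i ∈ F.T → j ∈ F.T → ∀ p, S.Mem p →
    F.B.dist t (F.B.pos i) (F.B.pos j) <
      F.B.dist t (F.B.pos i) p + F.B.dist t p (F.B.pos j)

/-- Positions of the bin `l` are within `X l` of each other. -/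
def BinLe (F : Frame) (X : ℕ → ℝ) (t : Env) : Prop :=
  ∀ l i j, F.InBin l i → F.InBin l j → i ∈ F.T → j ∈ F.T →
    F.B.dist t (F.B.pos i) (F.B.pos j) ≤ X l

/-- Some segment through the step `p q` has gain at least `η` towards an end of the bin of its
second endpoint. -/
def GainAt (F : Frame) (D η : ℝ) (p q : V) (t : Env) : Prop :=
  ∃ i j l K, F.Seg t i j p q D ∧ F.InBin l j ∧ F.IsEnd l K ∧ η ≤ F.B.gain t (F.B.pos K) p q

/-- `GainAt` somewhere in the window. -/
def GainEv (F : Frame) (S : Box) (D η : ℝ) (t : Env) : Prop :=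
  ∃ p q, S.Mem p ∧ S.Mem q ∧ F.GainAt D η p q t

/-- Some segment through the window whose second endpoint differs by more than `η` in oscillation
from an end of its bin (Lemma C). -/
def ContBad (F : Frame) (S : Box) (δ η : ℝ) (t : Env) : Prop :=
  ∃ p q i j l K, S.Mem p ∧ S.Mem q ∧ F.Seg t i j p q δ ∧ F.InBin l j ∧ F.IsEnd l K ∧
    ¬ OscLe S (F.B.diff t (F.B.pos K) (F.B.pos j)) η

/-- All optimal paths between some two grid positions meet the window. -/
def GridBad (F : Frame) (S : Box) (t : Env) : Prop :=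
  ∃ k k', k ≤ F.n ∧ k' ≤ F.n ∧ F.B.Hit S t (F.B.pos (F.g k)) (F.B.pos (F.g k'))

/-- A margin segment through the window ends at the root `b` (Lemma R). -/
def RootEv (F : Frame) (S : Box) (b : ℕ) (δ : ℝ) (t : Env) : Prop :=
  ∃ p q i, S.Mem p ∧ S.Mem q ∧ F.Seg t i b p q δ

/-- Two segments through the window whose second endpoints differ in oscillation by more than `ε`
although the mixed pair has excess at most `C` at the first step (Lemma U). -/
def UBad (F : Frame) (S : Box) (δ ε C : ℝ) (t : Env) : Prop :=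
  ∃ p q p' q' i j i' j', S.Mem p ∧ S.Mem q ∧ S.Mem p' ∧ S.Mem q' ∧
    F.Seg t i j p q δ ∧ F.Seg t i' j' p' q' δ ∧
    ¬ OscLe S (F.B.diff t (F.B.pos j) (F.B.pos j')) ε ∧
    F.B.excess t (F.B.pos i) (F.B.pos j') p q ≤ C

variable {F : Frame} {S : Box} {t : Env} {i j l : ℕ} {p q : V} {D : ℝ}

lemma full_valid (B : Box) {n : ℕ} (hn : 0 < n) : (full B n).Valid where
  zero := by simp [full]
  last := by simp [full, Nat.mul_div_cancel_left _ hn]
  mono := fun a b hab => Nat.div_le_div_right
    (Nat.mul_le_mul_right _ (min_le_min_right n hab))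
  le := fun l => Nat.div_le_of_le_mul (by
    show min l n * B.len ≤ n * B.len
    exact Nat.mul_le_mul_right _ (min_le_right _ _))
  adm := fun _ _ => Set.mem_univ _

lemma full_seg (B : Box) (n : ℕ) :
    (full B n).Seg t i j p q D ↔ B.Seg t i j p q D := by simp [Seg, full]

lemma Seg.symm (h : F.Seg t i j p q D) : F.Seg t j i q p D := ⟨h.1.symm, h.2.2, h.2.1⟩

lemma Seg.mem_left (h : F.Seg t i j p q D) : F.B.Mem (F.B.pos i) := F.B.pos_mem h.1.1

lemma Seg.mem_right (h : F.Seg t i j p q D) : F.B.Mem (F.B.pos j) := F.B.pos_mem h.1.2.1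

lemma Valid.exists_bin (h : F.Valid) (hn : 0 < F.n) (hj : j ≤ F.B.len) : ∃ l, F.InBin l j := by
  classical
  have hex : ∃ l, j ≤ F.g (l + 1) := ⟨F.n - 1, by rw [Nat.sub_add_cancel hn, h.last]; exact hj⟩
  refine ⟨Nat.find hex, ?_, ?_, Nat.find_spec hex⟩
  · have hle : Nat.find hex ≤ F.n - 1 :=
      Nat.find_le (by rw [Nat.sub_add_cancel hn, h.last]; exact hj)
    omega
  · rcases Nat.eq_zero_or_pos (Nat.find hex) with h0 | h0
    · rw [h0, h.zero]; exact Nat.zero_le _
    · have h1 := Nat.find_min hex (show Nat.find hex - 1 < Nat.find hex by omega)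
      rw [Nat.sub_add_cancel h0] at h1
      omega

/-- A segment through `S` has its endpoints in different bins. -/
lemma Short.ne_bin (h : F.Short S t) (hs : F.Seg t i j p q D) (hp : S.Mem p)
    (ht : ∀ e, 0 ≤ t e) (hi : F.InBin l i) : ¬ F.InBin l j := by
  intro hj
  have h1 := h l i j hi hj hs.2.1 hs.2.2 p hp
  have hth := hs.1.2.2.1
  have h2 := hth.2.2.2
  have h3 := Box.dist_triangle ht hth.mem_left hth.mem_right hs.mem_right
  have h4 := Box.dist_le_edge ht hth.mem_left hth.mem_right hth.1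
  linarith

lemma RootEv.mono {S' : Box} {b : ℕ} {δ : ℝ} (hS : ∀ z, S.Mem z → S'.Mem z)
    (h : F.RootEv S b δ t) : F.RootEv S' b δ t :=
  let ⟨p, q, i, hp, hq, hs⟩ := h
  ⟨p, q, i, hS _ hp, hS _ hq, hs⟩

lemma GridBad.mono {S' : Box} (hS : ∀ z, S.Mem z → S'.Mem z) (h : F.GridBad S t) :
    F.GridBad S' t := by
  obtain ⟨k, k', hk, hk', hh⟩ := h
  refine ⟨k, k', hk, hk', fun m f hw hs hc => ?_⟩
  obtain ⟨u, hu, hu'⟩ := hh m f hw hs hc
  exact ⟨u, hu, hS _ hu'⟩

lemma GainEv.mono {S' : Box} {η : ℝ} (hS : ∀ z, S.Mem z → S'.Mem z) (h : F.GainEv S D η t) :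
    F.GainEv S' D η t :=
  let ⟨p, q, hp, hq, hg⟩ := h
  ⟨p, q, hS _ hp, hS _ hq, hg⟩

lemma ContBad.mono {S' : Box} {δ η : ℝ} (hS : ∀ z, S.Mem z → S'.Mem z)
    (h : F.ContBad S δ η t) : F.ContBad S' δ η t := by
  obtain ⟨p, q, i, j, l, K, hp, hq, hs, hl, hK, ho⟩ := h
  exact ⟨p, q, i, j, l, K, hS _ hp, hS _ hq, hs, hl, hK,
    fun h' => ho fun z w hz hw => h' z w (hS _ hz) (hS _ hw)⟩

lemma Short.mono {S' : Box} (hS : ∀ z, S'.Mem z → S.Mem z) (h : F.Short S t) : F.Short S' t :=
  fun l i j hi hj hi' hj' p hp => h l i j hi hj hi' hj' p (hS _ hp)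

end Frame

lemma Iso.le_dist {η : ℝ} {B : Box} {t : Env} {p p' : V} (h : Iso η p t) (ht : ∀ e, 0 ≤ t e)
    (hp : B.Mem p) (hp' : B.Mem p') (hne : p ≠ p') : η ≤ B.dist t p p' := by
  refine Box.le_dist hp hp' fun m f hf => ?_
  obtain ⟨⟨h0, hm, hs⟩, -⟩ := hf
  rcases m with _ | m
  · exact absurd (h0.symm.trans hm) hne
  · have h1 := h (f 1) (h0 ▸ hs 0 (Nat.succ_pos m))
    rw [← h0] at h1
    refine h1.trans ?_
    exact Finset.single_le_sum (f := fun i => t s(f i, f (i + 1))) (fun i _ => ht _)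
      (Finset.mem_range.2 (Nat.succ_pos m))

end Vale.Agent.P158.NB
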