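import Mathlib

/-!
# Lemma C of `PROOF.md`: the detour gadget, abstract metric form

`d` is the old box metric, `T s` the metric after lowering the set of edges with vertices `W s`.
The conclusion: some stage has an optimal `a`-`b` path with a piece from `v` to `w` along which the
difference `D = dist(·,K) - dist(·,b)` rises by at least `η / 4`.
-/

open Finset

namespace Vale.Agent.P158.NB

/-- The metrics of the stages of lowering. -/
structure Stages (α : Type*) where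
  d : α → α → ℝ
  T : ℕ → α → α → ℝ
  W : ℕ → Set α
  nonneg : ∀ s x y, 0 ≤ T s x y
  comm : ∀ s x y, T s x y = T s y x
  dcomm : ∀ x y, d x y = d y x
  tri : ∀ s x y z, T s x z ≤ T s x y + T s y z
  le : ∀ s x y, T s x y ≤ d x y
  exit : ∀ s x y, T s x y = d x y ∨
    ∃ w ∈ W s, T s x y = T s x w + d w y ∧ T s w y = d w y

variable {α : Type*} (Z : Stages α)

namespace Stages

/-- The difference at stage `s`. -/
def D (s : ℕ) (K b u : α) : ℝ := Z.T s u K - Z.T s u b

/-- The output of the gadget. -/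
def Out (a b K v : α) (η : ℝ) (s : ℕ) (w : α) : Prop :=
  Z.T s a b = Z.d a v + Z.T s v b ∧ Z.T s a v = Z.d a v ∧
    Z.T s v b = Z.T s v w + Z.d w b ∧ Z.T s w b = Z.d w b ∧
    η / 4 ≤ Z.D s K b w - Z.D s K b v

lemma first_vertex (s : ℕ) {a b v : α} (hab : Z.d a b = Z.d a v + Z.d v b)
    (hW : ∀ u ∈ Z.W s, Z.d a v + Z.T s v u ≤ Z.d a u) :
    Z.T s a b = Z.d a v + Z.T s v b ∧ Z.T s a v = Z.d a v := by
  have h1 : Z.T s a b ≤ Z.T s a v + Z.T s v b := Z.tri s a v b
  have h2 : Z.T s a v ≤ Z.d a v := Z.le s a v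
  have h3 : Z.d a v + Z.T s v b ≤ Z.T s a b := by
    rcases Z.exit s b a with h | ⟨u, hu, h, -⟩
    · rw [Z.comm s a b, h, Z.dcomm b a, hab]
      linarith [Z.le s v b]
    · rw [Z.comm s a b, h, Z.dcomm u a]
      linarith [hW u hu, Z.tri s v u b, Z.comm s u b]
  exact ⟨by linarith, by linarith⟩

/-- The case in which the target is larger at the detour. -/
theorem gadget_up {a b K v : α} {L : ℕ} {η c kp : ℝ} {S σ : Set α} (hη : 0 < η)
    (hW : ∀ s, Z.W s ⊆ S ∪ σ) (hab : Z.d a b = Z.d a v + Z.d v b)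
    (hfirst : ∀ s, ∀ u ∈ S ∪ σ, Z.d a v + Z.T s v u ≤ Z.d a u)
    (hS : ∀ u ∈ S, Z.d u K - Z.d u b ≤ c ∧ kp ≤ Z.d u K)
    (hσ : ∀ u ∈ σ, c + η ≤ Z.d u K - Z.d u b ∧ Z.d u b + c + η ≤ kp)
    (hkv : kp ≤ Z.d v K) (hlow : ∀ s, Z.T s v b < Z.d v b)
    (h0 : Z.D 0 K b v ≤ c) (hend : Z.T L v b + c + η / 2 ≤ kp)
    (hstep : ∀ s, |Z.D (s + 1) K b v - Z.D s K b v| ≤ η / 4) :
    ∃ s ≤ L, ∃ w ∈ σ, Z.Out a b K v η s w := by
  classical
  have hL : c + η / 4 < Z.D L K b v := by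
    have : Z.T L v b + (c + η / 2) ≤ Z.T L v K := by
      rcases Z.exit L v K with h | ⟨j, hj, h, -⟩
      · linarith
      · rcases hW L hj with hjS | hjσ
        · linarith [(hS j hjS).2, Z.nonneg L v j]
        · linarith [(hσ j hjσ).1, Z.tri L v j b, Z.le L j b]
    simp only [D]; linarith
  have hex : ∃ s, c + η / 4 < Z.D s K b v := ⟨L, hL⟩
  set s := Nat.find hex with hs
  have hsL : s ≤ L := Nat.find_le hL
  have hgt : c + η / 4 < Z.D s K b v := Nat.find_spec hex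
  have hle : Z.D s K b v ≤ c + η / 2 := by
    have hs0 : s ≠ 0 := fun h => by rw [h] at hgt; linarith
    have h1 : ¬ c + η / 4 < Z.D (s - 1) K b v := Nat.find_min hex (by omega)
    have h2 := hstep (s - 1)
    rw [show s - 1 + 1 = s by omega] at h2
    linarith [abs_le.1 h2]
  obtain ⟨e1, e2⟩ := Z.first_vertex s hab fun u hu => hfirst s u (hW s hu)
  rcases Z.exit s v b with h | ⟨w, hw, h, hwb⟩
  · linarith [hlow s]
  have hmono : Z.D s K b v ≤ Z.D s K b w := by
    simp only [D]; linarith [Z.tri s v w K]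
  rcases hW s hw with hwS | hwσ
  · have : Z.D s K b w ≤ c := by simp only [D]; linarith [(hS w hwS).1, Z.le s w K]
    linarith
  refine ⟨s, hsL, w, hwσ, e1, e2, h, hwb, ?_⟩
  have : c + η ≤ Z.D s K b w := by
    simp only [D, hwb]
    rcases Z.exit s w K with h' | ⟨j, hj, h', -⟩
    · linarith [(hσ w hwσ).1]
    · rcases hW s hj with hjS | hjσ
      · linarith [(hS j hjS).2, Z.nonneg s w j, (hσ w hwσ).2]
      · linarith [(hσ j hjσ).1, Z.tri s w j b, Z.le s j b]
  linarith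

/-- The case in which the target is smaller at the detour; `q` is far ahead on the old path. -/
theorem gadget_down {a b K v q : α} {L : ℕ} {η c : ℝ} {S σ : Set α} (hη : 0 < η)
    (hW : ∀ s, Z.W s ⊆ S ∪ σ) (hW0 : Z.W 0 ⊆ S) (hab : Z.d a b = Z.d a v + Z.d v b)
    (hfirst : ∀ s, ∀ u ∈ S ∪ σ, Z.d a v + Z.T s v u ≤ Z.d a u)
    (hS : ∀ u ∈ S, Z.d u K - Z.d u b ≤ c ∧ Z.d u b = Z.d u q + Z.d q b)
    (hσ : ∀ u ∈ σ, Z.d u K - Z.d u b ≤ c - η)
    (hq : c ≤ Z.d q K - Z.d q b) (hqW : ∀ u ∈ S ∪ σ, Z.d q b + c ≤ Z.d u K)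
    (hlow : ∀ s, Z.T s v b < Z.d v b)
    (hend : ∀ j ∈ S, Z.T L j K - Z.d j b ≤ c - η / 2)
    (hstep : ∀ s, |Z.D (s + 1) K b v - Z.D s K b v| ≤ η / 4) :
    ∃ s ≤ L, Z.Out a b K v η s q := by
  classical
  have hL : Z.D L K b v < c - η / 4 := by
    rcases Z.exit L v b with h | ⟨w, hw, h, hwb⟩
    · linarith [hlow L]
    · have hmono : Z.D L K b v ≤ Z.T L w K - Z.d w b := by
        simp only [D]; linarith [Z.tri L v w K]
      rcases hW L hw with hwS | hwσ
      · linarith [hend w hwS]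
      · linarith [hσ w hwσ, Z.le L w K]
  have hex : ∃ s, Z.D s K b v < c - η / 4 := ⟨L, hL⟩
  set s := Nat.find hex with hs
  have hsL : s ≤ L := Nat.find_le hL
  have hlt : Z.D s K b v < c - η / 4 := Nat.find_spec hex
  obtain ⟨e1, e2⟩ := Z.first_vertex s hab fun u hu => hfirst s u (hW s hu)
  rcases Z.exit s v b with h | ⟨w, hw, h, hwb⟩
  · linarith [hlow s]
  have hmono : Z.D s K b v ≤ Z.D s K b w := by
    simp only [D]; linarith [Z.tri s v w K]
  have hwS : w ∈ S := by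
    by_cases hs0 : s = 0
    · rw [hs0] at hw; exact hW0 hw
    rcases hW s hw with hwS | hwσ
    · exact hwS
    exfalso
    have h1 : ¬ Z.D (s - 1) K b v < c - η / 4 := Nat.find_min hex (by omega)
    have h2 := hstep (s - 1)
    rw [show s - 1 + 1 = s by omega] at h2
    have h3 : Z.D s K b w ≤ c - η := by simp only [D]; linarith [hσ w hwσ, Z.le s w K]
    linarith [abs_le.1 h2]
  have hq1 := (hS w hwS).2
  have hqb : Z.T s q b = Z.d q b := by
    linarith [Z.le s q b, Z.tri s w q b, Z.le s w q]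
  have hvq : Z.T s v b = Z.T s v q + Z.d q b := by
    refine le_antisymm (by linarith [Z.tri s v q b]) ?_
    linarith [Z.tri s v w q, Z.le s w q]
  refine ⟨s, hsL, e1, e2, hvq, hqb, ?_⟩
  have : c ≤ Z.D s K b q := by
    simp only [D, hqb]
    rcases Z.exit s q K with h' | ⟨j, hj, h', -⟩
    · linarith
    · linarith [hqW j (hW s hj), Z.nonneg s q j]
  linarith

end Stages

end Vale.Agent.P158.NB
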