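import Vale.Agent.P158.NB.Growth
import Vale.Agent.P158.Resample

/-!
Change of measure with finitely many options (Q4 of `PROOF.md`). Outer measures are used
throughout, so the events need not be measurable.
-/

open MeasureTheory Finset
open scoped ENNReal

namespace Vale.Agent.P158.NB

variable (G : Measure ℝ) [IsProbabilityMeasure G]

/-- If every point of `A` has one of finitely many options all of whose replacements lie in
`Bev`, then `A` is not much more likely than `Bev`. -/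
theorem measure_le_of_options {ι : Type*} (I : Finset ι) (F : ι → Finset (Sym2 V))
    (S : ι → Sym2 V → Set ℝ) (hS : ∀ i ∈ I, ∀ e ∈ F i, MeasurableSet (S i e))
    (hS0 : ∀ i ∈ I, ∀ e ∈ F i, 0 < G (S i e)) {A Bev : Set Env}
    (h : ∀ t ∈ A, ∃ i ∈ I, ∀ s : Env, (∀ e ∈ F i, s e ∈ S i e) → (F i).piecewise s t ∈ Bev) :
    weightMeasure G A ≤ (∑ i ∈ I, (∏ e ∈ F i, G (S i e))⁻¹) * weightMeasure G Bev := by
  classical
  set A' : ι → Set Env := fun i =>
    {t | ∀ s : Env, (∀ e ∈ F i, s e ∈ S i e) → (F i).piecewise s t ∈ Bev}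
  have hsub : A ⊆ ⋃ i ∈ I, A' i := fun t ht => by
    obtain ⟨i, hi, hh⟩ := h t ht
    exact Set.mem_iUnion₂.2 ⟨i, hi, hh⟩
  refine (measure_mono hsub).trans ((measure_biUnion_finset_le _ _).trans ?_)
  rw [Finset.sum_mul]
  refine sum_le_sum fun i hi => ?_
  have hp : ∏ e ∈ F i, G (S i e) ≠ 0 :=
    Finset.prod_ne_zero_iff.2 fun e he => (hS0 i hi e he).ne'
  have ht : ∏ e ∈ F i, G (S i e) ≠ ∞ := ENNReal.prod_ne_top fun e _ => measure_ne_top _ _
  have := mul_le_of_modify G (F i) (A := A' i) (B := Bev) (hS i hi) fun t ht => ht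
  unfold weightMeasure
  rw [mul_comm] at this
  calc Measure.infinitePi (fun _ => G) (A' i)
      = (∏ e ∈ F i, G (S i e))⁻¹ * ((∏ e ∈ F i, G (S i e)) * Measure.infinitePi (fun _ => G) (A' i)) := by
        rw [← mul_assoc, ENNReal.inv_mul_cancel hp ht, one_mul]
    _ ≤ _ := mul_le_mul' le_rfl this

/-- For windows of at most `N` edges and targets from a fixed finite family the constant is
uniform in the window, the event and the configuration. -/
theorem exists_option_const (T : Finset (Set ℝ)) (hT : ∀ S ∈ T, MeasurableSet S ∧ 0 < G S)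
    (N : ℕ) : ∃ C : ℝ≥0∞, C ≠ ∞ ∧ ∀ W : Finset (Sym2 V), W.card ≤ N → ∀ A Bev : Set Env,
      (∀ t ∈ A, ∃ F ⊆ W, ∃ S : Sym2 V → Set ℝ, (∀ e ∈ F, S e ∈ T) ∧
        ∀ s : Env, (∀ e ∈ F, s e ∈ S e) → F.piecewise s t ∈ Bev) →
      weightMeasure G A ≤ C * weightMeasure G Bev := by
  classical
  -- the least possible product
  set m := T.inf fun S => G S with hm
  set m' := min m 1
  have hm0 : m' ≠ 0 :=
    (lt_min ((Finset.lt_inf_iff (by simp)).2 fun S hS => (hT S hS).2) zero_lt_one).ne'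
  have hmtop : m' ≠ ∞ := ne_top_of_le_ne_top ENNReal.one_ne_top (min_le_right _ _)
  refine ⟨((2 ^ N * (T.card + 1) ^ N : ℕ) : ℝ≥0∞) * (m' ^ N)⁻¹,
    ENNReal.mul_ne_top (ENNReal.natCast_ne_top _)
      (ENNReal.inv_ne_top.2 (pow_ne_zero _ hm0)), fun W hW A Bev h => ?_⟩
  set I := W.powerset.sigma fun F => F.pi fun _ => T
  set S' : ((F : Finset (Sym2 V)) × ((e : Sym2 V) → e ∈ F → Set ℝ)) → Sym2 V → Set ℝ :=
    fun p e => if he : e ∈ p.1 then p.2 e he else ∅
  have hmem : ∀ p ∈ I, ∀ e ∈ p.1, S' p e ∈ T := fun p hp e he => by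
    simp only [S', dif_pos he]
    exact Finset.mem_pi.1 (Finset.mem_sigma.1 hp).2 e he
  refine (measure_le_of_options G I (fun p => p.1) S'
    (fun p hp e he => (hT _ (hmem p hp e he)).1) (fun p hp e he => (hT _ (hmem p hp e he)).2)
    (A := A) (Bev := Bev) fun t ht => ?_).trans ?_
  · obtain ⟨F, hF, S, hS, hmod⟩ := h t ht
    refine ⟨⟨F, fun e _ => S e⟩, Finset.mem_sigma.2 ⟨mem_powerset.2 hF, Finset.mem_pi.2 hS⟩,
      fun s hs => hmod s fun e he => ?_⟩
    have := hs e he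
    simpa [S', dif_pos he] using this
  gcongr
  refine (sum_le_card_nsmul _ _ ((m' ^ N)⁻¹) fun p hp => ENNReal.inv_le_inv.2 ?_).trans ?_
  · have hc : p.1.card ≤ N :=
      (card_le_card (mem_powerset.1 (Finset.mem_sigma.1 hp).1)).trans hW
    refine (pow_le_pow_of_le_one zero_le (min_le_right _ _) hc).trans ?_
    rw [← prod_const]
    exact prod_le_prod' fun e he => (min_le_left _ _).trans (Finset.inf_le (hmem p hp e he))
  · rw [nsmul_eq_mul]
    gcongr
    rw [Finset.card_sigma]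
    refine (sum_le_card_nsmul _ _ ((T.card + 1) ^ N) fun F hF => ?_).trans ?_
    · rw [Finset.card_pi, prod_const]
      exact (Nat.pow_le_pow_left (Nat.le_succ _) _).trans
        (Nat.pow_le_pow_right (Nat.succ_pos _) ((card_le_card (mem_powerset.1 hF)).trans hW))
    · rw [card_powerset, smul_eq_mul]
      exact Nat.mul_le_mul_right _ (Nat.pow_le_pow_right (by norm_num) hW)

/-- If every replacement on `F` within the targets becomes a point of `Bev` after keeping it on
some subset only (which may depend on the point and on the replacement), then `A` is not much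
more likely than `Bev`. -/
theorem mul_le_of_sub_modify (F : Finset (Sym2 V)) {S : Sym2 V → Set ℝ}
    (hS : ∀ e ∈ F, MeasurableSet (S e)) {A Bev : Set Env}
    (h : ∀ t ∈ A, ∀ s : Env, (∀ e ∈ F, s e ∈ S e) → ∃ F' ⊆ F, F'.piecewise s t ∈ Bev) :
    weightMeasure G A * ∏ e ∈ F, G (S e) ≤ 2 ^ F.card * weightMeasure G Bev := by
  classical
  unfold weightMeasure
  set μ := Measure.infinitePi fun _ : Sym2 V => G
  rw [← Measure.infinitePi_pi (μ := fun _ : Sym2 V => G) hS, ← Measure.prod_prod]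
  have hsub : A ×ˢ Set.pi (↑F) S ⊆ ⋃ F' ∈ F.powerset, splice F' ⁻¹' Bev := fun q hq => by
    obtain ⟨F', hF', hB⟩ := h q.1 hq.1 q.2 fun e he => hq.2 e (mem_coe.2 he)
    exact Set.mem_iUnion₂.2 ⟨F', mem_powerset.2 hF', hB⟩
  refine (measure_mono hsub).trans ((measure_biUnion_finset_le _ _).trans ?_)
  refine (sum_le_card_nsmul _ _ (μ Bev) fun F' _ => ?_).trans (le_of_eq ?_)
  · conv_rhs => rw [show μ = (μ.prod μ).map (splice F') from (map_splice G F').symm]
    exact Measure.le_map_apply (measurable_splice F').aemeasurable Bev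
  · rw [card_powerset, nsmul_eq_mul]
    push_cast
    rfl

/-- The union over options of `mul_le_of_sub_modify`. -/
theorem measure_le_of_sub_options {ι : Type*} (I : Finset ι) (F : ι → Finset (Sym2 V))
    (S : ι → Sym2 V → Set ℝ) (hS : ∀ i ∈ I, ∀ e ∈ F i, MeasurableSet (S i e))
    (hS0 : ∀ i ∈ I, ∀ e ∈ F i, 0 < G (S i e)) {A Bev : Set Env}
    (h : ∀ t ∈ A, ∃ i ∈ I, ∀ s : Env, (∀ e ∈ F i, s e ∈ S i e) →
      ∃ F' ⊆ F i, F'.piecewise s t ∈ Bev) :
    weightMeasure G A ≤
      (∑ i ∈ I, 2 ^ (F i).card / ∏ e ∈ F i, G (S i e)) * weightMeasure G Bev := by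
  classical
  set A' : ι → Set Env := fun i =>
    {t | ∀ s : Env, (∀ e ∈ F i, s e ∈ S i e) → ∃ F' ⊆ F i, F'.piecewise s t ∈ Bev}
  have hsub : A ⊆ ⋃ i ∈ I, A' i := fun t ht => by
    obtain ⟨i, hi, hh⟩ := h t ht
    exact Set.mem_iUnion₂.2 ⟨i, hi, hh⟩
  refine (measure_mono hsub).trans ((measure_biUnion_finset_le _ _).trans ?_)
  rw [Finset.sum_mul]
  refine sum_le_sum fun i hi => ?_
  have hp : ∏ e ∈ F i, G (S i e) ≠ 0 :=
    Finset.prod_ne_zero_iff.2 fun e he => (hS0 i hi e he).ne'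
  have ht : ∏ e ∈ F i, G (S i e) ≠ ∞ := ENNReal.prod_ne_top fun e _ => measure_ne_top _ _
  rw [← ENNReal.mul_div_right_comm, ENNReal.le_div_iff_mul_le (Or.inl hp) (Or.inl ht)]
  exact mul_le_of_sub_modify G (F i) (A := A' i) (hS i hi) fun t ht => ht

/-- The uniform constant for modifications kept on a subset. -/
theorem exists_sub_option_const (T : Finset (Set ℝ)) (hT : ∀ S ∈ T, MeasurableSet S ∧ 0 < G S)
    (N : ℕ) : ∃ C : ℝ≥0∞, C ≠ ∞ ∧ ∀ W : Finset (Sym2 V), W.card ≤ N → ∀ A Bev : Set Env,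
      (∀ t ∈ A, ∃ F ⊆ W, ∃ S : Sym2 V → Set ℝ, (∀ e ∈ F, S e ∈ T) ∧
        ∀ s : Env, (∀ e ∈ F, s e ∈ S e) → ∃ F' ⊆ F, F'.piecewise s t ∈ Bev) →
      weightMeasure G A ≤ C * weightMeasure G Bev := by
  classical
  -- the least possible product
  set m := T.inf fun S => G S with hm
  set m' := min m 1
  have hm0 : m' ≠ 0 :=
    (lt_min ((Finset.lt_inf_iff (by simp)).2 fun S hS => (hT S hS).2) zero_lt_one).ne'
  have hmtop : m' ≠ ∞ := ne_top_of_le_ne_top ENNReal.one_ne_top (min_le_right _ _)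
  refine ⟨((2 ^ N * (T.card + 1) ^ N : ℕ) : ℝ≥0∞) * (2 ^ N / m' ^ N),
    ENNReal.mul_ne_top (ENNReal.natCast_ne_top _)
      (ENNReal.div_ne_top (by simp) (pow_ne_zero _ hm0)), fun W hW A Bev h => ?_⟩
  set I := W.powerset.sigma fun F => F.pi fun _ => T
  set S' : ((F : Finset (Sym2 V)) × ((e : Sym2 V) → e ∈ F → Set ℝ)) → Sym2 V → Set ℝ :=
    fun p e => if he : e ∈ p.1 then p.2 e he else ∅
  have hmem : ∀ p ∈ I, ∀ e ∈ p.1, S' p e ∈ T := fun p hp e he => by
    simp only [S', dif_pos he]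
    exact Finset.mem_pi.1 (Finset.mem_sigma.1 hp).2 e he
  refine (measure_le_of_sub_options G I (fun p => p.1) S'
    (fun p hp e he => (hT _ (hmem p hp e he)).1) (fun p hp e he => (hT _ (hmem p hp e he)).2)
    (A := A) (Bev := Bev) fun t ht => ?_).trans ?_
  · obtain ⟨F, hF, S, hS, hmod⟩ := h t ht
    refine ⟨⟨F, fun e _ => S e⟩, Finset.mem_sigma.2 ⟨mem_powerset.2 hF, Finset.mem_pi.2 hS⟩,
      fun s hs => hmod s fun e he => ?_⟩
    have := hs e he
    simpa [S', dif_pos he] using this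
  gcongr
  refine (sum_le_card_nsmul _ _ (2 ^ N / m' ^ N) fun p hp => ?_).trans ?_
  · have hc : p.1.card ≤ N :=
      (card_le_card (mem_powerset.1 (Finset.mem_sigma.1 hp).1)).trans hW
    refine ENNReal.div_le_div (pow_le_pow_right₀ (by norm_num) hc) ?_
    refine (pow_le_pow_of_le_one zero_le (min_le_right _ _) hc).trans ?_
    rw [← prod_const]
    exact prod_le_prod' fun e he => (min_le_left _ _).trans (Finset.inf_le (hmem p hp e he))
  · rw [nsmul_eq_mul]
    gcongr
    rw [Finset.card_sigma]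
    refine (sum_le_card_nsmul _ _ ((T.card + 1) ^ N) fun F hF => ?_).trans ?_
    · rw [Finset.card_pi, prod_const]
      exact (Nat.pow_le_pow_left (Nat.le_succ _) _).trans
        (Nat.pow_le_pow_right (Nat.succ_pos _) ((card_le_card (mem_powerset.1 hF)).trans hW))
    · rw [card_powerset, smul_eq_mul]
      exact Nat.mul_le_mul_right _ (Nat.pow_le_pow_right (by norm_num) hW)

/-- All pairs of vertices of a box; a window for modifications. -/
noncomputable def Box.pairs (B : Box) : Finset (Sym2 V) := B.verts.sym2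

lemma Box.mem_pairs {B : Box} {x y : V} : s(x, y) ∈ B.pairs ↔ B.Mem x ∧ B.Mem y := by
  simp [Box.pairs, Box.mem_verts]

lemma Box.card_pairs_le (B : Box) : B.pairs.card ≤ ((2 * B.M + 1) ^ 2 + 1).choose 2 := by
  rw [Box.pairs, Finset.card_sym2, Box.card_verts]

end Vale.Agent.P158.NB
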