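import Vale.Agent.P158.NB.Growth

/-!
Small steps (Q3 of `PROOF.md`): atomless laws allow lowering typical values a little, and long
self-avoiding walks carry many such values.
-/

open MeasureTheory Finset
open scoped ENNReal

namespace Vale.Agent.P158.NB

variable (G : Measure ℝ) [IsProbabilityMeasure G]

omit [IsProbabilityMeasure G] in
/-- Almost every value has positive mass in every left neighbourhood. -/
theorem ae_mass_left (hat : ∀ a, G {a} = 0) :
    ∀ᵐ v ∂G, ∀ η > (0 : ℝ), 0 < G (Set.Ioo (v - η) v) := by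
  rw [ae_iff]
  have hr : ∀ r : ℝ, G {v | r < v ∧ G (Set.Ioo r v) = 0} = 0 := by
    intro r
    set Z := {v | r < v ∧ G (Set.Ioo r v) = 0}
    have hsub : Z ⊆ (⋃ s : {s : ℚ // G (Set.Ioo r (s : ℝ)) = 0}, Set.Ioo r ((s : ℚ) : ℝ)) ∪
        {x | x ∈ Z ∧ ∀ y ∈ Z, y ≤ x} := by
      intro x hx
      by_cases h : ∀ y ∈ Z, y ≤ x
      · exact Or.inr ⟨hx, h⟩
      · simp only [not_forall, not_le] at h
        obtain ⟨y, hy, hxy⟩ := h
        obtain ⟨s, h1, h2⟩ := exists_rat_btwn hxy
        exact Or.inl (Set.mem_iUnion.2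
          ⟨⟨s, measure_mono_null (Set.Ioo_subset_Ioo le_rfl h2.le) hy.2⟩, hx.1, h1⟩)
    refine measure_mono_null hsub (measure_union_null (measure_iUnion_null fun s => s.2) ?_)
    have : Set.Subsingleton {x | x ∈ Z ∧ ∀ y ∈ Z, y ≤ x} := fun a ha b hb =>
      le_antisymm (hb.2 a ha.1) (ha.2 b hb.1)
    rcases this.eq_empty_or_singleton with h | ⟨a, h⟩
    · simp [h]
    · rw [h]; exact hat a
  refine measure_mono_null (fun v hv => ?_) (measure_iUnion_null fun q : ℚ => hr q)
  simp only [Set.mem_ofPred_eq, not_forall, not_lt, nonpos_iff_eq_zero] at hv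
  obtain ⟨η, hη, h⟩ := hv
  obtain ⟨q, h1, h2⟩ := exists_rat_btwn (show v - η < v by linarith)
  exact Set.mem_iUnion.2 ⟨q, h2, measure_mono_null (Set.Ioo_subset_Ioo h1.le le_rfl) h⟩

/-- With large probability a value `v` has one of finitely many targets inside `[v - η, v - κ]`. -/
theorem exists_steps (h0 : G (Set.Iio 0) = 0) (hat : ∀ a, G {a} = 0) {η : ℝ} (hη : 0 < η)
    {ε : ℝ≥0∞} (hε : 0 < ε) :
    ∃ κ : ℝ, 0 < κ ∧ κ ≤ η ∧ ∃ (T : Finset (Set ℝ)) (Good : Set ℝ),
      (∀ S ∈ T, MeasurableSet S ∧ 0 < G S ∧ S ⊆ Set.Ioi 0) ∧ MeasurableSet Good ∧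
      G Goodᶜ ≤ ε ∧ ∀ v ∈ Good, ∃ S ∈ T, S ⊆ Set.Icc (v - η) (v - κ) := by
  classical
  let ι := {p : ℚ × ℚ × ℕ // 0 < G (Set.Ioo (p.1 : ℝ) p.2.1)}
  let A : ι → Set ℝ := fun p => Set.Icc ((p.1.2.1 : ℝ) + 1 / ((p.1.2.2 : ℝ) + 1)) ((p.1.1 : ℝ) + η)
  let U : Finset ι → Set ℝ := fun F => ⋃ p ∈ F, A p
  have hfull : ∀ᵐ v ∂G, v ∈ ⋃ F, U F := by
    filter_upwards [ae_mass_left G hat] with v hv
    obtain ⟨r, hr1, s, hs1, hrs⟩ : ∃ r : ℚ, v - η < r ∧ ∃ s : ℚ, (s : ℝ) < v ∧
        0 < G (Set.Ioo (r : ℝ) s) := by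
      have hU : Set.Ioo (v - η) v ⊆ ⋃ (r : {r : ℚ // v - η < r}) (s : {s : ℚ // (s : ℝ) < v}),
          Set.Ioo ((r : ℚ) : ℝ) ((s : ℚ) : ℝ) := by
        intro x hx
        obtain ⟨r, h1, h2⟩ := exists_rat_btwn hx.1
        obtain ⟨s, h3, h4⟩ := exists_rat_btwn hx.2
        simp only [Set.mem_iUnion, Set.mem_Ioo]
        exact ⟨⟨r, h1⟩, ⟨s, h4⟩, h2, h3⟩
      by_contra hc
      refine (hv η hη).ne' (measure_mono_null hU
        (measure_iUnion_null fun r => measure_iUnion_null fun s => ?_))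
      by_contra h
      exact hc ⟨r, r.2, s, s.2, pos_iff_ne_zero.2 h⟩
    obtain ⟨k, hk⟩ := exists_nat_one_div_lt (sub_pos.2 hs1)
    simp only [Set.mem_iUnion, U, A]
    exact ⟨{⟨(r, s, k), hrs⟩}, _, mem_singleton_self _, by constructor <;> push_cast <;> linarith⟩
  have h1 : G (⋃ F, U F) = 1 := by
    rw [← measure_univ (μ := G)]
    exact measure_congr (Filter.eventuallyEq_univ.2 hfull)
  have hdir : Directed (· ⊆ ·) U :=
    Monotone.directed_le fun F F' h => Set.biUnion_mono (by exact_mod_cast h) fun _ _ => le_rfl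
  rw [hdir.measure_iUnion] at h1
  have hUm : ∀ F, MeasurableSet (U F) := fun F => Finset.measurableSet_biUnion _ fun _ _ =>
    measurableSet_Icc
  obtain ⟨F, hF⟩ : ∃ F, G (U F)ᶜ ≤ ε := by
    by_contra hc
    push Not at hc
    have hle : ∀ F, G (U F) ≤ 1 - ε := fun F => by
      refine ENNReal.le_sub_of_add_le_right (ne_top_of_lt (hc F)) ?_
      calc G (U F) + ε ≤ G (U F) + G (U F)ᶜ := add_le_add le_rfl (hc F).le
        _ = 1 := (measure_add_measure_compl (hUm F)).trans measure_univ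
    have := (iSup_le hle).trans_lt (ENNReal.sub_lt_self ENNReal.one_ne_top one_ne_zero hε.ne')
    exact this.ne h1
  set K := F.sup fun p => p.1.2.2
  refine ⟨min η (1 / ((K : ℝ) + 1)), lt_min hη (by positivity), min_le_left _ _,
    F.image fun p => Set.Ioo (p.1.1 : ℝ) p.1.2.1 ∩ Set.Ioi 0, U F, ?_, hUm F, hF, ?_⟩
  · intro S hS
    obtain ⟨p, -, rfl⟩ := mem_image.1 hS
    refine ⟨measurableSet_Ioo.inter measurableSet_Ioi, ?_, Set.inter_subset_right⟩
    rw [measure_inter_conull]
    · exact p.2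
    rw [Set.compl_Ioi, ← Set.Iio_union_right]
    exact measure_union_null h0 (hat 0)
  · intro v hv
    simp only [U, Set.mem_iUnion] at hv
    obtain ⟨p, hp, hv⟩ := hv
    refine ⟨_, mem_image_of_mem _ hp, fun x hx => ?_⟩
    have hK : (p.1.2.2 : ℝ) ≤ K := by exact_mod_cast F.le_sup (f := fun q : ι => q.1.2.2) hp
    have h2 := one_div_le_one_div_of_le (by positivity) (add_le_add hK (le_refl (1 : ℝ)))
    exact ⟨by linarith [hv.2, hx.1.1], by linarith [hv.1, hx.1.2, min_le_right η (1 / ((K : ℝ) + 1))]⟩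

/-- Some self-avoiding walk of `L` steps from `B` has fewer than half of its weights in `Good`. -/
def FewGood (Good : Set ℝ) (B : Box) (L : ℕ) : Set Env :=
  open scoped Classical in
  {t | ∃ f : ℕ → V, B.Mem (f 0) ∧ (∀ i < L, Nbr (f i) (f (i + 1))) ∧ IsSimple f L ∧
    2 * ((range L).filter fun i => t s(f i, f (i + 1)) ∈ Good).card < L}

/-- Peierls: long walks have many good weights. -/
theorem fewGood_le {Good : Set ℝ} (hm : MeasurableSet Good) (hG : G Goodᶜ ≤ (1 / 16) ^ 2)
    (B : Box) (L : ℕ) :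
    weightMeasure G (FewGood Good B L) ≤ ((2 * B.M + 1) ^ 2 : ℕ) * (1 / 2) ^ L := by
  classical
  set μ := weightMeasure G
  set edge : V → (Fin L → Fin 4) → ℕ → Sym2 V :=
    fun x c i => s(wordPath x c i, wordPath x c (i + 1))
  set words := fun x => (univ : Finset (Fin L → Fin 4)).filter
    fun c => Set.InjOn (edge x c) (Set.Iio L)
  set many := (range L).powerset.filter fun J => L ≤ 2 * J.card
  have hsub : FewGood Good B L ⊆ ⋃ x ∈ B.verts, ⋃ c ∈ words x, ⋃ J ∈ many,
      {t : Env | ∀ i ∈ J, t (edge x c i) ∈ Goodᶜ} := by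
    rintro t ⟨f, h0, hN, hs, hfew⟩
    have hf : IsSAP (f 0) L f := ⟨rfl, hN, fun i hi k hk e => hs i hi k hk e⟩
    obtain ⟨c, hc⟩ := exists_word hf
    have hedge : ∀ i < L, s(f i, f (i + 1)) = edge (f 0) c i := fun i hi => by
      simp only [edge, hc i hi.le, hc (i + 1) hi]
    simp only [Set.mem_iUnion, Set.mem_ofPred_eq, exists_prop]
    refine ⟨f 0, Box.mem_verts.2 h0, c, mem_filter.2 ⟨mem_univ _, fun i hi j hj e =>
      hf.edge_injOn hi hj (by simp only [hedge i hi, hedge j hj]; exact e)⟩,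
      (range L).filter fun i => t s(f i, f (i + 1)) ∉ Good,
      mem_filter.2 ⟨mem_powerset.2 (filter_subset _ _), ?_⟩, fun i hi => ?_⟩
    · have h2 : _ = (range L).card := card_filter_add_card_filter_not (s := range L)
        (fun i => t s(f i, f (i + 1)) ∈ Good)
      rw [card_range] at h2
      omega
    · obtain ⟨hi, hg⟩ := mem_filter.1 hi
      rw [← hedge i (mem_range.1 hi)]
      exact hg
  set q : ℝ≥0∞ := 1 / 16 with hq
  refine (measure_mono hsub).trans ((measure_biUnion_finset_le _ _).trans ?_)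
  refine (sum_le_card_nsmul _ _ ((1 / 2) ^ L) fun x _ => ?_).trans ?_
  · refine (measure_biUnion_finset_le _ _).trans ?_
    refine (sum_le_card_nsmul _ _ (2 ^ L * q ^ L) fun c hc => ?_).trans ?_
    · refine (measure_biUnion_finset_le _ _).trans
        ((sum_le_card_nsmul _ _ (q ^ L) fun J hJ => ?_).trans ?_)
      · obtain ⟨hJn, hJc⟩ := mem_filter.1 hJ
        have hJn' := mem_powerset.1 hJn
        have hinj : Set.InjOn (edge x c) ↑J := fun i hi j hj e =>
          (mem_filter.1 hc).2 (Set.mem_Iio.2 (mem_range.1 (hJn' hi)))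
            (Set.mem_Iio.2 (mem_range.1 (hJn' hj))) e
        calc μ {t | ∀ i ∈ J, t (edge x c i) ∈ Goodᶜ}
            = ∏ _e ∈ J.image (edge x c), G Goodᶜ := by
              rw [← Measure.infinitePi_pi (μ := fun _ : Sym2 V => G)
                (t := fun _ => Goodᶜ) fun _ _ => hm.compl]
              congr 1
              ext t
              simp
          _ ≤ q ^ L := by
              rw [prod_const, card_image_of_injOn hinj]
              refine (pow_le_pow_left' hG _).trans ?_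
              rw [← pow_mul]
              exact pow_le_pow_of_le_one zero_le
                (by simp only [q, one_div]; exact ENNReal.inv_le_one.2 (by norm_num)) hJc
      · rw [nsmul_eq_mul]
        gcongr
        exact_mod_cast (card_filter_le _ _).trans_eq (by simp)
    · rw [nsmul_eq_mul]
      calc ((words x).card : ℝ≥0∞) * (2 ^ L * q ^ L) ≤ 4 ^ L * (2 ^ L * q ^ L) := by
            gcongr
            exact_mod_cast (card_filter_le _ _).trans_eq (by simp)
        _ = (1 / 2) ^ L := by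
            rw [← mul_pow, ← mul_pow]
            congr 1
            rw [hq, show (16 : ℝ≥0∞) = 4 * 2 * 2 by norm_num, one_div, one_div, ← mul_assoc,
              ENNReal.mul_inv (by simp) (by simp), ← mul_assoc,
              ENNReal.mul_inv_cancel (mul_ne_zero (by simp) (by simp))
                (ENNReal.mul_ne_top (by simp) (by simp)), one_mul]
  · rw [nsmul_eq_mul, Box.card_verts]

/-- Off `FewGood`, the first `L` steps of any longer simple walk contain `L / 2` good weights. -/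
lemma many_good_of_not_fewGood {Good : Set ℝ} {B : Box} {L : ℕ} {t : Env}
    (ht : t ∉ FewGood Good B L) {m : ℕ} {f : ℕ → V} (hLm : L ≤ m) (h0 : B.Mem (f 0))
    (hN : ∀ i < m, Nbr (f i) (f (i + 1))) (hs : IsSimple f m) :
    ∃ J ⊆ range L, L ≤ 2 * J.card ∧ ∀ i ∈ J, t s(f i, f (i + 1)) ∈ Good := by
  classical
  refine ⟨(range L).filter fun i => t s(f i, f (i + 1)) ∈ Good, filter_subset _ _, ?_,
    fun i hi => (mem_filter.1 hi).2⟩
  by_contra h
  exact ht ⟨f, h0, fun i hi => hN i (hi.trans_le hLm), hs.mono hLm, not_le.1 h⟩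

end Vale.Agent.P158.NB
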