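import Vale.Agent.P158.NB.BoxBasic
import Vale.Agent.P158.NB.GadgetCore
import Vale.Agent.P158.NB.ModifyFin
import Vale.Agent.P158.NB.Steps

/-!
Lowering finitely many weights (`PROOF.md`): exit decomposition, lowering along an optimal path,
forced use of a lowered edge, and the second stage turning optimality into a margin (Q5).
-/

open Finset MeasureTheory
open scoped ENNReal

namespace Vale.Agent.P158.NB

namespace Box

variable {B : Box} {t t₂ : Env} {E : Finset (Sym2 V)} {x x' y p q v w : V} {f g : ℕ → V}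
  {m n : ℕ}

lemma pathCost_eq_of_avoid (heq : ∀ e, e ∉ E → t₂ e = t e)
    (h : ∀ k < m, s(f k, f (k + 1)) ∉ E) : pathCost t₂ f m = pathCost t f m :=
  sum_congr rfl fun k hk => heq _ (h k (mem_range.1 hk))

/-- After lowering, a distance is unchanged or an optimal walk leaves the lowered edges for the
last time at some `w`. -/
theorem dist_exit (ht : ∀ e, 0 ≤ t₂ e) (hle : ∀ e, t₂ e ≤ t e)
    (heq : ∀ e, e ∉ E → t₂ e = t e) (hx : B.Mem x) (hy : B.Mem y) :
    B.dist t₂ x y = B.dist t x y ∨ ∃ w, B.Mem w ∧ (∃ e ∈ E, w ∈ e) ∧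
      B.dist t₂ x y = B.dist t₂ x w + B.dist t w y ∧ B.dist t₂ w y = B.dist t w y := by
  classical
  have ht1 : ∀ e, 0 ≤ t e := fun e => (ht e).trans (hle e)
  obtain ⟨m, f, hf, -, hc⟩ := exists_optimal ht hx hy
  by_cases h : ∃ k < m, s(f k, f (k + 1)) ∈ E
  · right
    obtain ⟨k, hk, hmax⟩ := exists_max_image ((range m).filter fun k => s(f k, f (k + 1)) ∈ E) id
      (let ⟨k, hk, he⟩ := h; ⟨k, mem_filter.2 ⟨mem_range.2 hk, he⟩⟩)
    simp only [mem_filter, mem_range, id] at hk hmax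
    have hw : B.Mem (f (k + 1)) := hf.2 _ hk.1
    have hsuf := hf.suffix (i := k + 1) hk.1
    have hav : ∀ l < m - (k + 1),
        s((fun l => f (k + 1 + l)) l, (fun l => f (k + 1 + l)) (l + 1)) ∉ E := by
      intro l hl he
      have := hmax (k + 1 + l) ⟨by omega, by simpa only [← add_assoc] using he⟩
      omega
    have e1 := pathCost_eq_of_avoid (f := fun l => f (k + 1 + l)) heq hav
    have h1 := dist_le ht1 hsuf
    have h2 := (thru_of_optimal ht hf hc hk.1).2.2
    have h3 := dist_mono ht hle hw hy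
    have h4 := pathCost_split t₂ f (show k + 1 ≤ m from hk.1)
    have h5 := dist_le ht (hf.initSeg (i := k + 1) hk.1)
    have h6 := dist_triangle ht hx hw hy
    refine ⟨f (k + 1), hw, ⟨_, hk.2, Sym2.mem_mk_right _ _⟩, ?_, ?_⟩ <;> linarith
  · left
    simp only [not_exists, not_and] at h
    refine le_antisymm (dist_mono ht hle hx hy) ?_
    rw [← hc, pathCost_eq_of_avoid heq h]
    exact dist_le ht1 hf

/-- The same, seen from the first end. -/
theorem dist_enter (ht : ∀ e, 0 ≤ t₂ e) (hle : ∀ e, t₂ e ≤ t e)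
    (heq : ∀ e, e ∉ E → t₂ e = t e) (hx : B.Mem x) (hy : B.Mem y) :
    B.dist t₂ x y = B.dist t x y ∨ ∃ w, B.Mem w ∧ (∃ e ∈ E, w ∈ e) ∧
      B.dist t₂ x y = B.dist t x w + B.dist t₂ w y ∧ B.dist t₂ x w = B.dist t x w := by
  rcases dist_exit ht hle heq hy hx with h | ⟨w, hw, hwe, h, h'⟩
  · exact Or.inl (by rw [dist_comm B t₂ x y, h, dist_comm B t y x])
  · refine Or.inr ⟨w, hw, hwe, ?_, ?_⟩
    · rw [dist_comm B t₂ x y, h, dist_comm B t₂ y w, dist_comm B t w x]; ring
    · rw [dist_comm B t₂ x w, h', dist_comm B t w x]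

/-- The exact change of the cost of a simple walk. -/
lemma pathCost_lower (heq : ∀ e, e ∉ E → t₂ e = t e) (hs : IsSimple f m) :
    pathCost t₂ f m = pathCost t f m - ∑ e ∈ pathEdges f m ∩ E, (t e - t₂ e) := by
  classical
  have h : ∑ e ∈ pathEdges f m ∩ E, (t e - t₂ e) = ∑ e ∈ pathEdges f m, (t e - t₂ e) :=
    sum_subset inter_subset_left fun e he he' => by
      rw [heq e fun h => he' (mem_inter.2 ⟨he, h⟩), sub_self]
  rw [h, sum_sub_distrib, pathCost_eq_sum_edges t hs, pathCost_eq_sum_edges t₂ hs]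
  ring

lemma pathCost_lower_of_subset (heq : ∀ e, e ∉ E → t₂ e = t e) (hs : IsSimple f m)
    (hE : E ⊆ pathEdges f m) : pathCost t₂ f m = pathCost t f m - ∑ e ∈ E, (t e - t₂ e) := by
  classical
  rw [pathCost_lower heq hs, inter_eq_right.2 hE]

/-- An optimal walk through all lowered edges stays optimal and gains the whole lowering. -/
theorem lower_optimal (ht : ∀ e, 0 ≤ t₂ e) (hle : ∀ e, t₂ e ≤ t e)
    (heq : ∀ e, e ∉ E → t₂ e = t e) (hf : B.IsWalk f m x y) (hs : IsSimple f m)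
    (hc : pathCost t f m = B.dist t x y) (hE : E ⊆ pathEdges f m) :
    B.dist t₂ x y = B.dist t x y - ∑ e ∈ E, (t e - t₂ e) ∧
      pathCost t₂ f m = B.dist t₂ x y := by
  have h1 := dist_lower ht hle E heq hf.mem_left hf.mem_right
  have h2 := pathCost_lower_of_subset heq hs hE
  have h3 := dist_le ht hf
  constructor <;> linarith

/-- Then every optimal simple walk uses every strictly lowered edge. -/
theorem lower_keeps (ht : ∀ e, 0 ≤ t₂ e) (hle : ∀ e, t₂ e ≤ t e)
    (heq : ∀ e, e ∉ E → t₂ e = t e) (hf : B.IsWalk f m x y) (hs : IsSimple f m)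
    (hc : pathCost t f m = B.dist t x y) (hE : E ⊆ pathEdges f m)
    (hg : B.IsWalk g n x y) (hgs : IsSimple g n) (hgc : pathCost t₂ g n = B.dist t₂ x y) :
    ∀ e ∈ E, t₂ e < t e → e ∈ pathEdges g n := by
  classical
  intro e he hlt
  by_contra hn
  have h1 := dist_le (fun d => (ht d).trans (hle d)) hg
  have h2 := pathCost_lower heq hgs
  have h3 := (lower_optimal ht hle heq hf hs hc hE).1
  have h4 : ∑ d ∈ pathEdges g n ∩ E, (t d - t₂ d) < ∑ d ∈ E, (t d - t₂ d) :=
    sum_lt_sum_of_subset inter_subset_right he (fun h => hn (mem_inter.1 h).1)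
      (sub_pos.2 hlt) fun d _ _ => sub_nonneg.2 (hle d)
  linarith

/-- A bound through a lowered piece. -/
theorem dist_lower_le_via (ht : ∀ e, 0 ≤ t₂ e) (hle : ∀ e, t₂ e ≤ t e)
    (heq : ∀ e, e ∉ E → t₂ e = t e) (hx : B.Mem x) (hy : B.Mem y) (hf : B.IsWalk f m v w)
    (hs : IsSimple f m) (hE : E ⊆ pathEdges f m) :
    B.dist t₂ x y ≤ B.dist t x v + (pathCost t f m - ∑ e ∈ E, (t e - t₂ e)) + B.dist t w y := by
  linarith [dist_triangle ht hx hf.mem_left hy, dist_triangle ht hf.mem_left hf.mem_right hy,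
    dist_le ht hf, pathCost_lower_of_subset heq hs hE, dist_mono ht hle hx hf.mem_left,
    dist_mono ht hle hf.mem_right hy]

/-- If a distance drops, every optimal walk uses a lowered edge. -/
theorem forced_use (ht : ∀ e, 0 ≤ t₂ e) (hle : ∀ e, t₂ e ≤ t e)
    (heq : ∀ e, e ∉ E → t₂ e = t e) (h : B.dist t₂ x y < B.dist t x y)
    (hg : B.IsWalk g n x y) (hgc : pathCost t₂ g n = B.dist t₂ x y) :
    ∃ k < n, s(g k, g (k + 1)) ∈ E := by
  by_contra hn
  simp only [not_exists, not_and] at hn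
  have h1 := dist_le (fun d => (ht d).trans (hle d)) hg
  rw [← pathCost_eq_of_avoid heq hn, hgc] at h1
  linarith

/-- If a distance drops, some lowered edge is on an optimal walk. -/
theorem forced_thru (ht : ∀ e, 0 ≤ t₂ e) (hle : ∀ e, t₂ e ≤ t e)
    (heq : ∀ e, e ∉ E → t₂ e = t e) (hx : B.Mem x) (hy : B.Mem y)
    (h : B.dist t₂ x y < B.dist t x y) :
    ∃ p q, s(p, q) ∈ E ∧ B.Thru t₂ x y p q := by
  obtain ⟨n, g, hg, -, hgc⟩ := exists_optimal ht hx hy
  obtain ⟨k, hk, he⟩ := forced_use ht hle heq h hg hgc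
  exact ⟨g k, g (k + 1), he, (thru_of_optimal ht hg hgc hk).1⟩

/-- Two roots, one lowered piece of an optimal walk: a common optimal edge, equally directed. -/
theorem lower_common (ht : ∀ e, 0 ≤ t₂ e) (hle : ∀ e, t₂ e ≤ t e)
    (heq : ∀ e, e ∉ E → t₂ e = t e) (hpos : ∀ e ∈ E, 0 < t₂ e)
    (hf : B.IsWalk f m x' y) (hs : IsSimple f m) (hc : pathCost t f m = B.dist t x' y)
    (hE : E ⊆ pathEdges f m) (hx : B.Mem x) (h : B.dist t₂ x y < B.dist t x y) :
    ∃ k < m, s(f k, f (k + 1)) ∈ E ∧ B.Thru t₂ x y (f k) (f (k + 1)) ∧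
      B.Thru t₂ x' y (f k) (f (k + 1)) := by
  obtain ⟨p, q, he, hT⟩ := forced_thru ht hle heq hx hf.mem_right h
  obtain ⟨k, hk, hke⟩ := mem_image.1 (hE he)
  have hk' := mem_range.1 hk
  have hT' := (thru_of_optimal ht hf (lower_optimal ht hle heq hf hs hc hE).2 hk').1
  obtain ⟨rfl, rfl⟩ := hT'.same_root hT ht (by rw [hke]; exact hpos _ he) hf.mem_left hx
    hf.mem_right hke.symm
  exact ⟨k, hk', he, hT, hT'⟩

/-! ### Second stage: from optimality to a margin -/

lemma le_update_of_le {e : Sym2 V} {u : ℝ} (h : u ≤ t e) (d : Sym2 V) :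
    Function.update t e u d ≤ t d := by
  by_cases hd : d = e
  · subst hd; simpa using h
  · simp [hd]

lemma update_nonneg (ht : ∀ e, 0 ≤ t e) {e : Sym2 V} {u : ℝ} (hu : 0 ≤ u) (d : Sym2 V) :
    0 ≤ Function.update t e u d := by
  by_cases hd : d = e
  · subst hd; simpa using hu
  · simpa [hd] using ht d

lemma dist_update_bounds (ht : ∀ e, 0 ≤ t e) {e : Sym2 V} {u : ℝ} (hu : 0 ≤ u) (hle : u ≤ t e)
    (hx : B.Mem x) (hy : B.Mem y) :
    B.dist t x y - (t e - u) ≤ B.dist (Function.update t e u) x y ∧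
      B.dist (Function.update t e u) x y ≤ B.dist t x y := by
  refine ⟨?_, dist_mono (update_nonneg ht hu) (le_update_of_le hle) hx hy⟩
  have h := dist_lower (B := B) (update_nonneg ht hu) (le_update_of_le hle) {e}
    (fun d hd => by simp [mem_singleton.not.1 hd]) hx hy
  simpa using h

/-- Lowering an edge of an optimal walk by at least `κ` gives the margin `κ` there. -/
theorem Thru.lower (h : B.Thru t x y p q) (ht : ∀ e, 0 ≤ t e) (hpos : 0 < t s(p, q))
    (hx : B.Mem x) (hy : B.Mem y) {u κ : ℝ} (hu : 0 ≤ u) (hκ : 0 ≤ κ)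
    (huκ : u ≤ t s(p, q) - κ) :
    B.Thru (Function.update t s(p, q) u) x y p q ∧
      B.Marg (Function.update t s(p, q) u) x y s(p, q) κ ∧
      B.dist (Function.update t s(p, q) u) x y = B.dist t x y - (t s(p, q) - u) ∧
      B.dist (Function.update t s(p, q) u) x p = B.dist t x p ∧
      B.dist (Function.update t s(p, q) u) q y = B.dist t q y := by
  obtain ⟨hn, hp, hq, he⟩ := h
  set e := s(p, q) with hedef
  set t₂ := Function.update t e u with ht₂
  have hle : u ≤ t e := by linarith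
  have ht2 : ∀ d, 0 ≤ t₂ d := update_nonneg ht hu
  have hue : t₂ e = u := Function.update_self e u t
  have hl := (dist_update_bounds ht hu hle hx hy).1
  have hup := dist_le_through ht2 hx hy hp hq hn
  rw [← hedef, hue] at hup
  have h1 := (dist_update_bounds (B := B) ht hu hle hx hp).2
  have h2 := (dist_update_bounds (B := B) ht hu hle hq hy).2
  rw [← ht₂] at hl h1 h2
  have hd : B.dist t₂ x y = B.dist t x y - (t e - u) := by linarith
  refine ⟨⟨hn, hp, hq, by rw [← hedef, hue]; linarith⟩, ?_, hd, by linarith, by linarith⟩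
  have hr : raise t₂ e κ = Function.update t e (u + κ) := by
    funext d
    by_cases hde : d = e
    · subst hde; rw [raise_apply_self, hue]; simp
    · rw [raise_apply_ne hde, ht₂]; simp [hde]
  unfold Marg
  rw [hr]
  linarith [(dist_update_bounds (B := B) ht (u := u + κ) (e := e) (by linarith) (by linarith)
    hx hy).1]

/-- The segment obtained by lowering. -/
theorem Thru.lower_seg {i j : ℕ} (hi : i ≤ B.len) (hj : j ≤ B.len)
    (h : B.Thru t (B.pos i) (B.pos j) p q) (ht : ∀ e, 0 ≤ t e) (hpos : 0 < t s(p, q))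
    {u κ : ℝ} (hu : 0 ≤ u) (hκ : 0 ≤ κ) (huκ : u ≤ t s(p, q) - κ) :
    B.Seg (Function.update t s(p, q) u) i j p q κ :=
  ⟨hi, hj, (h.lower ht hpos (B.pos_mem hi) (B.pos_mem hj) hu hκ huκ).1,
    (h.lower ht hpos (B.pos_mem hi) (B.pos_mem hj) hu hκ huκ).2.1⟩

/-- The stages of lowering as an instance of the abstract gadget. -/
noncomputable def stages (B : Box) (t : Env) (ts : ℕ → Env) (Es : ℕ → Finset (Sym2 V))
    (h0 : ∀ s e, 0 ≤ ts s e) (hle : ∀ s e, ts s e ≤ t e)
    (heq : ∀ s e, e ∉ Es s → ts s e = t e) : Stages {z : V // B.Mem z} where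
  d a b := B.dist t a.1 b.1
  T s a b := B.dist (ts s) a.1 b.1
  W s := {w | ∃ e ∈ Es s, w.1 ∈ e}
  nonneg s a b := dist_nonneg (h0 s) a.2 b.2
  comm s a b := dist_comm B (ts s) a.1 b.1
  dcomm a b := dist_comm B t a.1 b.1
  tri s a b c := dist_triangle (h0 s) a.2 b.2 c.2
  le s a b := dist_mono (h0 s) (hle s) a.2 b.2
  exit s a b := by
    rcases dist_exit (h0 s) (hle s) (heq s) a.2 b.2 with h | ⟨w, hw, hwe, h, h'⟩
    · exact Or.inl h
    · exact Or.inr ⟨⟨w, hw⟩, hwe, h, h'⟩

end Box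

/-- Q5. If lowering one good edge of the window by an amount in `[κ, η]` always gives `Bev`, then
`A` is at most a constant times `Bev`; the constant depends only on the targets and the size of
the window. -/
theorem stage_two (G : Measure ℝ) [IsProbabilityMeasure G] (T : Finset (Set ℝ)) {Good : Set ℝ}
    {η κ : ℝ} (hT : ∀ S ∈ T, MeasurableSet S ∧ 0 < G S ∧ S ⊆ Set.Ioi 0)
    (hGood : ∀ v ∈ Good, ∃ S ∈ T, S ⊆ Set.Icc (v - η) (v - κ)) (N : ℕ) :
    ∃ C : ℝ≥0∞, C ≠ ∞ ∧ ∀ W : Finset (Sym2 V), W.card ≤ N → ∀ A Bev : Set Env,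
      (∀ t ∈ A, ∃ e ∈ W, t e ∈ Good ∧
        ∀ u : ℝ, 0 < u → t e - η ≤ u → u ≤ t e - κ → Function.update t e u ∈ Bev) →
      weightMeasure G A ≤ C * weightMeasure G Bev := by
  classical
  obtain ⟨C, hC, h⟩ := exists_option_const G T (fun S hS => ⟨(hT S hS).1, (hT S hS).2.1⟩) N
  refine ⟨C, hC, fun W hW A Bev hA => h W hW A Bev fun t ht => ?_⟩
  obtain ⟨e, he, heg, hmod⟩ := hA t ht
  obtain ⟨S, hS, hsub⟩ := hGood _ heg
  refine ⟨{e}, singleton_subset_iff.2 he, fun _ => S, fun _ _ => hS, fun s hs => ?_⟩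
  have hse := hs e (mem_singleton_self e)
  rw [piecewise_singleton]
  exact hmod (s e) ((hT S hS).2.2 hse) (hsub hse).1 (hsub hse).2

/-- The exceptional event of Q5 has the probability of a bad value. -/
lemma weightMeasure_coord_notMem (G : Measure ℝ) [IsProbabilityMeasure G] {Good : Set ℝ}
    (hm : MeasurableSet Good) (e : Sym2 V) :
    weightMeasure G {t | t e ∉ Good} = G Goodᶜ := by
  have h : (weightMeasure G).map (fun t => t e) = G := Measure.infinitePi_map_eval _ e
  conv_rhs => rw [← h]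
  rw [Measure.map_apply (measurable_pi_apply e) hm.compl]
  rfl

end Vale.Agent.P158.NB
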