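import Vale.Agent.P158.NB.Gadget
import Vale.Agent.P158.NB.Lower
import Vale.Agent.P158.NB.Events

/-!
# Lemma C of `PROOF.md`: the options of the gadget on a good window

All pieces have lengths fixed in advance: a walk that is not cheap loses at least `a` per step.
-/

open Finset
open scoped Classical

namespace Vale.Agent.P158.NB

namespace Cont

variable {B : Box} {t : Env} {x y u v z : V} {f : ℕ → V} {m : ℕ}

lemma nbr_step {c : V} {R : ℕ} (h : (Box.mk c R).Mem x) (hn : Nbr x y) :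
    (Box.mk c (R + 1)).Mem y := by
  rw [Box.mem_iff] at h ⊢
  have := Box.nbr_cases hn
  simp only at h ⊢
  push_cast
  omega

/-- A walk leaves a window at speed at most one. -/
lemma walk_mem {c : V} {R : ℕ} (h0 : (Box.mk c R).Mem (f 0))
    (hn : ∀ i < m, Nbr (f i) (f (i + 1))) : ∀ i ≤ m, (Box.mk c (R + i)).Mem (f i) := by
  intro i
  induction i with
  | zero => intro _; exact h0
  | succ i ih => intro hi; exact nbr_step (ih (by omega)) (hn i (by omega))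

lemma mem_mono {c : V} {R R' : ℕ} (hR : R ≤ R') (h : (Box.mk c R).Mem x) :
    (Box.mk c R').Mem x := by
  rw [Box.mem_iff] at h ⊢
  simp only at h ⊢
  omega

lemma window_sub {M R : ℕ} {c : V} (hc : (Box.mk 0 (M / 2)).Mem c) (hR : M / 2 + R ≤ M)
    (h : (Box.mk c R).Mem x) : (Box.mk 0 M).Mem x := by
  rw [Box.mem_iff] at hc h ⊢
  simp only [Prod.fst_zero, Prod.snd_zero] at hc h ⊢
  omega

/-- From a central window it takes at least `M / 4` steps to the boundary. -/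
lemma long_to_bdry {M R : ℕ} {c : V} (hc : (Box.mk 0 (M / 2)).Mem c) (hR : 4 * R ≤ M)
    (h0 : (Box.mk c R).Mem (f 0)) (hn : ∀ i < m, Nbr (f i) (f (i + 1)))
    (hb : (Box.mk 0 M).Bdry (f m)) : M / 4 ≤ m := by
  have h1 := walk_mem h0 hn m le_rfl
  have h2 := hb.2
  rw [Box.mem_iff] at hc h1
  rw [Box.inner_iff] at h2
  simp only [Prod.fst_zero, Prod.snd_zero] at hc h1 h2
  omega

/-- The two halves of an optimal walk at one of its vertices. -/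
lemma opt_vertex (ht : ∀ e, 0 ≤ t e) (hf : B.IsWalk f m x y)
    (hc : pathCost t f m = B.dist t x y) {i : ℕ} (hi : i ≤ m) :
    B.dist t x (f i) = pathCost t f i ∧
      B.dist t (f i) y = pathCost t (fun l => f (i + l)) (m - i) := by
  have h1 := Box.dist_le ht (hf.initSeg hi)
  have h2 := Box.dist_le ht (hf.suffix hi)
  have h3 := Box.dist_triangle ht hf.mem_left (hf.2 i hi) hf.mem_right
  have h4 := pathCost_split t f hi
  constructor <;> linarith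

lemma simple_sub (hs : IsSimple f m) {i k : ℕ} (h : i + k ≤ m) :
    IsSimple (fun l => f (i + l)) k := fun a ha b hb e => by
  have := hs (i + a) (by omega) (i + b) (by omega) e
  omega

/-- A piece of an optimal walk. -/
def piece (ht : ∀ e, 0 ≤ t e) (hf : B.IsWalk f m x y) (hs : IsSimple f m)
    (hc : pathCost t f m = B.dist t x y) (i k : ℕ) (h : i + k ≤ m) : Piece B t y where
  f := fun l => f (i + l)
  m := k
  walk := by simpa using hf.segment (i := i) (j := i + k) (by omega) h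
  simple := simple_sub hs h
  opt := by
    simp only [add_zero]
    have h1 := (opt_vertex ht hf hc (i := i) (by omega)).2
    have h2 := (opt_vertex ht hf hc (i := i + k) h).2
    rw [h1, h2, pathCost_split t (fun l => f (i + l)) (show k ≤ m - i by omega),
      show m - i - k = m - (i + k) by omega]
    simp only [add_assoc]

lemma cost_le_of_bound {c : V} {R : ℕ} {T : ℝ} (hT : ∀ e ∈ (Box.mk c R).pairs, t e ≤ T)
    (hf : ∀ i ≤ m, (Box.mk c R).Mem (f i)) : pathCost t f m ≤ m * T := by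
  refine (sum_le_card_nsmul _ _ T fun i hi => hT _ ?_).trans (le_of_eq (by simp))
  rw [mem_range] at hi
  exact Box.mem_pairs.2 ⟨hf i hi.le, hf (i + 1) hi⟩

/-- Two vertices of a window with bounded weights are close. -/
lemma dist_window {S : Box} (ht : ∀ e, 0 ≤ t e) (hsub : ∀ w, S.Mem w → B.Mem w) {T : ℝ}
    (hT0 : 0 ≤ T) (hT : ∀ e ∈ S.pairs, t e ≤ T) (hx : S.Mem x) (hy : S.Mem y) :
    B.dist t x y ≤ ((2 * S.M + 1) ^ 2 : ℕ) * T := by
  obtain ⟨k, g, hg, hgs, hgc⟩ := Box.exists_optimal ht hx hy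
  have h1 := Box.dist_le_sub ht hsub hx hy
  rw [← hgc] at h1
  refine h1.trans ((cost_le_of_bound (c := S.c) (R := S.M) hT fun i hi => hg.2 i hi).trans ?_)
  exact mul_le_mul_of_nonneg_right (by exact_mod_cast (Box.simple_length_lt hg hgs).le) hT0

lemma cost_ge {a : ℝ} {S : Box} {n : ℕ} (hS : t ∉ CheapWalk a S n) (hn : n ≤ m)
    (h0 : S.Mem (f 0)) (hN : ∀ i < m, Nbr (f i) (f (i + 1))) (hs : IsSimple f m) :
    a * m ≤ pathCost t f m :=
  not_lt.1 fun h => hS ⟨m, f, hn, h0, hN, hs, h⟩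

/-- Lowered edges on a walk: many good ones, each by at least `κ`. -/
lemma exists_lowered {Good : Set ℝ} {S : Box} {L : ℕ}
    (hfew : t ∉ FewGood Good S L) (h0 : S.Mem (f 0)) (hN : ∀ i < L, Nbr (f i) (f (i + 1)))
    (hs : IsSimple f L) :
    ∃ E ⊆ pathEdges f L, (L : ℝ) / 2 ≤ E.card ∧ ∀ e ∈ E, t e ∈ Good := by
  obtain ⟨J, hJ, hcard, hgood⟩ := many_good_of_not_fewGood hfew le_rfl h0 hN hs
  refine ⟨J.image fun i => s(f i, f (i + 1)), image_subset_image hJ, ?_, fun e he => ?_⟩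
  · rw [card_image_of_injOn fun i hi k hk e =>
      hs.edge_inj (mem_range.1 (hJ hi)) (mem_range.1 (hJ hk)) e]
    rw [div_le_iff₀ (by norm_num)]
    exact_mod_cast (by omega : L ≤ J.card * 2)
  · obtain ⟨i, hi, rfl⟩ := mem_image.1 he
    exact hgood i hi

lemma pathEdges_pairs {S : Box} (h : ∀ i ≤ m, S.Mem (f i)) {e : Sym2 V}
    (he : e ∈ pathEdges f m) : e ∈ S.pairs := by
  obtain ⟨i, hi, rfl⟩ := mem_image.1 he
  rw [mem_range] at hi
  exact Box.mem_pairs.2 ⟨h i hi.le, h (i + 1) hi⟩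

/-- The lengths and sizes of the gadget. -/
structure Scales where
  r : ℕ
  La : ℕ
  Lb : ℕ
  n₁ : ℕ
  n₂ : ℕ
  n₃ : ℕ
  n₄ : ℕ
  n₅ : ℕ
  T₀ : ℝ
  T₁ : ℝ
  T₂ : ℝ
  T₃ : ℝ

namespace Scales

variable (P : Scales)

/-- Radius of the middle window. -/
def R : ℕ := P.r + P.La + P.n₂ + P.Lb

/-- Radius of the final window. -/
def rad : ℕ := P.R + P.n₅

/-- Bound for the distances inside the window. -/
def J : ℝ := ((2 * P.r + 1) ^ 2 : ℕ) * P.T₀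

/-- Bound for the cost of the final walk. -/
def X : ℝ := P.J + (P.La + P.Lb + P.n₂ : ℕ) * (P.T₁ + P.T₂) + P.n₃ * P.T₃

/-- The conditions on the numbers. -/
structure Fits (a κ st η : ℝ) : Prop where
  pos : 0 < a ∧ 0 < κ ∧ κ ≤ st ∧ 0 < η ∧ st ≤ η / 16
  nonneg : 0 ≤ P.T₀ ∧ 0 ≤ P.T₁ ∧ 0 ≤ P.T₂ ∧ 0 ≤ P.T₃
  la : 0 < P.La ∧ 4 * P.J ≤ κ * P.La
  lb : 0 < P.Lb ∧ 4 * (P.J + P.La * P.T₁) + 2 * η ≤ κ * P.Lb
  n2 : P.n₁ ≤ P.n₂ ∧ 2 * P.J + P.La * P.T₁ + η ≤ a * P.n₂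
  n3 : P.n₁ ≤ P.n₃ ∧ P.J + P.La * P.T₁ + P.Lb * P.T₂ ≤ a * P.n₃
  n5 : P.n₄ ≤ P.n₅ ∧ P.X + (P.La + P.Lb : ℕ) * st ≤ a * P.n₅

/-- The good event of a window. -/
structure Win (a : ℝ) (Good : Set ℝ) (x : V) (t : Env) : Prop where
  b0 : ∀ e ∈ (Box.mk x P.r).pairs, t e ≤ P.T₀
  b1 : ∀ e ∈ (Box.mk x (P.r + P.La)).pairs, t e ≤ P.T₁
  b2 : ∀ e ∈ (Box.mk x P.R).pairs, t e ≤ P.T₂
  b3 : ∀ e ∈ (Box.mk x (P.r + P.n₃)).pairs, t e ≤ P.T₃
  fewA : t ∉ FewGood Good (Box.mk x P.r) P.La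
  fewB : t ∉ FewGood Good (Box.mk x (P.r + P.n₂)) P.Lb
  cheap1 : t ∉ CheapWalk a (Box.mk x P.r) P.n₁
  cheap4 : t ∉ CheapWalk a (Box.mk x P.R) P.n₄

end Scales

/-- The result: whatever the new values, some stage has a large gain in the final window. -/
def Found (B : Box) (t : Env) (a b K x : V) (ρ : ℕ) (γ : ℝ) (E : Finset (Sym2 V)) (u : Env) :
    Prop :=
  ∃ E' ⊆ E, ∃ p q, (Box.mk x ρ).Mem p ∧ (Box.mk x ρ).Mem q ∧
    B.Thru (E'.piecewise u t) a b p q ∧ γ ≤ B.gain (E'.piecewise u t) K p q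

/-- A gadget output gives a step with a large gain. -/
lemma found_of_out {P : Scales} {a₀ κ st η : ℝ} (hP : P.Fits a₀ κ st η) {Good : Set ℝ}
    (hW : P.Win a₀ Good x t) (S : Setup B t) (E : Finset (Sym2 V))
    (hE : S.E₁ ∪ S.E₂ = E) (hcard : E.card ≤ P.La + P.Lb) (hst : S.step = st)
    (w : Env) (hw : ∀ e ∈ E, w e = S.u e) (hv : (Box.mk x P.R).Mem (S.P1.f 0))
    (h : S.Out (η / 2) P.X) :
    Found B t S.a S.b S.K x P.rad (η / (8 * (P.n₅ + 1 : ℕ))) E w := by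
  obtain ⟨s, -, m, g, hg, hgs, hgX, hthru, hsum⟩ := h
  have hlow : S.low s ⊆ E := hE ▸ S.low_subset s
  have henv : (S.low s).piecewise w t = S.env s := by
    funext e
    by_cases he : e ∈ S.low s <;> simp [Setup.env, he, fun h => hw e (hlow h)]
  have hg0 : (Box.mk x P.R).Mem (g 0) := hg.1.1.symm ▸ hv
  have hcost : pathCost t g m ≤ P.X + (P.La + P.Lb : ℕ) * st := by
    have h1 : pathCost (S.env s) g m
        = pathCost t g m - ∑ e ∈ pathEdges g m ∩ S.low s, (t e - S.env s e) :=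
      Box.pathCost_lower (fun e he => by simp [Setup.env, he]) hgs
    have h2 : ∑ e ∈ pathEdges g m ∩ S.low s, (t e - S.env s e) ≤ (P.La + P.Lb : ℕ) * st := by
      refine (sum_le_card_nsmul _ _ st fun e he => ?_).trans ?_
      · have he2 := (mem_inter.1 he).2
        simp only [Setup.env, piecewise_eq_of_mem _ _ _ he2]
        exact hst ▸ (S.hamount e (S.low_subset s he2)).2
      · rw [nsmul_eq_mul]
        refine mul_le_mul_of_nonneg_right ?_ (hP.pos.2.1.le.trans hP.pos.2.2.1)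
        exact_mod_cast ((card_le_card inter_subset_right).trans (card_le_card hlow)).trans hcard
    linarith
  have hm : m ≤ P.n₅ := by
    by_contra hlt
    rw [not_le] at hlt
    have h1 := cost_ge hW.cheap4 (hP.n5.1.trans hlt.le) hg0 hg.1.2.2 hgs
    have h2 : (P.n₅ : ℝ) + 1 ≤ m := by exact_mod_cast hlt
    have h3 := mul_le_mul_of_nonneg_left h2 hP.pos.1.le
    nlinarith [hP.n5.2, hP.pos.1]
  obtain ⟨k, hk, hkg⟩ : ∃ k ∈ range m,
      η / (8 * (P.n₅ + 1 : ℕ)) ≤ B.gain (S.env s) S.K (g k) (g (k + 1)) := by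
    by_contra hno
    simp only [not_exists, not_and, not_le] at hno
    have hη : 0 < η / (8 * (P.n₅ + 1 : ℕ)) := by have := hP.pos.2.2.2.1; positivity
    have h1 := sum_le_card_nsmul _ _ _ fun k hk => (hno k hk).le
    rw [card_range, nsmul_eq_mul] at h1
    have h2 : (m : ℝ) < (P.n₅ + 1 : ℕ) := by exact_mod_cast Nat.lt_succ_of_le hm
    have h3 := mul_lt_mul_of_pos_right h2 hη
    have h4 : ((P.n₅ + 1 : ℕ) : ℝ) * (η / (8 * (P.n₅ + 1 : ℕ))) = η / 2 / 4 := by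
      field_simp
      ring
    linarith
  rw [mem_range] at hk
  refine ⟨S.low s, hlow, g k, g (k + 1), ?_, ?_, ?_, ?_⟩
  · exact mem_mono (by unfold Scales.rad; omega) (walk_mem hg0 hg.1.2.2 k hk.le)
  · exact mem_mono (by unfold Scales.rad; omega) (walk_mem hg0 hg.1.2.2 (k + 1) hk)
  · rw [henv]; exact hthru k hk
  · rw [henv]; exact hkg

/-- The piece of `L` steps that ends at `p` on an optimal walk from `a`. -/
lemma first_piece {Good : Set ℝ} {M r L : ℕ} (ht : ∀ e, 0 ≤ t e)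
    {a b p : V} (ha : (Box.mk 0 M).Bdry a) (hb : (Box.mk 0 M).Bdry b)
    (hx : (Box.mk 0 (M / 2)).Mem x) (hr4 : 4 * r ≤ M) (hp : (Box.mk x r).Mem p)
    (habp : (Box.mk 0 M).dist t a b = (Box.mk 0 M).dist t a p + (Box.mk 0 M).dist t p b)
    (hLm : L ≤ M / 4) :
    ∃ P1 : Piece (Box.mk 0 M) t b, P1.f P1.m = p ∧
      (Box.mk 0 M).dist t a b =
        (Box.mk 0 M).dist t a (P1.f 0) + (Box.mk 0 M).dist t (P1.f 0) b ∧
      (∀ i ≤ P1.m, (Box.mk x (r + L)).Mem (P1.f i)) ∧ P1.m = L ∧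
      (t ∉ FewGood Good (Box.mk x r) L → ∃ E ⊆ P1.edges, (L : ℝ) / 2 ≤ E.card ∧
        ∀ e ∈ E, t e ∈ Good) := by
  have hpB : (Box.mk 0 M).Mem p := window_sub hx (by omega) hp
  obtain ⟨m1, f1, hf1, hs1, hc1⟩ := Box.exists_optimal ht hpB ha.1
  have hend : f1 0 = p := hf1.1.1
  have hm1 : M / 4 ≤ m1 :=
    long_to_bdry hx hr4 (hend.symm ▸ hp) hf1.1.2.2 (hf1.1.2.1.symm ▸ ha)
  have hwalk : (Box.mk 0 M).IsWalk (fun i => f1 (L - i)) L (f1 L) p :=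
    (hf1.initSeg (i := L) (by omega)).reverse
  obtain ⟨h1, h2⟩ := opt_vertex ht hf1 hc1 (i := L) (by omega)
  have h3 := Box.dist_triangle ht hwalk.mem_left hpB hb.1
  have h4 := Box.dist_triangle ht ha.1 hwalk.mem_left hb.1
  have h5 := Box.dist_comm (Box.mk 0 M) t p a
  have h6 := Box.dist_comm (Box.mk 0 M) t (f1 L) a
  have h7 := pathCost_split t f1 (show L ≤ m1 by omega)
  have h8 := Box.dist_comm (Box.mk 0 M) t p (f1 L)
  have h9 := Box.pathCost_reverse t f1 L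
  have hLb : (Box.mk 0 M).dist t (f1 L) b =
      pathCost t (fun i => f1 (L - i)) L + (Box.mk 0 M).dist t p b := by linarith
  refine ⟨⟨fun i => f1 (L - i), L, by simpa [hend] using hwalk, ?_, by simpa [hend] using hLb⟩,
    by simpa using hend, ?_, fun i hi => ?_, rfl, fun hfew => ?_⟩
  · intro i hi k hk e
    have := hs1 (L - i) (by omega) (L - k) (by omega) e
    omega
  · show (Box.mk 0 M).dist t a b =
      (Box.mk 0 M).dist t a (f1 (L - 0)) + (Box.mk 0 M).dist t (f1 (L - 0)) b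
    rw [Nat.sub_zero]
    linarith
  · exact mem_mono (by omega) (walk_mem (hend.symm ▸ hp) hf1.1.2.2 (L - i) (by omega))
  · obtain ⟨E, hE, hcard, hgood⟩ := exists_lowered hfew (f := f1) (hend.symm ▸ hp)
      (fun i hi => hf1.1.2.2 i (by omega)) (hs1.mono (by omega))
    refine ⟨E, fun e he => ?_, hcard, hgood⟩
    obtain ⟨i, hi, rfl⟩ := mem_image.1 (hE he)
    rw [mem_range] at hi
    refine mem_image.2 ⟨L - (i + 1), mem_range.2 (by show L - (i + 1) < L; omega), ?_⟩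
    show s(f1 (L - (L - (i + 1))), f1 (L - (L - (i + 1) + 1))) = _
    rw [show L - (L - (i + 1)) = i + 1 by omega, show L - (L - (i + 1) + 1) = i by omega,
      Sym2.eq_swap]

/-- Every replacement of the lowered edges in the targets leads to a large gain. -/
def Res (P : Scales) (B : Box) (t : Env) (T : Finset (Set ℝ)) (st κ : ℝ) (a b K x : V)
    (η : ℝ) : Prop :=
  ∃ E ⊆ (Box.mk x P.R).pairs, ∃ sel : Sym2 V → Set ℝ, (∀ e ∈ E, sel e ∈ T) ∧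
    (∀ e ∈ E, sel e ⊆ Set.Icc (t e - st) (t e - κ)) ∧
    ∀ u : Env, (∀ e ∈ E, u e ∈ sel e) →
      Found B t a b K x P.rad (η / (8 * (P.n₅ + 1 : ℕ))) E u

/-- Targets for good edges, and what every choice of new values satisfies. -/
lemma targets {Good : Set ℝ} {T : Finset (Set ℝ)} {st κ : ℝ} (hκ : 0 ≤ κ)
    (hGood : ∀ w ∈ Good, ∃ S ∈ T, S ⊆ Set.Icc (w - st) (w - κ))
    (hT : ∀ S ∈ T, S ⊆ Set.Ici (0 : ℝ)) (E₁ E₂ : Finset (Sym2 V))
    (h₁ : ∀ e ∈ E₁, t e ∈ Good) (h₂ : ∀ e ∈ E₂, t e ∈ Good) :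
    ∃ sel : Sym2 V → Set ℝ, (∀ e ∈ E₁ ∪ E₂, sel e ∈ T) ∧
      (∀ e ∈ E₁ ∪ E₂, sel e ⊆ Set.Icc (t e - st) (t e - κ)) ∧
      ∀ u : Env, (∀ e ∈ E₁ ∪ E₂, u e ∈ sel e) →
        (∀ e, 0 ≤ (E₁ ∪ E₂).piecewise u 0 e) ∧
        (∀ e ∈ E₁ ∪ E₂, (E₁ ∪ E₂).piecewise u 0 e ≤ t e ∧
          t e - (E₁ ∪ E₂).piecewise u 0 e ≤ st) ∧
        (κ * E₁.card ≤ ∑ e ∈ E₁, (t e - (E₁ ∪ E₂).piecewise u 0 e)) ∧
        (κ * E₂.card ≤ ∑ e ∈ E₂, (t e - (E₁ ∪ E₂).piecewise u 0 e)) := by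
  have : ∀ e ∈ E₁ ∪ E₂, ∃ S ∈ T, S ⊆ Set.Icc (t e - st) (t e - κ) := fun e he =>
    hGood _ ((mem_union.1 he).elim (h₁ e) (h₂ e))
  choose! sel hselT hsel using this
  refine ⟨sel, hselT, hsel, fun u hu => ?_⟩
  have hb' : ∀ e ∈ E₁ ∪ E₂, t e - st ≤ u e ∧ u e ≤ t e - κ := fun e he => hsel e he (hu e he)
  refine ⟨fun e => ?_, fun e he => ?_, ?_, ?_⟩
  · by_cases he : e ∈ E₁ ∪ E₂
    · simpa [he] using hT _ (hselT e he) (hu e he)
    · simp [he]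
  · rw [piecewise_eq_of_mem _ _ _ he]
    constructor <;> linarith [hb' e he]
  all_goals
    rw [mul_comm, ← nsmul_eq_mul]
    refine card_nsmul_le_sum _ _ _ fun e he => ?_
    have heE : e ∈ E₁ ∪ E₂ := by simp [he]
    rw [piecewise_eq_of_mem _ _ _ heE]
    linarith [hb' e heE]

variable {P : Scales} {a₀ κ st η : ℝ} {Good : Set ℝ} {T : Finset (Set ℝ)} {M : ℕ} {a b K p : V}

lemma cards {B : Box} {y : V} (Q : Piece B t y) {E₁ E₂ : Finset (Sym2 V)} {f : ℕ → V} {L L' : ℕ}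
    (hQ : Q.m = L) (h₁ : E₁ ⊆ Q.edges) (h₂ : E₂ ⊆ pathEdges f L') :
    (E₁ ∪ E₂).card ≤ L + L' :=
  (card_union_le _ _).trans (add_le_add
    ((card_le_card h₁).trans (card_image_le.trans (by rw [card_range, hQ])))
    ((card_le_card h₂).trans (card_image_le.trans (by rw [card_range]))))

/-- The case in which the difference is larger at `z`. -/
lemma case_up (hP : P.Fits a₀ κ st η)
    (hGood : ∀ w ∈ Good, ∃ S ∈ T, S ⊆ Set.Icc (w - st) (w - κ))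
    (hT : ∀ S ∈ T, S ⊆ Set.Ici (0 : ℝ)) (ht : ∀ e, 0 ≤ t e)
    (hx : (Box.mk 0 (M / 2)).Mem x) (hM : 4 * (P.R + P.n₃ + P.n₂ + 1) ≤ M)
    (hW : P.Win a₀ Good x t) (ha : (Box.mk 0 M).Bdry a) (hb : (Box.mk 0 M).Bdry b)
    (hK : (Box.mk 0 M).Bdry K) (hp : (Box.mk x P.r).Mem p) (hz : (Box.mk x P.r).Mem z)
    (habp : (Box.mk 0 M).dist t a b = (Box.mk 0 M).dist t a p + (Box.mk 0 M).dist t p b)
    (hJ : (Box.mk 0 M).dist t p z ≤ P.J)
    (hplus : (Box.mk 0 M).dist t p K - (Box.mk 0 M).dist t p b + η / 2 ≤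
      (Box.mk 0 M).dist t z K - (Box.mk 0 M).dist t z b) :
    Res P (Box.mk 0 M) t T st κ a b K x η := by
  obtain ⟨⟨ha0, hκ, hκst, hη, hst⟩, ⟨hT0, hT1, hT2, hT3⟩, ⟨hLa, hla⟩, ⟨hLb, hlb⟩,
    ⟨hn12, hn2⟩, -, -⟩ := id hP
  have hR : P.R = P.r + P.La + P.n₂ + P.Lb := rfl
  have hr4 : 4 * P.r ≤ M := by omega
  have hpB : (Box.mk 0 M).Mem p := window_sub hx (by omega) hp
  have hzB : (Box.mk 0 M).Mem z := window_sub hx (by omega) hz
  obtain ⟨P1, hP1e, hab, hP1m, hP1L, hE₁⟩ :=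
    first_piece (Good := Good) ht ha hb hx hr4 hp habp (L := P.La) (by omega)
  obtain ⟨E₁, hE₁s, hE₁c, hE₁g⟩ := hE₁ hW.fewA
  obtain ⟨m2, f2, hf2, hs2, hc2⟩ := Box.exists_optimal ht hzB hb.1
  have hz0 : f2 0 = z := hf2.1.1
  have hm2 : M / 4 ≤ m2 :=
    long_to_bdry hx hr4 (hz0.symm ▸ hz) hf2.1.2.2 (hf2.1.2.1.symm ▸ hb)
  have hlong : P.n₂ + P.Lb ≤ m2 := by omega
  let P0 := piece ht hf2 hs2 hc2 0 P.n₂ (by omega)
  let P2 := piece ht hf2 hs2 hc2 P.n₂ P.Lb hlong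
  have hwm : ∀ i ≤ P.n₂ + P.Lb, (Box.mk x (P.r + i)).Mem (f2 i) := fun i hi =>
    walk_mem (hz0.symm ▸ hz) hf2.1.2.2 i (hi.trans hlong)
  have hP2m : ∀ i ≤ P.Lb, (Box.mk x (P.r + P.n₂ + i)).Mem (f2 (P.n₂ + i)) := fun i hi => by
    have := hwm (P.n₂ + i) (by omega)
    rwa [← add_assoc] at this
  obtain ⟨E₂, hE₂s, hE₂c, hE₂g⟩ := exists_lowered hW.fewB
    (f := fun i => f2 (P.n₂ + i)) (hP2m 0 (Nat.zero_le _))
    (fun i hi => hf2.1.2.2 _ (by omega)) (simple_sub hs2 hlong)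
  obtain ⟨sel, hselT, hsel, hval⟩ := targets hκ.le hGood hT E₁ E₂ hE₁g hE₂g
  refine ⟨E₁ ∪ E₂, union_subset (fun e he => pathEdges_pairs
      (fun i hi => mem_mono (by omega) (hP1m i hi)) (hE₁s he))
    (fun e he => pathEdges_pairs (fun i hi => mem_mono (by omega) (hP2m i hi)) (hE₂s he)),
    sel, hselT, hsel, fun u hu => ?_⟩
  obtain ⟨hu0, hua, hG1, hG2⟩ := hval u hu
  have k1 := mul_le_mul_of_nonneg_left hE₁c hκ.le
  have k2 := mul_le_mul_of_nonneg_left hE₂c hκ.le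
  have hE₁pos : 0 < ∑ e ∈ E₁, (t e - (E₁ ∪ E₂).piecewise u 0 e) := by
    have : 0 < κ * (P.La : ℝ) := mul_pos hκ (by exact_mod_cast hLa)
    linarith
  let S : Setup (Box.mk 0 M) t := ⟨a, b, K, P1, b, P2, E₁, E₂, (E₁ ∪ E₂).piecewise u 0, st,
    ha.1, hb.1, hK.1, hb.1, hab, hE₁s, hE₂s, hu0, hua, hE₁pos⟩
  have hcost1 : P1.cost ≤ P.La * P.T₁ :=
    (cost_le_of_bound (f := P1.f) hW.b1 hP1m).trans (le_of_eq (by rw [hP1L]))
  have hP0 : (Box.mk 0 M).dist t z b =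
      pathCost t f2 P.n₂ + (Box.mk 0 M).dist t (f2 P.n₂) b := by
    have h := P0.opt
    simp only [P0, piece, zero_add, hz0] at h
    exact h
  have hfar0 : a₀ * P.n₂ ≤ pathCost t f2 P.n₂ := cost_ge hW.cheap1 hn12 (hz0.symm ▸ hz)
    (fun i hi => hf2.1.2.2 i (by omega)) (hs2.mono (by omega))
  have hP0c : pathCost t f2 P.n₂ ≤ P.n₂ * P.T₂ :=
    cost_le_of_bound hW.b2 fun i hi => mem_mono (by omega) (hwm i (by omega))
  have hP2c : P2.cost ≤ P.Lb * P.T₂ :=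
    cost_le_of_bound hW.b2 fun i (hi : i ≤ P.Lb) => mem_mono (by omega) (hP2m i hi)
  have hz1 : (Box.mk 0 M).dist t p (f2 P.n₂) ≤
      (Box.mk 0 M).dist t p z + pathCost t f2 P.n₂ := by
    have h1 := Box.dist_le ht (hf2.initSeg (i := P.n₂) (by omega))
    linarith [Box.dist_triangle ht hpB hzB (hf2.2 P.n₂ (by omega))]
  have hDz : (Box.mk 0 M).dist t z K - (Box.mk 0 M).dist t z b ≤
      (Box.mk 0 M).dist t (f2 P.n₂) K - (Box.mk 0 M).dist t (f2 P.n₂) b := by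
    have h := (P0.diff_mono ht hb.1 hK.1 (i := 0) (Nat.zero_le _)).2
    simp only [P0, piece, zero_add, hz0] at h
    exact h
  have htri := Box.dist_triangle ht hzB hpB hb.1
  have htri' := Box.dist_triangle ht hpB hzB hb.1
  rw [Box.dist_comm (Box.mk 0 M) t z p] at htri
  have hX : P1.cost + ((Box.mk 0 M).dist t p b - (Box.mk 0 M).dist t (f2 P.n₂) b) + P2.cost
      ≤ P.X := by
    have n1 : (0 : ℝ) ≤ P.La * P.T₂ := mul_nonneg (Nat.cast_nonneg _) hT2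
    have n2 : (0 : ℝ) ≤ P.Lb * P.T₁ := mul_nonneg (Nat.cast_nonneg _) hT1
    have n3 : (0 : ℝ) ≤ P.n₂ * P.T₁ := mul_nonneg (Nat.cast_nonneg _) hT1
    have n4 : (0 : ℝ) ≤ P.n₃ * P.T₃ := mul_nonneg (Nat.cast_nonneg _) hT3
    simp only [Scales.X]
    push_cast
    linarith
  refine found_of_out hP hW S (E₁ ∪ E₂) rfl (cards P1 hP1L hE₁s hE₂s) rfl u
    (fun e he => (piecewise_eq_of_mem _ _ _ he).symm)
    (mem_mono (by omega) (hP1m 0 (Nat.zero_le _))) ?_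
  refine S.up ht (η := η / 2) (c := (Box.mk 0 M).dist t p K - (Box.mk 0 M).dist t p b)
    (by linarith) (hκ.le.trans hκst) (by show st ≤ _; linarith) rfl ?_ ?_ ?_ ?_ ?_ ?_
  · show _ = (Box.mk 0 M).dist t (P1.f P1.m) K - (Box.mk 0 M).dist t (P1.f P1.m) b
    rw [hP1e]
  · show _ ≤ (Box.mk 0 M).dist t (f2 (P.n₂ + 0)) K - (Box.mk 0 M).dist t (f2 (P.n₂ + 0)) b
    rw [add_zero]
    linarith
  · show (Box.mk 0 M).dist t (f2 (P.n₂ + 0)) b ≤
      (Box.mk 0 M).dist t (P1.f P1.m) b - P1.cost - η / 2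
    rw [add_zero, hP1e]
    linarith
  · show (Box.mk 0 M).dist t (P1.f P1.m) (f2 (P.n₂ + 0)) + (Box.mk 0 M).dist t (f2 (P.n₂ + 0)) b
      - (Box.mk 0 M).dist t (P1.f P1.m) b ≤ ∑ e ∈ E₁, (t e - (E₁ ∪ E₂).piecewise u 0 e)
    rw [add_zero, hP1e]
    linarith
  · show 2 * P1.cost + η / 2 ≤ ∑ e ∈ E₂, (t e - (E₁ ∪ E₂).piecewise u 0 e)
    linarith
  · show P1.cost + ((Box.mk 0 M).dist t (P1.f P1.m) b -
      (Box.mk 0 M).dist t (f2 (P.n₂ + 0)) b) + P2.cost ≤ P.X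
    rw [add_zero, hP1e]
    exact hX

/-- The case in which the difference is smaller at `z`. -/
lemma case_down (hP : P.Fits a₀ κ st η)
    (hGood : ∀ w ∈ Good, ∃ S ∈ T, S ⊆ Set.Icc (w - st) (w - κ))
    (hT : ∀ S ∈ T, S ⊆ Set.Ici (0 : ℝ)) (ht : ∀ e, 0 ≤ t e)
    (hx : (Box.mk 0 (M / 2)).Mem x) (hM : 4 * (P.R + P.n₃ + P.n₂ + 1) ≤ M)
    (hW : P.Win a₀ Good x t) (ha : (Box.mk 0 M).Bdry a) (hb : (Box.mk 0 M).Bdry b)
    (hK : (Box.mk 0 M).Bdry K) (hp : (Box.mk x P.r).Mem p) (hz : (Box.mk x P.r).Mem z)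
    (habp : (Box.mk 0 M).dist t a b = (Box.mk 0 M).dist t a p + (Box.mk 0 M).dist t p b)
    (hJ : (Box.mk 0 M).dist t p z ≤ P.J)
    (hminus : (Box.mk 0 M).dist t z K - (Box.mk 0 M).dist t z b ≤
      (Box.mk 0 M).dist t p K - (Box.mk 0 M).dist t p b - η / 2) :
    Res P (Box.mk 0 M) t T st κ a b K x η := by
  obtain ⟨⟨ha0, hκ, hκst, hη, hst⟩, ⟨hT0, hT1, hT2, hT3⟩, ⟨hLa, hla⟩, ⟨hLb, hlb⟩,
    -, ⟨hn13, hn3⟩, -⟩ := id hP
  have hR : P.R = P.r + P.La + P.n₂ + P.Lb := rfl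
  have hr4 : 4 * P.r ≤ M := by omega
  have hpB : (Box.mk 0 M).Mem p := window_sub hx (by omega) hp
  have hzB : (Box.mk 0 M).Mem z := window_sub hx (by omega) hz
  obtain ⟨P1, hP1e, hab, hP1m, hP1L, hE₁⟩ :=
    first_piece (Good := Good) ht ha hb hx hr4 hp habp (L := P.Lb) (by omega)
  obtain ⟨E₁, hE₁s, hE₁c, hE₁g⟩ := hE₁ fun ⟨g, h0, hN, hs, hc⟩ =>
    hW.fewB ⟨g, mem_mono (Nat.le_add_right _ _) h0, hN, hs, hc⟩
  obtain ⟨m2, f2, hf2, hs2, hc2⟩ := Box.exists_optimal ht hzB hK.1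
  have hz0 : f2 0 = z := hf2.1.1
  have hm2 : M / 4 ≤ m2 :=
    long_to_bdry hx hr4 (hz0.symm ▸ hz) hf2.1.2.2 (hf2.1.2.1.symm ▸ hK)
  let P2 := piece ht hf2 hs2 hc2 0 P.La (by omega)
  have hP2m : ∀ i ≤ P.La, (Box.mk x (P.r + i)).Mem (f2 i) := fun i hi =>
    walk_mem (hz0.symm ▸ hz) hf2.1.2.2 i (by omega)
  obtain ⟨E₂, hE₂s, hE₂c, hE₂g⟩ := exists_lowered hW.fewA
    (f := f2) (hz0.symm ▸ hz) (fun i hi => hf2.1.2.2 i (by omega)) (hs2.mono (by omega))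
  have hE₂s' : E₂ ⊆ P2.edges := by
    simpa [P2, piece, Piece.edges] using hE₂s
  obtain ⟨m3, f3, hf3, hs3, hc3⟩ := Box.exists_optimal ht hpB hb.1
  have hp0 : f3 0 = p := hf3.1.1
  have hm3 : M / 4 ≤ m3 :=
    long_to_bdry hx hr4 (hp0.symm ▸ hp) hf3.1.2.2 (hf3.1.2.1.symm ▸ hb)
  let P3 := piece ht hf3 hs3 hc3 0 P.n₃ (by omega)
  obtain ⟨sel, hselT, hsel, hval⟩ := targets hκ.le hGood hT E₁ E₂ hE₁g hE₂g
  refine ⟨E₁ ∪ E₂, union_subset (fun e he => pathEdges_pairs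
      (fun i hi => mem_mono (by omega) (hP1m i hi)) (hE₁s he))
    (fun e he => pathEdges_pairs (fun i hi => mem_mono (by omega) (hP2m i hi)) (hE₂s he)),
    sel, hselT, hsel, fun u hu => ?_⟩
  obtain ⟨hu0, hua, hG1, hG2⟩ := hval u hu
  have k1 := mul_le_mul_of_nonneg_left hE₁c hκ.le
  have k2 := mul_le_mul_of_nonneg_left hE₂c hκ.le
  have hE₁pos : 0 < ∑ e ∈ E₁, (t e - (E₁ ∪ E₂).piecewise u 0 e) := by
    have : 0 < κ * (P.Lb : ℝ) := mul_pos hκ (by exact_mod_cast hLb)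
    linarith
  let S : Setup (Box.mk 0 M) t := ⟨a, b, K, P1, K, P2, E₁, E₂, (E₁ ∪ E₂).piecewise u 0, st,
    ha.1, hb.1, hK.1, hK.1, hab, hE₁s, hE₂s', hu0, hua, hE₁pos⟩
  have hcost1 : P1.cost ≤ P.Lb * P.T₂ :=
    (cost_le_of_bound (f := P1.f) hW.b2 fun i hi => mem_mono (by omega) (hP1m i hi)).trans
      (le_of_eq (by rw [hP1L]))
  have hP2c : P2.cost ≤ P.La * P.T₁ := by
    refine cost_le_of_bound (f := fun l => f2 (0 + l)) hW.b1 fun i (hi : i ≤ P.La) => ?_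
    rw [zero_add]
    exact mem_mono (by omega) (hP2m i hi)
  have hP3c : pathCost t f3 P.n₃ ≤ P.n₃ * P.T₃ := cost_le_of_bound hW.b3 fun i hi =>
    mem_mono (by omega) (walk_mem (hp0.symm ▸ hp) hf3.1.2.2 i (by omega))
  have hfar3 : a₀ * P.n₃ ≤ pathCost t f3 P.n₃ := cost_ge hW.cheap1 hn13 (hp0.symm ▸ hp)
    (fun i hi => hf3.1.2.2 i (by omega)) (hs3.mono (by omega))
  have hP3o : (Box.mk 0 M).dist t p b =
      pathCost t f3 P.n₃ + (Box.mk 0 M).dist t (f3 P.n₃) b := by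
    have h := P3.opt
    simp only [P3, piece, zero_add, hp0] at h
    exact h
  have hX : P1.cost + pathCost t f3 P.n₃ ≤ P.X := by
    have n0 : (0 : ℝ) ≤ P.J := by unfold Scales.J; positivity
    have n1 : (0 : ℝ) ≤ P.La * P.T₂ := mul_nonneg (Nat.cast_nonneg _) hT2
    have n2 : (0 : ℝ) ≤ P.Lb * P.T₁ := mul_nonneg (Nat.cast_nonneg _) hT1
    have n3 : (0 : ℝ) ≤ P.n₂ * P.T₁ := mul_nonneg (Nat.cast_nonneg _) hT1
    have n4 : (0 : ℝ) ≤ P.La * P.T₁ := mul_nonneg (Nat.cast_nonneg _) hT1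
    have n5 : (0 : ℝ) ≤ P.n₂ * P.T₂ := mul_nonneg (Nat.cast_nonneg _) hT2
    simp only [Scales.X]
    push_cast
    linarith
  refine found_of_out hP hW S (E₁ ∪ E₂) rfl
    ((cards P1 hP1L hE₁s hE₂s).trans (le_of_eq (add_comm _ _))) rfl u
    (fun e he => (piecewise_eq_of_mem _ _ _ he).symm)
    (mem_mono (by omega) (hP1m 0 (Nat.zero_le _))) ?_
  refine S.down ht (η := η / 2) (c := (Box.mk 0 M).dist t p K - (Box.mk 0 M).dist t p b)
    (by linarith) (hκ.le.trans hκst) (by show st ≤ _; linarith) rfl P3 ?_ ?_ ?_ ?_ ?_ ?_ ?_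
  · show f3 (0 + 0) = P1.f P1.m
    rw [hP1e, add_zero, hp0]
  · show _ = (Box.mk 0 M).dist t (P1.f P1.m) K - (Box.mk 0 M).dist t (P1.f P1.m) b
    rw [hP1e]
  · show (Box.mk 0 M).dist t (f2 (0 + 0)) K - (Box.mk 0 M).dist t (f2 (0 + 0)) b ≤ _
    rw [add_zero, hz0]
    linarith
  · show (Box.mk 0 M).dist t (f3 (0 + P.n₃)) b + ((Box.mk 0 M).dist t (P1.f P1.m) (f2 (0 + 0)) +
      P1.cost + P2.cost) ≤ (Box.mk 0 M).dist t (P1.f P1.m) b
    rw [zero_add, add_zero, hz0, hP1e]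
    linarith
  · show 2 * ((Box.mk 0 M).dist t (P1.f P1.m) (f2 (0 + 0)) + P2.cost) ≤
      ∑ e ∈ E₁, (t e - (E₁ ∪ E₂).piecewise u 0 e)
    rw [add_zero, hz0, hP1e]
    linarith
  · show 2 * (Box.mk 0 M).dist t (P1.f P1.m) (f2 (0 + 0)) ≤
      ∑ e ∈ E₂, (t e - (E₁ ∪ E₂).piecewise u 0 e)
    rw [add_zero, hz0, hP1e]
    linarith
  · show P1.cost + pathCost t (fun l => f3 (0 + l)) P.n₃ ≤ P.X
    simpa using hX

/-- Lemma C, deterministic: on a good window an oscillation gives options for large gains. -/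
theorem options (hP : P.Fits a₀ κ st η)
    (hGood : ∀ w ∈ Good, ∃ S ∈ T, S ⊆ Set.Icc (w - st) (w - κ))
    (hT : ∀ S ∈ T, S ⊆ Set.Ici (0 : ℝ)) (ht : ∀ e, 0 ≤ t e)
    (hx : (Box.mk 0 (M / 2)).Mem x) (hM : 4 * (P.R + P.n₃ + P.n₂ + 1) ≤ M)
    (hW : P.Win a₀ Good x t) (ha : (Box.mk 0 M).Bdry a) (hb : (Box.mk 0 M).Bdry b)
    (hK : (Box.mk 0 M).Bdry K) (hp : (Box.mk x P.r).Mem p) {q : V}
    (hthru : (Box.mk 0 M).Thru t a b p q)
    (hosc : ¬ OscLe (Box.mk x P.r) ((Box.mk 0 M).diff t K b) η) :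
    Res P (Box.mk 0 M) t T st κ a b K x η := by
  have hR : P.R = P.r + P.La + P.n₂ + P.Lb := rfl
  have hsub : ∀ w, (Box.mk x P.r).Mem w → (Box.mk 0 M).Mem w := fun w hw =>
    window_sub hx (by omega) hw
  have habp : (Box.mk 0 M).dist t a b = (Box.mk 0 M).dist t a p + (Box.mk 0 M).dist t p b := by
    have := hthru.dist_right ht ha.1 hb.1
    linarith [hthru.2.2.2]
  simp only [OscLe, not_forall, not_le, Box.diff] at hosc
  obtain ⟨w, w', hw, hw', h⟩ := hosc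
  have hJ : ∀ z, (Box.mk x P.r).Mem z → (Box.mk 0 M).dist t p z ≤ P.J := fun z hz =>
    dist_window ht hsub hP.nonneg.1 hW.b0 hp hz
  by_cases hz : (Box.mk 0 M).dist t p K - (Box.mk 0 M).dist t p b + η / 2 ≤
      (Box.mk 0 M).dist t w K - (Box.mk 0 M).dist t w b
  · exact case_up hP hGood hT ht hx hM hW ha hb hK hp hw habp (hJ w hw) hz
  · exact case_down hP hGood hT ht hx hM hW ha hb hK hp hw' habp (hJ w' hw') (by linarith)

end Cont

end Vale.Agent.P158.NB
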