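import Vale.Agent.P158.NB.Spec
import Vale.Agent.P158.NB.Growth

/-!
The frame is usable with high probability and optimal walks between few fixed positions meet few
windows (`FrameStmt` and `GridStmt` of `Spec.lean`; sections 3 and 5 of `PROOF.md`).
-/

open MeasureTheory Finset Filter
open scoped ENNReal

namespace Vale.Agent.P158.NB

variable {G : Measure ℝ} [IsProbabilityMeasure G]

lemma ae_weights_pos (hG : GoodLaw G) :
    weightMeasure G {t | ¬ ∀ e, 0 < t e} = 0 := by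
  refine ae_iff.1 (ae_all_iff.2 fun e => ?_)
  have h : weightMeasure G {t | t e ≤ 0} = 0 := by
    rw [show {t : Env | t e ≤ 0} = (fun t => t e) ⁻¹' Set.Iic 0 from rfl,
      ← Measure.map_apply (measurable_pi_apply e) measurableSet_Iic, map_eval_weights,
      ← Set.Iio_union_right]
    exact measure_union_null hG.nonneg (hG.atomless 0)
  filter_upwards [measure_eq_zero_iff_ae_notMem.1 h] with t ht
  simpa using ht

lemma real_not_pos (hG : GoodLaw G) :
    (weightMeasure G).real {t | ¬ ∀ e, 0 < t e} = 0 := by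
  rw [measureReal_def, ae_weights_pos hG]
  rfl

omit [IsProbabilityMeasure G] in
lemma real_le_of_le_ofReal {A : Set Env} {ε : ℝ} (hε : 0 ≤ ε)
    (h : weightMeasure G A ≤ ENNReal.ofReal ε) : (weightMeasure G).real A ≤ ε :=
  ENNReal.toReal_le_of_le_ofReal hε h

/-- Cheap walks with at least a quarter of the radius steps are rare in large boxes. -/
lemma exists_cheapWalk_small (hG : GoodLaw G) :
    ∃ a > (0 : ℝ), ∀ ε > (0 : ℝ), ∃ M₀ : ℕ, ∀ M ≥ M₀,
      (weightMeasure G).real (CheapWalk a (Box.mk 0 M) (M / 4)) ≤ ε := by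
  have h0 : G (Set.Iic 0) = 0 := by
    rw [← Set.Iio_union_right]; exact measure_union_null hG.nonneg (hG.atomless 0)
  obtain ⟨a, ha, hgr⟩ := exists_growth G h0
  refine ⟨a, ha, fun ε hε => ?_⟩
  have hlim := tendsto_pow_const_mul_const_pow_of_abs_lt_one 2
    (r := (1 / 2 : ℝ)) (by norm_num [abs_lt])
  obtain ⟨j₀, hj⟩ := eventually_atTop.1 (hlim.eventually (eventually_le_nhds
    (show (0 : ℝ) < ε / 450 by positivity)))
  refine ⟨4 * (j₀ + 1), fun M hM => ?_⟩
  have h1 := hgr (Box.mk 0 M) (M / 4)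
  have h2 : (weightMeasure G).real (CheapWalk a (Box.mk 0 M) (M / 4)) ≤
      2 * ((2 * M + 1) ^ 2 : ℕ) * (1 / 2 : ℝ) ^ (M / 4) := by
    have h3 := ENNReal.toReal_mono (ENNReal.mul_ne_top (ENNReal.mul_ne_top (by simp)
      (ENNReal.natCast_ne_top _)) (ENNReal.pow_ne_top (by simp))) h1
    rw [ENNReal.toReal_mul, ENNReal.toReal_mul, ENNReal.toReal_pow, ENNReal.toReal_natCast] at h3
    simpa [measureReal_def] using h3
  refine h2.trans ?_
  have h4 := hj (M / 4) (by omega)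
  have h5 : ((2 * M + 1) ^ 2 : ℕ) ≤ 225 * (M / 4) ^ 2 := by
    calc (2 * M + 1) ^ 2 ≤ (15 * (M / 4)) ^ 2 := Nat.pow_le_pow_left (by omega) 2
      _ = _ := by ring
  have h6 : (((2 * M + 1) ^ 2 : ℕ) : ℝ) ≤ 225 * ((M / 4 : ℕ) : ℝ) ^ 2 := by exact_mod_cast h5
  calc 2 * (((2 * M + 1) ^ 2 : ℕ) : ℝ) * (1 / 2 : ℝ) ^ (M / 4)
      ≤ 2 * (225 * ((M / 4 : ℕ) : ℝ) ^ 2) * (1 / 2 : ℝ) ^ (M / 4) := by gcongr
    _ = 450 * (((M / 4 : ℕ) : ℝ) ^ 2 * (1 / 2 : ℝ) ^ (M / 4)) := by ring
    _ ≤ 450 * (ε / 450) := by gcongr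
    _ = ε := by ring

/-- Off cheap walks, the windows met by every optimal walk between two close vertices are few. -/
lemma exists_windows {B : Box} {t : Env} {a D : ℝ} {k r : ℕ} (ha : 0 < a) (ht : ∀ e, 0 ≤ t e)
    (hc : t ∉ CheapWalk a B k) {y z : V} (hy : B.Mem y) (hz : B.Mem z) (hD : B.dist t y z ≤ D) :
    ∃ U : Finset V, (U.card : ℝ) ≤ (max (k : ℝ) (D / a) + 1) * (2 * r + 1) ^ 2 ∧
      ∀ x, B.Hit (Box.mk x r) t y z → x ∈ U := by
  obtain ⟨m, f, hf, hs, hcost⟩ := Box.exists_optimal ht hy hz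
  refine ⟨(range (m + 1)).biUnion fun i => (Box.mk (f i) r).verts, ?_, fun x hx => ?_⟩
  · have hm := length_le_of_not_cheapWalk ha hc (hf.2 0 m.zero_le) hf.1.2.2 hs
    have hm' : (m : ℝ) ≤ max (k : ℝ) (D / a) := by
      refine hm.trans (max_le_max le_rfl ?_)
      rw [hcost]; gcongr
    have h := (card_biUnion_le (s := range (m + 1)) (t := fun i => (Box.mk (f i) r).verts))
    simp only [Box.card_verts, sum_const, card_range, smul_eq_mul] at h
    calc (((range (m + 1)).biUnion fun i => (Box.mk (f i) r).verts).card : ℝ)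
        ≤ (((m + 1) * (2 * r + 1) ^ 2 : ℕ) : ℝ) := by exact_mod_cast h
      _ ≤ _ := by push_cast; gcongr
  · obtain ⟨i, hi, hmem⟩ := hx m f hf hs hcost
    refine mem_biUnion.2 ⟨i, mem_range.2 (by omega), Box.mem_verts.2 ?_⟩
    simp only [Box.Mem] at hmem ⊢
    rwa [abs_sub_comm x.1, abs_sub_comm x.2]

namespace Nets

variable (N : Nets G) {B : Box} {n : ℕ} {t : Env}

omit [IsProbabilityMeasure G] in
lemma abs_binW_le {θ X : ℝ} (h : ∑ l ∈ range n, N.binW B t n l ^ 2 ≤ θ) (hθ : θ ≤ X ^ 2)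
    (hX : 0 ≤ X) {l : ℕ} (hl : l < n) : |N.binW B t n l| ≤ X := by
  have h1 := (single_le_sum (f := fun l => N.binW B t n l ^ 2) (fun i _ => sq_nonneg _)
    (mem_range.2 hl)).trans (h.trans hθ)
  simpa [abs_of_nonneg hX] using sq_le_sq.1 h1

omit [IsProbabilityMeasure G] in
lemma gridPos_le (B : Box) {l : ℕ} (hl : l ≤ n) : B.gridPos n l ≤ B.len :=
  Nat.div_le_of_le_mul (Nat.mul_le_mul_right _ hl)

omit [IsProbabilityMeasure G] in
lemma fr_g (B : Box) {l : ℕ} (hl : l ≤ n) : (N.fr B n t).g l = B.gridPos n l := by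
  simp [fr, min_eq_left hl]

omit [IsProbabilityMeasure G] in
/-- Positions are close along a chain of grid positions. -/
lemma dist_grid_le (ht : ∀ e, 0 ≤ t e) (hadm : ∀ l ≤ n, N.Adm B t (B.gridPos n l)) {X : ℝ}
    (hX : ∀ l < n, N.binW B t n l ≤ X) {k k' : ℕ} (hk : k ≤ k') (hk' : k' ≤ n) :
    B.dist t (B.pos (B.gridPos n k)) (B.pos (B.gridPos n k')) ≤ ((k' - k : ℕ) : ℝ) * X := by
  induction k', hk using Nat.le_induction with
  | base => simp [Box.dist_self ht (B.pos_mem (gridPos_le B hk'))]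
  | succ l hkl ih =>
    have hmono : B.gridPos n l ≤ B.gridPos n (l + 1) :=
      Nat.div_le_div_right (Nat.mul_le_mul_right _ (Nat.le_succ l))
    have h1 := N.dist_le B t ht n l _ _ (by omega) le_rfl hmono hmono le_rfl
      (hadm l (by omega)) (hadm (l + 1) hk')
    have h2 := Box.dist_triangle ht (B.pos_mem (gridPos_le (n := n) B (show k ≤ n by omega)))
      (B.pos_mem (gridPos_le (n := n) B (show l ≤ n by omega))) (B.pos_mem (gridPos_le B hk'))
    rw [Nat.succ_sub hkl, Nat.cast_succ, add_one_mul]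
    linarith [ih (by omega), hX l (by omega)]

omit [IsProbabilityMeasure G] in
lemma dist_grid_le' (ht : ∀ e, 0 ≤ t e) (hadm : ∀ l ≤ n, N.Adm B t (B.gridPos n l)) {X : ℝ}
    (hX0 : 0 ≤ X) (hX : ∀ l < n, N.binW B t n l ≤ X) {k k' : ℕ} (hk : k ≤ n) (hk' : k' ≤ n) :
    B.dist t (B.pos (B.gridPos n k)) (B.pos (B.gridPos n k')) ≤ n * X := by
  rcases le_total k k' with h | h
  · refine (N.dist_grid_le ht hadm hX h hk').trans ?_
    gcongr; exact_mod_cast (show k' - k ≤ n by omega)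
  · rw [Box.dist_comm]
    refine (N.dist_grid_le ht hadm hX h hk).trans ?_
    gcongr; exact_mod_cast (show k - k' ≤ n by omega)

omit [IsProbabilityMeasure G] in
lemma fr_valid (hn : 0 < n) (hadm : ∀ l ≤ n, N.Adm B t (B.gridPos n l)) :
    (N.fr B n t).Valid where
  zero := by simp [fr, Box.gridPos]
  last := by simp [fr, Box.gridPos, Nat.mul_div_cancel_left _ hn]
  mono := fun a b hab =>
    Nat.div_le_div_right (Nat.mul_le_mul_right _ (min_le_min_right n hab))
  le := fun l => gridPos_le B (min_le_right _ _)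
  adm := fun l hl => by
    have hl' : l ≤ n := hl
    rw [N.fr_g B hl']
    exact hadm l hl'

omit [IsProbabilityMeasure G] in
/-- Short bins do not reach the inner box without cheap walks. -/
lemma short_of_good {M : ℕ} {a : ℝ} (ha : 0 < a) (hM : 0 < M) (ht : ∀ e, 0 ≤ t e)
    (hc : t ∉ CheapWalk a (Box.mk 0 M) (M / 4))
    (hb : ∀ l < n, N.binW (Box.mk 0 M) t n l ≤ a * M / 10) :
    (N.fr (Box.mk 0 M) n t).Short (Box.mk 0 (5 * M / 8)) t := by
  intro l i j hi hj hTi hTj p hp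
  set B := Box.mk (0 : V) M
  obtain ⟨hl, hi1, hi2⟩ := hi
  obtain ⟨-, hj1, hj2⟩ := hj
  have hl' : l < n := hl
  rw [N.fr_g B hl'.le] at hi1 hj1
  rw [N.fr_g B (Nat.succ_le_of_lt hl')] at hi2 hj2
  have hlen := gridPos_le (n := n) B (Nat.succ_le_of_lt hl')
  have hupper := (N.dist_le B t ht n l i j hl' hi1 hi2 hj1 hj2 hTi hTj).trans (hb l hl')
  have hpB : B.Mem p := by
    rw [Box.mem_iff] at hp ⊢
    dsimp only [B] at hp ⊢
    omega
  obtain ⟨m, f, hf, hs, hcost⟩ := Box.exists_optimal ht (B.pos_mem (hi2.trans hlen)) hpB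
  have hsteps : ∀ k ≤ m, (f k).1 - (f 0).1 ≤ k ∧ (f 0).1 - (f k).1 ≤ k ∧
      (f k).2 - (f 0).2 ≤ k ∧ (f 0).2 - (f k).2 ≤ k := by
    intro k hk
    induction k with
    | zero => simp
    | succ k ih =>
      have := Box.nbr_cases (hf.1.2.2 k (by omega))
      have := ih (by omega)
      push_cast
      omega
  have hbd := B.pos_bdry (hi2.trans hlen)
  have hlong : M / 4 ≤ m := by
    have := hsteps m le_rfl
    rw [hf.1.1, hf.1.2.1] at this
    obtain ⟨h1, h2⟩ := hbd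
    rw [Box.mem_iff] at h1 hp
    rw [Box.inner_iff] at h2
    dsimp only [B] at h1 h2 hp this ⊢
    simp only [Prod.fst_zero, Prod.snd_zero] at h1 h2 hp
    omega
  have hcheap : a * m ≤ pathCost t f m := by
    by_contra hlt
    exact hc ⟨m, f, hlong, hf.2 0 m.zero_le, hf.1.2.2, hs, not_le.1 hlt⟩
  have h2 := Box.dist_nonneg (B := B) ht hpB (B.pos_mem (hj2.trans hlen))
  have hmM : (M : ℝ) / 10 < m ∨ m = 0 := by
    rcases Nat.eq_zero_or_pos m with h | h
    · exact Or.inr h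
    · refine Or.inl ?_
      have : M < 10 * m := by omega
      have h3 : (M : ℝ) < 10 * m := by exact_mod_cast this
      linarith
  show B.dist t (B.pos i) (B.pos j) < B.dist t (B.pos i) p + B.dist t p (B.pos j)
  rcases hmM with h | h
  · have : a * (M : ℝ) / 10 < a * m := by
      rw [mul_div_assoc]; exact mul_lt_mul_of_pos_left h ha
    linarith
  · exfalso
    obtain ⟨h1, h2⟩ := hbd
    have he : B.pos i = p := by rw [← hf.1.1, ← hf.1.2.1, h]
    rw [he, Box.inner_iff] at h2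
    rw [Box.mem_iff] at hp
    dsimp only [B] at h2 hp
    simp only [Prod.fst_zero, Prod.snd_zero] at h2 hp
    omega

/-- Rarely some grid position is not admissible or the bins are wide. -/
lemma exists_grid_good (δ : ℝ) (hδ : 0 < δ) (ε : ℝ) (hε : 0 < ε) :
    ∃ n₀ : ℕ, ∀ n ≥ n₀, ∃ M₀ : ℕ, ∀ M ≥ M₀,
      (weightMeasure G).real {t | ¬ ((∀ l ≤ n, N.Adm (Box.mk 0 M) t ((Box.mk 0 M).gridPos n l)) ∧
        ∑ l ∈ range n, N.binW (Box.mk 0 M) t n l ^ 2 ≤ δ * (M : ℝ) ^ 2)} ≤ ε := by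
  obtain ⟨n₀, hn₀⟩ := N.bins_prob δ hδ (ε / 2) (by positivity)
  refine ⟨n₀, fun n hn => ?_⟩
  obtain ⟨M₁, hM₁⟩ := hn₀ n hn
  obtain ⟨M₂, hM₂⟩ := N.adm_prob (ε / 2 / (n + 1)) (by positivity)
  refine ⟨max M₁ M₂, fun M hM => ?_⟩
  set B := Box.mk (0 : V) M
  have hsub : {t | ¬ ((∀ l ≤ n, N.Adm B t (B.gridPos n l)) ∧
      ∑ l ∈ range n, N.binW B t n l ^ 2 ≤ δ * (M : ℝ) ^ 2)} ⊆
      (⋃ l ∈ range (n + 1), {t | ¬ N.Adm B t (B.gridPos n l)}) ∪
        {t | δ * (B.M : ℝ) ^ 2 < ∑ l ∈ range n, N.binW B t n l ^ 2} := by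
    refine fun t ht => or_iff_not_imp_right.2 fun hb => ?_
    simp only [Set.mem_ofPred_eq, not_lt, not_and_or] at ht hb
    rcases ht with h | h
    · push Not at h
      obtain ⟨l, hl, hl'⟩ := h
      exact Set.mem_iUnion₂.2 ⟨l, mem_range.2 (by omega), hl'⟩
    · exact absurd hb h
  refine (weight_real_mono G hsub).trans ((measureReal_union_le _ _).trans ?_)
  have h1 : (weightMeasure G).real (⋃ l ∈ range (n + 1), {t | ¬ N.Adm B t (B.gridPos n l)}) ≤
      ε / 2 := by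
    refine (measureReal_biUnion_finset_le _ _).trans ((sum_le_card_nsmul _ _ (ε / 2 / (n + 1))
      fun l hl => real_le_of_le_ofReal (by positivity) (hM₂ B ((le_max_right _ _).trans hM) _
        (gridPos_le B (Nat.lt_succ_iff.1 (mem_range.1 hl))))).trans ?_)
    rw [card_range, nsmul_eq_mul]
    push_cast
    rw [mul_div_cancel₀ _ (by positivity)]
  have h2 := real_le_of_le_ofReal (by positivity) (hM₁ B ((le_max_left _ _).trans hM))
  linarith

end Nets

/-- Frames are usable around the half box with high probability. -/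
theorem frameStmt (hG : GoodLaw G) (N : Nets G) : FrameStmt N := by
  obtain ⟨a, ha, hcheap⟩ := exists_cheapWalk_small hG
  intro θ hθ ε hε
  obtain ⟨n₁, hn₁⟩ := N.exists_grid_good (min θ ((a / 10) ^ 2)) (by positivity) (ε / 2)
    (by positivity)
  refine ⟨n₁ + 1, fun n hn => ?_⟩
  obtain ⟨M₁, hM₁⟩ := hn₁ n (by omega)
  obtain ⟨M₂, hM₂⟩ := hcheap (ε / 2) (by positivity)
  refine ⟨max M₁ M₂ + 1, fun M hM => ?_⟩
  set B := Box.mk (0 : V) M
  set δ := min θ ((a / 10) ^ 2)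
  have hsub : {t | ¬ N.FrameOk B n (Box.mk 0 (5 * M / 8)) θ t} ⊆
      ({t | ¬ ∀ e, 0 < t e} ∪ {t | ¬ ((∀ l ≤ n, N.Adm B t (B.gridPos n l)) ∧
        ∑ l ∈ range n, N.binW B t n l ^ 2 ≤ δ * (M : ℝ) ^ 2)}) ∪ CheapWalk a B (M / 4) := by
    intro t ht
    by_contra hgood
    simp only [Set.mem_union, Set.mem_ofPred_eq, not_or, not_not] at hgood
    obtain ⟨⟨hpos, hadm, hbins⟩, hc⟩ := hgood
    refine ht ⟨hpos, N.fr_valid (by omega) hadm, N.short_of_good ha (by omega)
      (fun e => (hpos e).le) hc (fun l hl => (le_abs_self _).trans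
        (N.abs_binW_le hbins ?_ (by positivity) hl)), hbins.trans ?_⟩
    · rw [mul_div_assoc, mul_pow, mul_comm (a ^ 2)]
      calc δ * (M : ℝ) ^ 2 ≤ (a / 10) ^ 2 * (M : ℝ) ^ 2 := by gcongr; exact min_le_right _ _
        _ = _ := by ring
    · gcongr; exact min_le_left _ _
  refine (weight_real_mono G hsub).trans ((measureReal_union_le _ _).trans ?_)
  refine (add_le_add ((measureReal_union_le _ _).trans (add_le_add
    (le_of_eq (real_not_pos hG)) (hM₁ M (by omega)))) (hM₂ M (by omega))).trans ?_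
  rw [zero_add, add_halves]

/-- Optimal paths between grid positions, or to a fixed root, rarely meet a window. -/
theorem gridStmt (hG : GoodLaw G) (N : Nets G) : GridStmt N := by
  classical
  obtain ⟨a, ha, hcheap⟩ := exists_cheapWalk_small hG
  intro r ε hε
  obtain ⟨n₁, hn₁⟩ := N.exists_grid_good 1 one_pos (ε / 6) (by positivity)
  refine ⟨n₁ + 1, fun n hn => ?_⟩
  obtain ⟨M₁, hM₁⟩ := hn₁ n (by omega)
  obtain ⟨M₂, hM₂⟩ := hcheap (ε / 6) (by positivity)
  obtain ⟨M₃, hM₃⟩ := N.adm_prob (ε / 6) (by positivity)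
  set K : ℝ := ((n : ℝ) + 2) ^ 2 * ((2 + ((n : ℝ) + 1) / a) * (2 * r + 1) ^ 2)
  obtain ⟨M₄, hM₄⟩ := exists_nat_ge (2 * K / ε)
  refine ⟨max (max M₁ M₂) (max M₃ M₄) + 1, fun M hM b hb => ?_⟩
  set B := Box.mk (0 : V) M
  set bad : Set Env := ({t | ¬ ∀ e, 0 < t e} ∪ {t | ¬ ((∀ l ≤ n, N.Adm B t (B.gridPos n l)) ∧
      ∑ l ∈ range n, N.binW B t n l ^ 2 ≤ 1 * (M : ℝ) ^ 2)}) ∪
      (CheapWalk a B (M / 4) ∪ {t | ¬ N.Adm B t b})
  have hbad : (weightMeasure G).real bad ≤ ε / 2 := by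
    have e1 := hM₁ M (by omega)
    have e2 := hM₂ M (by omega)
    have e3 := real_le_of_le_ofReal (by positivity : 0 ≤ ε / 6) (hM₃ B (by dsimp [B]; omega) b hb)
    have e4 := real_not_pos hG
    refine ((measureReal_union_le _ _).trans (add_le_add (measureReal_union_le _ _)
      (measureReal_union_le _ _))).trans ?_
    linarith
  have hsmall : K * (M : ℝ) / ((half M).card : ℝ) ≤ ε / 2 := by
    have hM' : 2 * K / ε ≤ (M : ℝ) := hM₄.trans (by exact_mod_cast (show M₄ ≤ M by omega))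
    rw [div_le_iff₀ hε] at hM'
    rw [div_le_iff₀ (card_half_pos M)]
    calc K * (M : ℝ) ≤ ε / 2 * (M : ℝ) * M := by gcongr; linarith
      _ ≤ ε / 2 * (half M).card := by
        rw [mul_assoc, ← sq]; gcongr; exact sq_le_card_half M
  -- few windows for each pair of endpoints
  have key : ∀ t ∉ bad, ∀ k ≤ n, ∀ j ∈ insert b ((range (n + 1)).image (B.gridPos n)),
      ∃ U : Finset V, (U.card : ℝ) ≤ (2 + ((n : ℝ) + 1) / a) * (2 * r + 1) ^ 2 * M ∧
        ∀ x, B.Hit (Box.mk x r) t (B.pos (B.gridPos n k)) (B.pos j) → x ∈ U := by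
    intro t ht k hk j hj
    simp only [bad, Set.mem_union, Set.mem_ofPred_eq, not_or, not_not] at ht
    obtain ⟨⟨hpos, hadm, hbins⟩, hc, hb'⟩ := ht
    have ht0 : ∀ e, 0 ≤ t e := fun e => (hpos e).le
    have hX : ∀ l < n, N.binW B t n l ≤ M := fun l hl =>
      (le_abs_self _).trans (N.abs_binW_le hbins (one_mul _).le (Nat.cast_nonneg _) hl)
    have hjlen : j ≤ B.len := by
      rcases mem_insert.1 hj with rfl | h
      · exact hb
      · obtain ⟨l, hl, rfl⟩ := mem_image.1 h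
        exact Nets.gridPos_le B (Nat.lt_succ_iff.1 (mem_range.1 hl))
    have hD : B.dist t (B.pos (B.gridPos n k)) (B.pos j) ≤ ((n : ℝ) + 1) * M := by
      rcases mem_insert.1 hj with rfl | h
      · obtain ⟨l, hl, h1, h2⟩ := (N.fr_valid (by omega) hadm).exists_bin
          (show 0 < (N.fr B n t).n by show 0 < n; omega) hb
        have hl' : l < n := hl
        rw [N.fr_g B hl'.le] at h1
        rw [N.fr_g B (Nat.succ_le_of_lt hl')] at h2
        have h3 := Box.dist_triangle ht0 (B.pos_mem (Nets.gridPos_le (n := n) B hk))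
          (B.pos_mem (Nets.gridPos_le (n := n) B hl'.le)) (B.pos_mem hb)
        have h4 := N.dist_le B t ht0 n l _ j hl' le_rfl (h1.trans h2) h1 h2 (hadm l hl'.le) hb'
        linarith [N.dist_grid_le' ht0 hadm (Nat.cast_nonneg M) hX hk hl'.le, hX l hl']
      · obtain ⟨l, hl, rfl⟩ := mem_image.1 h
        linarith [N.dist_grid_le' ht0 hadm (Nat.cast_nonneg M) hX hk
          (Nat.lt_succ_iff.1 (mem_range.1 hl)), (Nat.cast_nonneg M : (0 : ℝ) ≤ M)]
    obtain ⟨U, hU, hUx⟩ := exists_windows (r := r) ha ht0 hc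
      (B.pos_mem (Nets.gridPos_le (n := n) B hk)) (B.pos_mem hjlen) hD
    refine ⟨U, hU.trans ?_, hUx⟩
    rw [mul_comm ((2 : ℝ) + _), mul_assoc, mul_comm _ ((2 * (r : ℝ) + 1) ^ 2)]
    refine mul_le_mul_of_nonneg_left ?_ (by positivity)
    have h1 : ((M / 4 : ℕ) : ℝ) ≤ M := by exact_mod_cast Nat.div_le_self M 4
    have h2 : (1 : ℝ) ≤ M := by exact_mod_cast (show 1 ≤ M by omega)
    have h3 : max ((M / 4 : ℕ) : ℝ) (((n : ℝ) + 1) * M / a) ≤ (1 + ((n : ℝ) + 1) / a) * M := by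
      have : 0 ≤ ((n : ℝ) + 1) / a * M := by positivity
      rw [mul_div_right_comm, add_mul, one_mul]
      exact max_le (by linarith) (by linarith)
    linarith
  -- count
  set F₀ : Frame := ⟨B, n, fun l => B.gridPos n (min l n), Set.univ⟩
  have hK0 : 0 ≤ K * M := by positivity
  have hstep : ∀ (E : V → Set Env), (∀ x ∈ half M, MeasurableSet (E x)) →
      (∀ t ∉ bad, ∀ x, t ∈ E x → ∃ k ≤ n, ∃ j ∈ insert b ((range (n + 1)).image (B.gridPos n)),
        B.Hit (Box.mk x r) t (B.pos (B.gridPos n k)) (B.pos j)) →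
      avg G M E ≤ ε := by
    intro E hE hhit
    refine (avg_le_of_count G hE hK0 fun t ht s _ hs => ?_).trans (by linarith)
    set J := insert b ((range (n + 1)).image (B.gridPos n)) with hJdef
    choose U hU hUx using key t ht
    have hsub : s ⊆ (range (n + 1)).attach.biUnion fun k => J.attach.biUnion fun j =>
        U k (Nat.lt_succ_iff.1 (mem_range.1 k.2)) j j.2 := by
      intro x hx
      obtain ⟨k, hk, j, hj, hh⟩ := hhit t ht x (hs x hx)
      simp only [mem_biUnion]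
      exact ⟨⟨k, mem_range.2 (Nat.lt_succ_iff.2 hk)⟩, mem_attach _ _, ⟨j, hj⟩, mem_attach _ _,
        hUx k hk j hj x hh⟩
    have hJ : J.card ≤ n + 2 := (card_insert_le _ _).trans
      (Nat.succ_le_succ (card_image_le.trans_eq (card_range _)))
    set u := (2 + ((n : ℝ) + 1) / a) * (2 * r + 1) ^ 2 * M
    calc (s.card : ℝ) ≤ ∑ k ∈ (range (n + 1)).attach, ∑ j ∈ J.attach,
          ((U k (Nat.lt_succ_iff.1 (mem_range.1 k.2)) j j.2).card : ℝ) := by
          exact_mod_cast (card_le_card hsub).trans (card_biUnion_le.trans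
            (sum_le_sum fun _ _ => card_biUnion_le))
      _ ≤ ∑ _k ∈ (range (n + 1)).attach, ∑ _j ∈ J.attach, u :=
          sum_le_sum fun k _ => sum_le_sum fun j _ => hU _ _ _ _
      _ = ((n : ℝ) + 1) * J.card * u := by simp [mul_assoc]
      _ ≤ K * M := by
          have hu : 0 ≤ u := by positivity
          have : (J.card : ℝ) ≤ (n : ℝ) + 2 := by exact_mod_cast hJ
          calc ((n : ℝ) + 1) * J.card * u ≤ ((n : ℝ) + 1) * ((n : ℝ) + 2) * u := by gcongr
            _ ≤ ((n : ℝ) + 2) ^ 2 * u := by gcongr; nlinarith [(Nat.cast_nonneg n : (0 : ℝ) ≤ n)]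
            _ = K * M := by ring
  refine ⟨?_, ?_⟩
  · refine hstep (fun x => {t | F₀.GridBad (Box.mk x r) t})
      (fun x _ => measurableSet_setOfPred.2 (F₀.measurable_gridBad _)) ?_
    rintro t - x ⟨k, k', hk, hk', h⟩
    have hk₁ : k ≤ n := hk
    have hk₂ : k' ≤ n := hk'
    refine ⟨k, hk₁, B.gridPos n k',
      mem_insert_of_mem (mem_image_of_mem _ (mem_range.2 (Nat.lt_succ_iff.2 hk₂))), ?_⟩
    simpa [F₀, min_eq_left hk₁, min_eq_left hk₂] using h
  · refine le_trans (avg_mono G (fun x _ t h => h.2)) (hstep (fun x => {t | ∃ k ≤ n,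
      B.Hit (Box.mk x r) t (B.pos (B.gridPos n k)) (B.pos b)})
      (fun x _ => measurableSet_setOfPred.2 (Measurable.exists fun _ =>
        measurable_const.and (Box.measurable_hit B _ _ _))) ?_)
    rintro t - x ⟨k, hk, h⟩
    exact ⟨k, hk, b, mem_insert_self _ _, h⟩

end Vale.Agent.P158.NB
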