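import Vale.Agent.P158.NB.Cont
import Vale.Agent.P158.NB.FrameGood

/-!
# Lemma C of `PROOF.md`, averaged

The gadget turns an oscillation into an optimal step with a large gain; lowering that step once
more turns it into a margin step with a large gain, and these are rare.
-/

open MeasureTheory Finset Filter
open scoped ENNReal Classical

namespace Vale.Agent.P158.NB

namespace ContAvg

variable {G : Measure ℝ} [IsProbabilityMeasure G]

lemma real_le_mul {C : ℝ≥0∞} (hC : C ≠ ∞) {A B : Set Env}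
    (h : weightMeasure G A ≤ C * weightMeasure G B) :
    (weightMeasure G).real A ≤ C.toReal * (weightMeasure G).real B := by
  rw [measureReal_def, measureReal_def, ← ENNReal.toReal_mul]
  exact ENNReal.toReal_mono (ENNReal.mul_ne_top hC (measure_ne_top _ _)) h

omit [IsProbabilityMeasure G] in
lemma real_union {A B : Set Env} {a b : ℝ} (hA : (weightMeasure G).real A ≤ a)
    (hB : (weightMeasure G).real B ≤ b) : (weightMeasure G).real (A ∪ B) ≤ a + b :=
  (measureReal_union_le _ _).trans (add_le_add hA hB)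

/-- Finitely many coordinates rarely miss a likely set of values. -/
lemma coords_le {Good : Set ℝ} (hm : MeasurableSet Good) (W : Finset (Sym2 V)) :
    (weightMeasure G).real {t | ∃ e ∈ W, t e ∉ Good} ≤ W.card * G.real Goodᶜ := by
  have hsub : {t : Env | ∃ e ∈ W, t e ∉ Good} ⊆ ⋃ e ∈ W, {t : Env | t e ∉ Good} :=
    fun t ⟨e, he, h⟩ => Set.mem_iUnion₂.2 ⟨e, he, h⟩
  refine (weight_real_mono G hsub).trans ((measureReal_biUnion_finset_le _ _).trans ?_)
  refine (sum_le_card_nsmul _ _ (G.real Goodᶜ) fun e _ => le_of_eq ?_).trans (le_of_eq (nsmul_eq_mul _ _))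
  rw [measureReal_def, measureReal_def, weightMeasure_coord_notMem G hm e]

/-- Windows have bounded weights with high probability. -/
lemma exists_bound (R : ℕ) {ε : ℝ} (hε : 0 < ε) :
    ∃ T : ℝ, 0 ≤ T ∧ ∀ x : V,
      (weightMeasure G).real {t | ∃ e ∈ (Box.mk x R).pairs, T < t e} ≤ ε := by
  set K : ℕ := ((2 * R + 1) ^ 2 + 1).choose 2
  have hlim : Tendsto (fun n : ℕ => G (Set.Ioi (n : ℝ))) atTop (nhds 0) := by
    have h := tendsto_measure_iInter_atTop (μ := G) (s := fun n : ℕ => Set.Ioi (n : ℝ))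
      (fun n => measurableSet_Ioi.nullMeasurableSet)
      (fun n m h => Set.Ioi_subset_Ioi (by exact_mod_cast h)) ⟨0, measure_ne_top _ _⟩
    have he : (⋂ n : ℕ, Set.Ioi (n : ℝ)) = ∅ := by
      ext v
      simp only [Set.mem_iInter, Set.mem_Ioi, Set.mem_empty_iff_false, iff_false, not_forall,
        not_lt]
      exact exists_nat_ge v
    simpa [he, measure_empty, Function.comp_def] using h
  obtain ⟨n, hn⟩ := (hlim.eventually (eventually_lt_nhds
    (show (0 : ℝ≥0∞) < ENNReal.ofReal (ε / (K + 1)) by simp; positivity))).exists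
  refine ⟨n, Nat.cast_nonneg n, fun x => ?_⟩
  have hcard : ((Box.mk x R).pairs.card : ℝ) ≤ K := by exact_mod_cast Box.card_pairs_le (Box.mk x R)
  have hG : G.real (Set.Iic (n : ℝ))ᶜ ≤ ε / (K + 1) := by
    rw [Set.compl_Iic]
    exact real_le_of_lt' hn (by positivity)
  have h := coords_le (G := G) (measurableSet_Iic (a := (n : ℝ))) (Box.mk x R).pairs
  simp only [Set.mem_Iic, not_le] at h
  refine h.trans ((mul_le_mul hcard hG measureReal_nonneg (Nat.cast_nonneg _)).trans ?_)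
  rw [mul_div_assoc', div_le_iff₀ (by positivity)]
  nlinarith
where
  real_le_of_lt' {A : Set ℝ} {c : ℝ} (h : G A < ENNReal.ofReal c) (hc : 0 ≤ c) : G.real A ≤ c :=
    ENNReal.toReal_le_of_le_ofReal hc h.le

lemma exists_pow_small {A : ℝ} (hA : 0 ≤ A) {ε : ℝ} (hε : 0 < ε) (n₀ : ℕ) :
    ∃ n ≥ n₀, A * (1 / 2 : ℝ) ^ n ≤ ε := by
  obtain ⟨n, hn⟩ := exists_pow_lt_of_lt_one (show (0 : ℝ) < ε / (A + 1) by positivity)
    (show (1 / 2 : ℝ) < 1 by norm_num)
  refine ⟨max n₀ n, le_max_left _ _, ?_⟩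
  have h1 : (1 / 2 : ℝ) ^ max n₀ n ≤ ε / (A + 1) :=
    (pow_le_pow_of_le_one (by norm_num) (by norm_num) (le_max_right n₀ n)).trans hn.le
  refine (mul_le_mul_of_nonneg_left h1 hA).trans ?_
  rw [mul_div_assoc', div_le_iff₀ (by positivity)]
  nlinarith

omit [IsProbabilityMeasure G] in
/-- Long walks in a window are rarely cheap. -/
lemma exists_cheap {a : ℝ}
    (hgrow : ∀ (B : Box) (n : ℕ),
      weightMeasure G (CheapWalk a B n) ≤ 2 * ((2 * B.M + 1) ^ 2 : ℕ) * (1 / 2) ^ n)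
    (R : ℕ) {ε : ℝ} (hε : 0 < ε) :
    ∃ n, ∀ x : V, (weightMeasure G).real (CheapWalk a (Box.mk x R) n) ≤ ε := by
  obtain ⟨n, -, hn⟩ := exists_pow_small (A := 2 * ((2 * R + 1) ^ 2 : ℕ)) (by positivity) hε 0
  refine ⟨n, fun x => le_trans ?_ hn⟩
  have h := ENNReal.toReal_mono (by simp [ENNReal.mul_eq_top]) (hgrow (Box.mk x R) n)
  rw [measureReal_def]
  simpa only [ENNReal.toReal_mul, ENNReal.toReal_pow, ENNReal.toReal_natCast,
    ENNReal.toReal_ofNat, ENNReal.toReal_div, ENNReal.toReal_one] using h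

/-- Long walks in a window usually carry many good values. -/
lemma exists_few {Good : Set ℝ} (hm : MeasurableSet Good) (hG : G Goodᶜ ≤ (1 / 16) ^ 2) (R : ℕ)
    {ε : ℝ} (hε : 0 < ε) (L₀ : ℕ) :
    ∃ L ≥ L₀, ∀ x : V, (weightMeasure G).real (FewGood Good (Box.mk x R) L) ≤ ε := by
  obtain ⟨L, hL, hn⟩ := exists_pow_small (A := ((2 * R + 1) ^ 2 : ℕ)) (by positivity) hε L₀
  refine ⟨L, hL, fun x => le_trans ?_ hn⟩
  have h := ENNReal.toReal_mono (by simp [ENNReal.mul_eq_top]) (fewGood_le G hm hG (Box.mk x R) L)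
  rw [measureReal_def]
  simpa only [ENNReal.toReal_mul, ENNReal.toReal_pow, ENNReal.toReal_natCast,
    ENNReal.toReal_ofNat, ENNReal.toReal_div, ENNReal.toReal_one] using h

lemma le_mul_of_ceil {a X : ℝ} (ha : 0 < a) {n : ℕ} (h : ⌈X / a⌉₊ ≤ n) : X ≤ a * n := by
  have h1 : X / a ≤ n := (Nat.le_ceil _).trans (by exact_mod_cast h)
  rwa [div_le_iff₀ ha, mul_comm] at h1

/-- All sizes of the gadget, chosen so that windows are rarely bad. -/
lemma exists_scales {a κ st η : ℝ} (hpos : 0 < a ∧ 0 < κ ∧ κ ≤ st ∧ 0 < η ∧ st ≤ η / 16)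
    (hgrow : ∀ (B : Box) (n : ℕ),
      weightMeasure G (CheapWalk a B n) ≤ 2 * ((2 * B.M + 1) ^ 2 : ℕ) * (1 / 2) ^ n)
    {Good : Set ℝ} (hm : MeasurableSet Good) (hG : G Goodᶜ ≤ (1 / 16) ^ 2) (r : ℕ) {ε : ℝ}
    (hε : 0 < ε) :
    ∃ P : Cont.Scales, P.r = r ∧ P.Fits a κ st η ∧
      ∀ x : V, (weightMeasure G).real {t | ¬ P.Win a Good x t} ≤ 8 * ε := by
  obtain ⟨ha, hκ, -, -, -⟩ := id hpos
  obtain ⟨T₀, hT₀, hb₀⟩ := exists_bound (G := G) r hε
  set J : ℝ := ((2 * r + 1) ^ 2 : ℕ) * T₀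
  obtain ⟨n₁, hc₁⟩ := exists_cheap hgrow r hε
  obtain ⟨La, hLa, hfA⟩ := exists_few hm hG r hε (max 1 ⌈4 * J / κ⌉₊)
  obtain ⟨T₁, hT₁, hb₁⟩ := exists_bound (G := G) (r + La) hε
  set n₂ := max n₁ ⌈(2 * J + La * T₁ + η) / a⌉₊
  obtain ⟨Lb, hLb, hfB⟩ :=
    exists_few hm hG (r + n₂) hε (max 1 ⌈(4 * (J + La * T₁) + 2 * η) / κ⌉₊)
  set R := r + La + n₂ + Lb
  obtain ⟨T₂, hT₂, hb₂⟩ := exists_bound (G := G) R hε
  set n₃ := max n₁ ⌈(J + La * T₁ + Lb * T₂) / a⌉₊
  obtain ⟨T₃, hT₃, hb₃⟩ := exists_bound (G := G) (r + n₃) hε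
  obtain ⟨n₄, hc₄⟩ := exists_cheap hgrow R hε
  set X : ℝ := J + (La + Lb + n₂ : ℕ) * (T₁ + T₂) + n₃ * T₃
  set n₅ := max n₄ ⌈(X + (La + Lb : ℕ) * st) / a⌉₊
  refine ⟨⟨r, La, Lb, n₁, n₂, n₃, n₄, n₅, T₀, T₁, T₂, T₃⟩, rfl,
    ⟨hpos, ⟨hT₀, hT₁, hT₂, hT₃⟩,
      ⟨(le_max_left _ _).trans hLa, le_mul_of_ceil hκ ((le_max_right _ _).trans hLa)⟩,
      ⟨(le_max_left _ _).trans hLb, le_mul_of_ceil hκ ((le_max_right _ _).trans hLb)⟩,
      ⟨le_max_left _ _, le_mul_of_ceil ha (le_max_right _ _)⟩,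
      ⟨le_max_left _ _, le_mul_of_ceil ha (le_max_right _ _)⟩,
      ⟨le_max_left _ _, le_mul_of_ceil ha (le_max_right _ _)⟩⟩, fun x => ?_⟩
  set P : Cont.Scales := ⟨r, La, Lb, n₁, n₂, n₃, n₄, n₅, T₀, T₁, T₂, T₃⟩
  have hsub : {t : Env | ¬ P.Win a Good x t} ⊆
      {t : Env | ∃ e ∈ (Box.mk x r).pairs, T₀ < t e} ∪
      {t : Env | ∃ e ∈ (Box.mk x (r + La)).pairs, T₁ < t e} ∪
      {t : Env | ∃ e ∈ (Box.mk x R).pairs, T₂ < t e} ∪
      {t : Env | ∃ e ∈ (Box.mk x (r + n₃)).pairs, T₃ < t e} ∪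
      FewGood Good (Box.mk x r) La ∪ FewGood Good (Box.mk x (r + n₂)) Lb ∪
      CheapWalk a (Box.mk x r) n₁ ∪ CheapWalk a (Box.mk x R) n₄ := by
    intro t ht
    simp only [Set.mem_union, Set.mem_ofPred_eq]
    by_contra h
    simp only [not_or, not_exists, not_and, not_lt] at h
    obtain ⟨⟨⟨⟨⟨⟨⟨a0, a1⟩, a2⟩, a3⟩, a4⟩, a5⟩, a6⟩, a7⟩ := h
    exact ht ⟨a0, a1, a2, a3, a4, a5, a6, a7⟩
  refine (weight_real_mono G hsub).trans ?_
  exact (real_union (real_union (real_union (real_union (real_union (real_union (real_union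
    (hb₀ x) (hb₁ x)) (hb₂ x)) (hb₃ x)) (hfA x)) (hfB x)) (hc₁ x)) (hc₄ x)).trans (by linarith)

/-- Changes inside a central window are inner lowerings. -/
lemma innerLowering {M ρ : ℕ} {x : V} {t t' : Env} (hx : x ∈ half M) (hρ : 4 * ρ ≤ M)
    (hle : ∀ e, 0 ≤ t' e ∧ t' e ≤ t e) (heq : ∀ e ∉ (Box.mk x ρ).pairs, t' e = t e) :
    (Box.mk 0 M).InnerLowering t t' := by
  refine ⟨hle, fun u v hu => heq _ fun hmem => hu ?_⟩
  have hxu := (Box.mem_pairs.1 hmem).1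
  rw [mem_half] at hx
  rw [Box.mem_iff] at hx hxu ⊢
  simp only [Prod.fst_zero, Prod.snd_zero] at hx hxu ⊢
  omega

end ContAvg

open ContAvg

/-- Lemma C. -/
theorem contStmt {G : Measure ℝ} [IsProbabilityMeasure G] (hG : GoodLaw G) (N : Nets G)
    (hGain : GainStmt N) : ContStmt N := by
  intro r δ _ η hη ε hε
  have hIic : G (Set.Iic 0) = 0 := by
    rw [← Set.Iio_union_right, measure_union_null hG.nonneg (hG.atomless 0)]
  obtain ⟨a, ha, hgrow⟩ := exists_growth G hIic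
  have hst : 0 < η / 16 := by positivity
  obtain ⟨κ, hκ, hκst, T, Good, hT, hGm, hGc, hGood⟩ :=
    exists_steps G hG.nonneg hG.atomless hst
      (show (0 : ℝ≥0∞) < (1 / 16) ^ 2 from ENNReal.pow_pos (by simp) 2)
  obtain ⟨P, hPr, hP, hWin⟩ := exists_scales (η := η) ⟨ha, hκ, hκst, hη, le_rfl⟩ hgrow hGm hGc r
    (show 0 < ε / 32 by positivity)
  subst hPr
  obtain ⟨C₁, hC₁, hopt⟩ := exists_sub_option_const G T (fun S hS => ⟨(hT S hS).1, (hT S hS).2.1⟩)
    (((2 * P.R + 1) ^ 2 + 1).choose 2)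
  set γ : ℝ := η / (8 * (P.n₅ + 1 : ℕ))
  have hγ : 0 < γ := by positivity
  set ρ := P.rad
  set K : ℕ := ((2 * ρ + 1) ^ 2 + 1).choose 2
  set e₂ : ℝ := ε / (4 * (C₁.toReal * K + 1))
  have he₂ : 0 < e₂ := by positivity
  obtain ⟨κ₂, hκ₂, -, T₂, Good₂, hT₂, hG₂m, hG₂c, hGood₂⟩ :=
    exists_steps G hG.nonneg hG.atomless (show 0 < γ / 4 by positivity)
      (show (0 : ℝ≥0∞) < ENNReal.ofReal e₂ by simpa using he₂)
  obtain ⟨C₂, hC₂, hstage⟩ := stage_two G T₂ hT₂ hGood₂ K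
  set e₃ : ℝ := ε / (4 * (C₁.toReal * C₂.toReal + 1))
  obtain ⟨n₀, hn₀⟩ := hGain ρ κ₂ hκ₂ (γ / 2) (by positivity) e₃ (by positivity)
  refine ⟨n₀, fun n hn => ?_⟩
  obtain ⟨M₀, hM₀⟩ := hn₀ n hn
  refine ⟨max M₀ (4 * (P.R + P.n₃ + P.n₂ + ρ + 1)), fun M hM => ?_⟩
  have hMg := hM₀ M (le_of_max_le_left hM)
  have hM' : 4 * (P.R + P.n₃ + P.n₂ + ρ + 1) ≤ M := le_of_max_le_right hM
  set B := Box.mk 0 M
  set μ := weightMeasure G
  set Z : Set Env := {t | ¬ ∀ e, 0 < t e}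
  have hZ : μ.real Z = 0 := real_not_pos hG
  set Ev₁ : V → Set Env := fun x =>
    {t | (∀ e, 0 < t e) ∧ (N.fr B n t).GainEv (Box.mk x ρ) 0 γ t}
  set Ev₂ : V → Set Env := fun x =>
    {t | (N.fr B n t).GainEv (Box.mk x ρ) κ₂ (γ / 2) t}
  set Bad₂ : V → Set Env := fun x => {t | ∃ e ∈ (Box.mk x ρ).pairs, t e ∉ Good₂}
  -- the end of a bin is a position
  have hKle : ∀ (t : Env) (l K' : ℕ), l < n → (N.fr B n t).IsEnd l K' → K' ≤ B.len := by
    intro t l K' hl hK'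
    rcases hK' with rfl | rfl
    · exact Nets.gridPos_le B (n := n) (min_le_right l n)
    · exact Nets.gridPos_le B (n := n) (min_le_right (l + 1) n)
  have hbad : ∀ x, μ.real (Bad₂ x) ≤ K * e₂ := fun x => by
    refine (coords_le hG₂m _).trans (mul_le_mul ?_ ?_ measureReal_nonneg (Nat.cast_nonneg _))
    · exact_mod_cast Box.card_pairs_le (Box.mk x ρ)
    · exact ENNReal.toReal_le_of_le_ofReal he₂.le hG₂c
  -- the second stage
  have htwo : ∀ x ∈ half M, μ.real (Ev₁ x) ≤ K * e₂ + C₂.toReal * μ.real (Ev₂ x) := by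
    intro x hx
    refine (weight_real_mono G (show Ev₁ x ⊆ Bad₂ x ∪ (Ev₁ x \ Bad₂ x) from fun t ht => ?_)).trans
      ((measureReal_union_le _ _).trans (add_le_add (hbad x) (real_le_mul hC₂ ?_)))
    · by_cases h : t ∈ Bad₂ x
      exacts [Or.inl h, Or.inr ⟨ht, h⟩]
    refine hstage (Box.mk x ρ).pairs (Box.card_pairs_le _) _ _ fun t ⟨⟨hpos, hev⟩, hgood⟩ => ?_
    obtain ⟨p, q, hp, hq, i, j, l, K', hseg, hj, hK', hgain⟩ := hev
    have hmem : s(p, q) ∈ (Box.mk x ρ).pairs := Box.mem_pairs.2 ⟨hp, hq⟩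
    refine ⟨s(p, q), hmem, by_contra fun h => hgood ⟨_, hmem, h⟩, fun u hu hu₁ hu₂ => ?_⟩
    obtain ⟨⟨hi, hjl, hth, -⟩, hiT, hjT⟩ := hseg
    have ht0 : ∀ e, 0 ≤ t e := fun e => (hpos e).le
    have hle : u ≤ t s(p, q) := by linarith
    have hIL : B.InnerLowering t (Function.update t s(p, q) u) :=
      innerLowering hx (by omega)
        (fun e => ⟨Box.update_nonneg ht0 hu.le e, Box.le_update_of_le hle e⟩)
        (fun e he => Function.update_of_ne (fun h : e = s(p, q) => he (h ▸ hmem)) _ _)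
    refine ⟨p, q, hp, hq, i, j, l, K', ⟨hth.lower_seg hi hjl ht0 (hpos _) hu.le hκ₂.le hu₂,
      N.adm_lower _ _ _ hIL i hiT, N.adm_lower _ _ _ hIL j hjT⟩, hj, hK', ?_⟩
    have hKB := B.pos_mem (hKle t l K' hj.1 hK')
    have h1 := (Box.dist_update_bounds (B := B) (e := s(p, q)) ht0 hu.le hle hth.mem_right hKB).1
    have h2 := (Box.dist_update_bounds (B := B) (e := s(p, q)) ht0 hu.le hle hth.mem_left hKB).2
    show γ / 2 ≤ Function.update t s(p, q) u s(p, q)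
      + B.dist (Function.update t s(p, q) u) q (B.pos K')
      - B.dist (Function.update t s(p, q) u) p (B.pos K')
    have h3 : γ ≤ t s(p, q) + B.dist t q (B.pos K') - B.dist t p (B.pos K') := hgain
    rw [Function.update_self]
    linarith
  -- the first stage
  have hone : ∀ x ∈ half M, μ.real {t | (N.fr B n t).ContBad (Box.mk x P.r) δ η t} ≤
      8 * (ε / 32) + C₁.toReal * (K * e₂ + C₂.toReal * μ.real (Ev₂ x)) := by
    intro x hx
    set A := {t | (N.fr B n t).ContBad (Box.mk x P.r) δ η t}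
    set X := {t | ¬ P.Win a Good x t}
    refine (weight_real_mono G (show A ⊆ (Z ∪ X) ∪ (A \ (Z ∪ X)) from fun t ht => ?_)).trans
      ((measureReal_union_le _ _).trans (add_le_add ?_
        ((real_le_mul (B := Ev₁ x) hC₁ ?_).trans
          (mul_le_mul_of_nonneg_left (htwo x hx) ENNReal.toReal_nonneg))))
    · by_cases h : t ∈ Z ∪ X
      exacts [Or.inl h, Or.inr ⟨ht, h⟩]
    · exact (measureReal_union_le _ _).trans (by linarith [hWin x])
    refine hopt (Box.mk x P.R).pairs (Box.card_pairs_le _) _ _ fun t ⟨hA, hno⟩ => ?_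
    simp only [Z, X, Set.mem_union, Set.mem_ofPred_eq, not_or, not_not] at hno
    obtain ⟨hpos, hwin⟩ := hno
    obtain ⟨p, q, i, j, l, K', hp, hq, hseg, hj, hK', hosc⟩ := hA
    obtain ⟨⟨hi, hjl, hth, -⟩, hiT, hjT⟩ := hseg
    obtain ⟨E, hE, sel, hselT, hsel, hfound⟩ := Cont.options hP hGood
      (fun S hS => (hT S hS).2.2.trans Set.Ioi_subset_Ici_self) (fun e => (hpos e).le)
      (mem_half.1 hx) (by omega) hwin (B.pos_bdry hi) (B.pos_bdry hjl)
      (B.pos_bdry (hKle t l K' hj.1 hK')) hp hth hosc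
    refine ⟨E, hE, sel, hselT, fun u hu => ?_⟩
    obtain ⟨E', hE', p', q', hp', hq', hth', hgain⟩ := hfound u hu
    have hpos' : ∀ e, 0 < E'.piecewise u t e := fun e => by
      by_cases he : e ∈ E'
      · rw [piecewise_eq_of_mem _ _ _ he]
        exact (hT _ (hselT e (hE' he))).2.2 (hu e (hE' he))
      · rw [piecewise_eq_of_notMem _ _ _ he]
        exact hpos e
    have hle' : ∀ e, E'.piecewise u t e ≤ t e := fun e => by
      by_cases he : e ∈ E'
      · rw [piecewise_eq_of_mem _ _ _ he]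
        linarith [(hsel e (hE' he) (hu e (hE' he))).2]
      · rw [piecewise_eq_of_notMem _ _ _ he]
    have hIL : B.InnerLowering t (E'.piecewise u t) :=
      innerLowering hx (show 4 * P.R ≤ M by omega) (fun e => ⟨(hpos' e).le, hle' e⟩)
        (fun e he => piecewise_eq_of_notMem _ _ _ fun h => he (hE (hE' h)))
    exact ⟨E', hE', hpos', p', q', hp', hq', i, j, l, K',
      ⟨⟨hi, hjl, hth', by
        unfold Box.Marg
        rw [add_zero]
        exact Box.dist_le_raise (fun e => (hpos' e).le) _ le_rfl (B.pos_mem hi) (B.pos_mem hjl)⟩,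
        N.adm_lower _ _ _ hIL i hiT, N.adm_lower _ _ _ hIL j hjT⟩, hj, hK', hgain⟩
  set c₀ : ℝ := 8 * (ε / 32) + C₁.toReal * (K * e₂) with hc₀
  have hav : avg G M (fun x => {t | (N.fr B n t).ContBad (Box.mk x P.r) δ η t}) ≤
      c₀ + C₁.toReal * C₂.toReal * avg G M Ev₂ := by
    rw [avg, avg, ← mul_div_assoc, div_le_iff₀ (card_half_pos M), add_mul,
      div_mul_cancel₀ _ (card_half_pos M).ne', mul_sum]
    refine (sum_le_sum fun x hx => (hone x hx).trans (le_of_eq (b :=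
      c₀ + C₁.toReal * C₂.toReal * μ.real (Ev₂ x)) (by rw [hc₀]; ring))).trans (le_of_eq ?_)
    rw [sum_add_distrib, sum_const, nsmul_eq_mul]
    ring
  have h1 : C₁.toReal * (K * e₂) ≤ ε / 4 := by
    have hd : (0 : ℝ) < 4 * (C₁.toReal * K + 1) := by positivity
    rw [← mul_assoc, mul_div_assoc', div_le_iff₀ hd]
    nlinarith
  have h2 : C₁.toReal * C₂.toReal * avg G M Ev₂ ≤ ε / 4 := by
    have hd : (0 : ℝ) < 4 * (C₁.toReal * C₂.toReal + 1) := by positivity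
    refine (mul_le_mul_of_nonneg_left hMg (by positivity)).trans ?_
    rw [mul_div_assoc', div_le_iff₀ hd]
    nlinarith
  linarith

end Vale.Agent.P158.NB
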