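import Vale.Agent.P158.NB.BoxBasic

/-!
Planar crossing (PROOF.md, P1): two walks in a box whose end positions interlace share a vertex.
The parity of the number of crossings with a horizontal ray is constant along walks avoiding a cycle.
-/

open Finset

namespace Vale.Agent.P158.NB

lemma nbr_iff {u v : V} : Nbr u v ↔ (v.1 = u.1 + 1 ∧ v.2 = u.2) ∨ (v.1 = u.1 - 1 ∧ v.2 = u.2) ∨
    (v.1 = u.1 ∧ v.2 = u.2 + 1) ∨ (v.1 = u.1 ∧ v.2 = u.2 - 1) := by
  simp only [Nbr, abs_eq_max_neg]
  omega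

/-- Parity count of one step: it crosses the ray from `v + (0, 1/2)` to the right. -/
def stepCross (v a b : V) : ZMod 2 :=
  if v.1 < a.1 ∧ a.1 = b.1 ∧ min a.2 b.2 = v.2 then 1 else 0

/-- Parity of the crossings of a walk with the ray of `v`. -/
def par (v : V) (f : ℕ → V) (m : ℕ) : ZMod 2 := ∑ i ∈ range m, stepCross v (f i) (f (i + 1))

/-- The half row to the right of `w`. -/
def halfRow (w : V) (a : V) : ZMod 2 := if w.1 < a.1 ∧ a.2 = w.2 then 1 else 0

/-- The correction term of a move of the ray from `v` to `u`. -/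
def moveTerm (v u a : V) : ZMod 2 :=
  if v.2 < u.2 then halfRow u a else if u.2 < v.2 then halfRow v a else 0

lemma step_move {v u a b : V} (hvu : Nbr v u) (hab : Nbr a b) (hav : a ≠ v) (hbv : b ≠ v)
    (hau : a ≠ u) (hbu : b ≠ u) :
    stepCross v a b + stepCross u a b = moveTerm v u a + moveTerm v u b := by
  obtain ⟨x, y⟩ := v
  obtain ⟨p, q⟩ := u
  obtain ⟨a1, a2⟩ := a
  obtain ⟨b1, b2⟩ := b
  simp only [nbr_iff, ne_eq, Prod.mk.injEq] at *
  rcases (show (p = x + 1 ∧ q = y) ∨ (p = x - 1 ∧ q = y) ∨ (p = x ∧ q = y + 1) ∨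
      (p = x ∧ q = y - 1) by omega) with ⟨rfl, rfl⟩ | ⟨rfl, rfl⟩ | ⟨rfl, rfl⟩ | ⟨rfl, rfl⟩ <;>
    rcases (show (b1 = a1 + 1 ∧ b2 = a2) ∨ (b1 = a1 - 1 ∧ b2 = a2) ∨ (b1 = a1 ∧ b2 = a2 + 1) ∨
      (b1 = a1 ∧ b2 = a2 - 1) by omega) with ⟨rfl, rfl⟩ | ⟨rfl, rfl⟩ | ⟨rfl, rfl⟩ | ⟨rfl, rfl⟩ <;>
    simp only [stepCross, moveTerm, halfRow] <;>
    split_ifs <;> first | rfl | (exfalso; omega) | (exfalso; simp only [true_and, and_true] at *; omega)

/-- Moving the ray across a step free of the walk changes the parity only by endpoint terms. -/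
lemma par_move {v u : V} (hvu : Nbr v u) {f : ℕ → V} {m : ℕ}
    (hf : ∀ i < m, Nbr (f i) (f (i + 1))) (hv : ∀ i ≤ m, f i ≠ v) (hu : ∀ i ≤ m, f i ≠ u) :
    par v f m + par u f m = moveTerm v u (f 0) + moveTerm v u (f m) := by
  induction m with
  | zero => simp only [par, range_zero, sum_empty, CharTwo.add_self_eq_zero]
  | succ m ih =>
    have h := ih (fun i hi => hf i (by omega)) (fun i hi => hv i (by omega))
      (fun i hi => hu i (by omega))
    have hs := step_move hvu (hf m (by omega)) (hv m (by omega)) (hv (m + 1) le_rfl)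
      (hu m (by omega)) (hu (m + 1) le_rfl)
    simp only [par, sum_range_succ] at h ⊢
    linear_combination h + hs + CharTwo.add_self_eq_zero (moveTerm v u (f m))

namespace Box

/-- The coordinates of a position. -/
lemma pos_cases (B : Box) (k : ℕ) :
    (k ≤ 2 * B.M ∧ (B.pos k).1 = B.c.1 - B.M + k ∧ (B.pos k).2 = B.c.2 - B.M) ∨
    (2 * B.M < k ∧ k ≤ 4 * B.M ∧ (B.pos k).1 = B.c.1 + B.M ∧
      (B.pos k).2 = B.c.2 - B.M + (k - 2 * B.M)) ∨
    (4 * B.M < k ∧ k ≤ 6 * B.M ∧ (B.pos k).1 = B.c.1 + B.M - (k - 4 * B.M) ∧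
      (B.pos k).2 = B.c.2 + B.M) ∨
    (6 * B.M < k ∧ (B.pos k).1 = B.c.1 - B.M ∧
      (B.pos k).2 = B.c.2 + B.M - (k - 6 * B.M)) := by
  unfold pos
  split_ifs with h1 h2 h3
  · exact .inl ⟨h1, rfl, rfl⟩
  · exact .inr (.inl ⟨by omega, h2, rfl, rfl⟩)
  · exact .inr (.inr (.inl ⟨by omega, h3, rfl, rfl⟩))
  · exact .inr (.inr (.inr ⟨by omega, rfl, rfl⟩))

lemma pos_inj (B : Box) {k l : ℕ} (hk : k < B.len) (hl : l < B.len) (h : B.pos k = B.pos l) :
    k = l := by
  have := B.pos_cases k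
  have := B.pos_cases l
  simp only [len, Prod.ext_iff] at *
  omega

/-- The position on the next larger square just outside position `k`. -/
def outIdx (B : Box) (k : ℕ) : ℕ :=
  if k ≤ 2 * B.M then k + 1 else if k ≤ 4 * B.M then k + 3 else if k ≤ 6 * B.M then k + 5 else k + 7

/-- The next larger square. -/
def grow (B : Box) : Box := ⟨B.c, B.M + 1⟩

lemma outIdx_lt (B : Box) {k : ℕ} (hk : k ≤ B.len) :
    1 ≤ B.outIdx k ∧ B.outIdx k < B.grow.len := by
  simp only [len, grow] at *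
  simp only [outIdx]
  split_ifs <;> omega

lemma outIdx_strict (B : Box) {k l : ℕ} (h : k < l) : B.outIdx k < B.outIdx l := by
  simp only [outIdx]
  split_ifs <;> omega

lemma outIdx_nbr (B : Box) {k : ℕ} (hk : k ≤ B.len) :
    Nbr (B.pos k) (B.grow.pos (B.outIdx k)) := by
  have := B.pos_cases k
  have := B.grow.pos_cases (B.outIdx k)
  simp only [len] at hk
  simp only [outIdx] at this ⊢
  simp only [nbr_iff]
  simp only [grow] at this ⊢
  split_ifs at this ⊢ <;> omega

lemma grow_not_mem (B : Box) {k : ℕ} (hk : k ≤ B.grow.len) {z : V} (hz : B.Mem z) :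
    B.grow.pos k ≠ z := by
  have := (B.grow.pos_bdry hk).2
  rintro rfl
  simp only [Mem, Inner, abs_le, abs_lt, grow] at *
  omega

/-- A single outward step. -/
def spoke (B : Box) (k : ℕ) : ℕ → V
  | 0 => B.pos k
  | _ + 1 => B.grow.pos (B.outIdx k)

/-- Parity of a range of the enlarged boundary cycle. -/
def ringPar (B : Box) (v : V) (a b : ℕ) : ZMod 2 :=
  ∑ s ∈ Ico a b, stepCross v (B.grow.pos s) (B.grow.pos (s + 1))

lemma ringPar_eq_par (B : Box) (v : V) (a b : ℕ) :
    B.ringPar v a b = par v (fun s => B.grow.pos (a + s)) (b - a) := by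
  rw [ringPar, sum_Ico_eq_sum_range, par]
  rfl

/-- The parity of the closed curve: the walk, two spokes and one arc outside. -/
def loopPar (B : Box) (f : ℕ → V) (m i j : ℕ) (v : V) : ZMod 2 :=
  par v f m + par v (B.spoke i) 1 + par v (B.spoke j) 1 +
    B.ringPar v (B.outIdx i) (B.outIdx j)

/-- The parity of the curve closed by the other arc. -/
def loopPar' (B : Box) (f : ℕ → V) (m i j : ℕ) (v : V) : ZMod 2 :=
  par v f m + par v (B.spoke i) 1 + par v (B.spoke j) 1 +
    (B.ringPar v (B.outIdx j) B.grow.len + B.ringPar v 0 (B.outIdx i))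

variable {B : Box} {f : ℕ → V} {m i j : ℕ}

lemma ringPar_move {v u : V} (hvu : Nbr v u) {a b : ℕ} (hab : a ≤ b) (hb : b ≤ B.grow.len)
    (hv : ∀ s, a ≤ s → s ≤ b → B.grow.pos s ≠ v) (hu : ∀ s, a ≤ s → s ≤ b → B.grow.pos s ≠ u) :
    B.ringPar v a b + B.ringPar u a b =
      moveTerm v u (B.grow.pos a) + moveTerm v u (B.grow.pos b) := by
  have h := par_move (f := fun s => B.grow.pos (a + s)) (m := b - a) hvu
    (fun s hs => B.grow.nbr_pos (k := a + s) (by omega))
    (fun s hs => hv _ (by omega) (by omega)) (fun s hs => hu _ (by omega) (by omega))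
  rw [ringPar_eq_par, ringPar_eq_par, h, Nat.add_zero, Nat.add_sub_cancel' hab]

lemma spoke_move {v u : V} (hvu : Nbr v u) {k : ℕ} (hk : k ≤ B.len)
    (h1 : B.pos k ≠ v ∧ B.pos k ≠ u)
    (h2 : B.grow.pos (B.outIdx k) ≠ v ∧ B.grow.pos (B.outIdx k) ≠ u) :
    par v (B.spoke k) 1 + par u (B.spoke k) 1 =
      moveTerm v u (B.pos k) + moveTerm v u (B.grow.pos (B.outIdx k)) := by
  refine par_move hvu (fun s hs => ?_) (fun s hs => ?_) (fun s hs => ?_) <;>
    rcases Nat.eq_zero_or_pos s with rfl | h0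
  · exact B.outIdx_nbr hk
  · omega
  · exact h1.1
  · obtain rfl : s = 1 := by omega
    exact h2.1
  · exact h1.2
  · obtain rfl : s = 1 := by omega
    exact h2.2

/-- Both parities are constant along steps avoiding their curves. -/
lemma loopPar_move (hf : B.IsWalk f m (B.pos i) (B.pos j)) (hij : i ≤ j) (hj : j ≤ B.len)
    {v u : V} (hvu : Nbr v u) (hfv : ∀ s ≤ m, f s ≠ v) (hfu : ∀ s ≤ m, f s ≠ u) :
    ((∀ s, B.outIdx i ≤ s → s ≤ B.outIdx j → B.grow.pos s ≠ v ∧ B.grow.pos s ≠ u) →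
      B.loopPar f m i j v = B.loopPar f m i j u) ∧
    ((∀ s, s ≤ B.grow.len → (s ≤ B.outIdx i ∨ B.outIdx j ≤ s) →
        B.grow.pos s ≠ v ∧ B.grow.pos s ≠ u) →
      B.loopPar' f m i j v = B.loopPar' f m i j u) := by
  obtain ⟨⟨f0, fm, fs⟩, -⟩ := hf
  have pm := par_move hvu fs hfv hfu
  rw [f0, fm] at pm
  have hi := B.outIdx_lt (hij.trans hj)
  have hj' := B.outIdx_lt hj
  have hle : B.outIdx i ≤ B.outIdx j := hij.eq_or_lt.elim (fun h => (congrArg _ h).le)
    fun h => (B.outIdx_strict h).le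
  have pi : B.pos i ≠ v ∧ B.pos i ≠ u :=
    ⟨f0 ▸ hfv 0 (Nat.zero_le m), f0 ▸ hfu 0 (Nat.zero_le m)⟩
  have pj : B.pos j ≠ v ∧ B.pos j ≠ u := ⟨fm ▸ hfv m le_rfl, fm ▸ hfu m le_rfl⟩
  refine ⟨fun h => ?_, fun h => ?_⟩ <;> refine CharTwo.add_eq_zero.1 ?_
  · have s1 := spoke_move hvu (hij.trans hj) pi (h _ le_rfl hle)
    have s2 := spoke_move hvu hj pj (h _ hle le_rfl)
    have r := ringPar_move (B := B) hvu hle hj'.2.le (fun s a b => (h s a b).1)
      fun s a b => (h s a b).2
    simp only [loopPar]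
    linear_combination pm + s1 + s2 + r +
      CharTwo.add_self_eq_zero (moveTerm v u (B.pos i)) +
      CharTwo.add_self_eq_zero (moveTerm v u (B.pos j)) +
      CharTwo.add_self_eq_zero (moveTerm v u (B.grow.pos (B.outIdx i))) +
      CharTwo.add_self_eq_zero (moveTerm v u (B.grow.pos (B.outIdx j)))
  · have s1 := spoke_move hvu (hij.trans hj) pi (h _ hi.2.le (.inl le_rfl))
    have s2 := spoke_move hvu hj pj (h _ hj'.2.le (.inr le_rfl))
    have r1 := ringPar_move (B := B) hvu hj'.2.le le_rfl (fun s a b => (h s b (.inr a)).1)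
      fun s a b => (h s b (.inr a)).2
    have r2 := ringPar_move (B := B) hvu (Nat.zero_le (B.outIdx i)) hi.2.le
      (fun s a b => (h s (by omega) (.inl b)).1) fun s a b => (h s (by omega) (.inl b)).2
    rw [B.grow.pos_len] at r1
    simp only [loopPar']
    linear_combination pm + s1 + s2 + r1 + r2 +
      CharTwo.add_self_eq_zero (moveTerm v u (B.pos i)) +
      CharTwo.add_self_eq_zero (moveTerm v u (B.pos j)) +
      CharTwo.add_self_eq_zero (moveTerm v u (B.grow.pos 0)) +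
      CharTwo.add_self_eq_zero (moveTerm v u (B.grow.pos (B.outIdx i))) +
      CharTwo.add_self_eq_zero (moveTerm v u (B.grow.pos (B.outIdx j)))

lemma loopPar_add (hij : i ≤ j) (hj : j ≤ B.len) (v : V) :
    B.loopPar f m i j v + B.loopPar' f m i j v = B.ringPar v 0 B.grow.len := by
  have hi := B.outIdx_lt (hij.trans hj)
  have hj' := B.outIdx_lt hj
  have hle : B.outIdx i ≤ B.outIdx j := hij.eq_or_lt.elim (fun h => (congrArg _ h).le)
    fun h => (B.outIdx_strict h).le
  rw [show B.ringPar v 0 B.grow.len = B.ringPar v 0 (B.outIdx i) +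
      B.ringPar v (B.outIdx i) (B.outIdx j) + B.ringPar v (B.outIdx j) B.grow.len by
    simp only [ringPar]
    rw [sum_Ico_consecutive _ (Nat.zero_le _) hle, sum_Ico_consecutive _ (Nat.zero_le _) hj'.2.le]]
  simp only [loopPar, loopPar']
  linear_combination CharTwo.add_self_eq_zero (par v f m) +
    CharTwo.add_self_eq_zero (par v (B.spoke i) 1) + CharTwo.add_self_eq_zero (par v (B.spoke j) 1)

/-- The full outer cycle winds once around every vertex of the box. -/
lemma ringPar_full {v : V} (hv : B.Mem v) : B.ringPar v 0 B.grow.len = 1 := by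
  simp only [Mem, abs_le] at hv
  set s₀ := 2 * (B.M + 1) + (v.2 - (B.c.2 - (B.M + 1 : ℕ))).toNat with hs₀
  have hmem : s₀ ∈ Ico 0 B.grow.len := mem_Ico.2 ⟨Nat.zero_le _, by simp [grow, len]; omega⟩
  rw [ringPar, sum_eq_single s₀]
  · have h1 := B.grow.pos_cases s₀
    have h2 := B.grow.pos_cases (s₀ + 1)
    simp only [mem_Ico, len, grow] at hmem h1 h2
    simp only [stepCross, grow]
    refine if_pos ⟨?_, ?_, ?_⟩ <;> omega
  · intro s hs hne
    have h1 := B.grow.pos_cases s
    have h2 := B.grow.pos_cases (s + 1)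
    simp only [mem_Ico, grow, len] at hs h1 h2
    simp only [stepCross, grow]
    refine if_neg fun h => hne ?_
    omega
  · exact fun h => absurd hmem h

/-- Nothing of the curves lies to the right of a vertex far to the right. -/
lemma par_eq_zero {v : V} {g : ℕ → V} {n : ℕ} (h : ∀ s ≤ n, (g s).1 ≤ v.1) : par v g n = 0 :=
  sum_eq_zero fun s hs => if_neg fun hc => by
    have := h s (mem_range.1 hs).le
    omega

lemma outer_spoke_le {k : ℕ} (hk : k ≤ B.len) {s : ℕ} :
    (B.spoke k s).1 ≤ B.c.1 + (B.M + 1 : ℕ) := by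
  rcases s with _ | s
  · have := (B.pos_bdry hk).1
    simp only [Mem, abs_le, spoke] at *
    omega
  · have := (B.grow.pos_bdry (B.outIdx_lt hk).2.le).1
    simp only [Mem, abs_le, spoke, grow] at *
    omega

lemma ringPar_eq_zero {v : V} (hv : B.c.1 + (B.M + 1 : ℕ) ≤ v.1) {a b : ℕ} (hb : b ≤ B.grow.len) :
    B.ringPar v a b = 0 :=
  sum_eq_zero fun s hs => if_neg fun h => by
    have := (B.grow.pos_bdry (k := s) (by rw [mem_Ico] at hs; omega)).1
    simp only [Mem, abs_le, grow] at this h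
    omega

/-- Outside, at the far right, both parities vanish. -/
lemma loopPar_far (hf : B.IsWalk f m (B.pos i) (B.pos j)) (hij : i ≤ j) (hj : j ≤ B.len)
    {v : V} (hv : B.c.1 + (B.M + 1 : ℕ) ≤ v.1) :
    B.loopPar f m i j v = 0 ∧ B.loopPar' f m i j v = 0 := by
  have h1 : par v f m = 0 := par_eq_zero fun s hs => by
    have := hf.2 s hs
    simp only [Mem, abs_le] at this
    omega
  have h2 : ∀ k, k ≤ B.len → par v (B.spoke k) 1 = 0 := fun k hk =>
    par_eq_zero fun s _ => (outer_spoke_le hk).trans hv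
  have hi := B.outIdx_lt (hij.trans hj)
  have hj' := B.outIdx_lt hj
  constructor
  · rw [loopPar, h1, h2 _ (hij.trans hj), h2 _ hj, ringPar_eq_zero hv hj'.2.le]
    simp
  · rw [loopPar', h1, h2 _ (hij.trans hj), h2 _ hj, ringPar_eq_zero hv le_rfl,
      ringPar_eq_zero hv hi.2.le]
    simp

/-- A boundary position outside an arc sees parity zero of the curve through that arc. -/
lemma parity_outside (hf : B.IsWalk f m (B.pos i) (B.pos j)) (hij : i ≤ j) (hj : j ≤ B.len)
    {k : ℕ} (hk : k ≤ B.len) (hfk : ∀ s ≤ m, f s ≠ B.pos k) :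
    ((∀ s, B.outIdx i ≤ s → s ≤ B.outIdx j → B.grow.pos s ≠ B.grow.pos (B.outIdx k)) →
      B.loopPar f m i j (B.pos k) = 0) ∧
    ((∀ s, s ≤ B.grow.len → (s ≤ B.outIdx i ∨ B.outIdx j ≤ s) →
        B.grow.pos s ≠ B.grow.pos (B.outIdx k)) →
      B.loopPar' f m i j (B.pos k) = 0) := by
  have ok := B.outIdx_lt hk
  have hi := B.outIdx_lt (hij.trans hj)
  have hj' := B.outIdx_lt hj
  have fin : ∀ (s' : ℕ), s' ≤ B.grow.grow.len → ∀ z, B.grow.Mem z → z ≠ B.grow.grow.pos s' :=
    fun s' hs' z hz => (B.grow.grow_not_mem hs' hz).symm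
  have fmem : ∀ s ≤ m, B.grow.Mem (f s) := fun s hs => by
    have := hf.2 s hs
    simp only [Mem, abs_le, grow] at this ⊢
    omega
  have f1 : ∀ s ≤ m, f s ≠ B.grow.pos (B.outIdx k) := fun s hs =>
    (B.grow_not_mem ok.2.le (hf.2 s hs)).symm
  have f2 : ∀ s' ≤ B.grow.grow.len, ∀ s ≤ m, f s ≠ B.grow.grow.pos s' :=
    fun s' hs' s hs => fin s' hs' _ (fmem s hs)
  have r0 : ∀ s ≤ B.grow.len, B.grow.pos s ≠ B.pos k := fun s hs =>
    B.grow_not_mem hs (B.pos_bdry hk).1
  have r2 : ∀ s' ≤ B.grow.grow.len, ∀ s ≤ B.grow.len, B.grow.pos s ≠ B.grow.grow.pos s' :=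
    fun s' hs' s hs => fin s' hs' _ (B.grow.pos_bdry hs).1
  set q := B.grow.outIdx (B.outIdx k) with hq
  have hqlen : q ≤ B.grow.grow.len := (B.grow.outIdx_lt ok.2.le).2.le
  have walk : ∀ F : V → ZMod 2,
      (∀ s, s < B.grow.grow.len → F (B.grow.grow.pos s) = F (B.grow.grow.pos (s + 1))) →
        ∀ s, s ≤ B.grow.grow.len → F (B.grow.grow.pos s) = F (B.grow.grow.pos 0) := by
    intro F hF s
    induction s with
    | zero => intro _; rfl
    | succ s ih => intro hs; rw [← hF s (by omega), ih (by omega)]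
  set e := 2 * (B.M + 2) with he
  have helen : e ≤ B.grow.grow.len := by simp only [he, grow, len]; omega
  have hex : B.c.1 + (B.M + 1 : ℕ) ≤ (B.grow.grow.pos e).1 := by
    have := B.grow.grow.pos_cases e
    simp only [grow] at this ⊢
    omega
  have far := loopPar_far hf hij hj hex
  refine ⟨fun h => ?_, fun h => ?_⟩
  · rw [(loopPar_move hf hij hj (B.outIdx_nbr hk) hfk f1).1
      fun s a b => ⟨r0 s (by omega), h s a b⟩,
      (loopPar_move hf hij hj (B.grow.outIdx_nbr ok.2.le) f1 (f2 q hqlen)).1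
      fun s a b => ⟨h s a b, r2 q hqlen s (by omega)⟩]
    have hw := walk (B.loopPar f m i j) fun s hs =>
      (loopPar_move hf hij hj (B.grow.grow.nbr_pos hs) (f2 s hs.le) (f2 (s + 1) hs)).1
        fun s' a b => ⟨r2 s hs.le s' (by omega), r2 (s + 1) hs s' (by omega)⟩
    rw [hw q hqlen, ← hw e helen, far.1]
  · rw [(loopPar_move hf hij hj (B.outIdx_nbr hk) hfk f1).2
      fun s a b => ⟨r0 s a, h s a b⟩,
      (loopPar_move hf hij hj (B.grow.outIdx_nbr ok.2.le) f1 (f2 q hqlen)).2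
      fun s a b => ⟨h s a b, r2 q hqlen s a⟩]
    have hw := walk (B.loopPar' f m i j) fun s hs =>
      (loopPar_move hf hij hj (B.grow.grow.nbr_pos hs) (f2 s hs.le) (f2 (s + 1) hs)).2
        fun s' a _ => ⟨r2 s hs.le s' a, r2 (s + 1) hs s' a⟩
    rw [hw q hqlen, ← hw e helen, far.2]

/-- Crossing: walks between interlacing boundary positions share a vertex. -/
theorem crossing {k l n : ℕ} {g : ℕ → V} (hik : i ≤ k) (hkj : k ≤ j) (hjl : j ≤ l)
    (hl : l ≤ B.len) (hf : B.IsWalk f m (B.pos i) (B.pos j))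
    (hg : B.IsWalk g n (B.pos k) (B.pos l)) : ∃ a ≤ m, ∃ b ≤ n, f a = g b := by
  by_contra hno
  push Not at hno
  obtain ⟨⟨f0, fm, fs⟩, fB⟩ := id hf
  obtain ⟨⟨g0, gn, gs⟩, gB⟩ := id hg
  have h00 := hno 0 (Nat.zero_le m) 0 (Nat.zero_le n)
  have hm0 := hno m le_rfl 0 (Nat.zero_le n)
  have hmn := hno m le_rfl n le_rfl
  have h0n := hno 0 (Nat.zero_le m) n le_rfl
  rw [f0, g0] at h00
  rw [fm, g0] at hm0
  rw [fm, gn] at hmn
  rw [f0, gn] at h0n
  have sik : i < k := lt_of_le_of_ne hik fun h => h00 (h ▸ rfl)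
  have skj : k < j := lt_of_le_of_ne hkj fun h => hm0 (h ▸ rfl)
  have sjl : j < l := lt_of_le_of_ne hjl fun h => hmn (h ▸ rfl)
  have hj : j ≤ B.len := hjl.trans hl
  have hij : i ≤ j := hik.trans hkj
  have hk : k ≤ B.len := hkj.trans hj
  have oi := B.outIdx_lt (hij.trans hj)
  have oj := B.outIdx_lt hj
  have ok := B.outIdx_lt hk
  have ol := B.outIdx_lt hl
  have o1 := B.outIdx_strict sik
  have o2 := B.outIdx_strict skj
  have o3 := B.outIdx_strict sjl
  have gf : ∀ b ≤ n, ∀ s ≤ m, f s ≠ g b := fun b hb s hs => hno s hs b hb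
  have zl : B.loopPar f m i j (B.pos l) = 0 :=
    (parity_outside hf hij hj hl (gn ▸ gf n le_rfl)).1 fun s a b h => by
      have := B.grow.pos_inj (by omega) ol.2 h
      omega
  have zk : B.loopPar' f m i j (B.pos k) = 0 :=
    (parity_outside hf hij hj hk (g0 ▸ gf 0 (Nat.zero_le n))).2 fun s a b h => by
      rcases a.lt_or_eq with hs | rfl
      · have := B.grow.pos_inj hs ok.2 h
        omega
      · rw [B.grow.pos_len] at h
        have := B.grow.pos_inj (show 0 < B.grow.len by omega) ok.2 h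
        omega
  have one : B.loopPar f m i j (B.pos k) = 1 := by
    have := loopPar_add (f := f) (m := m) hij hj (B.pos k)
    rwa [zk, add_zero, ringPar_full (B.pos_bdry hk).1] at this
  have const : ∀ b ≤ n, B.loopPar f m i j (g b) = B.loopPar f m i j (g 0) := by
    intro b
    induction b with
    | zero => intro _; rfl
    | succ b ih =>
      intro hb
      rw [← ih (by omega)]
      refine ((loopPar_move hf hij hj (gs b (by omega)) (gf b (by omega)) (gf (b + 1) hb)).1
        fun s a c => ?_).symm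
      exact ⟨B.grow_not_mem (by omega) (gB b (by omega)), B.grow_not_mem (by omega) (gB _ hb)⟩
  have := const n le_rfl
  rw [gn, g0, zl, one] at this
  exact zero_ne_one this

end Box

end Vale.Agent.P158.NB
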