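import Vale.Agent.P158.NB.Events

/-!
Measurability and translation covariance of the events of `Events.lean`. Outer measures cannot be
double counted over the centres, so measurability is needed; translations act on all sets.
-/

open MeasureTheory

namespace Vale.Agent.P158.NB

lemma measurable_pathCost (f : ℕ → V) (m : ℕ) : Measurable fun t : Env => pathCost t f m :=
  Finset.measurable_sum _ fun _ _ => measurable_pi_apply _

lemma measurable_raise (e : Sym2 V) (D : ℝ) : Measurable fun t : Env => raise t e D := by
  refine measurable_pi_iff.2 fun d => ?_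
  by_cases h : d = e
  · subst h
    simp only [Box.raise_apply_self]
    exact (measurable_pi_apply (X := fun _ : Sym2 V => ℝ) d).add_const D
  · simp only [Box.raise_apply_ne h]
    exact measurable_pi_apply d

namespace Box

/-- Walk shapes of a box, a countable type. -/
def Shape (B : Box) (x y : V) : Type :=
  {u : (m : ℕ) × (Fin (m + 1) → V) //
    B.IsWalk (fun k => u.2 ⟨min k u.1, Nat.lt_succ_of_le (min_le_right k u.1)⟩) u.1 x y}

instance (B : Box) (x y : V) : Countable (B.Shape x y) := by unfold Shape; infer_instance

/-- The walk of a shape. -/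
def Shape.path {B : Box} {x y : V} (u : B.Shape x y) : ℕ → V :=
  fun k => u.1.2 ⟨min k u.1.1, Nat.lt_succ_of_le (min_le_right k u.1.1)⟩

lemma exists_shape {B : Box} {x y : V} {m : ℕ} {f : ℕ → V} (h : B.IsWalk f m x y) :
    ∃ u : B.Shape x y, u.1.1 = m ∧ ∀ k ≤ m, u.path k = f k := by
  refine ⟨⟨⟨m, fun i => f i⟩, ⟨⟨by simpa using h.1.1, by simpa using h.1.2.1, fun i hi => ?_⟩,
    fun i hi => ?_⟩⟩, rfl, fun k hk => ?_⟩
  · simpa [min_eq_left hi.le, min_eq_left (Nat.succ_le_of_lt hi)] using h.1.2.2 i hi
  · simpa [min_eq_left hi] using h.2 i hi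
  · simp [Shape.path, min_eq_left hk]

lemma dist_eq_iInf (B : Box) (t : Env) (x y : V) :
    B.dist t x y = ⨅ u : B.Shape x y, pathCost t u.path u.1.1 := by
  unfold dist iInf
  congr 1
  ext r
  constructor
  · rintro ⟨m, f, hf, rfl⟩
    obtain ⟨u, rfl, hu⟩ := exists_shape hf
    exact ⟨u, pathCost_congr t hu⟩
  · rintro ⟨u, rfl⟩
    exact ⟨_, _, u.2, rfl⟩

@[fun_prop]
lemma measurable_dist (B : Box) (x y : V) : Measurable fun t : Env => B.dist t x y := by
  simp only [dist_eq_iInf]
  exact Measurable.iInf fun u => measurable_pathCost _ _

lemma measurable_diff (B : Box) (x y z : V) : Measurable fun t : Env => B.diff t x y z :=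
  (measurable_dist B z x).sub (measurable_dist B z y)

lemma measurable_gain (B : Box) (K p q : V) : Measurable fun t : Env => B.gain t K p q :=
  ((measurable_pi_apply _).add (measurable_dist B q K)).sub (measurable_dist B p K)

lemma measurable_excess (B : Box) (x y p q : V) : Measurable fun t : Env => B.excess t x y p q :=
  ((((measurable_dist B x p).add (measurable_pi_apply _)).add (measurable_dist B q y)).sub
    (measurable_dist B x y))

lemma measurable_seg (B : Box) (i j : ℕ) (p q : V) (D : ℝ) :
    Measurable fun t : Env => B.Seg t i j p q D := by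
  unfold Seg Thru Marg
  refine measurable_const.and (measurable_const.and (Measurable.and (measurable_const.and
    (measurable_const.and (measurable_const.and ?_))) ?_))
  · exact measurableSet_setOfPred.1 (measurableSet_eq_fun (measurable_dist B _ _)
      (((measurable_dist B _ _).add (measurable_pi_apply _)).add (measurable_dist B _ _)))
  · exact measurableSet_setOfPred.1 (measurableSet_le ((measurable_dist B _ _).add_const D)
      ((measurable_dist B _ _).comp (measurable_raise _ D)))

lemma measurable_oscLe_diff (B S : Box) (x y : V) (C : ℝ) :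
    Measurable fun t : Env => OscLe S (B.diff t x y) C :=
  Measurable.forall fun z => Measurable.forall fun w => measurable_const.imp (measurable_const.imp
    (measurableSet_setOfPred.1
      (measurableSet_le ((measurable_diff B x y z).sub (measurable_diff B x y w)) measurable_const)))

lemma hit_iff_shape {B S : Box} {t : Env} {x y : V} :
    B.Hit S t x y ↔ ∀ u : B.Shape x y, IsSimple u.path u.1.1 →
      pathCost t u.path u.1.1 = B.dist t x y → ∃ k ≤ u.1.1, S.Mem (u.path k) := by
  constructor
  · exact fun h u => h _ _ u.2
  · intro h m f hf hs hc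
    obtain ⟨u, rfl, hu⟩ := exists_shape hf
    obtain ⟨k, hk, hk'⟩ := h u (hs.congr fun i hi => (hu i hi).symm)
      ((pathCost_congr t hu).trans hc)
    exact ⟨k, hk, by rwa [← hu k hk]⟩

lemma measurable_hit (B S : Box) (x y : V) : Measurable fun t : Env => B.Hit S t x y := by
  simp only [hit_iff_shape]
  exact Measurable.forall fun u => measurable_const.imp ((measurableSet_setOfPred.1
    (measurableSet_eq_fun (measurable_pathCost _ _) (measurable_dist B x y))).imp measurable_const)

end Box

lemma measurable_iso (η : ℝ) (p : V) : Measurable (Iso η p) :=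
  Measurable.forall fun _ => measurable_const.imp
    (measurableSet_setOfPred.1 (measurableSet_le measurable_const (measurable_pi_apply _)))

lemma measurable_reg (S : Box) (η C : ℝ) (p : V) : Measurable (Reg S η C p) :=
  (measurable_iso η p).and
    (measurableSet_setOfPred.1 (measurableSet_le (Box.measurable_dist S _ _) measurable_const))

namespace Frame

/-- The frame with another set of admissible positions. -/
def withT (F : Frame) (T : Set ℕ) : Frame := ⟨F.B, F.n, F.g, T⟩

@[simp] lemma withT_B (F : Frame) (T : Set ℕ) : (F.withT T).B = F.B := rfl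

@[simp] lemma withT_T (F : Frame) (T : Set ℕ) : (F.withT T).T = T := rfl

@[simp] lemma withT_inBin (F : Frame) (T : Set ℕ) (l j : ℕ) :
    (F.withT T).InBin l j ↔ F.InBin l j := Iff.rfl

@[simp] lemma withT_isEnd (F : Frame) (T : Set ℕ) (l K : ℕ) :
    (F.withT T).IsEnd l K ↔ F.IsEnd l K := Iff.rfl

/-! The admissible positions may depend measurably on the weights. -/

variable (F : Frame) (S : Box) {T : Env → Set ℕ} (hT : ∀ k, Measurable fun t => k ∈ T t)

include hT

lemma measurable_seg (i j : ℕ) (p q : V) (D : ℝ) :
    Measurable fun t : Env => (F.withT (T t)).Seg t i j p q D :=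
  (Box.measurable_seg F.B i j p q D).and ((hT i).and (hT j))

lemma measurable_hasSeg (p q : V) (D : ℝ) :
    Measurable fun t => (F.withT (T t)).HasSeg p q D t :=
  Measurable.exists fun i => Measurable.exists fun j => F.measurable_seg hT i j p q D

lemma measurable_short : Measurable fun t => (F.withT (T t)).Short S t := by
  simp only [Short, withT_B, withT_T, withT_inBin]
  exact Measurable.forall fun _ => Measurable.forall fun i => Measurable.forall fun j =>
    measurable_const.imp (measurable_const.imp ((hT i).imp ((hT j).imp
      (Measurable.forall fun p => measurable_const.imp (measurableSet_setOfPred.1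
        (measurableSet_lt (Box.measurable_dist F.B _ _)
          ((Box.measurable_dist F.B _ p).add (Box.measurable_dist F.B p _))))))))

lemma measurable_gainAt (D η : ℝ) (p q : V) :
    Measurable fun t => (F.withT (T t)).GainAt D η p q t := by
  simp only [GainAt, withT_B, withT_inBin, withT_isEnd]
  exact Measurable.exists fun i => Measurable.exists fun j => Measurable.exists fun _ =>
    Measurable.exists fun _ => (F.measurable_seg hT i j p q D).and (measurable_const.and
      (measurable_const.and (measurableSet_setOfPred.1
        (measurableSet_le measurable_const (Box.measurable_gain F.B _ p q)))))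

lemma measurable_gainEv (D η : ℝ) : Measurable fun t => (F.withT (T t)).GainEv S D η t := by
  simp only [GainEv]
  exact Measurable.exists fun p => Measurable.exists fun q =>
    measurable_const.and (measurable_const.and (F.measurable_gainAt hT D η p q))

lemma measurable_contBad (δ η : ℝ) : Measurable fun t => (F.withT (T t)).ContBad S δ η t := by
  simp only [ContBad, withT_B, withT_inBin, withT_isEnd]
  exact Measurable.exists fun p => Measurable.exists fun q => Measurable.exists fun i =>
    Measurable.exists fun j => Measurable.exists fun _ => Measurable.exists fun _ =>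
      measurable_const.and (measurable_const.and ((F.measurable_seg hT i j p q δ).and
        (measurable_const.and (measurable_const.and (Box.measurable_oscLe_diff F.B S _ _ η).not))))

lemma measurable_rootEv (b : ℕ) (δ : ℝ) :
    Measurable fun t => (F.withT (T t)).RootEv S b δ t := by
  simp only [RootEv]
  exact Measurable.exists fun p => Measurable.exists fun q => Measurable.exists fun i =>
    measurable_const.and (measurable_const.and (F.measurable_seg hT i b p q δ))

lemma measurable_uBad (δ ε C : ℝ) : Measurable fun t => (F.withT (T t)).UBad S δ ε C t := by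
  simp only [UBad, withT_B]
  exact Measurable.exists fun p => Measurable.exists fun q => Measurable.exists fun p' =>
    Measurable.exists fun q' => Measurable.exists fun i => Measurable.exists fun j =>
      Measurable.exists fun i' => Measurable.exists fun j' =>
        measurable_const.and (measurable_const.and (measurable_const.and (measurable_const.and
          ((F.measurable_seg hT i j p q δ).and ((F.measurable_seg hT i' j' p' q' δ).and
            ((Box.measurable_oscLe_diff F.B S _ _ ε).not.and (measurableSet_setOfPred.1
              (measurableSet_le (Box.measurable_excess F.B _ _ p q) measurable_const))))))))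

omit hT in
/-- `GridBad` does not mention the admissible positions. -/
lemma measurable_gridBad : Measurable (F.GridBad S) :=
  Measurable.exists fun _ => Measurable.exists fun _ =>
    measurable_const.and (measurable_const.and (Box.measurable_hit F.B S _ _))

end Frame

/-! ### Translations -/

lemma exists_add_iff (v : V) {Q : V → Prop} : (∃ p, Q p) ↔ ∃ p, Q (p + v) :=
  ⟨fun ⟨p, h⟩ => ⟨p - v, by simpa using h⟩, fun ⟨p, h⟩ => ⟨_, h⟩⟩

lemma forall_add_iff (v : V) {Q : V → Prop} : (∀ p, Q p) ↔ ∀ p, Q (p + v) :=
  ⟨fun h p => h _, fun h p => by simpa using h (p - v)⟩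

lemma oscLe_shift (S : Box) (v : V) (φ : V → ℝ) (C : ℝ) :
    OscLe (S.shift v) φ C ↔ OscLe S (fun z => φ (z + v)) C := by
  rw [OscLe, forall_add_iff v]
  refine forall_congr' fun z => ?_
  rw [forall_add_iff v]
  simp [Box.shift_mem]

namespace Box

lemma diff_shift (B : Box) (t : Env) (v x y z : V) :
    (B.shift v).diff t (x + v) (y + v) (z + v) = B.diff (P158.shift v t) x y z := by
  simp [diff, dist_shift]

lemma gain_shift (B : Box) (t : Env) (v K p q : V) :
    (B.shift v).gain t (K + v) (p + v) (q + v) = B.gain (P158.shift v t) K p q := by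
  simp [gain, dist_shift]

lemma excess_shift (B : Box) (t : Env) (v x y p q : V) :
    (B.shift v).excess t (x + v) (y + v) (p + v) (q + v) = B.excess (P158.shift v t) x y p q := by
  simp [excess, dist_shift]

lemma hit_shift (B S : Box) (t : Env) (v x y : V) :
    (B.shift v).Hit (S.shift v) t (x + v) (y + v) ↔ B.Hit S (P158.shift v t) x y := by
  constructor
  · intro h m f hf hs hc
    obtain ⟨⟨h0, hm, hstep⟩, hb⟩ := hf
    obtain ⟨k, hk, hk'⟩ := h m (fun i => f i + v)
      ⟨⟨by simp [h0], by simp [hm], fun i hi => (nbr_add v).2 (hstep i hi)⟩,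
        fun i hi => (shift_mem v).2 (hb i hi)⟩
      (fun a ha b hb' he => hs a ha b hb' (add_right_cancel he))
      (by rw [dist_shift, ← hc]; rfl)
    exact ⟨k, hk, (shift_mem v).1 hk'⟩
  · intro h m f hf hs hc
    obtain ⟨⟨h0, hm, hstep⟩, hb⟩ := hf
    obtain ⟨k, hk, hk'⟩ := h m (fun i => f i - v)
      ⟨⟨by simp [h0], by simp [hm], fun i hi => (nbr_add v).1 (by simpa using hstep i hi)⟩,
        fun i hi => (shift_mem v).1 (by simpa using hb i hi)⟩
      (fun a ha b hb' he => hs a ha b hb' (sub_left_injective he))
      (by rw [← dist_shift, ← hc]; simp [pathCost])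
    exact ⟨k, hk, by simpa using (shift_mem v).2 hk'⟩

end Box

lemma iso_shift (η : ℝ) (p v : V) (t : Env) : Iso η (p + v) t ↔ Iso η p (P158.shift v t) := by
  rw [Iso, forall_add_iff v]
  simp [Iso, nbr_add]

lemma reg_shift (S : Box) (η C : ℝ) (p v : V) (t : Env) :
    Reg (S.shift v) η C (p + v) t ↔ Reg S η C p (P158.shift v t) := by
  have hc : (S.shift v).c = S.c + v := rfl
  simp [Reg, iso_shift, hc, Box.dist_shift]

namespace Frame

variable (F : Frame) (S : Box) (v : V) (t : Env)

lemma shift_full (B : Box) (n : ℕ) : (full B n).shift v = full (B.shift v) n := rfl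

lemma seg_shift (i j : ℕ) (p q : V) (D : ℝ) :
    (F.shift v).Seg t i j (p + v) (q + v) D ↔ F.Seg (P158.shift v t) i j p q D := by
  simp [Seg, shift, Box.seg_shift]

lemma inBin_shift (l j : ℕ) : (F.shift v).InBin l j ↔ F.InBin l j := Iff.rfl

lemma isEnd_shift (l K : ℕ) : (F.shift v).IsEnd l K ↔ F.IsEnd l K := Iff.rfl

lemma hasSeg_shift (p q : V) (D : ℝ) :
    (F.shift v).HasSeg (p + v) (q + v) D t ↔ F.HasSeg p q D (P158.shift v t) := by
  simp [HasSeg, seg_shift]

lemma short_shift : (F.shift v).Short (S.shift v) t ↔ F.Short S (P158.shift v t) := by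
  unfold Short
  refine forall_congr' fun l => forall_congr' fun i => forall_congr' fun j => imp_congr Iff.rfl
    (imp_congr Iff.rfl (imp_congr Iff.rfl (imp_congr Iff.rfl ?_)))
  rw [forall_add_iff v]
  simp [shift, Box.shift_mem, Box.shift_pos, Box.dist_shift]

lemma gainAt_shift (D η : ℝ) (p q : V) :
    (F.shift v).GainAt D η (p + v) (q + v) t ↔ F.GainAt D η p q (P158.shift v t) := by
  unfold GainAt
  simp only [seg_shift, inBin_shift, isEnd_shift]
  simp [shift, Box.shift_pos, Box.gain_shift]

lemma gainEv_shift (D η : ℝ) :
    (F.shift v).GainEv (S.shift v) D η t ↔ F.GainEv S D η (P158.shift v t) := by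
  rw [GainEv, exists_add_iff v]
  refine exists_congr fun p => ?_
  rw [exists_add_iff v]
  simp [Box.shift_mem, gainAt_shift]

lemma contBad_shift (δ η : ℝ) :
    (F.shift v).ContBad (S.shift v) δ η t ↔ F.ContBad S δ η (P158.shift v t) := by
  rw [ContBad, exists_add_iff v]
  refine exists_congr fun p => ?_
  rw [exists_add_iff v]
  simp only [Box.shift_mem, seg_shift, inBin_shift, isEnd_shift, oscLe_shift]
  simp [shift, Box.shift_pos, Box.diff_shift]

lemma gridBad_shift : (F.shift v).GridBad (S.shift v) t ↔ F.GridBad S (P158.shift v t) := by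
  simp [GridBad, shift, Box.shift_pos, Box.hit_shift]

lemma rootEv_shift (b : ℕ) (δ : ℝ) :
    (F.shift v).RootEv (S.shift v) b δ t ↔ F.RootEv S b δ (P158.shift v t) := by
  rw [RootEv, exists_add_iff v]
  refine exists_congr fun p => ?_
  rw [exists_add_iff v]
  simp [Box.shift_mem, seg_shift]

lemma uBad_shift (δ ε C : ℝ) :
    (F.shift v).UBad (S.shift v) δ ε C t ↔ F.UBad S δ ε C (P158.shift v t) := by
  rw [UBad, exists_add_iff v]
  refine exists_congr fun p => ?_
  rw [exists_add_iff v]
  refine exists_congr fun q => ?_
  rw [exists_add_iff v]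
  refine exists_congr fun p' => ?_
  rw [exists_add_iff v]
  simp only [Box.shift_mem, seg_shift, oscLe_shift]
  simp [shift, Box.shift_pos, Box.diff_shift, Box.excess_shift]

end Frame

/-- Translations preserve the probability of every set. -/
lemma prob_shift (G : Measure ℝ) [IsProbabilityMeasure G] (v : V) (A : Set Env) :
    weightMeasure G (P158.shift v ⁻¹' A) = weightMeasure G A := by
  let e : Env ≃ᵐ Env :=
    { toFun := P158.shift v
      invFun := P158.shift (-v)
      left_inv := fun t => by simp [P158.shift_shift, P158.shift_zero]
      right_inv := fun t => by simp [P158.shift_shift, P158.shift_zero]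
      measurable_toFun := P158.measurable_shift v
      measurable_invFun := P158.measurable_shift (-v) }
  exact (P158.measurePreserving_shift G v).measure_preimage_emb e.measurableEmbedding A

end Vale.Agent.P158.NB
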