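import Vale.Agent.P158.NB.MainCore
import Vale.Agent.P158.NB.Classes
import Vale.Agent.P158.NB.Events

/-!
# Mates (`PROOF.md`, section 9)

A mate of a base segment agrees with it on the tile in the big box and differs from it there in
the sub-box. Mates are far apart around the sub-box unless `UBad` happens; segments without mates
use few edges; many mates give many far segments through one edge after lowering.
-/

open Finset

namespace Vale.Agent.P158.NB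

namespace Box

/-- `k, l` are exits of the segment `(i, j)` from the sub-box `S` with the step `p q`. -/
def Exits (B S : Box) (t : Env) (δ : ℝ) (i j : ℕ) (p q : V) (k l : ℕ) : Prop :=
  S.Seg t k l p q δ ∧ S.dist t (S.pos k) p = B.dist t (S.pos k) p ∧
    S.dist t q (S.pos l) = B.dist t q (S.pos l) ∧
    B.dist t (B.pos i) p = B.dist t (B.pos i) (S.pos k) + B.dist t (S.pos k) p ∧
    B.dist t q (B.pos j) = B.dist t q (S.pos l) + B.dist t (S.pos l) (B.pos j)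

lemma exists_exits {B S : Box} {t : Env} {δ : ℝ} {i j : ℕ} {p q : V} (h : B.Seg t i j p q δ)
    (ht : ∀ e, 0 ≤ t e) (hpos : 0 < t s(p, q)) (hδ : 0 ≤ δ) (hS : ∀ z, S.Mem z → B.Mem z)
    (hp : S.Inner p) (hq : S.Inner q) : ∃ k l, B.Exits S t δ i j p q k l := by
  obtain ⟨k, l, h0, h1, h2, h3, h4⟩ := h.sub ht hpos hδ hS hp hq
  exact ⟨k, l, h0, h1, h2, by rw [h3], by rw [h4]⟩

end Box

/-- A segment with its step. -/
structure SegPiece where
  i : ℕ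
  j : ℕ
  p : V
  q : V

namespace Frame

variable (F : Frame) (S T R : Box) (t : Env) (δ ε ηi Cr Cl : ℝ)

/-- A segment at the tile `T` whose ends are regular in the box `R` around it. -/
def Good (u : SegPiece) : Prop :=
  F.Seg t u.i u.j u.p u.q δ ∧ T.Mem u.p ∧ T.Mem u.q ∧ Reg R ηi Cr u.p t ∧ Reg R ηi Cr u.q t

/-- The endpoint functions of two segments agree on `T` up to `C`. -/
def PNear (C : ℝ) (u v : SegPiece) : Prop :=
  F.B.Near t T (F.B.pos u.i) (F.B.pos u.j) (F.B.pos v.i) (F.B.pos v.j) C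

/-- `v` is a mate of `u`: near on the tile, apart on it in the sub-box. -/
def Mate (u v : SegPiece) : Prop :=
  F.Good T R t δ ηi Cr v ∧ F.PNear T t Cl u v ∧ ∃ k l k' l',
    F.B.Exits S t δ u.i u.j u.p u.q k l ∧ F.B.Exits S t δ v.i v.j v.p v.q k' l' ∧
    ¬ S.Near t T (S.pos k) (S.pos l) (S.pos k') (S.pos l') ε

variable {F S T R t δ ε ηi Cr Cl} {u v : SegPiece}

/-- A mate is far from its base around the sub-box, outside `UBad`. -/
theorem not_pnear_of_mate {F' : Frame} {W : Box} {C : ℝ} (ht : ∀ e, 0 ≤ t e) (hS : F'.B = S)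
    (hadm : ∀ w : SegPiece, w = u ∨ w = v → ∀ k l, F.B.Exits S t δ w.i w.j w.p w.q k l →
      k ∈ F'.T ∧ l ∈ F'.T) (hSB : ∀ z, S.Mem z → F.B.Mem z)
    (hSW : ∀ z, S.Mem z → W.Mem z) (hTR : ∀ z, T.Mem z → R.Mem z)
    (hRS : ∀ z, R.Mem z → S.Mem z) (hRc : R.Mem R.c)
    (hu : F.Good T R t δ ηi Cr u) (hm : F.Mate S T R t δ ε ηi Cr Cl u v)
    (hU : ¬ F'.UBad T δ ε (C + 6 * Cr) t) : ¬ F.PNear W t C u v := by
  intro hN
  obtain ⟨hv, -, k, l, k', l', hex, hex', hfar⟩ := hm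
  obtain ⟨ak, al⟩ := hadm u (Or.inl rfl) k l hex
  obtain ⟨bk, bl⟩ := hadm v (Or.inr rfl) k' l' hex'
  obtain ⟨hs, a1, a2, a3, a4⟩ := hex
  obtain ⟨hs', b1, b2, b3, b4⟩ := hex'
  obtain ⟨⟨hsu, -, -⟩, hup, huq, ⟨-, hu1⟩, ⟨-, hu2⟩⟩ := hu
  obtain ⟨⟨hsv, -, -⟩, hvp, hvq, ⟨-, hv1⟩, ⟨-, hv2⟩⟩ := hv
  have hTS : ∀ z, T.Mem z → S.Mem z := fun z hz => hRS z (hTR z hz)
  have key : ∀ a b, T.Mem a → T.Mem b → R.dist t R.c a ≤ Cr → R.dist t R.c b ≤ Cr →
      S.dist t a b ≤ 2 * Cr := by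
    intro a b ha hb h1 h2
    have e1 := Box.dist_le_sub ht hRS (hTR a ha) hRc
    have e2 := Box.dist_le_sub ht hRS hRc (hTR b hb)
    have e3 := Box.dist_triangle ht (hTS a ha) (hRS _ hRc) (hTS b hb)
    rw [Box.dist_comm R t a R.c] at e1
    linarith
  rcases Box.ubad_of_near (C := C) (ρ := 2 * Cr) (T := T) (ε := ε) ht hSB hSW hsu hsv hs hs'
    a1 a2 a3 a4 b1 b2 b3 b4 (hTS _ hup) (hTS _ huq) (hTS _ hvp) (hTS _ hvq) hN
    (key _ _ hup hvp hu1 hv1) (key _ _ huq hvq hu2 hv2) (key _ _ hup huq hu1 hu2) hfar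
    with ⟨h1, h2⟩ | ⟨h1, h2⟩
  · subst hS
    refine hU ⟨u.p, u.q, v.p, v.q, k, l, k', l', hup, huq, hvp, hvq,
      ⟨hs, ak, al⟩, ⟨hs', bk, bl⟩, h1, ?_⟩
    unfold Box.excess
    linarith
  · subst hS
    refine hU ⟨u.q, u.p, v.q, v.p, l, k, l', k', huq, hup, hvq, hvp,
      ⟨hs.symm, al, ak⟩, ⟨hs'.symm, bl, bk⟩, h1, ?_⟩
    unfold Box.excess
    linarith

/-- Regular segments of one class without mates use few edges. -/
theorem card_unmated (s : Finset SegPiece) (ht : ∀ e, 0 < t e) (hδ : 0 ≤ δ) (hε : 0 ≤ ε)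
    (hεδ : 2 * ε < δ) (hεη : 3 * ε < ηi) (hCr : 0 ≤ Cr)
    (hSB : ∀ z, S.Mem z → F.B.Mem z) (hTS : ∀ z, T.Mem z → S.Inner z)
    (hTR : ∀ z, T.Mem z → R.Mem z) (hRS : ∀ z, R.Mem z → S.Mem z) (hRc : R.Mem R.c)
    (hgood : ∀ u ∈ s, F.Good T R t δ ηi Cr u)
    (hclass : ∀ u ∈ s, ∀ v ∈ s, F.PNear T t Cl u v)
    (hno : ∀ u ∈ s, ∀ v ∈ s, ¬ F.Mate S T R t δ ε ηi Cr Cl u v) :
    ((s.image fun u => s(u.p, u.q)).card : ℝ) ≤ 4 * (2 * Cr / (ηi - 3 * ε) + 1) := by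
  classical
  have ht0 : ∀ e, 0 ≤ t e := fun e => (ht e).le
  have hTS' : ∀ z, T.Mem z → S.Mem z := fun z hz => (hTS z hz).mem
  have hex : ∀ u ∈ s, ∃ k l, F.B.Exits S t δ u.i u.j u.p u.q k l := fun u hu =>
    Box.exists_exits (hgood u hu).1.1 ht0 (ht _) hδ hSB (hTS _ (hgood u hu).2.1)
      (hTS _ (hgood u hu).2.2.1)
  choose! k l hkl using hex
  refine card_class_edges S ht T hTS' s (fun u => S.pos (k u)) (fun u => S.pos (l u))
    (fun u => u.p) (fun u => u.q) (c := R.c) (δ := δ) (hRS _ hRc) hCr hε hεδ hεη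
    (fun u hu => ⟨S.pos_mem (hkl u hu).1.1, S.pos_mem (hkl u hu).1.2.1⟩)
    (fun u hu => (hkl u hu).1.2.2) (fun u hu => ⟨(hgood u hu).2.1, (hgood u hu).2.2.1⟩)
    (fun u hu v hv => ?_) (fun u hu v hv hne => ?_) fun u hu => ?_
  · by_contra hcon
    exact hno u hu v hv
      ⟨hgood v hv, hclass u hu v hv, k u, l u, k v, l v, hkl u hu, hkl v hv, hcon⟩
  · exact (hgood u hu).2.2.2.1.1.le_dist ht0 (hTS' _ (hgood u hu).2.1) (hTS' _ (hgood v hv).2.1) hne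
  · exact (Box.dist_le_sub ht0 hRS hRc (hTR _ (hgood u hu).2.1)).trans (hgood u hu).2.2.2.1.2

/-- Far mates at many scales give many pairwise far segments through one edge after lowering the
end `f` of the base segment. -/
theorem exists_far_shared (I : Finset ℕ) (tile reach win : ℕ → Box) (W : Box) (mate : ℕ → SegPiece) (Crs : ℕ → ℝ)
    {t' : Env} {f : ℕ → V} {n : ℕ} {v₀ : V} {G Gs Cb : ℝ}
    (ht : ∀ e, 0 ≤ t e) (ht' : ∀ e, 0 ≤ t' e) (hle : ∀ e, t' e ≤ t e)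
    (hF : ∀ e, (∀ k < n, e ≠ s(f k, f (k + 1))) → t' e = t e)
    (hsum : ∑ e ∈ pathEdges f n, (t e - t' e) ≤ Gs)
    (hu : F.Seg t u.i u.j u.p u.q δ)
    (hin : ∀ i ∈ I, (tile i).Mem u.p ∧ (tile i).Mem u.q ∧ (tile i).Mem v₀)
    (hmate : ∀ i ∈ I, F.Good (tile i) (reach i) t δ ηi (Crs i) (mate i) ∧ F.PNear (tile i) t Cl u (mate i))
    (hfar : ∀ i ∈ I, ¬ F.PNear (win i) t Cb u (mate i))
    (hnest : ∀ i ∈ I, ∀ j ∈ I, i < j → ∀ z, (win i).Mem z → (tile j).Mem z)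
    (hW : ∀ i ∈ I, ∀ z, (win i).Mem z → W.Mem z) (hWB : ∀ z, W.Mem z → F.B.Mem z)
    (hvp : F.B.dist t (F.B.pos u.i) u.p
      = F.B.dist t (F.B.pos u.i) v₀ + F.B.dist t v₀ u.p)
    (hf : F.B.IsWalk f n v₀ u.q) (hn : 0 < n)
    (hcost : pathCost t' f n + G ≤ F.B.dist t v₀ u.p + t s(u.p, u.q)) (hG : 3 * Cl < G) :
    ∃ p' q', (∃ k < n, s(p', q') = s(f k, f (k + 1))) ∧ ∃ J ⊆ I, I.card ≤ 2 * n * J.card ∧
      (∀ i ∈ J, F.B.Thru t' (F.B.pos (mate i).i) (F.B.pos (mate i).j) p' q') ∧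
      ∀ i ∈ J, ∀ j ∈ J, i ≠ j → ¬ F.PNear W t' (Cb - Cl - 2 * Gs) (mate i) (mate j) := by
  classical
  obtain ⟨p', q', hpq, J, hJ, hcard, hthru⟩ := Box.exists_shared (t := t) (t' := t') (B := F.B)
    (C := Cl) (G := G) I (fun i => F.B.pos (mate i).i) (fun i => F.B.pos (mate i).j)
    (fun i => (mate i).p) (fun i => (mate i).q) tile ht ht' hle hF hu.1.2.2.1
    hu.mem_left hu.mem_right
    (fun i hi => ⟨(hmate i hi).1.1.mem_left, (hmate i hi).1.1.mem_right⟩)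
    (fun i hi => (hmate i hi).1.1.1.2.2.1) (fun i hi => (hmate i hi).2)
    (fun i hi => ⟨(hin i hi).1, (hin i hi).2.1, (hmate i hi).1.2.1, (hmate i hi).1.2.2.1,
      (hin i hi).2.2⟩) hvp hf hn hcost hG
  refine ⟨p', q', hpq, J, hJ, hcard, hthru, ?_⟩
  have hF' : ∀ e, e ∉ pathEdges f n → t' e = t e := fun e he => hF e fun k hk hek =>
    he (mem_image.2 ⟨k, mem_range.2 hk, hek.symm⟩)
  have aux : ∀ i ∈ I, ∀ j ∈ I, i < j →
      ¬ F.PNear W t' (Cb - Cl - 2 * Gs) (mate i) (mate j) := fun i hi j hj hij =>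
    Box.not_near_of_lower ht' hle _ hF' hsum hWB (hmate i hi).1.1.mem_left
      (hmate i hi).1.1.mem_right (hmate j hj).1.1.mem_left (hmate j hj).1.1.mem_right
      (Box.not_near_of_scales (hnest i hi j hj hij) (hW i hi) (hfar i hi) (hmate j hj).2)
  intro i hi j hj hne
  rcases lt_or_gt_of_ne hne with h | h
  · exact aux i (hJ hi) j (hJ hj) h
  · exact fun hN => aux j (hJ hj) i (hJ hi) h (Box.Near.symm hN)

end Frame

end Vale.Agent.P158.NB
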