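import Vale.Agent.P158.NB.NetSpec
import Vale.Agent.P158.NB.MainMates

/-!
Exits of margin segments from a sub-box are admissible where `ExitOk` holds (`PROOF.md`,
section 10 a): the exits lie on an optimal walk of the doubled box through the half box.
-/

open Finset

namespace Vale.Agent.P158.NB

namespace Box

variable {B S : Box} {t : Env}

/-- The exits from `S` of a segment through the half box of `S` are admissible. -/
theorem exits_adm {Adm : Box → Env → ℕ → Prop} (hE : S.ExitOk Adm t) (ht : ∀ e, 0 ≤ t e)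
    (hsub : ∀ z, (Box.mk S.c (2 * S.M)).Mem z → B.Mem z) {δ : ℝ} {i j k l : ℕ} {p q : V}
    (h : B.Seg t i j p q δ) (hp : (Box.mk S.c (S.M / 2)).Mem p)
    (hk : B.Exits S t δ i j p q k l) : Adm S t k ∧ Adm S t l := by
  obtain ⟨hS, e1, e2, e3, e4⟩ := hk
  obtain ⟨hk', hl', hthru, -⟩ := hS
  set S2 : Box := Box.mk S.c (2 * S.M) with hS2
  have hM : 0 < S.M := by
    by_contra h0
    have h1 := mem_iff.1 hthru.mem_left
    have h2 := mem_iff.1 hthru.mem_right
    have h3 := nbr_cases hthru.1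
    omega
  have hS2S : ∀ z, S.Mem z → S2.Inner z := fun z hz => by
    simp only [mem_iff, inner_iff, hS2, Nat.cast_mul, Nat.cast_ofNat] at hz ⊢
    omega
  have hSB : ∀ z, S.Mem z → B.Mem z := fun z hz => hsub z (hS2S z hz).mem
  have hthruB := h.2.2.1
  have hx := B.pos_mem h.1
  have hy := B.pos_mem h.2.1
  set a := S.pos k
  set b := S.pos l
  have ha : S.Mem a := S.pos_mem hk'
  have hb : S.Mem b := S.pos_mem hl'
  obtain ⟨m₁, g₁, hg₁, -, c₁⟩ := exists_optimal ht hx (hSB a ha)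
  obtain ⟨m₂, g₂, hg₂, -, c₂⟩ := exists_optimal ht ha hthru.mem_left
  obtain ⟨m₃, g₃, hg₃, -, c₃⟩ := exists_optimal ht hthru.mem_right hb
  obtain ⟨m₄, g₄, hg₄, -, c₄⟩ := exists_optimal ht hy (hSB b hb)
  have hxo : ¬ S2.Inner (B.pos i) := fun h' => (B.pos_bdry h.1).2 (h'.of_subset hsub)
  have hyo : ¬ S2.Inner (B.pos j) := fun h' => (B.pos_bdry h.2.1).2 (h'.of_subset hsub)
  obtain ⟨k₁, hk₁, hb₁, hw₁⟩ := last_exit hg₁ hxo (hS2S a ha)
  obtain ⟨k₄, hk₄, hb₄, hw₄⟩ := last_exit hg₄ hyo (hS2S b hb)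
  -- the walk of the doubled box
  have u₂ := hg₂.of_subset fun z hz => (hS2S z hz).mem
  have u₃ := hg₃.of_subset fun z hz => (hS2S z hz).mem
  have ue := isWalk_edge (B := S2) (hS2S _ hthru.mem_left).mem (hS2S _ hthru.mem_right).mem hthru.1
  set n₁ := m₁ - k₁
  set fe : ℕ → V := fun r => if r = 0 then p else q
  set f1 := Box.append (fun r => g₁ (k₁ + r)) n₁ g₂
  set f2 := Box.append f1 (n₁ + m₂) fe
  set f3 := Box.append f2 (n₁ + m₂ + 1) g₃
  set f := Box.append f3 (n₁ + m₂ + 1 + m₃) (fun r => g₄ (k₄ + (m₄ - k₄ - r)))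
  set m := n₁ + m₂ + 1 + m₃ + (m₄ - k₄)
  have w1 : S2.IsWalk f1 (n₁ + m₂) (g₁ k₁) p := hw₁.append u₂
  have w2 : S2.IsWalk f2 (n₁ + m₂ + 1) (g₁ k₁) q := w1.append ue
  have w3 : S2.IsWalk f3 (n₁ + m₂ + 1 + m₃) (g₁ k₁) b := w2.append u₃
  have w : S2.IsWalk f m (g₁ k₁) (g₄ k₄) := w3.append hw₄.reverse
  have hj1 : (fun r => g₁ (k₁ + r)) n₁ = g₂ 0 := hw₁.1.2.1.trans hg₂.1.1.symm
  have hcost : pathCost t f m = B.dist t (B.pos i) (B.pos j)
      - pathCost t g₁ k₁ - pathCost t g₄ k₄ := by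
    simp only [f, m]
    rw [pathCost_append t (by simp [w3.1.2.1, hw₄.1.2.1]), pathCost_reverse t (fun r => g₄ (k₄ + r))]
    simp only [f3]
    rw [pathCost_append t (by rw [w2.1.2.1, hg₃.1.1])]
    simp only [f2]
    rw [pathCost_append t (by rw [w1.1.2.1, ue.1.1])]
    simp only [f1]
    rw [pathCost_append t (f := fun r => g₁ (k₁ + r)) (m := n₁) (g := g₂) hj1, c₂, c₃]
    have s1 := pathCost_split t g₁ hk₁.le
    have s4 := pathCost_split t g₄ hk₄.le
    have hce : pathCost t fe 1 = t s(p, q) := by simp [fe, pathCost]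
    have hyb := dist_comm B t b (B.pos j)
    simp only [n₁] at s1 ⊢
    linarith [hthruB.2.2.2]
  have hopt : pathCost t f m = S2.dist t (g₁ k₁) (g₄ k₄) := by
    refine le_antisymm ?_ (dist_le ht w)
    refine le_dist hb₁.1 hb₄.1 fun m' f' hf' => ?_
    have hwB := ((hg₁.initSeg hk₁.le).append (hf'.of_subset hsub)).append
      (hg₄.initSeg hk₄.le).reverse
    have h' := dist_le ht hwB
    rw [pathCost_append t (by
        rw [((hg₁.initSeg hk₁.le).append (hf'.of_subset hsub)).1.2.1]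
        simp),
      pathCost_append t (by rw [hf'.1.1]), pathCost_reverse t g₄] at h'
    linarith
  have hE' := hE m f (by rw [w.1.1, w.1.2.1]; exact w) (by rw [w.1.1, w.1.2.1]; exact hopt)
    (by rw [w.1.1]; exact hb₁) (by rw [w.1.2.1]; exact hb₄)
  have hfi : f (n₁ + m₂) = p := by
    simp only [f]
    rw [append_left (by omega)]
    simp only [f3]
    rw [append_left (by omega)]
    simp only [f2]
    rw [append_left le_rfl, w1.1.2.1]
  have hfe : f (n₁ + m₂ + 1) = q := by
    simp only [f]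
    rw [append_left (by omega)]
    simp only [f3]
    rw [append_left le_rfl, w2.1.2.1]
  have hfa : f n₁ = a := by
    simp only [f]
    rw [append_left (by omega)]
    simp only [f3]
    rw [append_left (by omega)]
    simp only [f2]
    rw [append_left (by omega)]
    simp only [f1]
    rw [append_left le_rfl]
    exact hw₁.1.2.1
  have hfb : f (n₁ + m₂ + 1 + m₃) = b := by
    simp only [f]
    rw [append_left le_rfl, w3.1.2.1]
  have hmid : ∀ r, n₁ ≤ r → r ≤ n₁ + m₂ + 1 + m₃ → S.Mem (f r) := by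
    intro r h1 h2
    simp only [f]
    rw [append_left h2]
    by_cases h3 : r ≤ n₁ + m₂
    · simp only [f3]
      rw [append_left (by omega)]
      simp only [f2]
      rw [append_left h3]
      simp only [f1]
      obtain ⟨d, rfl⟩ := Nat.exists_eq_add_of_le h1
      rw [append_right (f := fun r => g₁ (k₁ + r)) (m := n₁) (g := g₂) hj1]
      exact hg₂.2 d (by omega)
    · obtain ⟨d, rfl⟩ := Nat.exists_eq_add_of_le (show n₁ + m₂ + 1 ≤ r by omega)
      simp only [f3]
      rw [append_right (by rw [w2.1.2.1, hg₃.1.1])]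
      exact hg₃.2 d (by omega)
  have hm₁ : n₁ + m₂ ≤ m := by simp only [m]; omega
  constructor
  · refine hE' (n₁ + m₂) n₁ hm₁ (by omega) (by rw [hfi]; exact hp)
      (by rw [hfa]; exact S.pos_bdry hk') (fun r h1 h2 => hmid r ?_ ?_) k hk' hfa.symm <;>
      simp only [min_le_iff, le_max_iff] at h1 h2 <;> omega
  · refine hE' (n₁ + m₂) (n₁ + m₂ + 1 + m₃) hm₁ (by omega) (by rw [hfi]; exact hp)
      (by rw [hfb]; exact S.pos_bdry hl') (fun r h1 h2 => hmid r ?_ ?_) l hl' hfb.symm <;>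
      simp only [min_le_iff, le_max_iff] at h1 h2 <;> omega

end Box

end Vale.Agent.P158.NB
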