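import Vale.Agent.P158.Defs
import Vale.Agent.P158.Resample

/-!
The first step (Q7), probabilistic part: a positive event that is downward closed in one weight
still has positive probability after raising that weight by a fixed positive amount, when the law
has no atoms. No measurability is needed.
-/

open MeasureTheory Set
open scoped ENNReal

namespace Vale.Agent.P158.NB

variable {G : Measure ℝ} [IsProbabilityMeasure G]

omit [IsProbabilityMeasure G] in
/-- Almost every value has positive mass strictly below it. -/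
lemma null_low (hat : ∀ a, G {a} = 0) : G {x | G (Iio x) = 0} = 0 := by
  set Z := {x | G (Iio x) = 0}
  have hsub : Z ⊆ (⋃ r : {r : ℚ // G (Iio (r : ℝ)) = 0}, Iio ((r : ℚ) : ℝ)) ∪
      {x | x ∈ Z ∧ ∀ y ∈ Z, y ≤ x} := by
    intro x hx
    by_cases h : ∀ y ∈ Z, y ≤ x
    · exact Or.inr ⟨hx, h⟩
    · simp only [not_forall, not_le] at h
      obtain ⟨y, hy, hxy⟩ := h
      obtain ⟨r, h1, h2⟩ := exists_rat_btwn hxy
      exact Or.inl (mem_iUnion.2 ⟨⟨r, measure_mono_null (Iio_subset_Iio h2.le) hy⟩, h1⟩)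
  refine measure_mono_null hsub (measure_union_null (measure_iUnion_null fun r => r.2) ?_)
  have : Set.Subsingleton {x | x ∈ Z ∧ ∀ y ∈ Z, y ≤ x} := fun a ha b hb =>
    le_antisymm (hb.2 a ha.1) (ha.2 b hb.1)
  rcases this.eq_empty_or_singleton with h | ⟨a, h⟩
  · simp [h]
  · rw [h]; exact hat a

/-- Raising one weight keeps a downward closed event of positive probability. -/
theorem exists_raise_pos (hat : ∀ a, G {a} = 0) (e : Sym2 (ℤ × ℤ))
    {F : Set (Sym2 (ℤ × ℤ) → ℝ)}
    (hdown : ∀ t ∈ F, ∀ r ≤ t e, Function.update t e r ∈ F)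
    (hF : weightMeasure G F ≠ 0) :
    ∃ δ : ℝ, 0 < δ ∧ 0 < weightMeasure G {t | Function.update t e (t e + δ) ∈ F} := by
  classical
  set P := weightMeasure G with hP
  have hz : P {t | G (Iio (t e)) = 0} = 0 := by
    have h := null_low (G := G) hat
    have hmap : (weightMeasure G).map (fun t => t e) = G := Measure.infinitePi_map_eval _ e
    have hm : MeasurableSet {x : ℝ | G (Iio x) = 0} :=
      (measurableSet_singleton (0 : ℝ≥0∞)).preimage
        (Monotone.measurable fun x y hxy => measure_mono (Iio_subset_Iio hxy))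
    calc P {t | G (Iio (t e)) = 0}
        = (weightMeasure G).map (fun t => t e) {x : ℝ | G (Iio x) = 0} := by
          rw [Measure.map_apply (measurable_pi_apply e) hm]; rfl
      _ = 0 := by rw [hmap]; exact h
  have hcover : F ⊆ {t | G (Iio (t e)) = 0} ∪ ⋃ (r : {r : ℚ // G (Iic (r : ℝ)) ≠ 0}) (k : ℕ),
      {t | t ∈ F ∧ ((r : ℚ) : ℝ) + 1 / ((k : ℝ) + 1) ≤ t e} := by
    intro t ht
    by_cases h : G (Iio (t e)) = 0
    · exact Or.inl h
    refine Or.inr ?_
    have hU : Iio (t e) = ⋃ r : {r : ℚ // (r : ℝ) < t e}, Iic ((r : ℚ) : ℝ) := by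
      ext x
      simp only [mem_Iio, mem_iUnion, mem_Iic, Subtype.exists, exists_prop]
      exact ⟨fun hx => let ⟨r, h1, h2⟩ := exists_rat_btwn hx; ⟨r, h2, h1.le⟩,
        fun ⟨r, h1, h2⟩ => lt_of_le_of_lt h2 h1⟩
    rw [hU] at h
    obtain ⟨r, hr⟩ : ∃ r : {r : ℚ // (r : ℝ) < t e}, G (Iic ((r : ℚ) : ℝ)) ≠ 0 := by
      by_contra hh
      simp only [not_exists, not_not] at hh
      exact h (measure_iUnion_null hh)
    obtain ⟨k, hk⟩ := exists_nat_one_div_lt (sub_pos.2 r.2)
    exact mem_iUnion.2 ⟨⟨r, hr⟩, mem_iUnion.2 ⟨k, ht, by linarith⟩⟩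
  obtain ⟨r, k, hrk⟩ : ∃ (r : {r : ℚ // G (Iic (r : ℝ)) ≠ 0}) (k : ℕ),
      P {t | t ∈ F ∧ ((r : ℚ) : ℝ) + 1 / ((k : ℝ) + 1) ≤ t e} ≠ 0 := by
    by_contra hh
    simp only [not_exists, not_not] at hh
    exact hF (measure_mono_null hcover
      (measure_union_null hz (measure_iUnion_null fun r => measure_iUnion_null (hh r))))
  refine ⟨1 / ((k : ℝ) + 1), by positivity, ?_⟩
  refine pos_of_modify G {e} (A := {t | t ∈ F ∧ ((r : ℚ) : ℝ) + 1 / ((k : ℝ) + 1) ≤ t e})
    (S := fun _ => Iic ((r : ℚ) : ℝ)) (fun _ _ => measurableSet_Iic)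
    (fun _ _ => pos_iff_ne_zero.2 r.2) (pos_iff_ne_zero.2 hrk) ?_
  intro t ht s hs
  have hs' : s e ≤ ((r : ℚ) : ℝ) := hs e (Finset.mem_singleton_self e)
  have key := hdown t ht.1 (s e + 1 / ((k : ℝ) + 1)) (by linarith [ht.2])
  show Function.update (({e} : Finset _).piecewise s t) e _ ∈ F
  convert key using 1
  funext d
  by_cases hd : d = e
  · subst hd; simp
  · simp [hd]

/-- The event that some bigeodesic makes the step from `p` to `q`. -/
def BigeoStep (p q : ℤ × ℤ) : Set (Sym2 (ℤ × ℤ) → ℝ) :=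
  {t | ∃ v : ℤ → ℤ × ℤ, IsBigeodesic t v ∧ ∃ i, v i = p ∧ v (i + 1) = q}

/-- If bigeodesics exist with positive (outer) probability, a fixed step lies on one with
positive (outer) probability. -/
theorem exists_step_pos (h : weightMeasure G {t | ∃ v, IsBigeodesic t v} ≠ 0) :
    ∃ p q : ℤ × ℤ, Nbr p q ∧ weightMeasure G (BigeoStep p q) ≠ 0 := by
  by_contra hh
  simp only [not_exists, not_and, not_not] at hh
  have hsub : {t | ∃ v, IsBigeodesic t v} ⊆
      ⋃ pq : {pq : (ℤ × ℤ) × (ℤ × ℤ) // Nbr pq.1 pq.2}, BigeoStep pq.1.1 pq.1.2 := by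
    rintro t ⟨v, hv⟩
    exact mem_iUnion.2 ⟨⟨(v 0, v 1), by simpa using hv.2.1 0⟩, v, hv, 0, rfl, by simp⟩
  exact h (measure_mono_null hsub (measure_iUnion_null fun pq => hh _ _ pq.2))

end Vale.Agent.P158.NB
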