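import Vale.Agent.P158.NB.BoxBasic
import Vale.Agent.P158.NB.FirstShift

/-!
The first step (`PROOF.md`, Q7): if bigeodesics exist with positive probability then, for an
atomless law, one fixed edge carries with probability bounded below a margin segment of every box
around it.
-/

open MeasureTheory Finset
open scoped ENNReal

namespace Vale.Agent.P158.NB

variable {t : Env} {p q : V}

/-- For nonnegative weights: in every box around the step `(p, q)` some optimal walk between two
boundary positions makes this step. -/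
def ExitEv (p q : V) : Set Env :=
  {t | (∀ d, 0 ≤ t d) → ∀ B : Box, B.Inner p → B.Inner q →
    ∃ i j, i ≤ B.len ∧ j ≤ B.len ∧ B.Thru t (B.pos i) (B.pos j) p q}

/-- Lowering the weight of the step keeps it optimal, and creates a margin. -/
lemma lower_step {B : Box} {x y : V} {t' : Env} (ht' : ∀ d, 0 ≤ t' d)
    (hoff : ∀ d, d ≠ s(p, q) → t' d = t d) (hle : t' s(p, q) ≤ t s(p, q))
    (h : B.Thru t x y p q) (hx : B.Mem x) (hy : B.Mem y) :
    B.Thru t' x y p q ∧ B.dist t' x y + (t s(p, q) - t' s(p, q)) ≤ B.dist t x y := by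
  obtain ⟨hn, hp, hq, he⟩ := h
  have hall : ∀ d, t' d ≤ t d := fun d => by
    by_cases hd : d = s(p, q)
    · rw [hd]; exact hle
    · rw [hoff d hd]
  have h1 := Box.dist_lower ht' hall {s(p, q)}
    (fun d hd => hoff d (by simpa using hd)) hx hy
  rw [sum_singleton] at h1
  have h2 := Box.dist_mono ht' hall hx hp
  have h3 := Box.dist_mono ht' hall hq hy
  have h4 := Box.dist_le_through ht' hx hy hp hq hn
  exact ⟨⟨hn, hp, hq, by linarith⟩, by linarith⟩

lemma exitEv_down (t : Env) (ht : t ∈ ExitEv p q) (r : ℝ) (hr : r ≤ t s(p, q)) :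
    Function.update t s(p, q) r ∈ ExitEv p q := by
  intro hpos B hp hq
  have hoff : ∀ d, d ≠ s(p, q) → Function.update t s(p, q) r d = t d := fun d hd => by
    simp [Function.update_of_ne hd]
  have hat : Function.update t s(p, q) r s(p, q) = r := by simp
  have ht0 : ∀ d, 0 ≤ t d := fun d => by
    by_cases hd : d = s(p, q)
    · subst hd
      have := hpos s(p, q)
      rw [hat] at this
      linarith
    · rw [← hoff d hd]; exact hpos d
  obtain ⟨i, j, hi, hj, h⟩ := ht ht0 B hp hq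
  exact ⟨i, j, hi, hj, (lower_step hpos hoff (by rw [hat]; exact hr) h (B.pos_mem hi)
    (B.pos_mem hj)).1⟩

lemma exists_leave (B : Box) {v : ℕ → V} (hv : Function.Injective v) (h0 : B.Inner (v 0))
    (hs : ∀ k, Nbr (v k) (v (k + 1))) :
    ∃ k, B.Bdry (v k) ∧ ∀ l ≤ k, B.Mem (v l) := by
  have hfin : {z : V | B.Inner z}.Finite := by
    refine (Set.finite_Icc (B.c.1 - B.M, B.c.2 - B.M) (B.c.1 + B.M, B.c.2 + B.M)).subset ?_
    intro z hz
    have := Box.mem_iff.1 (Box.Inner.mem hz)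
    simp only [Set.mem_Icc, Prod.le_def]
    omega
  have hex : ∃ k, ¬ B.Inner (v k) := by
    by_contra h
    simp only [not_exists, not_not] at h
    exact Set.infinite_of_injective_forall_mem hv h hfin
  classical
  have hk : ¬ B.Inner (v (Nat.find hex)) := Nat.find_spec hex
  have hmin : ∀ l < Nat.find hex, B.Inner (v l) := fun l hl => by
    have := Nat.find_min hex hl
    exact not_not.1 this
  have hmem : B.Mem (v (Nat.find hex)) := by
    rcases hK : Nat.find hex with _ | k
    · exact h0.mem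
    · exact (hmin k (by omega)).mem_of_nbr (hs k)
  refine ⟨Nat.find hex, ⟨hmem, hk⟩, fun l hl => ?_⟩
  rcases hl.lt_or_eq with h | h
  · exact (hmin l h).mem
  · exact h ▸ hmem

/-- A bigeodesic through the step lies in the exit event. -/
lemma bigeoStep_subset (p q : V) : BigeoStep p q ⊆ ExitEv p q := by
  rintro t ⟨v, ⟨hinj, hnbr, hgeo⟩, i, hip, hiq⟩ ht B hp hq
  obtain ⟨k, hkb, hkm⟩ := exists_leave B (v := fun l : ℕ => v (i + 1 + (l : ℤ)))
    (fun a b e => Int.ofNat_inj.1 (add_left_cancel (hinj e))) (by simpa [hiq] using hq)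
    (fun l => by
      have := hnbr (i + 1 + (l : ℤ))
      push_cast
      rwa [← add_assoc])
  obtain ⟨l, hlb, hlm⟩ := exists_leave B (v := fun l : ℕ => v (i - (l : ℤ)))
    (fun a b e => Int.ofNat_inj.1 (sub_right_inj.1 (hinj e))) (by simpa [hip] using hp)
    (fun l => by
      have := (hnbr (i - (l : ℤ) - 1)).symm
      push_cast
      rw [sub_add_cancel] at this
      rwa [← sub_sub])
  set f : ℕ → V := fun m => v (i - (l : ℤ) + (m : ℤ))
  have hfmem : ∀ m ≤ l + 1 + k, B.Mem (f m) := fun m hm => by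
    by_cases h : m ≤ l
    · simp only [f, show i - (l : ℤ) + (m : ℤ) = i - ((l - m : ℕ) : ℤ) by omega]
      exact hlm _ (Nat.sub_le l m)
    · simp only [f, show i - (l : ℤ) + (m : ℤ) = i + 1 + ((m - (l + 1) : ℕ) : ℤ) by omega]
      exact hkm _ (by omega)
  have hw : B.IsWalk f (l + 1 + k) (v (i - (l : ℤ))) (v (i + 1 + (k : ℤ))) := by
    refine ⟨⟨by simp [f], ?_, fun m _ => ?_⟩, hfmem⟩
    · simp only [f]; congr 1; omega
    · simp only [f]
      push_cast
      rw [← add_assoc]
      exact hnbr _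
  have hc : pathCost t f (l + 1 + k) =
      passage t (v (i - (l : ℤ))) (v (i + 1 + (k : ℤ))) := by
    rw [← hgeo (i - (l : ℤ)) (i + 1 + (k : ℤ)) (by omega), pathCost]
    refine Finset.sum_bij (fun m _ => i - (l : ℤ) + (m : ℤ)) ?_ ?_ ?_ ?_
    · intro m hm
      have := mem_range.1 hm
      exact mem_Ico.2 ⟨by omega, by omega⟩
    · intro a _ b _ e; omega
    · intro m hm
      have := mem_Ico.1 hm
      exact ⟨(m - (i - (l : ℤ))).toNat, mem_range.2 (by omega), by omega⟩
    · intro m _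
      simp only [f]
      push_cast
      rw [← add_assoc]
  have hopt : pathCost t f (l + 1 + k) = B.dist t (v (i - (l : ℤ))) (v (i + 1 + (k : ℤ))) :=
    le_antisymm (Box.le_dist hw.mem_left hw.mem_right fun m g hg =>
      hc.le.trans (passage_le_pathCost ht hg.1)) (Box.dist_le ht hw)
  have h := (Box.thru_of_optimal ht hw hopt (k := l) (by omega)).1
  have e1 : f l = p := by simp [f, hip]
  have e2 : f (l + 1) = q := by
    simp only [f]; rw [← hiq]; congr 1; omega
  rw [e1, e2] at h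
  obtain ⟨a, ha, hpa⟩ := Box.exists_pos hlb
  obtain ⟨b, hb, hpb⟩ := Box.exists_pos hkb
  exact ⟨a, b, ha, hb, by rw [hpa, hpb]; exact h⟩

variable {G : Measure ℝ} [IsProbabilityMeasure G]

/-- Margin segments at a fixed step, in all boxes around it. -/
theorem exists_margin_step (h0 : G (Set.Iio 0) = 0) (hat : ∀ a, G {a} = 0) {p q : V}
    (h : weightMeasure G (BigeoStep p q) ≠ 0) :
    ∃ δ : ℝ, 0 < δ ∧ ∃ c : ℝ≥0∞, 0 < c ∧ ∀ B : Box, B.Inner p → B.Inner q →
      c ≤ weightMeasure G {t | ∃ i j, B.Seg t i j p q δ} := by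
  obtain ⟨δ, hδ, hpos⟩ := exists_raise_pos (G := G) hat s(p, q)
    (F := ExitEv p q) exitEv_down (fun h0' => h (measure_mono_null (bigeoStep_subset p q) h0'))
  refine ⟨δ, hδ, _, hpos, fun B hp hq => measure_mono_ae ?_⟩
  filter_upwards [ae_nonneg h0] with t ht
  intro hev
  have e : Function.update t s(p, q) (t s(p, q) + δ) = raise t s(p, q) δ := by
    funext d
    by_cases hd : d = s(p, q)
    · subst hd; simp [Box.raise_apply_self]
    · rw [Box.raise_apply_ne hd, Function.update_of_ne hd]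
  have hev' : raise t s(p, q) δ ∈ ExitEv p q := e ▸ hev
  obtain ⟨i, j, hi, hj, hth⟩ := hev' (Box.raise_nonneg ht _ hδ.le) B hp hq
  have hl := lower_step ht (fun d hd => (Box.raise_apply_ne hd t δ).symm)
    (by rw [Box.raise_apply_self]; linarith) hth (B.pos_mem hi) (B.pos_mem hj)
  refine ⟨i, j, hi, hj, hl.1, ?_⟩
  have h2 := hl.2
  rw [Box.raise_apply_self, add_sub_cancel_left] at h2
  exact h2

/-- Q7: if bigeodesics exist with positive probability, then one of the two edges at the origin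
carries margin segments of every box around it, with probability bounded below. -/
theorem first_step (h0 : G (Set.Iio 0) = 0) (hat : ∀ a, G {a} = 0)
    (h : weightMeasure G {t | ∃ v, IsBigeodesic t v} ≠ 0) :
    ∃ u : V, (u = (1, 0) ∨ u = (0, 1)) ∧ ∃ δ : ℝ, 0 < δ ∧ ∃ c : ℝ≥0∞, 0 < c ∧
      ∀ B : Box, B.Inner 0 → B.Inner u →
        c ≤ weightMeasure G {t | ∃ i j, B.Seg t i j 0 u δ ∨ B.Seg t i j u 0 δ} := by
  obtain ⟨p, q, hn, hpq⟩ := exists_step_pos h
  obtain ⟨δ, hδ, c, hc, hB⟩ := exists_margin_step h0 hat hpq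
  obtain ⟨o, u, hu, ho⟩ : ∃ o u : V, (u = (1, 0) ∨ u = (0, 1)) ∧
      (p = o ∧ q = u + o ∨ q = o ∧ p = u + o) := by
    rcases Box.nbr_cases hn with ⟨a, b⟩ | ⟨a, b⟩ | ⟨a, b⟩ | ⟨a, b⟩
    · exact ⟨p, (1, 0), Or.inl rfl, Or.inl ⟨rfl, by ext <;> simp [a, b, add_comm]⟩⟩
    · exact ⟨q, (1, 0), Or.inl rfl, Or.inr ⟨rfl, by ext <;> simp [a, b]⟩⟩
    · exact ⟨p, (0, 1), Or.inr rfl, Or.inl ⟨rfl, by ext <;> simp [a, b, add_comm]⟩⟩
    · exact ⟨q, (0, 1), Or.inr rfl, Or.inr ⟨rfl, by ext <;> simp [a, b]⟩⟩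
  refine ⟨u, hu, δ, hδ, c, hc, fun B hB0 hBu => ?_⟩
  have ho' : (B.shift o).Inner o := by simpa using (Box.shift_inner (B := B) (z := 0) o).2 hB0
  have hu' : (B.shift o).Inner (u + o) := (Box.shift_inner o).2 hBu
  have hpi : (B.shift o).Inner p ∧ (B.shift o).Inner q := by
    rcases ho with ⟨rfl, rfl⟩ | ⟨rfl, rfl⟩
    exacts [⟨ho', hu'⟩, ⟨hu', ho'⟩]
  have key := Measure.le_map_apply (μ := weightMeasure G) (measurable_shift o).aemeasurable
    {t : Env | ∃ i j, B.Seg t i j 0 u δ ∨ B.Seg t i j u 0 δ}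
  rw [(measurePreserving_shift G o).map_eq] at key
  refine (hB _ hpi.1 hpi.2).trans ((measure_mono ?_).trans key)
  rintro t ⟨i, j, hs⟩
  refine ⟨i, j, ?_⟩
  rcases ho with ⟨rfl, rfl⟩ | ⟨rfl, rfl⟩
  · left
    rw [← Box.seg_shift, zero_add]
    exact hs
  · right
    rw [← Box.seg_shift, zero_add]
    exact hs

end Vale.Agent.P158.NB
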