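import Vale.Agent.P158.NB.Avg

/-!
Bookkeeping for the probability assembly of `PROOF.md`, section 9: statements that hold for most
centres, choices inside the quarter box, and double counting against outer measures.
-/

open MeasureTheory Finset

namespace Vale.Agent.P158.NB

/-- `P` holds for all but a fraction `ε` of the centres in the half box. -/
def MostCentres (M : ℕ) (ε : ℝ) (P : V → Prop) : Prop :=
  open scoped Classical in
  (((half M).filter fun z => ¬ P z).card : ℝ) ≤ ε * ((half M).card : ℝ)

lemma MostCentres.mono {M : ℕ} {ε ε' : ℝ} {P Q : V → Prop} (h : MostCentres M ε P) (hε : ε ≤ ε')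
    (hPQ : ∀ z ∈ half M, P z → Q z) : MostCentres M ε' Q := by
  classical
  unfold MostCentres at *
  refine le_trans ?_ (h.trans (mul_le_mul_of_nonneg_right hε (Nat.cast_nonneg _)))
  refine Nat.cast_le.2 (card_le_card fun z hz => ?_)
  simp only [mem_filter] at hz ⊢
  exact ⟨hz.1, fun hp => hz.2 (hPQ z hz.1 hp)⟩

lemma MostCentres.and {M : ℕ} {ε ε' : ℝ} {P Q : V → Prop} (h : MostCentres M ε P)
    (h' : MostCentres M ε' Q) : MostCentres M (ε + ε') fun z => P z ∧ Q z := by
  classical
  unfold MostCentres at *
  rw [add_mul]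
  refine le_trans ?_ (add_le_add h h')
  rw [← Nat.cast_add]
  refine Nat.cast_le.2 ((card_le_card fun z hz => ?_).trans (card_union_le _ _))
  simp only [mem_filter, mem_union, not_and_or] at hz ⊢
  tauto

/-- Markov for averages. -/
lemma mostCentres_of_avg (G : Measure ℝ) {M : ℕ} {E : V → Set Env} {ε θ : ℝ} (hθ : 0 < θ)
    (h : avg G M E ≤ ε * θ) :
    MostCentres M ε fun z => (weightMeasure G).real (E z) ≤ θ := by
  classical
  unfold MostCentres
  rw [avg, div_le_iff₀ (card_half_pos M)] at h
  refine le_of_mul_le_mul_left ?_ hθ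
  calc θ * (((half M).filter fun z => ¬ (weightMeasure G).real (E z) ≤ θ).card : ℝ)
      = ((half M).filter fun z => ¬ (weightMeasure G).real (E z) ≤ θ).card • θ := by
        rw [nsmul_eq_mul, mul_comm]
    _ ≤ ∑ z ∈ (half M).filter fun z => ¬ (weightMeasure G).real (E z) ≤ θ,
          (weightMeasure G).real (E z) :=
        card_nsmul_le_sum _ _ _ fun z hz => (not_le.1 (mem_filter.1 hz).2).le
    _ ≤ ∑ z ∈ half M, (weightMeasure G).real (E z) :=
        sum_le_sum_of_subset_of_nonneg (filter_subset _ _) fun _ _ _ => measureReal_nonneg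
    _ ≤ θ * (ε * ((half M).card : ℝ)) := by linarith

/-- The quarter box is at least a ninth of the half box. -/
lemma card_half_le_nine (M : ℕ) : (half M).card ≤ 9 * (Box.mk 0 (M / 4)).verts.card := by
  rw [half, Box.card_verts, Box.card_verts]
  show (2 * (M / 2) + 1) ^ 2 ≤ 9 * (2 * (M / 4) + 1) ^ 2
  calc (2 * (M / 2) + 1) ^ 2 ≤ (3 * (2 * (M / 4) + 1)) ^ 2 :=
        Nat.pow_le_pow_left (by omega) 2
    _ = 9 * (2 * (M / 4) + 1) ^ 2 := by ring

lemma quarter_subset_half (M : ℕ) : (Box.mk 0 (M / 4)).verts ⊆ half M := by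
  intro z hz
  rw [mem_half]
  obtain ⟨h1, h2⟩ := Box.mem_verts.1 hz
  have h : ((M / 4 : ℕ) : ℤ) ≤ ((M / 2 : ℕ) : ℤ) := by omega
  exact ⟨h1.trans h, h2.trans h⟩

/-- A property of most centres holds somewhere in the quarter box. -/
theorem MostCentres.exists_quarter {M : ℕ} {ε : ℝ} {P : V → Prop} (h : MostCentres M ε P)
    (hε : 9 * ε < 1) : ∃ z, (Box.mk 0 (M / 4)).Mem z ∧ P z := by
  classical
  by_contra hno
  simp only [not_exists, not_and] at hno
  have h1 : (Box.mk 0 (M / 4)).verts ⊆ (half M).filter fun z => ¬ P z := fun z hz =>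
    mem_filter.2 ⟨quarter_subset_half M hz, hno z (Box.mem_verts.1 hz)⟩
  have h2 : (((Box.mk 0 (M / 4)).verts.card : ℕ) : ℝ) ≤ ε * ((half M).card : ℝ) :=
    le_trans (by exact_mod_cast card_le_card h1) h
  have h3 : ((half M).card : ℝ) ≤ 9 * (((Box.mk 0 (M / 4)).verts.card : ℕ) : ℝ) := by
    exact_mod_cast card_half_le_nine M
  nlinarith [card_half_pos M]

/-- An offset in the quarter box at which a translation invariant family is rarely bad, for all
windows. -/
theorem exists_offset_quarter (G : Measure ℝ) [IsProbabilityMeasure G] (M r : ℕ)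
    (Ev : Box → Box → Set Env)
    (hcov : ∀ v B S, Ev (Box.shift B v) (Box.shift S v) = P158.shift v ⁻¹' Ev B S) :
    ∃ o : V, (Box.mk 0 (M / 4)).Mem o ∧ ∀ z : V,
      (weightMeasure G).real (Ev (Box.mk (z + o) M) (Box.mk z r)) ≤
        10 * avg G M fun x => Ev (Box.mk 0 M) (Box.mk x r) := by
  set E : V → Set Env := fun x => Ev (Box.mk 0 M) (Box.mk x r)
  set Q := (Box.mk 0 (M / 4)).verts
  have hne : Q.Nonempty := ⟨0, Box.mem_verts.2 (by simp [Box.Mem]; omega)⟩
  have hsum : ∑ x ∈ Q, (weightMeasure G).real (E x) ≤ ∑ _x ∈ Q, 10 * avg G M E := by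
    rw [sum_const, nsmul_eq_mul]
    have h3 : ((half M).card : ℝ) ≤ 9 * ((Q.card : ℕ) : ℝ) := by
      exact_mod_cast card_half_le_nine M
    have h4 : ∑ x ∈ Q, (weightMeasure G).real (E x) ≤ avg G M E * ((half M).card : ℝ) := by
      rw [avg, div_mul_cancel₀ _ (card_half_pos M).ne']
      exact sum_le_sum_of_subset_of_nonneg (quarter_subset_half M) fun _ _ _ => measureReal_nonneg
    nlinarith [mul_le_mul_of_nonneg_left h3 (avg_nonneg G (M := M) (E := E)),
      mul_nonneg (avg_nonneg G (M := M) (E := E)) (Nat.cast_nonneg Q.card : (0 : ℝ) ≤ Q.card)]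
  obtain ⟨x, hx, hle⟩ := exists_le_of_sum_le hne hsum
  refine ⟨-x, ?_, fun z => ?_⟩
  · have := Box.mem_verts.1 hx
    simpa [Box.Mem] using this
  · have h := hcov (z - x) (Box.mk 0 M) (Box.mk x r)
    simp only [Box.shift, zero_add, add_sub_cancel] at h
    rw [← sub_eq_add_neg, h, real_shift]
    exact hle

/-- Double counting against outer measures: only the counted events need measurability. -/
theorem sum_real_le_of_bound (G : Measure ℝ) [IsProbabilityMeasure G] {ι κ : Type*}
    (s : Finset ι) (A : ι → Set Env) (hA : ∀ x ∈ s, MeasurableSet (A x)) (J : Finset κ)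
    (E : κ → Set Env) (w : κ → ℝ) (hw : ∀ j ∈ J, 0 ≤ w j) (bad : Set Env) {K : ℝ} (hK : 0 ≤ K)
    (h : ∀ t ∉ bad, ∀ s' ⊆ s, (∀ x ∈ s', t ∈ A x) →
      (s'.card : ℝ) ≤ K + ∑ j ∈ J, w j * (E j).indicator (fun _ => (1 : ℝ)) t) :
    ∑ x ∈ s, (weightMeasure G).real (A x) ≤
      (s.card : ℝ) * (weightMeasure G).real bad + K +
        ∑ j ∈ J, w j * (weightMeasure G).real (E j) := by
  classical
  set P := weightMeasure G
  set W := toMeasurable P bad
  set E' : κ → Set Env := fun j => toMeasurable P (E j)
  have hW : MeasurableSet W := measurableSet_toMeasurable P bad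
  have hWr : P.real W = P.real bad := by simp [W, measureReal_def, measure_toMeasurable]
  have hEr : ∀ j, P.real (E' j) = P.real (E j) := fun j => by
    simp [E', measureReal_def, measure_toMeasurable]
  have hm : ∀ x ∈ s, MeasurableSet (A x \ W) := fun x hx => (hA x hx).diff hW
  have h1 : ∑ x ∈ s, P.real (A x \ W) ≤ K + ∑ j ∈ J, w j * P.real (E' j) := by
    have hJ : ∀ j ∈ J, Integrable
        (fun t => w j * (E' j).indicator (fun _ => (1 : ℝ)) t) P := fun j _ =>
      ((integrable_const (1 : ℝ)).indicator (measurableSet_toMeasurable P (E j))).const_mul _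
    calc ∑ x ∈ s, P.real (A x \ W)
        = ∫ t, ∑ x ∈ s, (A x \ W).indicator (fun _ => (1 : ℝ)) t ∂P := by
          rw [integral_finsetSum _ fun x hx => (integrable_const (1 : ℝ)).indicator (hm x hx)]
          exact sum_congr rfl fun x hx => (integral_indicator_one (hm x hx)).symm
      _ ≤ ∫ t, (K + ∑ j ∈ J, w j * (E' j).indicator (fun _ => (1 : ℝ)) t) ∂P := by
          refine integral_mono (integrable_finsetSum _ fun x hx =>
            (integrable_const (1 : ℝ)).indicator (hm x hx))
            ((integrable_const K).add (integrable_finsetSum _ hJ)) fun t => ?_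
          dsimp only
          have hnn : 0 ≤ ∑ j ∈ J, w j * (E' j).indicator (fun _ => (1 : ℝ)) t :=
            sum_nonneg fun j hj => mul_nonneg (hw j hj)
              (Set.indicator_nonneg (fun _ _ => zero_le_one) t)
          by_cases ht : t ∈ W
          · rw [sum_eq_zero fun x _ => Set.indicator_of_notMem (fun hx => hx.2 ht) _]
            linarith
          · simp only [Set.indicator_apply (s := A _ \ W), sum_boole]
            refine (h t (fun hb => ht (subset_toMeasurable P bad hb)) _ (filter_subset _ _)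
              fun x hx => (mem_filter.1 hx).2.1).trans ?_
            refine add_le_add le_rfl (sum_le_sum fun j hj => mul_le_mul_of_nonneg_left ?_ (hw j hj))
            exact Set.indicator_le_indicator_of_subset (subset_toMeasurable P (E j))
              (fun _ => zero_le_one) t
      _ = K + ∑ j ∈ J, w j * P.real (E' j) := by
          rw [integral_add (integrable_const K) (integrable_finsetSum _ hJ),
            integral_finsetSum _ hJ]
          simp only [integral_const, probReal_univ, one_smul]
          congr 1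
          refine sum_congr rfl fun j _ => ?_
          rw [integral_const_mul]
          congr 1
          exact integral_indicator_one (measurableSet_toMeasurable P (E j))
  simp only [hEr] at h1
  have h2 : ∑ x ∈ s, P.real (A x) ≤ ∑ x ∈ s, (P.real W + P.real (A x \ W)) :=
    sum_le_sum fun x _ =>
      (weight_real_mono G (show A x ⊆ W ∪ (A x \ W) from fun t ht => by
        by_cases hwt : t ∈ W
        exacts [Or.inl hwt, Or.inr ⟨ht, hwt⟩])).trans (measureReal_union_le _ _)
  rw [sum_add_distrib, sum_const, nsmul_eq_mul, hWr] at h2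
  linarith

end Vale.Agent.P158.NB
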