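import Vale.Agent.P158.NB.Spec
import Vale.Agent.P158.NB.MainDefs

/-!
The events of the frame of `Nets`: measurability, translations and the offset for `UBad`.
-/

open MeasureTheory

namespace Vale.Agent.P158.NB.Nets

variable {G : Measure ℝ} (N : Nets G)

lemma adm_measurable (B : Box) (k : ℕ) :
    Measurable fun t => k ∈ ({j | N.Adm B t j} : Set ℕ) :=
  measurableSet_setOfPred.1 (N.adm_meas B k)

/-- The frame at the origin with all positions, carrying the grid of `N.fr`. -/
def baseFr (B : Box) (n : ℕ) : Frame := ⟨B, n, fun l => B.gridPos n (min l n), Set.univ⟩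

lemma fr_eq (B : Box) (n : ℕ) (t : Env) :
    N.fr B n t = (baseFr B n).withT {k | N.Adm B t k} := rfl

lemma measurableSet_fr_hasSeg (B : Box) (n : ℕ) (p q : V) (D : ℝ) :
    MeasurableSet {t | (N.fr B n t).HasSeg p q D t} :=
  measurableSet_setOfPred.2 ((baseFr B n).measurable_hasSeg (N.adm_measurable B) p q D)

lemma fr_shift (B : Box) (n : ℕ) (v : V) (t : Env) :
    N.fr (B.shift v) n t = (N.fr B n (P158.shift v t)).shift v := by
  simp only [fr, Frame.shift, N.adm_shift]
  rfl

/-- An offset at which `UBad` of the sub-box is rare for all windows. -/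
theorem exists_offset_uBad [IsProbabilityMeasure G] (R n r : ℕ) (δ ε C : ℝ) :
    ∃ o : V, (Box.mk 0 (R / 4)).Mem o ∧ ∀ z : V,
      (weightMeasure G).real
          {t | (N.fr (Box.mk (z + o) R) n t).UBad (Box.mk z r) δ ε C t} ≤
        10 * avg G R fun x => {t | (N.fr (Box.mk 0 R) n t).UBad (Box.mk x r) δ ε C t} := by
  refine exists_offset_quarter G R r (fun B S => {t | (N.fr B n t).UBad S δ ε C t}) fun v B S => ?_
  ext t
  show (N.fr (B.shift v) n t).UBad (S.shift v) δ ε C t ↔ _
  rw [fr_shift, Frame.uBad_shift]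
  rfl

end Vale.Agent.P158.NB.Nets
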