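import Vale.Agent.P158.NB.BoxBasic
import Vale.Agent.P158.NB.GadgetCore

/-!
# Lemma C of `PROOF.md`: the gadget in a box, deterministic

`P1` is the piece of an optimal `a`-`b` path before `p`; `P2` is the detour. The edges in `E₁`
(on `P1`) are lowered first, then those of `E₂` (on `P2`) one at a time, in any order of subsets.
-/

open Finset
open scoped Classical

namespace Vale.Agent.P158.NB

variable {B : Box} {t t' : Env} {x y : V}

/-- After lowering `E`, a distance is old or ends with an old piece from an endpoint in `W`. -/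
lemma Box.exit_lowered (ht : ∀ e, 0 ≤ t e) (ht' : ∀ e, 0 ≤ t' e) (hle : ∀ e, t' e ≤ t e)
    (E : Finset (Sym2 V)) (hE : ∀ e, e ∉ E → t' e = t e) (hx : B.Mem x) (hy : B.Mem y) :
    B.dist t' x y = B.dist t x y ∨ ∃ w, B.Mem w ∧ (∃ e ∈ E, w ∈ e) ∧
      B.dist t' x y = B.dist t' x w + B.dist t w y ∧ B.dist t' w y = B.dist t w y := by
  obtain ⟨m, f, hf, -, hc⟩ := Box.exists_optimal ht' hx hy
  have hmono : ∀ {u v : V}, B.Mem u → B.Mem v → B.dist t' u v ≤ B.dist t u v :=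
    fun hu hv => Box.dist_mono ht' hle hu hv
  by_cases hne : ((range m).filter fun k => s(f k, f (k + 1)) ∈ E).Nonempty
  · right
    obtain ⟨k, hk, hmax⟩ := ((range m).filter fun k => s(f k, f (k + 1)) ∈ E).exists_max_image id hne
    obtain ⟨hkm, hkE⟩ := mem_filter.1 hk
    rw [mem_range] at hkm
    have hw : B.Mem (f (k + 1)) := hf.2 _ (by omega)
    have hsuf := hf.suffix (i := k + 1) (by omega)
    have hcs : pathCost t (fun l => f (k + 1 + l)) (m - (k + 1)) =
        pathCost t' (fun l => f (k + 1 + l)) (m - (k + 1)) := by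
      refine sum_congr rfl fun i hi => ?_
      rw [mem_range] at hi
      refine (hE _ fun hmem => ?_).symm
      have : id (k + 1 + i) ≤ id k := hmax (k + 1 + i)
        (mem_filter.2 ⟨mem_range.2 (by omega), by simpa [add_assoc] using hmem⟩)
      simp only [id] at this
      omega
    have h1 := Box.dist_le ht hsuf
    have hsplit : pathCost t' f m = pathCost t' f (k + 1) +
        pathCost t' (fun l => f (k + 1 + l)) (m - (k + 1)) := by
      conv_lhs => rw [show m = k + 1 + (m - (k + 1)) by omega]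
      simp only [pathCost, sum_range_add]
      rfl
    have h2 := Box.dist_le ht' (hf.initSeg (i := k + 1) (by omega))
    have h3 := Box.dist_triangle ht' hx hw hy
    have h4 := hmono hw hy
    exact ⟨f (k + 1), hw, ⟨_, hkE, Sym2.mem_mk_right _ _⟩, by linarith, by linarith⟩
  · left
    refine le_antisymm (hmono hx hy) ?_
    rw [← hc]
    refine (Box.dist_le ht hf).trans (le_of_eq (sum_congr rfl fun i hi => (hE _ fun h => ?_).symm))
    exact hne ⟨i, mem_filter.2 ⟨hi, h⟩⟩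

/-- A piece of an optimal path towards `y`: the distance to `y` drops by exactly its cost. -/
structure Piece (B : Box) (t : Env) (y : V) where
  f : ℕ → V
  m : ℕ
  walk : B.IsWalk f m (f 0) (f m)
  simple : IsSimple f m
  opt : B.dist t (f 0) y = pathCost t f m + B.dist t (f m) y

namespace Piece

variable {B : Box} {t : Env} {y : V} (P : Piece B t y)

/-- The vertices. -/
def verts : Set V := {u | ∃ i ≤ P.m, u = P.f i}

/-- The cost. -/
def cost : ℝ := pathCost t P.f P.m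

/-- The edges. -/
noncomputable def edges : Finset (Sym2 V) := pathEdges P.f P.m

lemma mem {i : ℕ} (hi : i ≤ P.m) : B.Mem (P.f i) := P.walk.2 i hi

lemma verts_of_edge {e : Sym2 V} (he : e ∈ P.edges) {u : V} (hu : u ∈ e) : u ∈ P.verts := by
  obtain ⟨i, hi, rfl⟩ := mem_image.1 he
  rw [mem_range] at hi
  rcases Sym2.mem_iff.1 hu with rfl | rfl
  · exact ⟨i, hi.le, rfl⟩
  · exact ⟨i + 1, hi, rfl⟩

lemma cost_prefix_le (ht : ∀ e, 0 ≤ t e) {i : ℕ} (hi : i ≤ P.m) :
    0 ≤ pathCost t P.f i ∧ pathCost t P.f i ≤ P.cost :=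
  ⟨pathCost_nonneg ht _ _, sum_le_sum_of_subset_of_nonneg (range_subset_range.2 hi) fun _ _ _ => ht _⟩

lemma cost_split {i : ℕ} (hi : i ≤ P.m) :
    P.cost = pathCost t P.f i + pathCost t (fun l => P.f (i + l)) (P.m - i) := by
  conv_lhs => rw [cost, show P.m = i + (P.m - i) by omega]
  simp only [pathCost, sum_range_add]
  rfl

lemma at_vertex (ht : ∀ e, 0 ≤ t e) (hy : B.Mem y) {i : ℕ} (hi : i ≤ P.m) :
    B.dist t (P.f i) y = pathCost t (fun l => P.f (i + l)) (P.m - i) + B.dist t (P.f P.m) y ∧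
      B.dist t (P.f 0) y = pathCost t P.f i + B.dist t (P.f i) y := by
  have h1 := Box.dist_le ht (P.walk.initSeg hi)
  have h2 := Box.dist_le ht (P.walk.suffix hi)
  have h3 := Box.dist_triangle ht (P.mem (Nat.zero_le _)) (P.mem hi) hy
  have h4 := Box.dist_triangle ht (P.mem hi) (P.mem le_rfl) hy
  have h5 := P.opt
  have h6 := P.cost_split hi
  simp only [cost] at h6
  constructor <;> linarith

lemma diff_mono (ht : ∀ e, 0 ≤ t e) (hy : B.Mem y) {K : V} (hK : B.Mem K) {i : ℕ} (hi : i ≤ P.m) :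
    B.dist t (P.f 0) K - B.dist t (P.f 0) y ≤ B.dist t (P.f i) K - B.dist t (P.f i) y ∧
      B.dist t (P.f i) K - B.dist t (P.f i) y ≤
        B.dist t (P.f P.m) K - B.dist t (P.f P.m) y := by
  obtain ⟨h1, h2⟩ := P.at_vertex ht hy hi
  have h3 := Box.dist_le ht (P.walk.initSeg hi)
  have h4 := Box.dist_le ht (P.walk.suffix hi)
  have h5 := Box.dist_triangle ht (P.mem (Nat.zero_le _)) (P.mem hi) hK
  have h6 := Box.dist_triangle ht (P.mem hi) (P.mem le_rfl) hK
  constructor <;> linarith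

lemma cost_piecewise (u : Env) (E : Finset (Sym2 V)) (hE : E ⊆ P.edges) :
    pathCost (E.piecewise u t) P.f P.m = P.cost - ∑ e ∈ E, (t e - u e) := by
  have hinj : Set.InjOn (fun i => s(P.f i, P.f (i + 1))) (range P.m : Finset ℕ) := by
    intro i hi j hj hij
    rw [mem_coe, mem_range] at hi hj
    rcases Sym2.eq_iff.1 hij with ⟨h, -⟩ | ⟨h1, h2⟩
    · exact P.simple i hi.le j hj.le h
    · have := P.simple i hi.le (j + 1) hj h1
      have := P.simple (i + 1) hi j hj.le h2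
      omega
  have : pathCost (E.piecewise u t) P.f P.m = ∑ e ∈ P.edges, E.piecewise u t e :=
    (sum_image hinj).symm
  rw [this, show P.cost = ∑ e ∈ P.edges, t e from (sum_image hinj).symm]
  have h2 : ∀ e, E.piecewise u t e = t e - if e ∈ E then t e - u e else 0 := by
    intro e
    by_cases he : e ∈ E <;> simp [he]
  simp only [h2, sum_sub_distrib, sum_ite_mem, inter_eq_right.2 hE]

end Piece

/-- Data of the gadget. -/
structure Setup (B : Box) (t : Env) where
  a : V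
  b : V
  K : V
  P1 : Piece B t b
  y2 : V
  P2 : Piece B t y2
  E₁ : Finset (Sym2 V)
  E₂ : Finset (Sym2 V)
  u : Env
  step : ℝ
  ha : B.Mem a
  hb : B.Mem b
  hK : B.Mem K
  hy2 : B.Mem y2
  hab : B.dist t a b = B.dist t a (P1.f 0) + B.dist t (P1.f 0) b
  hE₁ : E₁ ⊆ P1.edges
  hE₂ : E₂ ⊆ P2.edges
  hu : ∀ e, 0 ≤ u e
  hamount : ∀ e ∈ E₁ ∪ E₂, u e ≤ t e ∧ t e - u e ≤ step
  hne : 0 < ∑ e ∈ E₁, (t e - u e)

namespace Setup

variable {B : Box} {t : Env} (S : Setup B t) (ht : ∀ e, 0 ≤ t e)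

/-- The lowered edges at stage `s`. -/
noncomputable def low (s : ℕ) : Finset (Sym2 V) := S.E₁ ∪ (S.E₂.toList.take s).toFinset

/-- The weights at stage `s`. -/
noncomputable def env (s : ℕ) : Env := (S.low s).piecewise S.u t

lemma low_subset (s : ℕ) : S.low s ⊆ S.E₁ ∪ S.E₂ :=
  union_subset_union_right fun _ h => mem_toList.1 (List.mem_of_mem_take (List.mem_toFinset.1 h))

lemma env_le (s : ℕ) (e : Sym2 V) : S.env s e ≤ t e := by
  by_cases he : e ∈ S.low s
  · simp [env, he, (S.hamount e (S.low_subset s he)).1]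
  · simp [env, he]

include ht in
lemma env_nonneg (s : ℕ) (e : Sym2 V) : 0 ≤ S.env s e := by
  by_cases he : e ∈ S.low s
  · simp [env, he, S.hu e]
  · simp [env, he, ht e]

lemma low_last : S.low (#S.E₂) = S.E₁ ∪ S.E₂ := by
  simp [low, ← length_toList]

include ht in
lemma dist_succ (s : ℕ) (hs : 0 ≤ S.step) {x y : V} (hx : B.Mem x) (hy : B.Mem y) :
    B.dist (S.env (s + 1)) x y ≤ B.dist (S.env s) x y ∧
      B.dist (S.env s) x y - S.step ≤ B.dist (S.env (s + 1)) x y := by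
  have hsub : S.low s ⊆ S.low (s + 1) := by
    refine union_subset_union_right fun e he => ?_
    rw [List.mem_toFinset] at he ⊢
    exact List.take_subset_take_left _ (Nat.le_succ s) he
  have hle : ∀ e, S.env (s + 1) e ≤ S.env s e := fun e => by
    by_cases he : e ∈ S.low s
    · simp [env, he, hsub he]
    · rw [show S.env s e = t e by simp [env, he]]; exact S.env_le _ e
  refine ⟨Box.dist_mono (S.env_nonneg ht _) hle hx hy, ?_⟩
  have h := Box.dist_lower (B := B) (t := S.env s) (t' := S.env (s + 1)) (S.env_nonneg ht _) hle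
    (S.low (s + 1) \ S.low s) (fun e he => ?_) hx hy
  · have hcard : #(S.low (s + 1) \ S.low s) ≤ 1 := by
      refine le_trans (card_le_card (t := (S.E₂.toList[s]?).toFinset) fun e he => ?_) ?_
      · simp only [mem_sdiff, low, mem_union, List.mem_toFinset] at he
        obtain ⟨h1 | h1, h2⟩ := he
        · exact absurd (Or.inl h1) h2
        · rw [List.take_add_one, List.mem_append] at h1
          rcases h1 with h1 | h1
          · exact absurd (Or.inr h1) h2
          · cases hopt : S.E₂.toList[s]? <;> simp [hopt] at h1 ⊢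
            exact h1
      · cases S.E₂.toList[s]? <;> simp
    have hsum : ∑ e ∈ S.low (s + 1) \ S.low s, (S.env s e - S.env (s + 1) e) ≤ S.step := by
      rcases Nat.le_one_iff_eq_zero_or_eq_one.1 hcard with h0 | h1
      · rw [card_eq_zero.1 h0, sum_empty]; exact hs
      · obtain ⟨e, he⟩ := card_eq_one.1 h1
        have hm : e ∈ S.low (s + 1) \ S.low s := by rw [he]; exact mem_singleton_self e
        rw [mem_sdiff] at hm
        rw [he, sum_singleton]
        simp [env, hm.1, hm.2, (S.hamount e (S.low_subset _ hm.1)).2]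
    linarith
  · rw [mem_sdiff, not_and_or, not_not] at he
    rcases he with he | he
    · have : e ∉ S.low s := fun h => he (hsub h)
      simp [env, he, this]
    · simp [env, he, hsub he]

/-- The metrics, as abstract stages on the vertices of the box. -/
noncomputable def stages : Stages {z : V // B.Mem z} where
  d x y := B.dist t x.1 y.1
  T s x y := B.dist (S.env s) x.1 y.1
  W s := {w | ∃ e ∈ S.low s, w.1 ∈ e}
  nonneg s x y := Box.dist_nonneg (S.env_nonneg ht s) x.2 y.2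
  comm s x y := Box.dist_comm B _ _ _
  dcomm x y := Box.dist_comm B _ _ _
  tri s x y z := Box.dist_triangle (S.env_nonneg ht s) x.2 y.2 z.2
  le s x y := Box.dist_mono (S.env_nonneg ht s) (S.env_le s) x.2 y.2
  exit s x y := by
    rcases Box.exit_lowered ht (S.env_nonneg ht s) (S.env_le s) (S.low s)
      (fun e he => by simp [env, he]) x.2 y.2 with h | ⟨w, hw, he, h1, h2⟩
    · exact Or.inl h
    · exact Or.inr ⟨⟨w, hw⟩, he, h1, h2⟩

lemma W_subset (s : ℕ) : ∀ w : {z : V // B.Mem z}, w ∈ (S.stages ht).W s →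
    w.1 ∈ S.P1.verts ∪ S.P2.verts := by
  rintro w ⟨e, he, hwe⟩
  rcases mem_union.1 (S.low_subset s he) with h | h
  · exact Or.inl (S.P1.verts_of_edge (S.hE₁ h) hwe)
  · exact Or.inr (S.P2.verts_of_edge (S.hE₂ h) hwe)

include ht in
lemma dist_P1 (s : ℕ) {x y : V} (h0 : S.P1.f 0 = x) (hm : S.P1.f S.P1.m = y) :
    B.dist (S.env s) x y ≤ S.P1.cost - ∑ e ∈ S.E₁, (t e - S.u e) := by
  subst h0 hm
  refine (Box.dist_le (S.env_nonneg ht s) S.P1.walk).trans ?_
  rw [← S.P1.cost_piecewise S.u S.E₁ S.hE₁]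
  refine sum_le_sum fun i _ => ?_
  by_cases h1 : s(S.P1.f i, S.P1.f (i + 1)) ∈ S.E₁
  · have : s(S.P1.f i, S.P1.f (i + 1)) ∈ S.low s := mem_union_left _ h1
    simp [env, this, h1]
  · rw [piecewise_eq_of_notMem _ _ _ h1]
    exact S.env_le s _

include ht in
lemma dist_P2 : B.dist (S.env #S.E₂) (S.P2.f 0) (S.P2.f S.P2.m) ≤
    S.P2.cost - ∑ e ∈ S.E₂, (t e - S.u e) := by
  refine (Box.dist_le (S.env_nonneg ht _) S.P2.walk).trans ?_
  rw [← S.P2.cost_piecewise S.u S.E₂ S.hE₂]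
  refine sum_le_sum fun i _ => ?_
  by_cases h1 : s(S.P2.f i, S.P2.f (i + 1)) ∈ S.E₂
  · simp [env, S.low_last, h1]
  · rw [piecewise_eq_of_notMem _ _ _ h1]
    exact S.env_le _ _

include ht in
/-- From the start of `P1` to a vertex of it. -/
lemma dist_prefix (s : ℕ) {i : ℕ} (hi : i ≤ S.P1.m) :
    B.dist (S.env s) (S.P1.f 0) (S.P1.f i) ≤ pathCost t S.P1.f i :=
  (Box.dist_mono (S.env_nonneg ht s) (S.env_le s) (S.P1.mem (Nat.zero_le _)) (S.P1.mem hi)).trans
    (Box.dist_le ht (S.P1.walk.initSeg hi))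

include ht in
lemma fixed_first {i : ℕ} (hi : i ≤ S.P1.m) :
    B.dist t S.a (S.P1.f 0) + pathCost t S.P1.f i ≤ B.dist t S.a (S.P1.f i) := by
  have := (S.P1.at_vertex ht S.hb hi).2
  linarith [S.hab, Box.dist_triangle ht S.ha (S.P1.mem hi) S.hb]

include ht in
/-- From the start of `P1` to a vertex of `P2`, using the lowered first piece. -/
lemma dist_far (s : ℕ) {j : ℕ} (hj : j ≤ S.P2.m) :
    B.dist (S.env s) (S.P1.f 0) (S.P2.f j) ≤ S.P1.cost - ∑ e ∈ S.E₁, (t e - S.u e) +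
      B.dist t (S.P1.f S.P1.m) (S.P2.f 0) + pathCost t S.P2.f j := by
  have h1 := S.dist_P1 ht s rfl rfl
  have h2 := Box.dist_mono (B := B) (S.env_nonneg ht s) (S.env_le s) (S.P1.mem le_rfl)
    (S.P2.mem (Nat.zero_le _))
  have h3 := Box.dist_le ht (S.P2.walk.initSeg hj)
  have h4 := Box.dist_mono (B := B) (S.env_nonneg ht s) (S.env_le s) (S.P2.mem (Nat.zero_le _))
    (S.P2.mem hj)
  have h5 := Box.dist_triangle (B := B) (S.env_nonneg ht s) (S.P1.mem (Nat.zero_le _))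
    (S.P1.mem le_rfl) (S.P2.mem hj)
  have h6 := Box.dist_triangle (B := B) (S.env_nonneg ht s) (S.P1.mem le_rfl)
    (S.P2.mem (Nat.zero_le _)) (S.P2.mem hj)
  linarith

/-- Total lowering on `E₁`. -/
noncomputable def G₁ : ℝ := ∑ e ∈ S.E₁, (t e - S.u e)

/-- Total lowering on `E₂`. -/
noncomputable def G₂ : ℝ := ∑ e ∈ S.E₂, (t e - S.u e)

/-- What the gadget produces: an optimal `a`-`b` path with a piece from `v` of cost at most `X`
along which the gains add up to at least `η / 4`. -/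
def Out (η X : ℝ) : Prop :=
  ∃ s ≤ #S.E₂, ∃ (m : ℕ) (g : ℕ → V), B.IsWalk g m (S.P1.f 0) (g m) ∧ IsSimple g m ∧
    pathCost (S.env s) g m ≤ X ∧
    (∀ k < m, B.Thru (S.env s) S.a S.b (g k) (g (k + 1))) ∧
    η / 4 ≤ ∑ k ∈ range m, B.gain (S.env s) S.K (g k) (g (k + 1))

include ht in
lemma out_of_stages {η X : ℝ} {s : ℕ} (hs : s ≤ #S.E₂) {w : {z : V // B.Mem z}}
    (h : (S.stages ht).Out ⟨S.a, S.ha⟩ ⟨S.b, S.hb⟩ ⟨S.K, S.hK⟩
      ⟨S.P1.f 0, S.P1.mem (Nat.zero_le _)⟩ η s w)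
    (hX : B.dist t (S.P1.f 0) S.b - B.dist t w.1 S.b ≤ X) : S.Out η X := by
  obtain ⟨h1, h2, h3, h4, h5⟩ := h
  simp only [stages, Stages.D] at h1 h2 h3 h4 h5
  have hn := S.env_nonneg ht s
  have hv := S.P1.mem (Nat.zero_le _)
  obtain ⟨m, g, hg, hsimp, hc⟩ := Box.exists_optimal hn hv w.2
  have hgm : g m = w.1 := hg.1.2.1
  refine ⟨s, hs, m, g, by rw [hgm]; exact hg, hsimp, ?_, fun k hk => ?_, ?_⟩
  · rw [hc]
    linarith [Box.dist_mono (B := B) hn (S.env_le s) hv S.hb]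
  · obtain ⟨ht1, -, -⟩ := Box.thru_of_optimal hn hg hc hk
    obtain ⟨hnb, hp, hq, he⟩ := ht1
    refine ⟨hnb, hp, hq, le_antisymm (Box.dist_le_through hn S.ha S.hb hp hq hnb) ?_⟩
    linarith [Box.dist_triangle hn S.ha hv hp, Box.dist_triangle hn hq w.2 S.hb]
  · rw [Box.sum_gain, hgm, hg.1.1, hc]
    linarith

include ht in
/-- The vertices of the lowered edges satisfy the condition on the first vertex. -/
lemma first (hfar : ∀ j ≤ S.P2.m, B.dist t S.a (S.P1.f 0) + (S.P1.cost - S.G₁ +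
      B.dist t (S.P1.f S.P1.m) (S.P2.f 0) + pathCost t S.P2.f j) ≤ B.dist t S.a (S.P2.f j))
    (s : ℕ) (u : {z : V // B.Mem z}) (hu : u.1 ∈ S.P1.verts ∨ u.1 ∈ S.P2.verts) :
    B.dist t S.a (S.P1.f 0) + B.dist (S.env s) (S.P1.f 0) u.1 ≤ B.dist t S.a u.1 := by
  rcases hu with ⟨i, hi, e⟩ | ⟨j, hj, e⟩ <;> rw [e]
  · linarith [S.dist_prefix ht s hi, S.fixed_first ht hi]
  · have h1 := S.dist_far ht s hj
    have h2 := hfar j hj
    unfold G₁ at h2
    linarith

include ht in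
/-- The lowered first piece lowers the distance to `b`. -/
lemma low_b (s : ℕ) : B.dist (S.env s) (S.P1.f 0) S.b ≤
    B.dist t (S.P1.f 0) S.b - S.G₁ := by
  have h1 := S.dist_P1 ht s rfl rfl
  have hn := S.env_nonneg ht s
  have h2 := Box.dist_triangle (B := B) hn (S.P1.mem (Nat.zero_le _)) (S.P1.mem le_rfl) S.hb
  have h3 := Box.dist_mono (B := B) hn (S.env_le s) (S.P1.mem le_rfl) S.hb
  have h4 : B.dist t (S.P1.f 0) S.b = S.P1.cost + B.dist t (S.P1.f S.P1.m) S.b := S.P1.opt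
  unfold G₁
  linarith

include ht in
lemma step_le (s : ℕ) {η : ℝ} (hs : 0 ≤ S.step) (hstep : S.step ≤ η / 8) :
    |(S.stages ht).D (s + 1) ⟨S.K, S.hK⟩ ⟨S.b, S.hb⟩ ⟨S.P1.f 0, S.P1.mem (Nat.zero_le _)⟩ -
      (S.stages ht).D s ⟨S.K, S.hK⟩ ⟨S.b, S.hb⟩ ⟨S.P1.f 0, S.P1.mem (Nat.zero_le _)⟩| ≤ η / 4 := by
  show |(B.dist (S.env (s + 1)) (S.P1.f 0) S.K - B.dist (S.env (s + 1)) (S.P1.f 0) S.b) -
    (B.dist (S.env s) (S.P1.f 0) S.K - B.dist (S.env s) (S.P1.f 0) S.b)| ≤ η / 4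
  obtain ⟨h1, h2⟩ := S.dist_succ ht s hs (S.P1.mem (Nat.zero_le _)) S.hb
  obtain ⟨h3, h4⟩ := S.dist_succ ht s hs (S.P1.mem (Nat.zero_le _)) S.hK
  rw [abs_le]
  constructor <;> linarith

include ht in
/-- The case in which the difference at the detour is larger; `P2` leads towards `b`. -/
theorem up {η c X : ℝ} (hη : 0 < η) (hs : 0 ≤ S.step) (hstep : S.step ≤ η / 8) (hy : S.y2 = S.b)
    (hc : c = B.dist t (S.P1.f S.P1.m) S.K - B.dist t (S.P1.f S.P1.m) S.b)
    (hz : c + η ≤ B.dist t (S.P2.f 0) S.K - B.dist t (S.P2.f 0) S.b)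
    (hfar : B.dist t (S.P2.f 0) S.b ≤ B.dist t (S.P1.f S.P1.m) S.b - S.P1.cost - η)
    (hJ : B.dist t (S.P1.f S.P1.m) (S.P2.f 0) + B.dist t (S.P2.f 0) S.b
      - B.dist t (S.P1.f S.P1.m) S.b ≤ S.G₁)
    (hG : 2 * S.P1.cost + η ≤ S.G₂)
    (hX : S.P1.cost + (B.dist t (S.P1.f S.P1.m) S.b - B.dist t (S.P2.f 0) S.b) + S.P2.cost ≤ X) :
    S.Out η X := by
  have hb := S.hb
  have hK := S.hK
  have o1 : B.dist t (S.P1.f 0) S.b = S.P1.cost + B.dist t (S.P1.f S.P1.m) S.b := S.P1.opt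
  have hv2 : ∀ j ≤ S.P2.m, B.dist t (S.P2.f 0) S.b = pathCost t S.P2.f j +
      B.dist t (S.P2.f j) S.b := fun j hj => hy ▸ (S.P2.at_vertex ht S.hy2 hj).2
  have hP2 : ∀ j ≤ S.P2.m, B.dist t (S.P2.f j) S.b ≤ B.dist t (S.P2.f 0) S.b ∧
      c + η ≤ B.dist t (S.P2.f j) S.K - B.dist t (S.P2.f j) S.b := fun j hj => by
    have h1 := (S.P2.diff_mono ht S.hy2 hK hj).1
    have h5 : B.dist t (S.P2.f 0) S.y2 = B.dist t (S.P2.f 0) S.b :=
      congrArg (B.dist t (S.P2.f 0)) hy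
    have h6 : B.dist t (S.P2.f j) S.y2 = B.dist t (S.P2.f j) S.b :=
      congrArg (B.dist t (S.P2.f j)) hy
    constructor <;> linarith [hv2 j hj, (S.P2.cost_prefix_le ht hj).1]
  have hkp : ∀ i ≤ S.P1.m,
      B.dist t (S.P1.f S.P1.m) S.K - S.P1.cost ≤ B.dist t (S.P1.f i) S.K := fun i hi => by
    have h1 := Box.dist_le ht (S.P1.walk.suffix hi)
    rw [Box.dist_comm] at h1
    linarith [Box.dist_triangle ht (S.P1.mem le_rfl) (S.P1.mem hi) hK, S.P1.cost_split hi,
      (S.P1.cost_prefix_le ht hi).1]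
  obtain ⟨s, hs', w, hwσ, hout⟩ := Stages.gadget_up (S.stages ht)
    (a := ⟨S.a, S.ha⟩) (b := ⟨S.b, S.hb⟩) (K := ⟨S.K, S.hK⟩)
    (v := ⟨S.P1.f 0, S.P1.mem (Nat.zero_le _)⟩)
    (L := #S.E₂) (η := η) (c := c) (kp := B.dist t (S.P1.f S.P1.m) S.K - S.P1.cost)
    (S := {w | w.1 ∈ S.P1.verts}) (σ := {w | w.1 ∈ S.P2.verts}) hη
    (fun s w hw => S.W_subset ht s w hw) S.hab
    (fun s u hu => S.first ht (fun j hj => by
      linarith [hv2 j hj, (S.P1.at_vertex ht hb (le_refl S.P1.m)).2, S.hab,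
        Box.dist_triangle ht S.ha (S.P2.mem hj) hb,
        show S.P1.cost = pathCost t S.P1.f S.P1.m from rfl]) s u hu)
    (fun u ⟨i, hi, e⟩ => by
      show B.dist t u.1 S.K - B.dist t u.1 S.b ≤ c ∧ _ ≤ B.dist t u.1 S.K
      rw [e]
      exact ⟨by linarith [(S.P1.diff_mono ht hb hK hi).2], hkp i hi⟩)
    (fun u ⟨j, hj, e⟩ => by
      show c + η ≤ B.dist t u.1 S.K - B.dist t u.1 S.b ∧
        B.dist t u.1 S.b + c + η ≤ _
      rw [e]
      obtain ⟨h1, h2⟩ := hP2 j hj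
      exact ⟨h2, by linarith⟩)
    (hkp 0 (Nat.zero_le _))
    (fun s => by
      show B.dist (S.env s) (S.P1.f 0) S.b < B.dist t (S.P1.f 0) S.b
      linarith [S.low_b ht s, S.hne, show S.G₁ = ∑ e ∈ S.E₁, (t e - S.u e) from rfl])
    (by
      show B.dist (S.env 0) (S.P1.f 0) S.K - B.dist (S.env 0) (S.P1.f 0) S.b ≤ c
      have hn := S.env_nonneg ht 0
      have h1 := S.dist_P1 ht 0 rfl rfl
      have h2 := Box.dist_lower (B := B) (t := t) (t' := S.env 0) hn (S.env_le 0)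
        S.E₁ (fun e he => by simp [env, low, he]) (S.P1.mem (Nat.zero_le _)) hb
      have h3 : ∀ e ∈ S.E₁, t e - S.env 0 e = t e - S.u e := fun e he => by simp [env, low, he]
      rw [sum_congr rfl h3] at h2
      linarith [Box.dist_triangle (B := B) hn (S.P1.mem (Nat.zero_le _)) (S.P1.mem le_rfl) hK,
        Box.dist_mono (B := B) hn (S.env_le 0) (S.P1.mem le_rfl) hK])
    (by
      show B.dist (S.env #S.E₂) (S.P1.f 0) S.b + c + η / 2 ≤ _
      have h1 := S.dist_far ht #S.E₂ (j := 0) (Nat.zero_le _)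
      have h2 := S.dist_P2 ht
      have o2 := hv2 _ le_rfl
      have hn := S.env_nonneg ht #S.E₂
      simp only [G₁] at hJ
      simp only [G₂] at hG
      linarith [Box.dist_triangle (B := B) hn (S.P1.mem (Nat.zero_le _))
          (S.P2.mem (Nat.zero_le _)) hb,
        Box.dist_triangle (B := B) hn (S.P2.mem (Nat.zero_le _)) (S.P2.mem le_rfl) hb,
        Box.dist_mono (B := B) hn (S.env_le _) (S.P2.mem le_rfl) hb,
        show S.P2.cost = pathCost t S.P2.f S.P2.m from rfl,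
        show pathCost t S.P2.f 0 = 0 by simp [pathCost]])
    (fun s => S.step_le ht s hs hstep)
  refine S.out_of_stages ht hs' hout ?_
  obtain ⟨j, hj, hw⟩ := hwσ
  rw [hw]
  linarith [hv2 j hj, (S.P2.cost_prefix_le ht hj).2]

include ht in
/-- The case in which the difference at the detour is smaller; `P2` leads towards `K`, and `P3`
continues the old path beyond `p` to the far vertex `P3.f P3.m`. -/
theorem down {η c X : ℝ} (hη : 0 < η) (hs : 0 ≤ S.step) (hstep : S.step ≤ η / 8) (hy : S.y2 = S.K)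
    (P3 : Piece B t S.b) (h3 : P3.f 0 = S.P1.f S.P1.m)
    (hc : c = B.dist t (S.P1.f S.P1.m) S.K - B.dist t (S.P1.f S.P1.m) S.b)
    (hz : B.dist t (S.P2.f 0) S.K - B.dist t (S.P2.f 0) S.b ≤ c - η)
    (hfar : B.dist t (P3.f P3.m) S.b + (B.dist t (S.P1.f S.P1.m) (S.P2.f 0) + S.P1.cost
      + S.P2.cost) ≤ B.dist t (S.P1.f S.P1.m) S.b)
    (hG1 : 2 * (B.dist t (S.P1.f S.P1.m) (S.P2.f 0) + S.P2.cost) ≤ S.G₁)
    (hG2 : 2 * B.dist t (S.P1.f S.P1.m) (S.P2.f 0) ≤ S.G₂)
    (hX : S.P1.cost + P3.cost ≤ X) : S.Out η X := by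
  have hb := S.hb
  have hK := S.hK
  have hp := S.P1.mem (le_refl S.P1.m)
  have hz0 := S.P2.mem (Nat.zero_le _)
  have o1 : B.dist t (S.P1.f 0) S.b = S.P1.cost + B.dist t (S.P1.f S.P1.m) S.b := S.P1.opt
  have o3 : B.dist t (S.P1.f S.P1.m) S.b = P3.cost + B.dist t (P3.f P3.m) S.b := by
    rw [← h3]; exact P3.opt
  have hv2 : ∀ j ≤ S.P2.m, B.dist t (S.P2.f 0) S.K = pathCost t S.P2.f j +
      B.dist t (S.P2.f j) S.K := fun j hj => hy ▸ (S.P2.at_vertex ht S.hy2 hj).2
  have hP2 : ∀ j ≤ S.P2.m,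
      B.dist t (S.P2.f j) S.K - B.dist t (S.P2.f j) S.b ≤ c - η := fun j hj => by
    linarith [hv2 j hj, Box.dist_le ht (S.P2.walk.initSeg hj),
      Box.dist_triangle ht hz0 (S.P2.mem hj) hb]
  have hd2 : ∀ j ≤ S.P2.m, B.dist t (S.P1.f S.P1.m) (S.P2.f j) ≤
      B.dist t (S.P1.f S.P1.m) (S.P2.f 0) + pathCost t S.P2.f j := fun j hj => by
    linarith [Box.dist_le ht (S.P2.walk.initSeg hj), Box.dist_triangle ht hp hz0 (S.P2.mem hj)]
  obtain ⟨s, hs', hout⟩ := Stages.gadget_down (S.stages ht)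
    (a := ⟨S.a, S.ha⟩) (b := ⟨S.b, S.hb⟩) (K := ⟨S.K, S.hK⟩)
    (v := ⟨S.P1.f 0, S.P1.mem (Nat.zero_le _)⟩)
    (q := ⟨P3.f P3.m, P3.mem le_rfl⟩)
    (L := #S.E₂) (η := η) (c := c)
    (S := {w | w.1 ∈ S.P1.verts}) (σ := {w | w.1 ∈ S.P2.verts}) hη
    (fun s w hw => S.W_subset ht s w hw)
    (fun w ⟨e, he, hwe⟩ => S.P1.verts_of_edge (S.hE₁ (by simpa [low] using he)) hwe)
    S.hab
    (fun s u hu => S.first ht (fun j hj => by
      linarith [hd2 j hj, Box.dist_triangle ht S.ha (S.P2.mem hj) hp,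
        Box.dist_comm B t (S.P2.f j) (S.P1.f S.P1.m), (S.P2.cost_prefix_le ht hj).2,
        S.fixed_first ht (le_refl S.P1.m),
        show S.P1.cost = pathCost t S.P1.f S.P1.m from rfl]) s u hu)
    (fun u ⟨i, hi, e⟩ => by
      show B.dist t u.1 S.K - B.dist t u.1 S.b ≤ c ∧
        B.dist t u.1 S.b = B.dist t u.1 (P3.f P3.m) + B.dist t (P3.f P3.m) S.b
      rw [e]
      refine ⟨by linarith [(S.P1.diff_mono ht hb hK hi).2], le_antisymm
        (Box.dist_triangle ht (S.P1.mem hi) (P3.mem le_rfl) hb) ?_⟩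
      have h1 := Box.dist_le ht (S.P1.walk.suffix hi)
      have h2 := Box.dist_le ht P3.walk
      rw [h3] at h2
      linarith [(S.P1.at_vertex ht hb hi).1, show P3.cost = pathCost t P3.f P3.m from rfl,
        Box.dist_triangle ht (S.P1.mem hi) hp (P3.mem (le_refl P3.m))])
    (fun u ⟨j, hj, e⟩ => by
      show B.dist t u.1 S.K - B.dist t u.1 S.b ≤ c - η
      rw [e]
      exact hP2 j hj)
    (by
      show c ≤ B.dist t (P3.f P3.m) S.K - B.dist t (P3.f P3.m) S.b
      have h4 := (P3.diff_mono ht hb hK (le_refl P3.m)).1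
      rw [h3] at h4
      linarith)
    (fun u hu => by
      show B.dist t (P3.f P3.m) S.b + c ≤ B.dist t u.1 S.K
      rcases hu with ⟨i, hi, e⟩ | ⟨j, hj, e⟩ <;> rw [e]
      · have h1 := Box.dist_le ht (S.P1.walk.suffix hi)
        rw [Box.dist_comm] at h1
        linarith [Box.dist_triangle ht hp (S.P1.mem hi) hK, S.P1.cost_split hi,
          (S.P1.cost_prefix_le ht hi).1, Box.dist_nonneg ht hp hz0,
          show 0 ≤ S.P2.cost from pathCost_nonneg ht _ _]
      · linarith [hd2 j hj, Box.dist_triangle ht hp (S.P2.mem hj) hK,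
          (S.P2.cost_prefix_le ht hj).2, show 0 ≤ S.P1.cost from pathCost_nonneg ht _ _])
    (fun s => by
      show B.dist (S.env s) (S.P1.f 0) S.b < B.dist t (S.P1.f 0) S.b
      linarith [S.low_b ht s, S.hne, show S.G₁ = ∑ e ∈ S.E₁, (t e - S.u e) from rfl])
    (fun u ⟨i, hi, e⟩ => by
      show B.dist (S.env #S.E₂) u.1 S.K - B.dist t u.1 S.b ≤ c - η / 2
      rw [e]
      have hn := S.env_nonneg ht #S.E₂
      have h2 := S.dist_P2 ht
      have o2 := hv2 _ le_rfl
      simp only [G₂] at hG2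
      linarith [Box.dist_triangle (B := B) hn (S.P1.mem hi) hp hK,
        Box.dist_triangle (B := B) hn hp hz0 hK,
        Box.dist_triangle (B := B) hn hz0 (S.P2.mem le_rfl) hK,
        Box.dist_mono (B := B) hn (S.env_le _) (S.P2.mem le_rfl) hK,
        Box.dist_mono (B := B) hn (S.env_le _) hp hz0,
        Box.dist_mono (B := B) hn (S.env_le _) (S.P1.mem hi) hp,
        Box.dist_le ht (S.P1.walk.suffix hi), (S.P1.at_vertex ht hb hi).1,
        show S.P2.cost = pathCost t S.P2.f S.P2.m from rfl,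
        Box.dist_triangle ht hz0 hp hb, Box.dist_comm B t (S.P2.f 0) (S.P1.f S.P1.m)])
    (fun s => S.step_le ht s hs hstep)
  refine S.out_of_stages ht hs' hout ?_
  show B.dist t (S.P1.f 0) S.b - B.dist t (P3.f P3.m) S.b ≤ X
  linarith

end Setup

end Vale.Agent.P158.NB
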