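import Mathlib

/-!
# Lemma G of `PROOF.md`: the array form

`d` is a Monge array, `g i` its change when the `i`-th edge is raised.
-/

open Finset

namespace Vale.Agent.P158.NB

/-- A mixed difference. -/
def cell (d : ℕ → ℕ → ℝ) (u v : ℕ) : ℝ := d u v + d (u + 1) (v + 1) - d (u + 1) v - d u (v + 1)

lemma sum_cell (d : ℕ → ℕ → ℝ) (a B N : ℕ) (hBN : B ≤ N) :
    ∑ u ∈ range a, ∑ v ∈ Ico B N, cell d u v = d 0 B + d a N - d a B - d 0 N := by
  induction a with
  | zero => simp
  | succ a ih =>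
    rw [sum_range_succ, ih]
    have h : ∑ v ∈ Ico B N, cell d a v = (d a B - d (a + 1) B) - (d a N - d (a + 1) N) := by
      rw [← neg_inj, ← sum_neg_distrib]
      have := sum_Ico_sub (f := fun v => d a v - d (a + 1) v) hBN
      rw [show -((d a B - d (a + 1) B) - (d a N - d (a + 1) N)) =
        (d a N - d (a + 1) N) - (d a B - d (a + 1) B) by ring, ← this]
      refine sum_congr rfl fun v _ => ?_
      simp only [cell]; ring
    rw [h]; ring

/-- Four corners of a cell. -/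
def corners : Finset (ℕ × ℕ) := {(0, 0), (0, 1), (1, 0), (1, 1)}

/-- Edges with margin `δ` carry total gain at most `4 * Y * mass / δ`. -/
theorem gain_array {ι : Type*} (s : Finset ι) (N A : ℕ) (hA : A ≤ N) (d : ℕ → ℕ → ℝ)
    (g : ι → ℕ → ℕ → ℝ) (a b : ι → ℕ) (γ : ι → ℝ) (δ Y : ℝ)
    (ha : ∀ i ∈ s, a i ≤ A) (hb : ∀ i ∈ s, A ≤ b i ∧ b i ≤ N)
    (hm : ∀ u < A, ∀ v ∈ Ico A N, 0 ≤ cell d u v)
    (hmg : ∀ i ∈ s, ∀ u < a i, ∀ v ∈ Ico (b i) N, 0 ≤ cell d u v + cell (g i) u v)
    (hg : ∀ i ∈ s, ∀ u ≤ a i, ∀ v ∈ Icc (b i) N, 0 ≤ g i u v)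
    (hS : ∀ i ∈ s, δ ≤ g i (a i) (b i))
    (h0b : ∀ i ∈ s, g i 0 (b i) = 0) (h0N : ∀ i ∈ s, g i 0 N = 0)
    (haN : ∀ i ∈ s, g i (a i) N = 0) (hγ : ∀ i ∈ s, 0 ≤ γ i)
    (hY : ∀ u ≤ A, ∀ v ∈ Icc A N,
      ∑ i ∈ s with (u ≤ a i ∧ b i ≤ v ∧ 0 < g i u v), γ i ≤ Y) :
    δ * ∑ i ∈ s, γ i ≤ 4 * Y * (d 0 A + d A N - d A A - d 0 N) := by
  classical
  set C := range A ×ˢ Ico A N with hC
  -- the cells relevant for an edge
  set Q : ι → ℕ × ℕ → Prop := fun i c => c.1 < a i ∧ b i ≤ c.2 ∧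
    ∃ k ∈ corners, 0 < g i (c.1 + k.1) (c.2 + k.2) with hQ
  have key : ∀ i ∈ s, δ ≤ ∑ c ∈ C with Q i c, cell d c.1 c.2 := by
    intro i hi
    obtain ⟨hb1, hb2⟩ := hb i hi
    set R := range (a i) ×ˢ Ico (b i) N with hR
    have hRC : R ⊆ C := by
      intro c hc
      simp only [hR, hC, mem_product, mem_range, mem_Ico] at hc ⊢
      have := ha i hi
      omega
    have hsum : ∑ c ∈ R, cell (g i) c.1 c.2 ≤ -δ := by
      rw [sum_product, sum_cell _ _ _ _ hb2, h0b i hi, haN i hi, h0N i hi]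
      linarith [hS i hi]
    have hzero : ∀ c ∈ R, ¬ Q i c → cell (g i) c.1 c.2 = 0 := by
      intro c hc hnQ
      simp only [hR, mem_product, mem_range, mem_Ico] at hc
      simp only [hQ, not_and, not_exists] at hnQ
      have hv : ∀ k ∈ corners, g i (c.1 + k.1) (c.2 + k.2) = 0 := by
        intro k hk
        refine le_antisymm (not_lt.1 (hnQ hc.1 hc.2.1 k hk)) (hg i hi _ ?_ _ ?_)
        · simp only [corners, mem_insert, mem_singleton] at hk
          rcases hk with rfl | rfl | rfl | rfl <;> simp <;> omega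
        · simp only [corners, mem_insert, mem_singleton] at hk
          rw [mem_Icc]
          rcases hk with rfl | rfl | rfl | rfl <;> simp <;> omega
      have h1 := hv (0, 0) (by simp [corners])
      have h2 := hv (0, 1) (by simp [corners])
      have h3 := hv (1, 0) (by simp [corners])
      have h4 := hv (1, 1) (by simp [corners])
      simp only [add_zero] at h1 h2 h3 h4
      simp [cell, h1, h2, h3, h4]
    rw [← sum_filter_add_sum_filter_not R (Q i)] at hsum
    rw [sum_eq_zero (s := R.filter fun c => ¬ Q i c) fun c hc =>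
      hzero c (mem_filter.1 hc).1 (mem_filter.1 hc).2, add_zero] at hsum
    have h1 : -∑ c ∈ R with Q i c, cell (g i) c.1 c.2 ≤ ∑ c ∈ R with Q i c, cell d c.1 c.2 := by
      rw [← sum_neg_distrib]
      refine sum_le_sum fun c hc => ?_
      have hc := (mem_filter.1 hc).1
      simp only [hR, mem_product, mem_range] at hc
      linarith [hmg i hi c.1 hc.1 c.2 hc.2]
    have h2 : ∑ c ∈ R with Q i c, cell d c.1 c.2 ≤ ∑ c ∈ C with Q i c, cell d c.1 c.2 := by
      refine sum_le_sum_of_subset_of_nonneg (filter_subset_filter _ hRC) fun c hc _ => ?_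
      have hc := (mem_filter.1 hc).1
      simp only [hC, mem_product, mem_range] at hc
      exact hm c.1 hc.1 c.2 hc.2
    linarith
  have hcorn : ∀ c ∈ C, ∑ i ∈ s with Q i c, γ i ≤ 4 * Y := by
    intro c hc
    simp only [hC, mem_product, mem_range, mem_Ico] at hc
    have hsub : ∑ i ∈ s with Q i c, γ i ≤ ∑ k ∈ corners,
        ∑ i ∈ s with (c.1 + k.1 ≤ a i ∧ b i ≤ c.2 + k.2 ∧ 0 < g i (c.1 + k.1) (c.2 + k.2)), γ i := by
      simp only [sum_filter]
      rw [sum_comm]
      refine sum_le_sum fun i hi => ?_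
      by_cases h : Q i c
      · obtain ⟨h1, h2, k, hk, hk0⟩ := h
        rw [if_pos ⟨h1, h2, k, hk, hk0⟩]
        have hk' : c.1 + k.1 ≤ a i ∧ b i ≤ c.2 + k.2 := by
          simp only [corners, mem_insert, mem_singleton] at hk
          rcases hk with rfl | rfl | rfl | rfl <;> simp <;> omega
        refine le_trans (le_of_eq (if_pos ⟨hk'.1, hk'.2, hk0⟩).symm)
          (single_le_sum (f := fun k : ℕ × ℕ => if c.1 + k.1 ≤ a i ∧ b i ≤ c.2 + k.2 ∧
            0 < g i (c.1 + k.1) (c.2 + k.2) then γ i else 0) (fun k _ => ?_) hk)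
        split_ifs
        exacts [hγ i hi, le_rfl]
      · rw [if_neg h]
        refine sum_nonneg fun k _ => ?_
        split_ifs
        exacts [hγ i hi, le_rfl]
    refine hsub.trans ?_
    have h4 : ∀ k ∈ corners,
        ∑ i ∈ s with (c.1 + k.1 ≤ a i ∧ b i ≤ c.2 + k.2 ∧ 0 < g i (c.1 + k.1) (c.2 + k.2)), γ i
          ≤ Y := by
      intro k hk
      refine hY _ ?_ _ ?_
      · simp only [corners, mem_insert, mem_singleton] at hk
        rcases hk with rfl | rfl | rfl | rfl <;> simp <;> omega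
      · simp only [corners, mem_insert, mem_singleton] at hk
        rw [mem_Icc]
        rcases hk with rfl | rfl | rfl | rfl <;> simp <;> omega
    refine (sum_le_card_nsmul _ _ _ h4).trans ?_
    rw [nsmul_eq_mul, show corners.card = 4 by decide]
    norm_num
  calc δ * ∑ i ∈ s, γ i = ∑ i ∈ s, δ * γ i := mul_sum _ _ _
    _ ≤ ∑ i ∈ s, ∑ c ∈ C with Q i c, γ i * cell d c.1 c.2 := sum_le_sum fun i hi => by
        rw [← mul_sum, mul_comm]; exact mul_le_mul_of_nonneg_left (key i hi) (hγ i hi)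
    _ = ∑ c ∈ C, cell d c.1 c.2 * ∑ i ∈ s with Q i c, γ i := by
        simp only [sum_filter]
        rw [sum_comm]
        refine sum_congr rfl fun c _ => ?_
        rw [mul_sum]
        exact sum_congr rfl fun i _ => by split_ifs <;> ring
    _ ≤ ∑ c ∈ C, cell d c.1 c.2 * (4 * Y) := sum_le_sum fun c hc => by
        have hc' := hc
        simp only [hC, mem_product, mem_range] at hc'
        exact mul_le_mul_of_nonneg_left (hcorn c hc) (hm c.1 hc'.1 c.2 hc'.2)
    _ = 4 * Y * (d 0 A + d A N - d A A - d 0 N) := by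
        rw [← sum_mul, mul_comm, hC, sum_product, sum_cell _ _ _ _ hA]

end Vale.Agent.P158.NB
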