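import Vale.Agent.P158.NB.Events
import Vale.Agent.P158.NB.GainArray

/-!
# Lemma G of `PROOF.md` in a frame

Few edges of a window carry a margin segment with a large gain towards an end of the bin of its
second endpoint.
-/

open Finset
open scoped Classical

namespace Vale.Agent.P158.NB

/-- Distances between boundary positions satisfy both crossing inequalities. -/
def Box.Monge (B : Box) : Prop :=
  ∀ t : Env, (∀ e, 0 ≤ t e) → ∀ i k j l, i ≤ k → k ≤ j → j ≤ l → l ≤ B.len →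
    B.dist t (B.pos i) (B.pos k) + B.dist t (B.pos j) (B.pos l) ≤
      B.dist t (B.pos i) (B.pos j) + B.dist t (B.pos k) (B.pos l) ∧
    B.dist t (B.pos i) (B.pos l) + B.dist t (B.pos k) (B.pos j) ≤
      B.dist t (B.pos i) (B.pos j) + B.dist t (B.pos k) (B.pos l)

namespace Gain

variable {B : Box} {t : Env}

/-- The core: the first endpoints are among `U`, the second ones and the target among `W`. -/
theorem core (ht : ∀ e, 0 ≤ t e) {K : V} {U W : ℕ → V} {A N : ℕ} (hA : A ≤ N) {X δ η : ℝ}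
    (hδ : 0 < δ) (hη : 0 < η) (hU : ∀ u ≤ A, B.Mem (U u)) (hW : ∀ v ∈ Icc A N, B.Mem (W v))
    (hex : ∀ w : Env, (∀ e, 0 ≤ w e) → ∀ u u' v v', u ≤ u' → u' ≤ A → A ≤ v → v ≤ v' → v' ≤ N →
      B.dist w (U u') (W v) + B.dist w (U u) (W v') ≤
        B.dist w (U u) (W v) + B.dist w (U u') (W v'))
    (hU0 : U 0 = K) (hWN : W N = K) (hXA : B.dist t (U A) K ≤ X)
    (hX : ∀ v ∈ Icc A N, B.dist t (W v) K ≤ X)
    (s : Finset (Sym2 V)) (P Q : Sym2 V → V) (a b : Sym2 V → ℕ)
    (hPQ : ∀ e ∈ s, s(P e, Q e) = e ∧ 0 < t e ∧ a e ≤ A ∧ b e ∈ Icc A N ∧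
      B.Thru t (U (a e)) (W (b e)) (P e) (Q e) ∧ B.Marg t (U (a e)) (W (b e)) e δ ∧
      η ≤ B.gain t K (P e) (Q e))
    (hshort : ∀ e ∈ s, ∀ v ∈ Icc A N, B.dist (raise t e δ) K (W v) ≤ B.dist t K (W v)) :
    δ * η * #s ≤ 16 * X ^ 2 := by
  have h0A : (0 : ℕ) ≤ A := Nat.zero_le _
  have hAm : A ∈ Icc A N := mem_Icc.2 ⟨le_rfl, hA⟩
  have hNm : N ∈ Icc A N := mem_Icc.2 ⟨hA, le_rfl⟩
  set d : ℕ → ℕ → ℝ := fun u v => B.dist t (U u) (W v) with hd
  set g : Sym2 V → ℕ → ℕ → ℝ := fun e u v =>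
    B.dist (raise t e δ) (U u) (W v) - B.dist t (U u) (W v) with hgdef
  have hK : B.Mem K := hU0 ▸ hU 0 h0A
  have hg0 : ∀ e u v, u ≤ A → v ∈ Icc A N → 0 ≤ g e u v := fun e u v hu hv =>
    sub_nonneg.2 (Box.dist_le_raise ht e hδ.le (hU u hu) (hW v hv))
  have hz : ∀ e ∈ s, ∀ v ∈ Icc A N, g e 0 v = 0 := fun e he v hv => by
    refine le_antisymm ?_ (hg0 e 0 v h0A hv)
    simp only [hgdef, hU0]
    linarith [hshort e he v hv]
  -- a positive change forces the use of the edge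
  have huse : ∀ e u v (f : ℕ → V) (m : ℕ), B.IsWalk f m (U u) (W v) →
      pathCost t f m = d u v → 0 < g e u v → ∃ k < m, s(f k, f (k + 1)) = e := by
    intro e u v f m hf hc hg
    by_contra hh
    simp only [not_exists, not_and] at hh
    have h1 := Box.dist_le (Box.raise_nonneg ht e hδ.le) hf
    rw [Box.pathCost_raise_of_avoid hh, hc] at h1
    simp only [hgdef] at hg
    simp only [hd] at h1
    linarith
  -- and in the direction of the segment
  have hdir : ∀ e ∈ s, ∀ u v, u ≤ a e → b e ≤ v → v ≤ N → ∀ (f : ℕ → V) (m : ℕ),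
      B.IsWalk f m (U u) (W v) → pathCost t f m = d u v → 0 < g e u v →
      ∃ k < m, f k = P e ∧ f (k + 1) = Q e := by
    intro e he u v hu hb hv f m hf hc hg
    obtain ⟨hE, hte, hae, hbe, hT, -, -⟩ := hPQ e he
    obtain ⟨k, hk, hke⟩ := huse e u v f m hf hc hg
    rw [← hE] at hke
    rcases Sym2.eq_iff.1 hke with h | ⟨h1, h2⟩
    · exact ⟨k, hk, h⟩
    exfalso
    have hT' := (Box.thru_of_optimal ht hf hc hk).1
    rw [h1, h2] at hT'
    have hbA := (mem_Icc.1 hbe)
    have hvm : v ∈ Icc A N := mem_Icc.2 ⟨hbA.1.trans hb, hv⟩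
    have hu' : B.Mem (U u) := hU u (hu.trans hae)
    have hv' : B.Mem (W v) := hW v hvm
    have h3 := hex t ht u (a e) (b e) v hu hae hbA.1 hb hv
    have h4 := Box.dist_triangle ht hu' hT'.mem_left (hW _ hbe)
    have h5 := Box.dist_triangle ht (hU _ hae) hT.mem_left hv'
    have h6 := hT.2.2.2
    have h7 := hT'.2.2.2
    have hte' : 0 < t s(P e, Q e) := by rw [hE]; exact hte
    rw [Sym2.eq_swap] at h7
    -- the mixed pairs are too short
    have h8 : B.dist t (U u) (W v) = B.dist t (U u) (Q e) + t s(P e, Q e) + B.dist t (P e) (W v) :=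
      h7
    linarith
  have hhN : ∀ e ∈ s, g e (a e) N = 0 := by
    intro e he
    obtain ⟨hE, hte, hae, hbe, hT, -, hgain⟩ := hPQ e he
    refine le_antisymm (le_of_not_gt fun hg => ?_) (hg0 e _ _ hae hNm)
    obtain ⟨m, f, hf, -, hc⟩ := Box.exists_optimal ht (hU _ hae) (hW N hNm)
    obtain ⟨k, hk, h1, h2⟩ :=
      hdir e he (a e) N le_rfl (mem_Icc.1 hbe).2 le_rfl f m hf hc hg
    have hT' := (Box.thru_of_optimal ht hf hc hk).1
    rw [h1, h2, hWN] at hT'
    have := hT'.dist_right ht (hU _ hae) hK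
    simp only [Box.gain] at hgain
    linarith
  have h := gain_array s N A hA d g a b (fun _ => η) δ (2 * X)
    (fun e he => (hPQ e he).2.2.1) (fun e he => mem_Icc.1 (hPQ e he).2.2.2.1)
    (fun u hu v hv => by
      rw [mem_Ico] at hv
      have := hex t ht u (u + 1) v (v + 1) (Nat.le_succ u) hu hv.1 (Nat.le_succ v) hv.2
      simp only [cell, hd]; linarith)
    (fun e he u hu v hv => by
      rw [mem_Ico] at hv
      have hb := mem_Icc.1 (hPQ e he).2.2.2.1
      have := hex (raise t e δ) (Box.raise_nonneg ht e hδ.le) u (u + 1) v (v + 1) (Nat.le_succ u)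
        ((Nat.succ_le_of_lt hu).trans (hPQ e he).2.2.1) (hb.1.trans hv.1) (Nat.le_succ v) hv.2
      simp only [cell, hd, hgdef]; linarith)
    (fun e he u hu v hv => hg0 e u v (hu.trans (hPQ e he).2.2.1)
      (mem_Icc.2 ⟨(mem_Icc.1 (hPQ e he).2.2.2.1).1.trans (mem_Icc.1 hv).1, (mem_Icc.1 hv).2⟩))
    (fun e he => by
      have := (hPQ e he).2.2.2.2.2.1
      unfold Box.Marg at this
      simp only [hgdef]; linarith)
    (fun e he => hz e he _ (hPQ e he).2.2.2.1) (fun e he => hz e he N hNm) hhN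
    (fun _ _ => hη.le) ?_
  · have hbox : d 0 A + d A N - d A A - d 0 N ≤ 2 * X := by
      have h1 := Box.dist_nonneg ht (hU A le_rfl) (hW A hAm)
      have h2 := Box.dist_nonneg ht (hU 0 h0A) (hW N hNm)
      have h3 := hX A hAm
      rw [Box.dist_comm] at h3
      simp only [hd, hU0, hWN] at h2 ⊢
      linarith
    have hX0 : 0 ≤ X := (Box.dist_nonneg ht (hU A le_rfl) hK).trans hXA
    rw [sum_const, nsmul_eq_mul] at h
    nlinarith [mul_le_mul_of_nonneg_left hbox (show (0 : ℝ) ≤ 4 * (2 * X) by linarith)]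
  -- the gains along one optimal walk telescope
  intro u hu v hv
  obtain ⟨m, f, hf, hfs, hc⟩ := Box.exists_optimal ht (hU u hu) (hW v hv)
  set F := s.filter fun e => u ≤ a e ∧ b e ≤ v ∧ 0 < g e u v
  have hk : ∀ e ∈ F, ∃ k < m, f k = P e ∧ f (k + 1) = Q e := fun e he => by
    obtain ⟨hes, h1, h2, h3⟩ := mem_filter.1 he
    exact hdir e hes u v h1 h2 (mem_Icc.1 hv).2 f m hf hc h3
  choose! κ hκ using hk
  have hinj : Set.InjOn κ F := fun e he e' he' h => by
    obtain ⟨-, h1, h2⟩ := hκ e he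
    obtain ⟨-, h1', h2'⟩ := hκ e' he'
    rw [← (hPQ e (mem_filter.1 he).1).1, ← (hPQ e' (mem_filter.1 he').1).1, ← h1, ← h2, h, h1', h2']
  calc ∑ _e ∈ F, η ≤ ∑ e ∈ F, B.gain t K (f (κ e)) (f (κ e + 1)) := sum_le_sum fun e he => by
        obtain ⟨-, h1, h2⟩ := hκ e he
        rw [h1, h2]; exact (hPQ e (mem_filter.1 he).1).2.2.2.2.2.2
    _ = ∑ k ∈ F.image κ, B.gain t K (f k) (f (k + 1)) := (sum_image (f := fun k => B.gain t K (f k) (f (k + 1))) hinj).symm
    _ ≤ ∑ k ∈ range m, B.gain t K (f k) (f (k + 1)) := by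
        refine sum_le_sum_of_subset_of_nonneg (fun k hk => ?_) fun k hk _ => ?_
        · obtain ⟨e, he, rfl⟩ := mem_image.1 hk
          exact mem_range.2 (hκ e he).1
        · have hk := mem_range.1 hk
          exact Box.gain_nonneg ht hK (hf.2 k hk.le) (hf.2 (k + 1) hk) (hf.1.2.2 k hk)
    _ ≤ 2 * X := by
        rw [Box.sum_gain, hf.1.1, hf.1.2.1, hc]
        have := Box.dist_triangle ht (hU u hu) hK (hW v hv)
        linarith [hX v hv, Box.dist_comm B t K (W v)]

/-- The last admissible position up to `k`. -/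
noncomputable def snap (T : Set ℕ) (k : ℕ) : ℕ := Nat.findGreatest (· ∈ T) k

lemma snap_le (T : Set ℕ) (k : ℕ) : snap T k ≤ k := Nat.findGreatest_le k

lemma le_snap {T : Set ℕ} {x k : ℕ} (hx : x ∈ T) (h : x ≤ k) : x ≤ snap T k :=
  Nat.le_findGreatest h hx

lemma snap_self {T : Set ℕ} {k : ℕ} (hk : k ∈ T) : snap T k = k :=
  le_antisymm (snap_le T k) (le_snap hk le_rfl)

lemma snap_mem {T : Set ℕ} (h0 : 0 ∈ T) (k : ℕ) : snap T k ∈ T :=
  Nat.findGreatest_spec (P := (· ∈ T)) (Nat.zero_le k) h0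

lemma snap_mono (T : Set ℕ) : Monotone (snap T) := fun _ _ h => Nat.findGreatest_mono_right _ h

/-- Positions in a bin `[g, h]` and outside it are exchangeable in the cyclic order. -/
lemma exch (hM : B.Monge) {w : Env} (hw : ∀ e, 0 ≤ w e) {g h x x' y y' : ℕ} (hy : g ≤ y)
    (hyy : y ≤ y') (hy' : y' ≤ h) (hh : h ≤ B.len)
    (hx : (h ≤ x ∧ x ≤ x' ∧ x' ≤ B.len) ∨ (x ≤ x' ∧ x' ≤ g) ∨ (h ≤ x ∧ x ≤ B.len ∧ x' ≤ g)) :
    B.dist w (B.pos x') (B.pos y) + B.dist w (B.pos x) (B.pos y') ≤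
      B.dist w (B.pos x) (B.pos y) + B.dist w (B.pos x') (B.pos y') := by
  rcases hx with ⟨h1, h2, h3⟩ | ⟨h1, h2⟩ | ⟨h1, h2, h3⟩
  · have := (hM w hw y y' x x' hyy (hy'.trans h1) h2 h3).2
    rw [Box.dist_comm B w (B.pos x'), Box.dist_comm B w (B.pos x), Box.dist_comm B w (B.pos x),
      Box.dist_comm B w (B.pos x')]
    linarith
  · have := (hM w hw x x' y y' h1 (h2.trans hy) hyy (hy'.trans hh)).2
    linarith
  · have := (hM w hw x' y y' x (h3.trans hy) hyy (hy'.trans h1) h2).1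
    rw [Box.dist_comm B w (B.pos x), Box.dist_comm B w (B.pos x) (B.pos y)]
    linarith

/-- Positions outside the bin, in cyclic order from its upper end to its lower end. -/
noncomputable def out (B : Box) (T : Set ℕ) (h i : ℕ) : ℕ :=
  if i ≤ B.len - h then snap T (h + i) else snap T (i - (B.len - h))

/-- One bin and one end of it: the edges with a margin segment into the bin and a large gain. -/
theorem bin {F : Frame} (hV : F.Valid) (hM : F.B.Monge) (ht : ∀ e, 0 ≤ t e) {S : Box}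
    (hS : F.Short S t) {X : ℕ → ℝ} (hX : F.BinLe X t) {δ η : ℝ} (hδ : 0 < δ) (hη : 0 < η)
    {l : ℕ} (hl : l < F.n) (upper : Bool) (s : Finset (Sym2 V))
    (hs : ∀ e ∈ s, 0 < t e ∧ ∃ p q i j, s(p, q) = e ∧ S.Mem p ∧ F.Seg t i j p q δ ∧
      F.InBin l j ∧ η ≤ F.B.gain t (F.B.pos (if upper then F.g (l + 1) else F.g l)) p q) :
    δ * η * #s ≤ 16 * X l ^ 2 := by
  set g := F.g l with hgdef
  set h := F.g (l + 1) with hhdef
  set T := F.T
  set B := F.B with hB
  have hgh : g ≤ h := hV.mono (Nat.le_succ l)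
  have hh : h ≤ B.len := hV.le _
  have hgT : g ∈ T := hV.adm l hl.le
  have hhT : h ∈ T := hV.adm (l + 1) hl
  have h0T : 0 ∈ T := hV.zero ▸ hV.adm 0 (Nat.zero_le _)
  have hlT : B.len ∈ T := hV.last ▸ hV.adm F.n le_rfl
  set A := B.len - h + g with hAdef
  have hAN : A ≤ B.len := by omega
  set U : ℕ → ℕ := out B T h with hUdef
  set W : ℕ → ℕ := fun v => snap T (g + (v - A)) with hWdef
  have hUle : ∀ u ≤ A, U u ≤ B.len ∧ (u ≤ B.len - h → h ≤ U u) ∧ (B.len - h < u → U u ≤ g) := by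
    intro u hu
    simp only [hUdef, out]
    split_ifs with h1
    · exact ⟨(snap_le _ _).trans (by omega), fun _ => le_snap hhT (by omega), fun h2 => by omega⟩
    · exact ⟨(snap_le _ _).trans (by omega), fun h2 => absurd h2 h1,
        fun _ => (snap_le _ _).trans (by omega)⟩
  have hWbin : ∀ v ∈ Icc A B.len, F.InBin l (W v) ∧ W v ∈ T := fun v hv => by
    rw [mem_Icc] at hv
    exact ⟨⟨hl, le_snap hgT (Nat.le_add_right _ _), (snap_le _ _).trans (by omega)⟩, snap_mem h0T _⟩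
  have hex : ∀ w : Env, (∀ e, 0 ≤ w e) → ∀ u u' v v', u ≤ u' → u' ≤ A → A ≤ v → v ≤ v' →
      v' ≤ B.len → B.dist w (B.pos (U u')) (B.pos (W v)) + B.dist w (B.pos (U u)) (B.pos (W v')) ≤
        B.dist w (B.pos (U u)) (B.pos (W v)) + B.dist w (B.pos (U u')) (B.pos (W v')) := by
    intro w hw u u' v v' huu hu' hv hvv hv'
    obtain ⟨⟨-, hy, -⟩, -⟩ := hWbin v (mem_Icc.2 ⟨hv, hvv.trans hv'⟩)
    obtain ⟨⟨-, -, hy'⟩, -⟩ := hWbin v' (mem_Icc.2 ⟨hv.trans hvv, hv'⟩)
    have hmono : W v ≤ W v' := snap_mono T (by omega)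
    refine exch hM hw hy hmono hy' hh ?_
    obtain ⟨h1, h2, h3⟩ := hUle u (huu.trans hu')
    obtain ⟨h1', h2', h3'⟩ := hUle u' hu'
    by_cases c1 : u' ≤ B.len - h
    · refine Or.inl ⟨h2 (huu.trans c1), ?_, h1'⟩
      simp only [hUdef, out, if_pos c1, if_pos (huu.trans c1)]
      exact snap_mono T (by omega)
    · by_cases c2 : u ≤ B.len - h
      · exact Or.inr (Or.inr ⟨h2 c2, h1, h3' (not_le.1 c1)⟩)
      · refine Or.inr (Or.inl ⟨?_, h3' (not_le.1 c1)⟩)
        simp only [hUdef, out, if_neg c1, if_neg c2]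
        exact snap_mono T (by omega)
  have hU0 : U 0 = h := by simp [hUdef, out, snap_self hhT]
  have hUA : B.pos (U A) = B.pos g := by
    simp only [hUdef, out]
    split_ifs with h1
    · rw [show h + A = B.len by omega, snap_self hlT, Box.pos_len, show g = 0 by omega]
    · rw [show A - (B.len - h) = g by omega, snap_self hgT]
  have hWA : W A = g := by simp [hWdef, snap_self hgT]
  have hWN : W B.len = h := by
    simp only [hWdef]; rw [show g + (B.len - A) = h by omega, snap_self hhT]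
  have hbin : ∀ x, F.InBin l x → x ∈ T → ∀ v ∈ Icc A B.len,
      B.dist t (B.pos x) (B.pos (W v)) ≤ X l ∧ ∀ e, (∃ p, S.Mem p ∧ p ∈ e) →
        B.dist (raise t e δ) (B.pos x) (B.pos (W v)) ≤ B.dist t (B.pos x) (B.pos (W v)) := by
    intro x hx hxT v hv
    obtain ⟨hw, hwT⟩ := hWbin v hv
    refine ⟨hX l _ _ hx hw hxT hwT, fun e ⟨p, hp, hpe⟩ => ?_⟩
    obtain ⟨m, f, hf, -, hc⟩ := Box.exists_optimal ht (B.pos_mem (hx.2.2.trans hh))
      (B.pos_mem (hw.2.2.trans hh))
    rw [← hc]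
    refine (Box.dist_le (Box.raise_nonneg ht e hδ.le) hf).trans (le_of_eq ?_)
    refine Box.pathCost_raise_of_avoid (fun k hk hke => ?_) t δ
    have key : ∀ i ≤ m, ¬ S.Mem (f i) := fun i hi hmem => by
      have h1 := Box.dist_le ht (hf.initSeg hi)
      have h2 := Box.dist_le ht (hf.suffix hi)
      have h3 := hS l _ _ hx hw hxT hwT (f i) hmem
      have h4 := pathCost_split t f hi
      linarith
    rcases Sym2.mem_iff.1 (hke ▸ hpe) with rfl | rfl
    exacts [key k hk.le hp, key (k + 1) hk hp]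
  have hwit : ∀ e ∈ s, ∃ (p q : V) (a b : ℕ), s(p, q) = e ∧ S.Mem p ∧ a ≤ A ∧ b ∈ Icc A B.len ∧
      B.Thru t (B.pos (U a)) (B.pos (W b)) p q ∧ B.Marg t (B.pos (U a)) (B.pos (W b)) e δ ∧
      η ≤ B.gain t (B.pos (if upper then h else g)) p q := by
    intro e he
    obtain ⟨-, p, q, i, j, hpq, hp, hseg, hj, hgain⟩ := hs e he
    have hni : ¬ F.InBin l i := fun hi => hS.ne_bin hseg hp ht hi hj
    obtain ⟨⟨hi, hjl, hT, hMg⟩, hiT, hjT⟩ := hseg
    change i ≤ B.len at hi
    obtain ⟨a, ha, hai⟩ : ∃ a ≤ A, B.pos (U a) = B.pos i := by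
      simp only [Frame.InBin, hl, true_and, not_and, not_le] at hni
      rcases Nat.lt_or_ge i g with h1 | h1
      · rcases Nat.eq_zero_or_pos i with h2 | h2
        · refine ⟨B.len - h, by omega, ?_⟩
          simp only [hUdef, out, if_pos le_rfl]
          rw [show h + (B.len - h) = B.len by omega, snap_self hlT, Box.pos_len, h2]
        · refine ⟨B.len - h + i, by omega, ?_⟩
          simp only [hUdef, out]
          rw [if_neg (by omega), show B.len - h + i - (B.len - h) = i by omega, snap_self hiT]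
      · have h2 := hni h1
        refine ⟨i - h, by omega, ?_⟩
        simp only [hUdef, out]
        rw [if_pos (by omega), show h + (i - h) = i by omega, snap_self hiT]
    have hb : A + (j - g) ∈ Icc A B.len := by
      have := hj.2.1; have := hj.2.2
      rw [mem_Icc]; omega
    have hbj : B.pos (W (A + (j - g))) = B.pos j := by
      simp only [hWdef]
      rw [show g + (A + (j - g) - A) = j by have := hj.2.1; omega, snap_self hjT]
    refine ⟨p, q, a, _, hpq, hp, ha, hb, ?_, ?_, hgain⟩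
    · rw [hai, hbj]; exact hT
    · rw [hai, hbj, ← hpq]; exact hMg
  choose! P Q a b hw using hwit
  cases upper with
  | true =>
    refine core ht hAN hδ hη (fun u hu => B.pos_mem (hUle u hu).1)
      (fun v hv => B.pos_mem ((hWbin v hv).1.2.2.trans hh)) hex (K := B.pos h) (by rw [hU0])
      (by rw [hWN]) ?_ (fun v hv => ?_) s P Q a b (fun e he => ?_) (fun e he v hv => ?_)
    · rw [hUA]
      exact hX l g h ⟨hl, le_rfl, hgh⟩ ⟨hl, hgh, le_rfl⟩ hgT hhT
    · rw [Box.dist_comm]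
      exact (hbin h ⟨hl, hgh, le_rfl⟩ hhT v hv).1
    · obtain ⟨h1, -, h3, h4, h5, h6, h7⟩ := hw e he
      exact ⟨h1, (hs e he).1, h3, h4, h5, h6, h7⟩
    · exact (hbin h ⟨hl, hgh, le_rfl⟩ hhT v hv).2 e
        ⟨P e, (hw e he).2.1, by
          have := Sym2.mem_mk_left (P e) (Q e)
          rwa [(hw e he).1] at this⟩
  | false =>
    have hflip : ∀ v ∈ Icc A B.len, A + B.len - v ∈ Icc A B.len := fun v hv => by
      rw [mem_Icc] at hv ⊢; omega
    refine core ht hAN hδ hη (U := fun u => B.pos (U (A - u)))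
      (W := fun v => B.pos (W (A + B.len - v))) (fun u hu => B.pos_mem (hUle _ (Nat.sub_le A u)).1)
      (fun v hv => B.pos_mem ((hWbin _ (hflip v hv)).1.2.2.trans hh)) ?_ (K := B.pos g)
      (by simpa using hUA) ?_ ?_ (fun v hv => ?_) s P Q (fun e => A - a e)
      (fun e => A + B.len - b e) (fun e he => ?_) (fun e he v hv => ?_)
    · intro w hw' u u' v v' huu hu' hv hvv hv'
      have := hex w hw' (A - u') (A - u) (A + B.len - v') (A + B.len - v) (by omega)
        (Nat.sub_le A u) (by omega) (by omega) (by omega)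
      linarith
    · rw [show A + B.len - B.len = A by omega, hWA]
    · simp only [Nat.sub_self]
      rw [hU0, Box.dist_comm]
      exact hX l g h ⟨hl, le_rfl, hgh⟩ ⟨hl, hgh, le_rfl⟩ hgT hhT
    · rw [Box.dist_comm]
      exact (hbin g ⟨hl, le_rfl, hgh⟩ hgT _ (hflip v hv)).1
    · obtain ⟨h1, -, h3, h4, h5, h6, h7⟩ := hw e he
      have h4' := mem_Icc.1 h4
      refine ⟨h1, (hs e he).1, Nat.sub_le _ _, hflip _ h4, ?_, ?_, h7⟩ <;>
        simp only [show A - (A - a e) = a e by omega,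
          show A + B.len - (A + B.len - b e) = b e by omega]
      exacts [h5, h6]
    · exact (hbin g ⟨hl, le_rfl, hgh⟩ hgT _ (hflip v hv)).2 e
        ⟨P e, (hw e he).2.1, by
          have := Sym2.mem_mk_left (P e) (Q e)
          rwa [(hw e he).1] at this⟩

end Gain

/-- Lemma G: few edges of the window have a margin segment with a large gain. -/
theorem Frame.card_gain {F : Frame} (hV : F.Valid) (hM : F.B.Monge) {t : Env}
    (ht : ∀ e, 0 ≤ t e) {S : Box} (hS : F.Short S t) {X : ℕ → ℝ} (hX : F.BinLe X t) {δ η : ℝ}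
    (hδ : 0 < δ) (hη : 0 < η) (E : Finset (Sym2 V))
    (hE : ∀ e ∈ E, 0 < t e ∧ ∃ p q, s(p, q) = e ∧ S.Mem p ∧ F.GainAt δ η p q t) :
    δ * η * #E ≤ 32 * ∑ l ∈ range F.n, X l ^ 2 := by
  have hw : ∀ e ∈ E, ∃ c : ℕ × Bool, c.1 < F.n ∧ ∃ p q i j, s(p, q) = e ∧ S.Mem p ∧
      F.Seg t i j p q δ ∧ F.InBin c.1 j ∧
      η ≤ F.B.gain t (F.B.pos (if c.2 then F.g (c.1 + 1) else F.g c.1)) p q := by
    intro e he
    obtain ⟨-, p, q, hpq, hp, i, j, l, K, hs, hl, hK, hg⟩ := hE e he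
    rcases hK with rfl | rfl
    · exact ⟨(l, false), hl.1, p, q, i, j, hpq, hp, hs, hl, by simpa using hg⟩
    · exact ⟨(l, true), hl.1, p, q, i, j, hpq, hp, hs, hl, by simpa using hg⟩
  choose! c hc using hw
  have hmap : Set.MapsTo c E ↑(range F.n ×ˢ (univ : Finset Bool)) := fun e he => by
    simpa using (hc e he).1
  rw [card_eq_sum_card_fiberwise hmap, Nat.cast_sum, mul_sum]
  refine (sum_le_sum fun k hk => Gain.bin hV hM ht hS hX hδ hη (l := k.1) (upper := k.2)
    (by simpa using hk) (E.filter fun e => c e = k) fun e he => ?_).trans (le_of_eq ?_)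
  · obtain ⟨heE, rfl⟩ := mem_filter.1 he
    exact ⟨(hE e heE).1, (hc e heE).2⟩
  · rw [sum_product, mul_sum]
    refine sum_congr rfl fun l _ => ?_
    simp [two_mul]
    ring

end Vale.Agent.P158.NB
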