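import Vale.Agent.P158.NB.Avg
import Vale.Agent.P158.NB.NetSpec

/-!
Statements of the averaged lemmas of `PROOF.md` (C, R, U, grid) over `Nets`, shared by the files
that prove and use them. Boxes are centred at the origin and windows run over the half box.
-/

open MeasureTheory Finset

namespace Vale.Agent.P158.NB

/-- The hypotheses on the law. -/
structure GoodLaw (G : Measure ℝ) : Prop where
  nonneg : G (Set.Iio 0) = 0
  atomless : ∀ a, G {a} = 0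

variable {G : Measure ℝ}

/-- The frame at the environment `t`: equal bins, admissible positions. -/
noncomputable def Nets.fr (N : Nets G) (B : Box) (n : ℕ) (t : Env) : Frame :=
  ⟨B, n, fun l => B.gridPos n (min l n), {k | N.Adm B t k}⟩

/-- The environments in which a frame is usable on the window `W`: positive weights, admissible
grid, squared bins at most `θ M²`, and `Short`. -/
def Nets.FrameOk (N : Nets G) (B : Box) (n : ℕ) (W : Box) (θ : ℝ) (t : Env) : Prop :=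
  (∀ e, 0 < t e) ∧ (N.fr B n t).Valid ∧ (N.fr B n t).Short W t ∧
    ∑ l ∈ range n, N.binW B t n l ^ 2 ≤ θ * (B.M : ℝ) ^ 2

/-- Frames are usable around the half box with high probability. -/
def FrameStmt (N : Nets G) : Prop :=
  ∀ θ > (0 : ℝ), ∀ ε > (0 : ℝ), ∃ n₀ : ℕ, ∀ n ≥ n₀, ∃ M₀ : ℕ, ∀ M ≥ M₀,
    (weightMeasure G).real
      {t | ¬ N.FrameOk (Box.mk 0 M) n (Box.mk 0 (5 * M / 8)) θ t} ≤ ε

/-- Optimal paths between two grid positions, or a grid position and a fixed root, rarely meet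
a window. -/
def GridStmt (N : Nets G) : Prop :=
  ∀ (r : ℕ), ∀ ε > (0 : ℝ), ∃ n₀ : ℕ, ∀ n ≥ n₀, ∃ M₀ : ℕ, ∀ M ≥ M₀, ∀ b ≤ (Box.mk 0 M).len,
    avg G M (fun x => {t | (N.fr (Box.mk 0 M) n t).GridBad (Box.mk x r) t}) ≤ ε ∧
    avg G M (fun x => {t | N.Adm (Box.mk 0 M) t b ∧ ∃ k ≤ n, (Box.mk 0 M).Hit (Box.mk x r) t
      ((Box.mk 0 M).pos ((Box.mk 0 M).gridPos n k)) ((Box.mk 0 M).pos b)}) ≤ ε

/-- Few windows see a margin segment with a large gain towards the end of a bin. -/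
def GainStmt (N : Nets G) : Prop :=
  ∀ (r : ℕ), ∀ δ > (0 : ℝ), ∀ η > (0 : ℝ), ∀ ε > (0 : ℝ), ∃ n₀ : ℕ, ∀ n ≥ n₀, ∃ M₀ : ℕ, ∀ M ≥ M₀,
    avg G M (fun x => {t | (N.fr (Box.mk 0 M) n t).GainEv (Box.mk x r) δ η t}) ≤ ε

/-- Lemma C: endpoint functions vary little inside a bin. -/
def ContStmt (N : Nets G) : Prop :=
  ∀ (r : ℕ), ∀ δ > (0 : ℝ), ∀ η > (0 : ℝ), ∀ ε > (0 : ℝ), ∃ n₀ : ℕ, ∀ n ≥ n₀, ∃ M₀ : ℕ, ∀ M ≥ M₀,
    avg G M (fun x => {t | (N.fr (Box.mk 0 M) n t).ContBad (Box.mk x r) δ η t}) ≤ ε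

/-- Lemma R: margin segments with a given root are rare, uniformly in the root. -/
def RootStmt (N : Nets G) : Prop :=
  ∀ (r : ℕ), ∀ δ > (0 : ℝ), ∀ ε > (0 : ℝ), ∃ M₀ : ℕ, ∀ M ≥ M₀, ∀ b ≤ (Box.mk 0 M).len,
    avg G M (fun x => {t | (N.fr (Box.mk 0 M) 1 t).RootEv (Box.mk x r) b δ t}) ≤ ε

/-- Lemma U: pairs of segments which differ in one endpoint function have a large mixed excess. -/
def UStmt (N : Nets G) : Prop :=
  ∀ (r : ℕ), ∀ δ > (0 : ℝ), ∀ ε > (0 : ℝ), ∀ C : ℝ, ∀ ε' > (0 : ℝ), ∃ M₀ : ℕ, ∀ M ≥ M₀,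
    avg G M (fun x => {t | (N.fr (Box.mk 0 M) 1 t).UBad (Box.mk x r) δ ε C t}) ≤ ε'

end Vale.Agent.P158.NB
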