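import Vale.Agent.P158.NB.Gain
import Vale.Agent.P158.NB.Planar
import Vale.Agent.P158.NB.Spec

/-!
Lemma G of `PROOF.md` averaged over the windows of the half box.
-/

open MeasureTheory Finset
open scoped Classical

namespace Vale.Agent.P158.NB

/-- Every box is Monge. -/
lemma Box.monge_all (B : Box) : B.Monge :=
  fun _ ht _ _ _ _ hik hkj hjl hl => Box.monge_le ht hik hkj hjl hl

namespace Nets

variable {G : Measure ℝ} (N : Nets G)

/-- Admissible positions of one bin are within the width of the bin. -/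
lemma fr_binLe (B : Box) (n : ℕ) (t : Env) (ht : ∀ e, 0 ≤ t e) :
    (N.fr B n t).BinLe (N.binW B t n) t := by
  intro l i j hi hj hiT hjT
  obtain ⟨hl, h1, h2⟩ := hi
  obtain ⟨-, h3, h4⟩ := hj
  simp only [fr] at hl h1 h2 h3 h4 hiT hjT ⊢
  rw [min_eq_left hl.le] at h1 h3
  rw [min_eq_left (Nat.succ_le_of_lt hl)] at h2 h4
  exact N.dist_le B t ht n l i j hl h1 h2 h3 h4 hiT hjT

/-- On `FrameOk`, few windows see a large gain. -/
lemma card_gainEv {B W : Box} {n r : ℕ} {θ δ η : ℝ} {t : Env} (hδ : 0 < δ) (hη : 0 < η)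
    (hok : N.FrameOk B n W θ t) (s : Finset V)
    (hs : ∀ x ∈ s, (∀ z, (Box.mk x r).Mem z → W.Mem z) ∧
      (N.fr B n t).GainEv (Box.mk x r) δ η t) :
    (s.card : ℝ) ≤ ((2 * r + 1 : ℕ) : ℝ) ^ 2 * (32 * (θ * (B.M : ℝ) ^ 2) / (δ * η)) := by
  obtain ⟨hpos, hV, hS, hθ⟩ := hok
  have hev : ∀ x ∈ s, ∃ p q, (Box.mk x r).Mem p ∧ (Box.mk x r).Mem q ∧
      (N.fr B n t).GainAt δ η p q t := fun x hx => (hs x hx).2
  choose! p q hp hq hg using hev
  set E : Finset (Sym2 V) := s.image fun x => s(p x, q x) with hE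
  have hfib : ∀ e ∈ E, (s.filter fun x => s(p x, q x) = e).card ≤ (2 * r + 1) ^ 2 := by
    intro e he
    obtain ⟨x₀, -, hx₀⟩ := mem_image.1 he
    subst hx₀
    rw [← Box.card_verts (Box.mk (p x₀) r)]
    refine Finset.card_le_card fun x hx => ?_
    obtain ⟨hxs, hxe⟩ := mem_filter.1 hx
    have hm : (Box.mk x r).Mem (p x₀) := by
      rcases Sym2.eq_iff.1 hxe with ⟨h, -⟩ | ⟨-, h⟩
      · rw [← h]; exact hp x hxs
      · rw [← h]; exact hq x hxs
    rw [Box.mem_verts]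
    simp only [Box.Mem] at hm ⊢
    rwa [abs_sub_comm, abs_sub_comm x.2]
  have hcount : s.card ≤ (2 * r + 1) ^ 2 * E.card :=
    card_le_mul_card_image s _ hfib
  have hgain := Frame.card_gain hV (Box.monge_all _) (fun e => (hpos e).le) hS
    (N.fr_binLe B n t fun e => (hpos e).le) hδ hη E fun e he => by
      obtain ⟨x, hx, rfl⟩ := mem_image.1 he
      exact ⟨hpos _, p x, q x, rfl, (hs x hx).1 _ (hp x hx), hg x hx⟩
  have hE' : (E.card : ℝ) ≤ 32 * (θ * (B.M : ℝ) ^ 2) / (δ * η) := by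
    rw [le_div_iff₀ (mul_pos hδ hη), mul_comm]
    refine hgain.trans (mul_le_mul_of_nonneg_left ?_ (by norm_num))
    exact hθ
  calc (s.card : ℝ) ≤ ((2 * r + 1 : ℕ) : ℝ) ^ 2 * E.card := by exact_mod_cast hcount
    _ ≤ _ := mul_le_mul_of_nonneg_left hE' (sq_nonneg _)

end Nets

lemma window_subset_inner {M r : ℕ} (hr : 8 * r + 8 ≤ M) {x : V} (hx : x ∈ half M) {z : V}
    (hz : (Box.mk x r).Mem z) : (Box.mk 0 (5 * M / 8)).Mem z := by
  rw [mem_half] at hx
  have hle : r + M / 2 ≤ 5 * M / 8 := by omega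
  simp only [Box.Mem, Prod.fst_zero, Prod.snd_zero, sub_zero, abs_le] at hx hz ⊢
  omega

/-- Lemma G, averaged. -/
theorem gainStmt {G : Measure ℝ} [IsProbabilityMeasure G] (N : Nets G)
    (hF : FrameStmt N) : GainStmt N := by
  intro r δ hδ η hη ε hε
  set C : ℝ := ((2 * r + 1 : ℕ) : ℝ) ^ 2 * 32 / (δ * η) with hC
  have hCpos : 0 < C := by
    rw [hC]
    positivity
  obtain ⟨n₀, hn₀⟩ := hF (ε / 2 / C) (by positivity) (ε / 2) (by positivity)
  refine ⟨n₀, fun n hn => ?_⟩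
  obtain ⟨M₀, hM₀⟩ := hn₀ n hn
  refine ⟨max M₀ (8 * r + 8), fun M hM => ?_⟩
  have hM1 : M₀ ≤ M := le_trans (le_max_left _ _) hM
  have hM2 : 8 * r + 8 ≤ M := le_trans (le_max_right _ _) hM
  refine (avg_le_of_count G (E := fun x =>
      {t | (N.fr (Box.mk 0 M) n t).GainEv (Box.mk x r) δ η t})
      (bad := {t | ¬ N.FrameOk (Box.mk 0 M) n (Box.mk 0 (5 * M / 8)) (ε / 2 / C) t})
      (N := ε / 2 * (M : ℝ) ^ 2) (fun x _ => ?_) (by positivity) (fun t ht s hs hE => ?_)).trans ?_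
  · exact measurableSet_setOfPred.2
      (Frame.measurable_gainEv ⟨Box.mk 0 M, n, fun l => (Box.mk 0 M).gridPos n (min l n), ∅⟩
        (Box.mk x r) (T := fun t => {k | N.Adm (Box.mk 0 M) t k})
        (fun k => measurableSet_setOfPred.1 (N.adm_meas _ k)) δ η)
  · rw [Set.mem_ofPred_eq, not_not] at ht
    refine (N.card_gainEv (r := r) hδ hη ht s fun x hx =>
      ⟨fun z hz => window_subset_inner hM2 (hs hx) hz, hE x hx⟩).trans (le_of_eq ?_)
    rw [hC]
    field_simp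
  · have h := hM₀ M hM1
    have hsq := sq_le_card_half M
    have : ε / 2 * (M : ℝ) ^ 2 / ((half M).card : ℝ) ≤ ε / 2 := by
      rw [div_le_iff₀ (card_half_pos M)]
      exact mul_le_mul_of_nonneg_left hsq (by positivity)
    linarith

end Vale.Agent.P158.NB
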