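import Vale.Agent.P158.NB.BoxBasic

/-!
# Holes of connected sets in a box (deterministic part of section 10 of `PROOF.md`)

The boundary of a hole is king-connected (every square crosses it an even number of times), so if
the king-clusters of a set `β` of bad vertices are small then the holes of the large good component
are small and have cheap boundaries.
-/

open Finset Relation

namespace Vale.Agent.P158.NB

/-- King neighbours. -/
def King (u v : V) : Prop := |u.1 - v.1| ≤ 1 ∧ |u.2 - v.2| ≤ 1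

/-- The sup distance. -/
def cheb (u v : V) : ℕ := max (u.1 - v.1).natAbs (u.2 - v.2).natAbs

lemma cheb_comm (u v : V) : cheb u v = cheb v u := by
  simp only [cheb]; omega

lemma cheb_self (u : V) : cheb u u = 0 := by simp [cheb]

lemma cheb_triangle (u v w : V) : cheb u w ≤ cheb u v + cheb v w := by
  simp only [cheb]; omega

lemma mem_iff_cheb {B : Box} {z : V} : B.Mem z ↔ cheb z B.c ≤ B.M := by
  rw [Box.mem_iff]; simp only [cheb]; omega

lemma king_iff {u v : V} : King u v ↔ cheb u v ≤ 1 := by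
  simp only [King, cheb, abs_le]; omega

lemma cheb_of_nbr {u v : V} (h : Nbr u v) : cheb u v = 1 := by
  have := Box.nbr_cases h
  simp only [cheb]; omega

lemma King.symm {u v : V} (h : King u v) : King v u := by
  rw [king_iff, cheb_comm]; exact king_iff.1 h

/-- Connection by steps of `R` inside `S`. -/
def Link (R : V → V → Prop) (S : Set V) : V → V → Prop :=
  ReflTransGen fun u v => u ∈ S ∧ v ∈ S ∧ R u v

namespace Link

variable {R : V → V → Prop} {S S' : Set V} {a b c : V}

lemma refl (a : V) : Link R S a a := ReflTransGen.refl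

lemma trans (h : Link R S a b) (h' : Link R S b c) : Link R S a c := ReflTransGen.trans h h'

lemma single (ha : a ∈ S) (hb : b ∈ S) (h : R a b) : Link R S a b :=
  ReflTransGen.single ⟨ha, hb, h⟩

lemma symm (hR : ∀ u v, R u v → R v u) (h : Link R S a b) : Link R S b a := by
  induction h with
  | refl => exact refl _
  | tail _ h ih => exact (single h.2.1 h.1 (hR _ _ h.2.2)).trans ih

lemma mono (hS : S ⊆ S') (h : Link R S a b) : Link R S' a b := by
  induction h with
  | refl => exact refl _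
  | tail _ h ih => exact ih.trans (single (hS h.1) (hS h.2.1) h.2.2)

lemma mem (h : Link R S a b) (ha : a ∈ S) : b ∈ S := by
  induction h with
  | refl => exact ha
  | tail _ h _ => exact h.2.1

/-- A property inherited along steps is inherited along links. -/
lemma induct (h : Link R S a b) {P : V → Prop} (ha : P a)
    (hstep : ∀ u v, u ∈ S → v ∈ S → R u v → P u → P v) : P b := by
  induction h with
  | refl => exact ha
  | tail _ h ih => exact hstep _ _ h.1 h.2.1 h.2.2 ih

/-- A link is realised by an injective chain. -/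
lemma exists_chain (h : Link R S a b) : ∃ (m : ℕ) (f : ℕ → V), f 0 = a ∧ f m = b ∧
    (∀ i < m, f i ∈ S ∧ f (i + 1) ∈ S ∧ R (f i) (f (i + 1))) ∧ IsSimple f m := by
  classical
  induction h with
  | refl => exact ⟨0, fun _ => a, rfl, rfl, fun i hi => absurd hi (Nat.not_lt_zero i),
      fun i hi j hj _ => by omega⟩
  | @tail u v _ hs ih =>
    obtain ⟨m, f, h0, hm, hf, hsimp⟩ := ih
    by_cases hin : ∃ i ≤ m, f i = v
    · obtain ⟨i, hi, hiv⟩ := hin
      exact ⟨i, f, h0, hiv, fun j hj => hf j (by omega), hsimp.mono hi⟩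
    · push Not at hin
      refine ⟨m + 1, fun j => if j ≤ m then f j else v, by simp [h0], by simp, fun j hj => ?_, ?_⟩
      · rcases Nat.lt_or_ge j m with hj' | hj'
        · simpa [hj'.le, Nat.succ_le_of_lt hj'] using hf j hj'
        · obtain rfl : j = m := by omega
          simpa [hm] using hs
      · intro i hi j hj hij
        rcases Nat.lt_or_ge m i with hi' | hi' <;> rcases Nat.lt_or_ge m j with hj' | hj'
        · omega
        · simp only [Nat.not_le.2 hi', hj', if_false, if_true] at hij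
          exact absurd hij.symm (hin j hj')
        · simp only [hi', Nat.not_le.2 hj', if_false, if_true] at hij
          exact absurd hij (hin i hi')
        · simp only [hi', hj', if_true] at hij
          exact hsimp i hi' j hj' hij

end Link

lemma king_of_nbr {u v : V} (h : Nbr u v) : King u v :=
  king_iff.2 (cheb_of_nbr h).le

namespace Box

variable {B : Box}

/-- The box is connected. -/
lemma link_mem {x y : V} (hx : B.Mem x) (hy : B.Mem y) : Link Nbr {z | B.Mem z} x y := by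
  obtain ⟨m, f, hf⟩ := exists_isWalk (B := B) hx hy
  have : ∀ k ≤ m, Link Nbr {z | B.Mem z} x (f k) := by
    intro k
    induction k with
    | zero => intro _; rw [hf.1.1]; exact Link.refl _
    | succ k ih =>
      intro hk
      exact (ih (by omega)).trans (Link.single (hf.2 k (by omega)) (hf.2 _ hk) (hf.1.2.2 k hk))
  simpa [hf.1.2.1] using this m le_rfl

/-- A function on boundary edges which agrees on edges in a common square is constant. -/
theorem boundary_edge_invariant {D K : Set V} (hD : ∀ z ∈ D, B.Mem z) (hK : ∀ z ∈ K, B.Mem z)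
    (hdisj : ∀ z, z ∈ D → z ∉ K) (hDc : ∀ a ∈ D, ∀ b ∈ D, Link Nbr D a b)
    (hKc : ∀ a ∈ K, ∀ b ∈ K, Link Nbr K a b)
    (hout : ∀ d ∈ D, ∀ w, B.Mem w → Nbr d w → w ∉ D → w ∈ K) (P : V → V → Prop)
    (hP : ∀ d ∈ D, ∀ k ∈ K, ∀ d' ∈ D, ∀ k' ∈ K, Nbr d k → Nbr d' k' → King d d' → King k k' →
      P d k → P d' k')
    {d k d' k' : V} (hd : d ∈ D) (hk : k ∈ K) (hdk : Nbr d k) (hd' : d' ∈ D) (hk' : k' ∈ K)
    (hdk' : Nbr d' k') (h : P d k) : P d' k' := by
  classical
  set ω : V → V → ZMod 2 := fun u v =>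
    if (u ∈ D ∧ v ∈ K ∧ P u v) ∨ (v ∈ D ∧ u ∈ K ∧ P v u) then 1 else 0 with hω
  set δ : V → ZMod 2 := fun u => if u ∈ D then 1 else 0 with hδ
  have hsymm : ∀ u v, ω u v = ω v u := fun u v => by simp only [hω, or_comm]
  have two : ∀ a : ZMod 2, a + a = 0 := CharTwo.add_self_eq_zero
  -- every square is crossed evenly
  have square : ∀ x y : ℤ, B.Mem (x, y) → B.Mem (x + 1, y + 1) →
      ω (x, y) (x + 1, y) + ω (x + 1, y) (x + 1, y + 1) + ω (x + 1, y + 1) (x, y + 1)
        + ω (x, y + 1) (x, y) = 0 := by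
    intro x y h00 h11
    rw [mem_iff] at h00 h11
    simp only at h00 h11
    set Q : Finset V := {(x, y), (x + 1, y), (x + 1, y + 1), (x, y + 1)} with hQ
    have hQm : ∀ u ∈ Q, B.Mem u := by
      intro u hu
      simp only [hQ, Finset.mem_insert, Finset.mem_singleton] at hu
      rw [mem_iff]
      rcases hu with rfl | rfl | rfl | rfl <;> (dsimp only; omega)
    have hQk : ∀ u ∈ Q, ∀ v ∈ Q, King u v := by
      intro u hu v hv
      simp only [hQ, Finset.mem_insert, Finset.mem_singleton] at hu hv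
      simp only [King, abs_le]
      rcases hu with rfl | rfl | rfl | rfl <;> rcases hv with rfl | rfl | rfl | rfl <;>
        (dsimp only; omega)
    by_cases hall : ∃ u ∈ Q, ∃ v ∈ Q, Nbr u v ∧ u ∈ D ∧ v ∈ K ∧ P u v
    · obtain ⟨u₀, hu₀, v₀, hv₀, hn₀, hud, hvk, hp₀⟩ := hall
      have key : ∀ u ∈ Q, ∀ v ∈ Q, Nbr u v → ω u v = δ u + δ v := by
        intro u hu v hv hn
        by_cases hu' : u ∈ D <;> by_cases hv' : v ∈ D
        · simp [hω, hδ, hu', hv', hdisj u hu', hdisj v hv', two]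
        · have hvK := hout u hu' v (hQm v hv) hn hv'
          have := hP u₀ hud v₀ hvk u hu' v hvK hn₀ hn (hQk _ hu₀ _ hu) (hQk _ hv₀ _ hv) hp₀
          simp [hω, hδ, hu', hv', hvK, this]
        · have huK := hout v hv' u (hQm u hu) hn.symm hu'
          have := hP u₀ hud v₀ hvk v hv' u huK hn₀ hn.symm (hQk _ hu₀ _ hv) (hQk _ hv₀ _ hu) hp₀
          simp [hω, hδ, hu', hv', huK, this]
        · simp [hω, hδ, hu', hv']
      rw [key _ (by simp [hQ]) _ (by simp [hQ]) (by simp [Nbr]),
        key _ (by simp [hQ]) _ (by simp [hQ]) (by simp [Nbr]),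
        key _ (by simp [hQ]) _ (by simp [hQ]) (by simp [Nbr]),
        key _ (by simp [hQ]) _ (by simp [hQ]) (by simp [Nbr])]
      have := two (δ (x, y) + δ (x + 1, y) + δ (x + 1, y + 1) + δ (x, y + 1))
      rw [← this]; abel
    · push Not at hall
      have z : ∀ u ∈ Q, ∀ v ∈ Q, Nbr u v → ω u v = 0 := by
        intro u hu v hv hn
        simp only [hω, ite_eq_right_iff, one_ne_zero, imp_false, not_or, not_and]
        exact ⟨hall u hu v hv hn, hall v hv u hu hn.symm⟩
      rw [z _ (by simp [hQ]) _ (by simp [hQ]) (by simp [Nbr]),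
        z _ (by simp [hQ]) _ (by simp [hQ]) (by simp [Nbr]),
        z _ (by simp [hQ]) _ (by simp [hQ]) (by simp [Nbr]),
        z _ (by simp [hQ]) _ (by simp [hQ]) (by simp [Nbr])]
      simp
  -- the potential
  set x₀ := B.c.1 - B.M
  set y₀ := B.c.2 - B.M
  set H : ℕ → ℕ → ZMod 2 := fun i j =>
    (∑ a ∈ range i, ω (x₀ + a, y₀) (x₀ + a + 1, y₀))
      + ∑ b ∈ range j, ω (x₀ + i, y₀ + b) (x₀ + i, y₀ + b + 1) with hH
  have hor : ∀ i j : ℕ, i + 1 ≤ 2 * B.M → j ≤ 2 * B.M →
      ω (x₀ + i, y₀ + j) (x₀ + i + 1, y₀ + j) = H i j + H (i + 1) j := by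
    intro i j hi
    induction j with
    | zero =>
      intro _
      simp only [hH, sum_range_succ, range_zero, sum_empty, Nat.cast_zero, add_zero]
      have := two (∑ a ∈ range i, ω (x₀ + a, y₀) (x₀ + a + 1, y₀))
      linear_combination -this
    | succ j ih =>
      intro hj
      have h1 := ih (by omega)
      have hsq := square (x₀ + i) (y₀ + j) (by rw [mem_iff]; dsimp only; omega)
        (by rw [mem_iff]; dsimp only; omega)
      rw [hsymm (x₀ + ↑i, y₀ + ↑j + 1) (x₀ + ↑i, y₀ + ↑j),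
        hsymm (x₀ + ↑i + 1, y₀ + ↑j + 1) (x₀ + ↑i, y₀ + ↑j + 1)] at hsq
      simp only [hH, sum_range_succ, Nat.cast_succ, ← add_assoc] at h1 ⊢
      grind
  set h' : V → ZMod 2 := fun z => H (z.1 - x₀).toNat (z.2 - y₀).toNat with hh'
  have edge : ∀ u v, B.Mem u → B.Mem v → Nbr u v → ω u v = h' u + h' v := by
    have fwd : ∀ u v, B.Mem u → B.Mem v →
        (v.1 = u.1 + 1 ∧ v.2 = u.2) ∨ (v.1 = u.1 ∧ v.2 = u.2 + 1) → ω u v = h' u + h' v := by
      rintro ⟨a, b⟩ ⟨a', b'⟩ hu hv hc
      rw [mem_iff] at hu hv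
      simp only at hu hv hc
      obtain ⟨i, hi⟩ : ∃ i : ℕ, a = x₀ + i := ⟨(a - x₀).toNat, by omega⟩
      obtain ⟨j, hj⟩ : ∃ j : ℕ, b = y₀ + j := ⟨(b - y₀).toNat, by omega⟩
      subst hi hj
      rcases hc with ⟨rfl, rfl⟩ | ⟨rfl, rfl⟩
      · have hc : x₀ + (i : ℤ) + 1 - x₀ = ((i + 1 : ℕ) : ℤ) := by push_cast; ring
        simp only [hh', add_sub_cancel_left, Int.toNat_natCast, hc]
        exact hor i j (by omega) (by omega)
      · have hc : y₀ + (j : ℤ) + 1 - y₀ = ((j + 1 : ℕ) : ℤ) := by push_cast; ring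
        simp only [hh', add_sub_cancel_left, Int.toNat_natCast, hc]
        simp only [hH, sum_range_succ]
        grind
    intro u v hu hv hn
    rcases nbr_cases hn with h | h | h | h
    · exact fwd u v hu hv (.inl h)
    · rw [hsymm, add_comm]; exact fwd v u hv hu (.inl ⟨by omega, h.2.symm⟩)
    · exact fwd u v hu hv (.inr h)
    · rw [hsymm, add_comm]; exact fwd v u hv hu (.inr ⟨h.1.symm, by omega⟩)
  have constD : h' d = h' d' := (hDc d hd d' hd').induct (P := fun z => h' d = h' z) rfl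
    fun u v hu hv hn he => by
      have := edge u v (hD u hu) (hD v hv) hn
      simp only [hω, hdisj u hu, hdisj v hv, false_and, and_false, or_self, if_false] at this
      exact he.trans (CharTwo.add_eq_zero.1 this.symm)
  have constK : h' k = h' k' := (hKc k hk k' hk').induct (P := fun z => h' k = h' z) rfl
    fun u v hu hv hn he => by
      have := edge u v (hK u hu) (hK v hv) hn
      have hu' : u ∉ D := fun h => hdisj u h hu
      have hv' : v ∉ D := fun h => hdisj v h hv
      simp only [hω, hu', hv', false_and, or_self, if_false] at this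
      exact he.trans (CharTwo.add_eq_zero.1 this.symm)
  have e1 := edge d k (hD d hd) (hK k hk) hdk
  have e2 := edge d' k' (hD d' hd') (hK k' hk') hdk'
  rw [constD, constK, ← e2] at e1
  by_contra hne
  have hk'D : k' ∉ D := fun h => hdisj k' h hk'
  simp [hω, hd, hk, hd', hk', hk'D, h, hne] at e1

variable {D K : Set V}

/-- The inner boundary of a hole is king-connected. -/
theorem inner_boundary_linked (hD : ∀ z ∈ D, B.Mem z) (hK : ∀ z ∈ K, B.Mem z)
    (hdisj : ∀ z, z ∈ D → z ∉ K) (hDc : ∀ a ∈ D, ∀ b ∈ D, Link Nbr D a b)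
    (hKc : ∀ a ∈ K, ∀ b ∈ K, Link Nbr K a b)
    (hout : ∀ d ∈ D, ∀ w, B.Mem w → Nbr d w → w ∉ D → w ∈ K)
    {a b : V} (ha : a ∈ D) (ha' : ∃ w ∈ K, Nbr a w) (hb : b ∈ D) (hb' : ∃ w ∈ K, Nbr b w) :
    Link King {d | d ∈ D ∧ ∃ w ∈ K, Nbr d w} a b := by
  obtain ⟨k, hk, hak⟩ := ha'
  obtain ⟨k', hk', hbk⟩ := hb'
  exact boundary_edge_invariant hD hK hdisj hDc hKc hout
    (fun d _ => Link King {d | d ∈ D ∧ ∃ w ∈ K, Nbr d w} a d)
    (fun d hd w hw d' hd' w' hw' hn hn' hkd _ hl =>
      hl.trans (Link.single ⟨hd, w, hw, hn⟩ ⟨hd', w', hw', hn'⟩ hkd))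
    ha hk hak hb hk' hbk (Link.refl a)

/-- The outer boundary of a hole is king-connected. -/
theorem outer_boundary_linked (hD : ∀ z ∈ D, B.Mem z) (hK : ∀ z ∈ K, B.Mem z)
    (hdisj : ∀ z, z ∈ D → z ∉ K) (hDc : ∀ a ∈ D, ∀ b ∈ D, Link Nbr D a b)
    (hKc : ∀ a ∈ K, ∀ b ∈ K, Link Nbr K a b)
    (hout : ∀ d ∈ D, ∀ w, B.Mem w → Nbr d w → w ∉ D → w ∈ K)
    {a b : V} (ha : a ∈ K) (ha' : ∃ d ∈ D, Nbr d a) (hb : b ∈ K) (hb' : ∃ d ∈ D, Nbr d b) :
    Link King {w | w ∈ K ∧ ∃ d ∈ D, Nbr d w} a b := by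
  obtain ⟨d, hd, hda⟩ := ha'
  obtain ⟨d', hd', hdb⟩ := hb'
  exact boundary_edge_invariant hD hK hdisj hDc hKc hout
    (fun _ w => Link King {w | w ∈ K ∧ ∃ d ∈ D, Nbr d w} a w)
    (fun d hd w hw d' hd' w' hw' hn hn' _ hkw hl =>
      hl.trans (Link.single ⟨hw, d, hd, hn⟩ ⟨hw', d', hd', hn'⟩ hkw))
    hd ha hda hd' hb hdb (Link.refl a)

end Box

end Vale.Agent.P158.NB
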