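import Vale.Agent.P158.NB.Planar
import Vale.Agent.P158.NB.Events

/-!
Horizontal comparison of margin segments with a common root (`PROOF.md`, P5).
-/

open Finset

namespace Vale.Agent.P158.NB

namespace Box

variable {B : Box} {t : Env} {p q : V} {D : ℝ}

/-- `k` lies on the arc between `i` and `j` which avoids `b`. -/
def OnArc (b i j k : ℕ) : Prop :=
  (i ≤ k ∧ k ≤ j ∧ (b ≤ i ∨ j ≤ b)) ∨ (j ≤ k ∧ k ≤ i ∧ (b ≤ j ∨ i ≤ b)) ∨
    (i ≤ b ∧ b ≤ j ∧ (k ≤ i ∨ j ≤ k)) ∨ (j ≤ b ∧ b ≤ i ∧ (k ≤ j ∨ i ≤ k))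

lemma OnArc.cyc {b i j k : ℕ} (h : OnArc b i j k) : Cyc i k j b ∨ Cyc j k i b := by
  rcases h with ⟨a1, a2, a3 | a3⟩ | ⟨a1, a2, a3 | a3⟩ | ⟨a1, a2, a3 | a3⟩ | ⟨a1, a2, a3 | a3⟩
  · exact .inl (.inr (.inr (.inr ⟨a3, a1, a2⟩)))
  · exact .inl (.inl ⟨a1, a2, a3⟩)
  · exact .inr (.inr (.inr (.inr ⟨a3, a1, a2⟩)))
  · exact .inr (.inl ⟨a1, a2, a3⟩)
  · exact .inr (.inr (.inl ⟨a3, a1, a2⟩))
  · exact .inr (.inr (.inr (.inl ⟨a1, a2, a3⟩)))
  · exact .inl (.inr (.inl ⟨a3, a1, a2⟩))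
  · exact .inl (.inr (.inr (.inl ⟨a1, a2, a3⟩)))

/-- The margin passes from an endpoint of a half segment to a position whose optimal walk to the
root meets that half. -/
lemma marg_of_meet (ht : ∀ e, 0 < t e) (hD : 0 ≤ D) {i k b : ℕ} (hk : k ≤ B.len)
    (h : B.Seg t i b p q D) {fa : ℕ → V} {ma : ℕ} (hfa : B.IsWalk fa ma (B.pos i) p)
    (hfac : pathCost t fa ma = B.dist t (B.pos i) p) {f : ℕ → V} {m : ℕ}
    (hf : B.IsWalk f m (B.pos k) (B.pos b))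
    (hc : pathCost (raise t s(p, q) D) f m = B.dist (raise t s(p, q) D) (B.pos k) (B.pos b))
    {u r : ℕ} (hu : u ≤ m) (hr : r ≤ ma) (e : f u = fa r) :
    B.Marg t (B.pos k) (B.pos b) s(p, q) D := by
  obtain ⟨hi, hb, hS, hM⟩ := h
  have h0 : ∀ e, 0 ≤ t e := fun e => (ht e).le
  have hr' : ∀ e, 0 ≤ raise t s(p, q) D e := raise_nonneg h0 _ hD
  have pi := B.pos_mem hi
  have pb := B.pos_mem hb
  have pk := B.pos_mem hk
  have s1 := hfa.initSeg hr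
  have d1 : B.dist (raise t s(p, q) D) (B.pos i) (fa r) ≤ pathCost t fa r :=
    (dist_le hr' s1).trans (le_of_eq (pathCost_raise_of_avoid
      (fun l hl => hS.avoid_left h0 (ht _) pi pb hfa hfac l (by omega)) t D))
  have d2 := dist_le h0 (hfa.suffix hr)
  have d3 := pathCost_split t fa hr
  have hum := s1.mem_right
  have d4 := dist_triangle hr' pi hum pb
  have d5 := dist_le_through h0 hum pb hS.mem_left hS.mem_right hS.1
  have d6 := dist_add_le_pathCost hr' hf hu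
  rw [e] at d6
  have d7 := dist_triangle h0 pk hum pb
  have d8 := dist_le_raise (B := B) h0 s(p, q) hD pk hum
  have d9 := hS.2.2.2
  unfold Marg at hM ⊢
  linarith

/-- Two margin segments with a common root at one edge give one from every position on the arc
between their other ends (P5). -/
theorem horizontal (ht : ∀ e, 0 < t e) (hD : 0 < D) {i j b k : ℕ} (hk : k ≤ B.len)
    (h1 : B.Seg t i b p q D) (h2 : B.Seg t j b p q D) (hc : OnArc b i j k) :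
    B.Seg t k b p q D := by
  wlog hcyc : Cyc i k j b generalizing i j
  · refine this h2 h1 ?_ (hc.cyc.resolve_left hcyc)
    unfold OnArc at hc ⊢
    tauto
  have h0 : ∀ e, 0 ≤ t e := fun e => (ht e).le
  obtain ⟨hi, hb, hS, hM⟩ := id h1
  obtain ⟨hj, -, hS', hM'⟩ := id h2
  obtain ⟨ma, fa, hfa, -, hfac⟩ := exists_optimal h0 (B.pos_mem hi) hS.mem_left
  obtain ⟨mb, fb, hfb, -, hfbc⟩ := exists_optimal h0 (B.pos_mem hj) hS'.mem_left
  obtain ⟨m, f, hf, -, hfc⟩ :=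
    exists_optimal (raise_nonneg h0 s(p, q) hD.le) (B.pos_mem hk) (B.pos_mem hb)
  obtain ⟨a, ha, u, hu, e⟩ := crossing_cyc hcyc hi hk hj hb (hfa.append hfb.reverse) hf
  have hmarg : B.Marg t (B.pos k) (B.pos b) s(p, q) D := by
    by_cases hle : a ≤ ma
    · rw [append_left hle] at e
      exact marg_of_meet ht hD.le hk h1 hfa hfac hf hfc hu hle e.symm
    · obtain ⟨a', rfl⟩ := Nat.exists_eq_add_of_le (not_le.1 hle).le
      rw [append_right (f := fa) (m := ma) (by simpa using hfa.1.2.1.trans hfb.1.2.1.symm)] at e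
      exact marg_of_meet ht hD.le hk h2 hfb hfbc hf hfc hu (Nat.sub_le mb a') e.symm
  refine ⟨hk, hb, ?_, hmarg⟩
  rcases hmarg.thru h0 hD (B.pos_mem hk) (B.pos_mem hb) with h | h
  · exact h
  · obtain ⟨rfl, -⟩ := hS.same_root h h0 (ht _) (B.pos_mem hi) (B.pos_mem hk) (B.pos_mem hb)
      Sym2.eq_swap
    exact h

end Box

namespace Frame

variable {F : Frame} {t : Env} {p q : V} {D : ℝ}

/-- Two positions sharing no closed bin are separated from every root by a grid position. -/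
lemma exists_grid_onArc (hv : F.Valid) (hn : 0 < F.n) {b₁ b₂ : ℕ} (h1 : b₁ ≤ F.B.len)
    (h2 : b₂ ≤ F.B.len) (hne : ∀ l, F.InBin l b₁ → ¬ F.InBin l b₂) (b : ℕ) :
    ∃ l ≤ F.n, Box.OnArc b b₁ b₂ (F.g l) := by
  wlog hle : b₁ ≤ b₂ generalizing b₁ b₂
  · obtain ⟨l, hl, hc⟩ := this h2 h1 (fun l ha hb => hne l hb ha) (le_of_not_ge hle)
    exact ⟨l, hl, by unfold Box.OnArc at hc ⊢; tauto⟩
  by_cases hb : b₁ ≤ b ∧ b ≤ b₂
  · exact ⟨0, Nat.zero_le _, .inr (.inr (.inl ⟨hb.1, hb.2, .inl (by rw [hv.zero]; omega)⟩))⟩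
  obtain ⟨l, hl⟩ := hv.exists_bin hn h1
  obtain ⟨hln, hlo, hhi⟩ := hl
  refine ⟨l + 1, hln, .inl ⟨hhi, ?_, by omega⟩⟩
  by_contra hlt
  exact hne l ⟨hln, hlo, hhi⟩ ⟨hln, by omega, by omega⟩

/-- P5 over a frame: some grid position carries a segment to the root. -/
theorem exists_grid_seg (hv : F.Valid) (hn : 0 < F.n) (ht : ∀ e, 0 < t e) (hD : 0 < D)
    {b₁ b₂ b : ℕ} (h1 : F.Seg t b₁ b p q D) (h2 : F.Seg t b₂ b p q D)
    (hne : ∀ l, F.InBin l b₁ → ¬ F.InBin l b₂) :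
    ∃ l ≤ F.n, F.Seg t (F.g l) b p q D := by
  obtain ⟨l, hl, hc⟩ := exists_grid_onArc hv hn h1.1.1 h2.1.1 hne b
  exact ⟨l, hl, Box.horizontal ht hD (hv.le l) h1.1 h2.1 hc, hv.adm l hl, h1.2.2⟩

/-- P5 over a frame for segments with a common first end. -/
theorem exists_grid_seg_right (hv : F.Valid) (hn : 0 < F.n) (ht : ∀ e, 0 < t e) (hD : 0 < D)
    {a b₁ b₂ : ℕ} (h1 : F.Seg t a b₁ p q D) (h2 : F.Seg t a b₂ p q D)
    (hne : ∀ l, F.InBin l b₁ → ¬ F.InBin l b₂) :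
    ∃ l ≤ F.n, F.Seg t a (F.g l) p q D := by
  obtain ⟨l, hl, h⟩ := exists_grid_seg hv hn ht hD h1.symm h2.symm hne
  exact ⟨l, hl, h.symm⟩

end Frame

end Vale.Agent.P158.NB
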