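import Vale.Agent.P158.NB.RootTile
import Vale.Agent.P158.NB.FrameGood
import Vale.Agent.P158.NB.Spec
import Mathlib.Analysis.SpecificLimits.Normed

/-!
Lemma R (`PROOF.md`, section 7): margin segments with a given root are rare.
-/

open MeasureTheory Finset Filter
open scoped ENNReal Topology

namespace Vale.Agent.P158.NB

namespace LemmaR

variable {G : Measure ℝ} [IsProbabilityMeasure G]

/-- The directed steps inside a box. -/
noncomputable def steps (S : Box) : Finset (V × V) :=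
  open scoped Classical in (S.verts ×ˢ S.verts).filter fun d => Nbr d.1 d.2

lemma mem_steps {S : Box} {d : V × V} : d ∈ steps S ↔ S.Mem d.1 ∧ S.Mem d.2 ∧ Nbr d.1 d.2 := by
  simp [steps, Box.mem_verts, and_assoc]

lemma card_steps_le (S : Box) : (steps S).card ≤ 4 * (2 * S.M + 1) ^ 2 := by
  classical
  refine (card_le_card (t := S.verts.biUnion fun p =>
    {(p, (p.1 + 1, p.2)), (p, (p.1 - 1, p.2)), (p, (p.1, p.2 + 1)), (p, (p.1, p.2 - 1))})
    fun d hd => ?_).trans ((card_biUnion_le_card_mul _ _ 4 fun p _ => card_le_four).trans ?_)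
  · obtain ⟨h1, -, h3⟩ := mem_steps.1 hd
    obtain ⟨⟨a, b⟩, c, e⟩ := d
    refine mem_biUnion.2 ⟨(a, b), Box.mem_verts.2 h1, ?_⟩
    rcases Box.nbr_cases h3 with ⟨x, y⟩ | ⟨x, y⟩ | ⟨x, y⟩ | ⟨x, y⟩ <;>
      simp only at x y <;> subst x y <;> simp
  · rw [Box.card_verts, mul_comm]

omit [IsProbabilityMeasure G] in
lemma real_le_mul {A B : Set Env} {C : ℝ≥0∞} (hC : C ≠ ∞) (hB : weightMeasure G B ≠ ∞)
    (h : weightMeasure G A ≤ C * weightMeasure G B) :
    (weightMeasure G).real A ≤ C.toReal * (weightMeasure G).real B := by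
  rw [measureReal_def, measureReal_def, ← ENNReal.toReal_mul]
  exact ENNReal.toReal_mono (ENNReal.mul_ne_top hC hB) h

/-- Measurable events which, outside `bad`, happen at most `N` at a time. -/
lemma sum_le_of_count {ι : Type*} (D : Finset ι) (E : ι → Set Env)
    (hE : ∀ d ∈ D, MeasurableSet (E d)) {bad : Set Env} {N : ℝ} (hN : 0 ≤ N)
    (h : ∀ t ∉ bad, ∀ U ⊆ D, (∀ d ∈ U, t ∈ E d) → (U.card : ℝ) ≤ N) :
    ∑ d ∈ D, (weightMeasure G).real (E d) ≤ D.card * (weightMeasure G).real bad + N := by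
  classical
  set P := weightMeasure G
  set W := toMeasurable P bad
  have hW : MeasurableSet W := measurableSet_toMeasurable P bad
  have hWr : P.real W = P.real bad := by simp [W, measureReal_def, measure_toMeasurable]
  have hm : ∀ d ∈ D, MeasurableSet (E d \ W) := fun d hd => (hE d hd).diff hW
  have h1 : ∑ d ∈ D, P.real (E d \ W) ≤ N := by
    calc ∑ d ∈ D, P.real (E d \ W)
        = ∫ t, ∑ d ∈ D, (E d \ W).indicator (fun _ => (1 : ℝ)) t ∂P := by
          rw [integral_finsetSum _ fun d hd => (integrable_const (1 : ℝ)).indicator (hm d hd)]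
          exact sum_congr rfl fun d hd => (integral_indicator_one (hm d hd)).symm
      _ ≤ ∫ _t, N ∂P := by
          refine integral_mono (integrable_finsetSum _ fun d hd =>
            (integrable_const (1 : ℝ)).indicator (hm d hd)) (integrable_const N) fun t => ?_
          dsimp only
          by_cases ht : t ∈ W
          · rw [sum_eq_zero fun d _ => Set.indicator_of_notMem (fun hd => hd.2 ht) _]
            exact hN
          · simp only [Set.indicator_apply, sum_boole]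
            exact h t (fun hb => ht (subset_toMeasurable P bad hb)) _ (filter_subset _ _)
              fun d hd => (mem_filter.1 hd).2.1
      _ = N := by simp
  have h2 : ∑ d ∈ D, P.real (E d) ≤ ∑ d ∈ D, (P.real W + P.real (E d \ W)) :=
    sum_le_sum fun d _ =>
      (weight_real_mono G (show E d ⊆ W ∪ (E d \ W) from fun t ht => by
        by_cases hw : t ∈ W
        exacts [Or.inl hw, Or.inr ⟨ht, hw⟩])).trans (measureReal_union_le _ _)
  rw [sum_add_distrib, sum_const, nsmul_eq_mul] at h2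
  rw [← hWr]
  linarith

/-- Passing from small windows to tiles. -/
lemma avg_window_le (F : V × V → Set Env) (E : V → Set Env) {M R r : ℕ} (hr : r + 1 ≤ R)
    (hR : R ≤ M / 2) (hE : ∀ x ∈ half M, E x ⊆ ⋃ d ∈ steps (Box.mk x r), F d) {c : ℝ} {Q : V → ℝ}
    (hQ : ∀ x ∈ half M, ∑ d ∈ steps (Box.mk x R), (weightMeasure G).real (F d) ≤ c + Q x) :
    avg G M E ≤ (2 * (r : ℝ) + 1) ^ 2 / ((R : ℝ) - r) ^ 2 *
      (c + (∑ x ∈ half M, Q x) / ((half M).card : ℝ)) := by
  classical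
  set f : V × V → ℝ := fun d => (weightMeasure G).real (F d)
  have f0 : ∀ d, 0 ≤ f d := fun d => measureReal_nonneg
  set U := steps (Box.mk 0 (M / 2 + r)) with hU
  have step1 : ∑ x ∈ half M, (weightMeasure G).real (E x) ≤
      (2 * (r : ℝ) + 1) ^ 2 * ∑ d ∈ U, f d := by
    calc ∑ x ∈ half M, (weightMeasure G).real (E x)
        ≤ ∑ x ∈ half M, ∑ d ∈ steps (Box.mk x r), f d :=
          sum_le_sum fun x hx => (weight_real_mono G (hE x hx)).trans
            (measureReal_biUnion_finset_le _ _)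
      _ ≤ ∑ x ∈ half M, ∑ d ∈ U, if (Box.mk x r).Mem d.1 then f d else 0 := by
          refine sum_le_sum fun x hx => ?_
          rw [← sum_filter]
          refine sum_le_sum_of_subset_of_nonneg (fun d hd => ?_) fun d _ _ => f0 d
          obtain ⟨h1, h2, h3⟩ := mem_steps.1 hd
          refine mem_filter.2 ⟨mem_steps.2 ⟨?_, ?_, h3⟩, h1⟩
          all_goals
            have hx' := mem_half.1 hx
            simp only [Box.mem_iff, Prod.fst_zero, Prod.snd_zero, Nat.cast_add] at h1 h2 hx' ⊢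
            omega
      _ = ∑ d ∈ U, (((half M).filter fun x => (Box.mk x r).Mem d.1).card : ℝ) * f d := by
          rw [sum_comm]
          exact sum_congr rfl fun d _ => by rw [← sum_filter, sum_const, nsmul_eq_mul]
      _ ≤ ∑ d ∈ U, (2 * (r : ℝ) + 1) ^ 2 * f d := by
          refine sum_le_sum fun d _ => mul_le_mul_of_nonneg_right ?_ (f0 d)
          have h := card_le_card (s := (half M).filter fun x => (Box.mk x r).Mem d.1)
            (t := (Box.mk d.1 r).verts) fun x hx => by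
              have h1 := (mem_filter.1 hx).2
              rw [Box.mem_verts]
              simp only [Box.mem_iff] at h1 ⊢
              omega
          rw [Box.card_verts] at h
          calc _ ≤ (((2 * r + 1) ^ 2 : ℕ) : ℝ) := by exact_mod_cast h
            _ = _ := by push_cast; ring
      _ = _ := (mul_sum _ _ _).symm
  have step2 : ((R : ℝ) - r) ^ 2 * ∑ d ∈ U, f d ≤
      c * ((half M).card : ℝ) + ∑ x ∈ half M, Q x := by
    calc ((R : ℝ) - r) ^ 2 * ∑ d ∈ U, f d
        = ∑ d ∈ U, ((R : ℝ) - r) ^ 2 * f d := mul_sum _ _ _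
      _ ≤ ∑ d ∈ U, (((half M).filter fun x => d ∈ steps (Box.mk x R)).card : ℝ) * f d := by
          refine sum_le_sum fun d hd => mul_le_mul_of_nonneg_right ?_ (f0 d)
          obtain ⟨h1, -, h3⟩ := mem_steps.1 hd
          set k : ℕ := R - r with hk
          set a : ℤ → ℤ := fun u => max (-((M / 2 : ℕ) : ℤ)) (min u (((M / 2 : ℕ) : ℤ) - k + 1))
          have h := card_le_card (s := Finset.Icc (a d.1.1) (a d.1.1 + k - 1) ×ˢ
              Finset.Icc (a d.1.2) (a d.1.2 + k - 1))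
            (t := (half M).filter fun x => d ∈ steps (Box.mk x R)) fun x hx => by
              simp only [mem_product, Finset.mem_Icc, a] at hx
              have h4 := Box.nbr_cases h3
              simp only [Box.mem_iff, Prod.fst_zero, Prod.snd_zero, Nat.cast_add] at h1
              refine mem_filter.2 ⟨mem_half.2 ?_, mem_steps.2 ⟨?_, ?_, h3⟩⟩ <;>
                simp only [Box.mem_iff, Prod.fst_zero, Prod.snd_zero] <;> omega
          rw [card_product, Int.card_Icc, Int.card_Icc,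
            show (a d.1.1 + k - 1 + 1 - a d.1.1).toNat = k by omega,
            show (a d.1.2 + k - 1 + 1 - a d.1.2).toNat = k by omega] at h
          calc ((R : ℝ) - r) ^ 2 = (((k * k : ℕ)) : ℝ) := by
                rw [hk, Nat.cast_mul, Nat.cast_sub (by omega : r ≤ R)]; ring
            _ ≤ _ := by exact_mod_cast h
      _ = ∑ x ∈ half M, ∑ d ∈ U, if d ∈ steps (Box.mk x R) then f d else 0 := by
          rw [sum_comm]
          exact sum_congr rfl fun d _ => by rw [← sum_filter, sum_const, nsmul_eq_mul]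
      _ ≤ ∑ x ∈ half M, (c + Q x) := by
          refine sum_le_sum fun x hx => le_trans ?_ (hQ x hx)
          rw [← sum_filter]
          exact sum_le_sum_of_subset_of_nonneg (fun d hd => (mem_filter.1 hd).2) fun d _ _ => f0 d
      _ = _ := by rw [sum_add_distrib, sum_const, nsmul_eq_mul, mul_comm]
  have hpos : 0 < ((R : ℝ) - r) ^ 2 := by
    have : (r : ℝ) + 1 ≤ R := by exact_mod_cast hr
    exact pow_pos (by linarith) 2
  have hcard := card_half_pos M
  rw [avg]
  calc (∑ x ∈ half M, (weightMeasure G).real (E x)) / ((half M).card : ℝ)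
      ≤ ((2 * (r : ℝ) + 1) ^ 2 * ∑ d ∈ U, f d) / ((half M).card : ℝ) :=
        div_le_div_of_nonneg_right step1 hcard.le
    _ ≤ ((2 * (r : ℝ) + 1) ^ 2 * ((c * ((half M).card : ℝ) + ∑ x ∈ half M, Q x) /
          ((R : ℝ) - r) ^ 2)) / ((half M).card : ℝ) := by
        gcongr
        rw [le_div_iff₀ hpos]
        linarith
    _ = _ := by field_simp

/-- Small weights are rare. -/
lemma exists_iso (h : GoodLaw G) {e : ℝ} (he : 0 < e) :
    ∃ η > (0 : ℝ), ∀ p : V, (weightMeasure G).real {t | ¬ Iso η p t} ≤ e := by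
  have hz : G (Set.Iic 0) = 0 := by
    rw [← Set.Iio_union_right]
    exact measure_union_null h.nonneg (h.atomless 0)
  have hlim : Tendsto (fun k : ℕ => G (Set.Iio (1 / ((k : ℝ) + 1)))) atTop (𝓝 0) := by
    have h1 := tendsto_measure_iInter_atTop (μ := G)
      (s := fun k : ℕ => Set.Iio (1 / ((k : ℝ) + 1))) (fun k => measurableSet_Iio.nullMeasurableSet)
      (fun a b hab => Set.Iio_subset_Iio (by gcongr)) ⟨0, measure_ne_top _ _⟩
    have h2 : ⋂ k : ℕ, Set.Iio (1 / ((k : ℝ) + 1)) = Set.Iic 0 := by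
      ext u
      simp only [Set.mem_iInter, Set.mem_Iio, Set.mem_Iic]
      refine ⟨fun hu => le_of_not_gt fun hpos => ?_, fun hu k => hu.trans_lt (by positivity)⟩
      obtain ⟨k, hk⟩ := exists_nat_one_div_lt hpos
      exact absurd (hu k) (not_lt.2 hk.le)
    rwa [h2, hz] at h1
  obtain ⟨k, hk⟩ := (hlim.eventually (eventually_le_nhds (a := (0 : ℝ≥0∞))
    (b := ENNReal.ofReal (e / 4)) (ENNReal.ofReal_pos.2 (by linarith)))).exists
  refine ⟨1 / ((k : ℝ) + 1), by positivity, fun p => ?_⟩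
  set nb : Fin 4 → V := fun c => p + unit4 c with hnb
  have hsub : {t : Env | ¬ Iso (1 / ((k : ℝ) + 1)) p t} ⊆
      ⋃ c ∈ (Finset.univ : Finset (Fin 4)), {t : Env | t s(p, nb c) < 1 / ((k : ℝ) + 1)} := by
    intro t ht
    simp only [Iso, Set.mem_ofPred_eq, not_forall, not_le] at ht
    obtain ⟨y, hy, hlt⟩ := ht
    obtain ⟨c, hc⟩ := exists_unit4 hy
    exact Set.mem_iUnion₂.2 ⟨c, mem_univ c, by simpa [hnb, ← hc] using hlt⟩
  refine (weight_real_mono G hsub).trans ((measureReal_biUnion_finset_le _ _).trans ?_)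
  refine (sum_le_card_nsmul _ _ (e / 4) fun c _ => real_le_of_le_ofReal (by linarith) ?_).trans ?_
  · have hmap : (weightMeasure G).map (fun t : Env => t s(p, nb c)) = G :=
      Measure.infinitePi_map_eval _ _
    calc weightMeasure G {t : Env | t s(p, nb c) < 1 / ((k : ℝ) + 1)}
        = (weightMeasure G).map (fun t : Env => t s(p, nb c)) (Set.Iio (1 / ((k : ℝ) + 1))) := by
          rw [Measure.map_apply (measurable_pi_apply _) measurableSet_Iio]; rfl
      _ ≤ _ := by rw [hmap]; exact hk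
  · rw [card_univ, Fintype.card_fin, nsmul_eq_mul]
    push_cast
    linarith

lemma exists_length {κ C e : ℝ} (hκ : 0 < κ) (he : 0 < e) :
    ∃ L : ℕ, 3 * C < L / 2 * κ ∧ ((2 * (L : ℝ) + 1) ^ 2) * (1 / 2) ^ L ≤ e := by
  have h := tendsto_pow_const_mul_const_pow_of_lt_one 2 (by norm_num : (0 : ℝ) ≤ 1 / 2) (by norm_num)
  obtain ⟨L, hL, hL1⟩ := ((h.eventually (eventually_le_nhds (a := (0 : ℝ)) (b := e / 9) (by positivity))).and
    (eventually_ge_atTop (max 1 (⌈6 * C / κ⌉₊ + 1)))).exists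
  refine ⟨L, ?_, ?_⟩
  · have h1 : 6 * C / κ < L := (Nat.le_ceil _).trans_lt (by
      exact_mod_cast (by omega : ⌈6 * C / κ⌉₊ < L))
    rw [div_lt_iff₀ hκ] at h1
    linarith
  · have h1 : (1 : ℝ) ≤ L := by exact_mod_cast (le_max_left 1 _).trans hL1
    calc (2 * (L : ℝ) + 1) ^ 2 * (1 / 2) ^ L ≤ 9 * (L : ℝ) ^ 2 * (1 / 2) ^ L := by
          gcongr; nlinarith
      _ ≤ e := by linarith

lemma real_coord_notMem {Good : Set ℝ} (hm : MeasurableSet Good) {ε : ℝ} (hε : 0 ≤ ε)
    (h : G Goodᶜ ≤ ENNReal.ofReal ε) (e : Sym2 V) :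
    (weightMeasure G).real {t | t e ∉ Good} ≤ ε :=
  real_le_of_le_ofReal hε (by rwa [weightMeasure_coord_notMem G hm e])

lemma real_fewGood_le {Good : Set ℝ} (hm : MeasurableSet Good) (hG : G Goodᶜ ≤ (1 / 16) ^ 2)
    (B : Box) (L : ℕ) :
    (weightMeasure G).real (FewGood Good B L) ≤ (2 * (B.M : ℝ) + 1) ^ 2 * (1 / 2) ^ L := by
  refine real_le_of_le_ofReal (by positivity) ((fewGood_le G hm hG B L).trans (le_of_eq ?_))
  rw [ENNReal.ofReal_mul (by positivity)]
  congr 1
  · rw [← ENNReal.ofReal_natCast]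
    congr 1
    push_cast
    ring
  · rw [ENNReal.ofReal_pow (by norm_num)]
    norm_num [ENNReal.ofReal_div_of_pos]

/-- Segments of the root `b` at a step. -/
def Rooted (N : Nets G) (B : Box) (b : ℕ) (δ : ℝ) (d : V × V) : Set Env :=
  {t | ∃ i, B.Seg t i b d.1 d.2 δ ∧ N.Adm B t i ∧ N.Adm B t b}

/-- Mates at a step. -/
def Mated (N : Nets G) (B S : Box) (b : ℕ) (δ C ε : ℝ) (d : V × V) : Set Env :=
  {t | B.RootMate S {k | N.Adm B t k} b δ C ε d.1 d.2 t}

omit [IsProbabilityMeasure G] in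
lemma measurable_rooted (N : Nets G) (B : Box) (b : ℕ) (δ : ℝ) (d : V × V) :
    MeasurableSet (Rooted N B b δ d) :=
  measurableSet_setOfPred.2 (Measurable.exists fun i => (Box.measurable_seg B i b d.1 d.2 δ).and
    ((measurableSet_setOfPred.1 (N.adm_meas B i)).and (measurableSet_setOfPred.1 (N.adm_meas B b))))

omit [IsProbabilityMeasure G] in
lemma measurable_mated (N : Nets G) (B S : Box) (b : ℕ) (δ C ε : ℝ) (d : V × V) :
    MeasurableSet (Mated N B S b δ C ε d) := by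
  refine measurableSet_setOfPred.2 ?_
  simp only [Box.RootMate, Set.mem_ofPred_eq]
  exact Measurable.exists fun i => Measurable.exists fun i' => Measurable.exists fun p' =>
    Measurable.exists fun q' => (Box.measurable_seg B i b d.1 d.2 δ).and
      ((Box.measurable_seg B i' b p' q' δ).and ((measurableSet_setOfPred.1 (N.adm_meas B i)).and
        ((measurableSet_setOfPred.1 (N.adm_meas B i')).and
          ((measurableSet_setOfPred.1 (N.adm_meas B b)).and (measurable_const.and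
            (measurable_const.and ((Box.measurable_oscLe_diff B S _ _ C).and
              (Box.measurable_oscLe_diff B S _ _ ε).not)))))))

lemma mem_of_half {M R : ℕ} {x z : V} (hx : x ∈ half M) (hz : (Box.mk x R).Mem z) {K : ℕ}
    (hK : M / 2 + R ≤ K) : (Box.mk 0 K).Mem z := by
  have hx' := mem_half.1 hx
  simp only [Box.mem_iff, Prod.fst_zero, Prod.snd_zero] at hx' hz ⊢
  omega

omit [IsProbabilityMeasure G] in
lemma innerLowering_of_eq {M R : ℕ} {x : V} (hx : x ∈ half M) (hM : 4 * R + 4 ≤ M) {t t' : Env}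
    (h0 : ∀ e, 0 ≤ t' e ∧ t' e ≤ t e) (h : ∀ e, e ∉ (Box.mk x R).pairs → t' e = t e) :
    (Box.mk 0 M).InnerLowering t t' :=
  ⟨h0, fun u v hu => h _ fun hmem =>
    hu (mem_of_half hx (Box.mem_pairs.1 hmem).1 (by show M / 2 + R ≤ 3 * M / 4; omega))⟩

/-- Mates cost at most a constant times the grid event and a small error. -/
theorem prob_mated (hG : GoodLaw G) (N : Nets G) {R L : ℕ} {δ C ε η κ : ℝ} {Good : Set ℝ}
    {Ts : Finset (Set ℝ)} (hTs : ∀ A ∈ Ts, MeasurableSet A ∧ 0 < G A ∧ A ⊆ Set.Ioi 0)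
    (hGood : ∀ v ∈ Good, ∃ A ∈ Ts, A ⊆ Set.Icc (v - η) (v - κ))
    (hκ : 0 ≤ κ) (hη : 0 ≤ η) (hC : 0 ≤ C) (hgain : 3 * C < L / 2 * κ) (hLR : L + 1 ≤ R)
    {e : ℝ} (he : 0 < e) :
    ∃ K : ℝ, 0 ≤ K ∧ ∀ M n b : ℕ, 4 * R + 4 ≤ M → 0 < n → b ≤ (Box.mk 0 M).len →
      ∀ x ∈ half M, (weightMeasure G).real {t | (∀ e, 0 < t e) ∧
          ¬ (N.fr (Box.mk 0 M) n t).ContBad (Box.mk x R) δ (ε / 2) t ∧
          ∃ d ∈ steps (Box.mk x (R - (L + 1))), t ∉ FewGood Good (Box.mk d.1 L) L ∧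
            t ∈ Mated N (Box.mk 0 M) (Box.mk x R) b δ C ε d} ≤
        K * (weightMeasure G).real {t | N.Adm (Box.mk 0 M) t b ∧ ∃ k ≤ n,
          (Box.mk 0 M).Hit (Box.mk x R) t
            ((Box.mk 0 M).pos ((Box.mk 0 M).gridPos n k)) ((Box.mk 0 M).pos b)} + e := by
  classical
  set W : ℕ := ((2 * R + 1) ^ 2 + 1).choose 2 with hW
  obtain ⟨C₁, hC₁, h₁⟩ := exists_option_const G Ts (fun A hA => ⟨(hTs A hA).1, (hTs A hA).2.1⟩) W
  set ε₂ : ℝ := e / ((C₁.toReal + 1) * ((W : ℝ) + 1)) with hε₂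
  have hε₂0 : 0 < ε₂ := by
    have := ENNReal.toReal_nonneg (a := C₁)
    positivity
  obtain ⟨κ₂, hκ₂, -, Ts₂, Good₂, hTs₂, hGm₂, hGε₂, hGood₂⟩ := exists_steps G hG.nonneg hG.atomless
    one_pos (ENNReal.ofReal_pos.2 hε₂0)
  obtain ⟨C₂, hC₂, h₂⟩ := stage_two G Ts₂ hTs₂ hGood₂ W
  refine ⟨C₁.toReal * C₂.toReal, by positivity, fun M n b hM hn hb x hx => ?_⟩
  set B := Box.mk 0 M
  set S := Box.mk x R with hS
  set A := {t : Env | (∀ e, 0 < t e) ∧ ¬ (N.fr B n t).ContBad S δ (ε / 2) t ∧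
    ∃ d ∈ steps (Box.mk x (R - (L + 1))), t ∉ FewGood Good (Box.mk d.1 L) L ∧
      t ∈ Mated N B S b δ C ε d}
  set Bev := {t : Env | (∀ e, 0 < t e) ∧ B.RootShared S n {k | N.Adm B t k} b t}
  set A₂ := {t : Env | t ∈ Bev ∧ ∀ e ∈ S.pairs, t e ∈ Good₂}
  set H := {t : Env | N.Adm B t b ∧ ∃ k ≤ n, B.Hit S t (B.pos (B.gridPos n k)) (B.pos b)}
  have hcard : S.pairs.card ≤ W := S.card_pairs_le
  have stage1 : weightMeasure G A ≤ C₁ * weightMeasure G Bev := by
    refine h₁ S.pairs hcard A Bev fun t ⟨ht, hcont, d, hd, hfew, hmate⟩ => ?_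
    obtain ⟨hp, hq, -⟩ := mem_steps.1 hd
    have hball : ∀ z, (Box.mk d.1 (L + 1)).Mem z → S.Mem z := fun z hz => by
      simp only [hS, Box.mem_iff] at hp hz ⊢
      omega
    obtain ⟨E, hE, Sel, hSel, hopt⟩ := B.rootShared_of_mate (n := n) ht hmate hC hcont
      (by simp only [hS, Box.mem_iff] at hp ⊢; omega)
      (by simp only [hS, Box.mem_iff] at hq ⊢; omega) hball
      (fun z hz => by
        have hzS := hball z (by simp only [Box.mem_iff] at hz ⊢; omega)
        have hzh : (Box.mk 0 (M / 2 + R)).Mem z := mem_of_half hx hzS le_rfl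
        simp only [B, Box.mem_iff, Box.inner_iff, Prod.fst_zero, Prod.snd_zero] at hzh ⊢
        omega)
      (fun A hA => (hTs A hA).2.2) hGood hκ hη hgain hfew
    have hsub : (Box.mk d.1 (L + 1)).pairs ⊆ S.pairs := fun a ha => by
      induction a using Sym2.ind with
      | _ u v => exact Box.mem_pairs.2 ⟨hball u (Box.mem_pairs.1 ha).1,
          hball v (Box.mem_pairs.1 ha).2⟩
    refine ⟨E, hE.trans hsub, Sel, hSel, fun s hs => ?_⟩
    obtain ⟨hpos, hle, hsh⟩ := hopt s hs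
    refine ⟨hpos, hsh _ fun k hk => N.adm_lower B t _ ?_ k hk⟩
    exact innerLowering_of_eq (R := R) hx hM (fun a => ⟨(hpos a).le, hle a⟩)
      fun a ha => piecewise_eq_of_notMem _ _ _ fun hm => ha (hsub (hE hm))
  have hsplit : Bev ⊆ A₂ ∪ ⋃ a ∈ S.pairs, {t : Env | t a ∉ Good₂} := fun t ht => by
    by_cases h : ∀ a ∈ S.pairs, t a ∈ Good₂
    · exact Or.inl ⟨ht, h⟩
    · push Not at h
      obtain ⟨a, ha, hna⟩ := h
      exact Or.inr (Set.mem_iUnion₂.2 ⟨a, ha, hna⟩)
  have stage2 : weightMeasure G A₂ ≤ C₂ * weightMeasure G H := by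
    refine h₂ S.pairs hcard A₂ H fun t htA => ?_
    obtain ⟨⟨ht, p, q, i, i', hp, hq, -, -, hbA, hi, hi', hbin, t1, t2⟩, hgood⟩ := htA
    refine ⟨s(p, q), Box.mem_pairs.2 ⟨hp, hq⟩, hgood _ (Box.mem_pairs.2 ⟨hp, hq⟩),
      fun u hu _ hu2 => ?_⟩
    refine ⟨N.adm_lower B t _ (innerLowering_of_eq (R := R) hx hM (fun a => ?_) fun a ha => ?_) b hbA, ?_⟩
    · by_cases ha : a = s(p, q)
      · subst ha
        rw [Function.update_self]
        exact ⟨hu.le, by linarith⟩
      · rw [Function.update_of_ne ha]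
        exact ⟨(ht a).le, le_rfl⟩
    · exact Function.update_of_ne (fun (h : a = s(p, q)) => ha (h ▸ Box.mem_pairs.2 ⟨hp, hq⟩)) _ _
    · obtain ⟨k, hk, hhit⟩ := B.hit_of_shared hn ht hp hq hb hi hi' hbin t1 t2 hu hκ₂ hu2
      refine ⟨k, hk, ?_⟩
      have e : (Frame.full B n).g k = B.gridPos n k := by simp [Frame.full, Box.gridPos, hk]
      rwa [e] at hhit
  have r1 := real_le_mul hC₁ (measure_ne_top _ _) stage1
  have r2 := real_le_mul hC₂ (measure_ne_top _ _) stage2
  have r3 : (weightMeasure G).real Bev ≤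
      C₂.toReal * (weightMeasure G).real H + (W : ℝ) * ε₂ := by
    refine (weight_real_mono G hsplit).trans ((measureReal_union_le _ _).trans (add_le_add r2 ?_))
    refine (measureReal_biUnion_finset_le _ _).trans
      ((sum_le_card_nsmul _ _ ε₂ fun a _ => real_coord_notMem hGm₂ hε₂0.le hGε₂ a).trans ?_)
    rw [nsmul_eq_mul]
    exact mul_le_mul_of_nonneg_right (by exact_mod_cast hcard) hε₂0.le
  calc (weightMeasure G).real A
      ≤ C₁.toReal * (C₂.toReal * (weightMeasure G).real H + (W : ℝ) * ε₂) :=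
        r1.trans (mul_le_mul_of_nonneg_left r3 ENNReal.toReal_nonneg)
    _ ≤ _ := by
        have h : C₁.toReal * ((W : ℝ) * ε₂) ≤ e := by
          rw [hε₂, ← mul_assoc, ← mul_div_assoc, div_le_iff₀ (by positivity), mul_comm e]
          refine mul_le_mul_of_nonneg_right (mul_le_mul (le_add_of_nonneg_right zero_le_one)
            (le_add_of_nonneg_right zero_le_one) (by positivity) (by positivity)) he.le
        linarith

/-- One tile: rooted steps are exceptional, mated or few. -/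
theorem sum_rooted_le (hG : GoodLaw G) (N : Nets G) {R L M n b : ℕ} {x : V} (hLR : L + 1 ≤ R)
    (hx : x ∈ half M) (hM : 4 * R + 4 ≤ M) (hb : b ≤ (Box.mk 0 M).len) {Good : Set ℝ}
    {δ C ε η ρ X e : ℝ} (hC : 0 < C) (hε : 0 ≤ ε) (hεδ : 2 * ε < δ) (hεη : 3 * ε < η)
    (hρ : 0 ≤ ρ) (hX : 0 ≤ X)
    (hiso : ∀ p : V, (weightMeasure G).real {t | ¬ Iso η p t} ≤ e)
    (hreach : ∀ p : V, (Box.mk x R).Mem p →
      (weightMeasure G).real {t | ρ < (Box.mk x (2 * R)).dist t x p} ≤ e)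
    (hfew : ∀ p : V, (weightMeasure G).real (FewGood Good (Box.mk p L) L) ≤ e)
    (htile : (weightMeasure G).real {t | X < N.tileW x R t} ≤ e) :
    ∑ d ∈ steps (Box.mk x (R - (L + 1))), (weightMeasure G).real (Rooted N (Box.mk 0 M) b δ d) ≤
      (12 * X / C + 1) * (4 * (2 * ρ / (η - 3 * ε) + 1)) +
        (steps (Box.mk x (R - (L + 1)))).card * (5 * e +
          (weightMeasure G).real {t | (∀ e, 0 < t e) ∧
            ¬ (N.fr (Box.mk 0 M) n t).ContBad (Box.mk x R) δ (ε / 2) t ∧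
            ∃ d ∈ steps (Box.mk x (R - (L + 1))), t ∉ FewGood Good (Box.mk d.1 L) L ∧
              t ∈ Mated N (Box.mk 0 M) (Box.mk x R) b δ C ε d} +
          (weightMeasure G).real
            {t | (N.fr (Box.mk 0 M) n t).ContBad (Box.mk x R) δ (ε / 2) t}) := by
  classical
  set B := Box.mk 0 M
  set S := Box.mk x R with hS
  set S₂ := Box.mk x (2 * R) with hS₂
  set D := steps (Box.mk x (R - (L + 1)))
  set A := {t : Env | (∀ e, 0 < t e) ∧ ¬ (N.fr B n t).ContBad S δ (ε / 2) t ∧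
    ∃ d ∈ D, t ∉ FewGood Good (Box.mk d.1 L) L ∧ t ∈ Mated N B S b δ C ε d}
  set Cb := {t : Env | (N.fr B n t).ContBad S δ (ε / 2) t}
  set P := weightMeasure G
  set bad := {t : Env | ¬ ∀ e, 0 < t e} ∪ {t : Env | X < N.tileW x R t}
  set E : V × V → Set Env := fun d =>
    Rooted N B b δ d ∩ {t | Reg S₂ η ρ d.1 t} ∩ (Mated N B S b δ C ε d)ᶜ
  have hpos : P.real {t : Env | ¬ ∀ e, 0 < t e} = 0 := real_not_pos hG
  have hbad : P.real bad ≤ e := (measureReal_union_le _ _).trans (by linarith)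
  have hSB : ∀ z, S₂.Mem z → B.Mem z := fun z hz =>
    mem_of_half hx hz (show M / 2 + 2 * R ≤ M by omega)
  have hDS : ∀ d ∈ D, S.Mem d.1 ∧ S.Mem d.2 := fun d hd => by
    obtain ⟨h1, h2, -⟩ := mem_steps.1 hd
    simp only [hS, Box.mem_iff] at h1 h2 ⊢
    omega
  have hcount : ∑ d ∈ D, P.real (E d) ≤
      D.card * P.real bad + (12 * X / C + 1) * (4 * (2 * ρ / (η - 3 * ε) + 1)) := by
    have hη' : 0 < η - 3 * ε := by linarith
    refine sum_le_of_count D E (fun d _ => ?_) (by positivity) fun t ht U hU hUE => ?_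
    · exact ((measurable_rooted N B b δ d).inter
        (measurableSet_setOfPred.2 (measurable_reg S₂ η ρ d.1))).inter
        (measurable_mated N B S b δ C ε d).compl
    simp only [bad, Set.mem_union, Set.mem_ofPred_eq, not_or, not_not, not_lt] at ht
    obtain ⟨htpos, htX⟩ := ht
    obtain ⟨Nf, z, w, hmem, hsum, hfr⟩ := N.frame x R t (fun e => (htpos e).le) B hSB
    refine B.card_rootless_mates (S := S) (T := {k | N.Adm B t k}) (S₂ := S₂) htpos hb hSB
      (fun z hz => by simp only [hS, hS₂, Box.mem_iff] at hz ⊢; omega) rfl hmem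
      (hsum.trans htX) (fun a a' ha ha' => hfr _ _ (B.pos_mem ha) (B.pos_mem ha')
        (fun h => (B.pos_bdry ha).2 (h.of_subset hSB)) fun h => (B.pos_bdry ha').2 (h.of_subset hSB))
      hX hC hε hεδ hεη hρ U fun d hd => ?_
    obtain ⟨⟨⟨i, hseg, hiA, hbA⟩, hreg⟩, hmate⟩ := hUE d hd
    exact ⟨(hDS d (hU hd)).1, (hDS d (hU hd)).2, ⟨i, hseg, hiA, hbA⟩, hreg, hmate⟩
  have hsplit : ∀ d ∈ D, Rooted N B b δ d ⊆ E d ∪ ({t | ¬ Iso η d.1 t} ∪
      ({t | ρ < S₂.dist t x d.1} ∪ (FewGood Good (Box.mk d.1 L) L ∪ (bad ∪ (A ∪ Cb))))) := by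
    intro d hd t ht
    by_cases h1 : Iso η d.1 t
    swap
    · exact Or.inr (Or.inl h1)
    by_cases h2 : ρ < S₂.dist t x d.1
    · exact Or.inr (Or.inr (Or.inl h2))
    by_cases h3 : t ∈ Mated N B S b δ C ε d
    swap
    · exact Or.inl ⟨⟨ht, h1, not_lt.1 h2⟩, h3⟩
    by_cases h4 : t ∈ FewGood Good (Box.mk d.1 L) L
    · exact Or.inr (Or.inr (Or.inr (Or.inl h4)))
    by_cases h5 : ∀ e, 0 < t e
    swap
    · exact Or.inr (Or.inr (Or.inr (Or.inr (Or.inl (Or.inl h5)))))
    by_cases h6 : t ∈ Cb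
    · exact Or.inr (Or.inr (Or.inr (Or.inr (Or.inr (Or.inr h6)))))
    · exact Or.inr (Or.inr (Or.inr (Or.inr (Or.inr (Or.inl ⟨h5, h6, d, hd, h4, h3⟩)))))
  have hsum : ∑ d ∈ D, P.real (Rooted N B b δ d) ≤
      ∑ d ∈ D, (P.real (E d) + (4 * e + P.real A + P.real Cb)) := by
    refine sum_le_sum fun d hd => (weight_real_mono G (hsplit d hd)).trans ?_
    have a1 := measureReal_union_le (μ := P) (E d) ({t | ¬ Iso η d.1 t} ∪
      ({t | ρ < S₂.dist t x d.1} ∪ (FewGood Good (Box.mk d.1 L) L ∪ (bad ∪ (A ∪ Cb)))))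
    have a2 := measureReal_union_le (μ := P) {t | ¬ Iso η d.1 t}
      ({t | ρ < S₂.dist t x d.1} ∪ (FewGood Good (Box.mk d.1 L) L ∪ (bad ∪ (A ∪ Cb))))
    have a3 := measureReal_union_le (μ := P) {t | ρ < S₂.dist t x d.1}
      (FewGood Good (Box.mk d.1 L) L ∪ (bad ∪ (A ∪ Cb)))
    have a4 := measureReal_union_le (μ := P) (FewGood Good (Box.mk d.1 L) L) (bad ∪ (A ∪ Cb))
    have a5 := measureReal_union_le (μ := P) bad (A ∪ Cb)
    have a6 := measureReal_union_le (μ := P) A Cb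
    linarith [hiso d.1, hreach d.1 (hDS d hd).1, hfew d.1]
  rw [sum_add_distrib, sum_const, nsmul_eq_mul] at hsum
  have hDb : (D.card : ℝ) * P.real bad ≤ D.card * e :=
    mul_le_mul_of_nonneg_left hbad (Nat.cast_nonneg _)
  have e1 : (D.card : ℝ) * (5 * e + P.real A + P.real Cb) =
      D.card * (4 * e + P.real A + P.real Cb) + D.card * e := by ring
  linarith

lemma count_le {R K ρ Cl η εo : ℝ} (hK : 0 ≤ K) (hρ : 0 ≤ ρ) (hR : 0 ≤ R) (hCl : 0 < Cl)
    (hη : 0 < η) (hεη : η / 2 ≤ η - 3 * εo) :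
    (12 * (K * R) / Cl + 1) * (4 * (2 * (ρ * R) / (η - 3 * εo) + 1)) ≤
      (12 * K * R / Cl + 1) * (16 * ρ / η * R + 4) := by
  have h1 : 2 * (ρ * R) / (η - 3 * εo) ≤ 2 * (ρ * R) / (η / 2) :=
    div_le_div_of_nonneg_left (by positivity) (by positivity) hεη
  have h2 : 4 * (2 * (ρ * R) / (η / 2) + 1) = 16 * ρ / η * R + 4 := by
    field_simp
    ring
  rw [← mul_assoc (12 : ℝ) K R, ← h2]
  gcongr

lemma num_le {a c Cl κ0 R : ℝ} (ha : 0 ≤ a) (hc : 0 ≤ c) (hCl : 0 < Cl) (hR : 1 ≤ R)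
    (h1 : 4 * (a * c) ≤ κ0 * Cl) (h2 : 4 * (4 * a / Cl + c + 4) ≤ κ0 * R) :
    (a * R / Cl + 1) * (c * R + 4) ≤ κ0 / 2 * R ^ 2 := by
  have h1' : a * c / Cl ≤ κ0 / 4 := by
    rw [div_le_iff₀ hCl]
    linarith
  have e1 : (a * R / Cl + 1) * (c * R + 4) = a * c / Cl * R ^ 2 + (4 * a / Cl + c) * R + 4 := by
    field_simp
    ring
  have h3 := mul_le_mul_of_nonneg_right h1' (sq_nonneg R)
  have h4 := mul_le_mul_of_nonneg_right h2 (show (0 : ℝ) ≤ R by linarith)
  rw [e1]
  nlinarith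

lemma final_le {r D R e J Num κ0 ε S : ℝ} (hR : 1 ≤ R) (hden : R / 4 ≤ D - r) (hε : 0 ≤ ε)
    (hκ0 : κ0 = ε / (16 * (2 * r + 1) ^ 2)) (he : e = κ0 / (2 * 36 * 8))
    (hJ : J = 36 * R ^ 2) (hNum : Num ≤ κ0 / 2 * R ^ 2) (hS : S ≤ J * (3 * e))
    (hnn : 0 ≤ Num + J * (5 * e) + S) :
    (2 * r + 1) ^ 2 / (D - r) ^ 2 * (Num + J * (5 * e) + S) ≤ ε := by
  calc (2 * r + 1) ^ 2 / (D - r) ^ 2 * (Num + J * (5 * e) + S)
      ≤ (2 * r + 1) ^ 2 / (R / 4) ^ 2 * (κ0 * R ^ 2) := by
        refine mul_le_mul ?_ ?_ hnn (by positivity)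
        · exact div_le_div_of_nonneg_left (sq_nonneg _) (by positivity)
            (pow_le_pow_left₀ (by positivity) hden 2)
        · have : J * (8 * e) = κ0 / 2 * R ^ 2 := by rw [hJ, he]; ring
          linarith
    _ ≤ ε := by
        rcases eq_or_ne (2 * r + 1) 0 with h | h
        · rw [h]; simpa using hε
        · refine le_of_eq ?_
          rw [hκ0]
          field_simp
          ring

end LemmaR

open LemmaR in
/-- Lemma R. -/
theorem rootStmt (G : Measure ℝ) [IsProbabilityMeasure G] (hG : GoodLaw G) (N : Nets G)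
    (hG2 : GridStmt N) (hC : ContStmt N) : RootStmt N := by
  intro r δ hδ ε hε
  -- the budget
  set κ0 : ℝ := ε / (16 * (2 * (r : ℝ) + 1) ^ 2) with hκ0
  have hκ00 : 0 < κ0 := by positivity
  set e : ℝ := κ0 / (2 * 36 * 8) with he
  have he0 : 0 < e := by positivity
  obtain ⟨η, hη, hiso⟩ := exists_iso hG he0
  obtain ⟨K₀, r₁, htile⟩ := N.tile_prob e he0
  obtain ⟨ρ₀, r₂, hreach⟩ := N.reach_prob e he0
  set K := max K₀ 0
  set ρ := max ρ₀ 0
  set εo : ℝ := min (δ / 4) (η / 6) with hεo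
  have hεo0 : 0 < εo := lt_min (by linarith) (by linarith)
  have hεδ : 2 * εo < δ := by linarith [min_le_left (δ / 4) (η / 6)]
  have hεη : η / 2 ≤ η - 3 * εo := by linarith [min_le_right (δ / 4) (η / 6)]
  set a : ℝ := 12 * K
  set c : ℝ := 16 * ρ / η
  have ha : 0 ≤ a := by positivity
  have hc : 0 ≤ c := by positivity
  set Cl : ℝ := max 1 (4 * (a * c) / κ0) with hCl
  have hCl0 : 0 < Cl := lt_max_of_lt_left one_pos
  obtain ⟨κ, hκ, -, Ts, Good, hTs, hGm, hGε, hGood⟩ := exists_steps G hG.nonneg hG.atomless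
    one_pos (ε := (1 / 16) ^ 2) (ENNReal.pow_pos (by simp) 2)
  obtain ⟨L, hgain, hL⟩ := exists_length (C := Cl) hκ he0
  set R : ℕ := r₁ + r₂ + 2 * (L + 1) + 4 * r + 4 + ⌈4 * (4 * a / Cl + c + 4) / κ0⌉₊ with hR
  obtain ⟨Km, hKm, hmated⟩ := prob_mated (δ := δ) (C := Cl) (ε := εo) hG N hTs hGood hκ.le
    zero_le_one hCl0.le hgain (show L + 1 ≤ R by omega) he0
  obtain ⟨n₁, hn₁⟩ := hG2 R (e / (Km + 1)) (by positivity)
  obtain ⟨n₂, hn₂⟩ := hC R δ hδ (εo / 2) (by linarith) e he0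
  set n := n₁ + n₂ + 1
  obtain ⟨M₁, hM₁⟩ := hn₁ n (by omega)
  obtain ⟨M₂, hM₂⟩ := hn₂ n (by omega)
  refine ⟨M₁ + M₂ + 4 * R + 4, fun M hM b hb => ?_⟩
  set B := Box.mk 0 M
  set D : ℕ := R - (L + 1) with hD
  set QA : V → Set Env := fun x => {t | (∀ e, 0 < t e) ∧
    ¬ (N.fr B n t).ContBad (Box.mk x R) δ (εo / 2) t ∧
    ∃ d ∈ steps (Box.mk x D), t ∉ FewGood Good (Box.mk d.1 L) L ∧
      t ∈ Mated N B (Box.mk x R) b δ Cl εo d}
  set QC : V → Set Env := fun x => {t | (N.fr B n t).ContBad (Box.mk x R) δ (εo / 2) t}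
  set Num : ℝ := (a * R / Cl + 1) * (c * R + 4) with hNum
  set J : ℝ := 36 * (R : ℝ) ^ 2 with hJ
  have hR1 : (1 : ℝ) ≤ R := by exact_mod_cast (show 1 ≤ R by omega)
  have hQ : ∀ x ∈ half M, ∑ d ∈ steps (Box.mk x D), (weightMeasure G).real (Rooted N B b δ d) ≤
      (Num + J * (5 * e)) +
        J * ((weightMeasure G).real (QA x) + (weightMeasure G).real (QC x)) := by
    intro x hx
    have hmono : ∀ {u v : ℝ} (F : Env → ℝ), u ≤ v →
        (weightMeasure G).real {t | v < F t} ≤ (weightMeasure G).real {t | u < F t} :=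
      fun F huv => weight_real_mono G fun t ht => lt_of_le_of_lt huv ht
    have h := sum_rooted_le (δ := δ) (C := Cl) (ε := εo) (η := η) (ρ := ρ * R) (X := K * R)
      (e := e) (n := n) hG N (show L + 1 ≤ R by omega) hx (by omega) hb (Good := Good) hCl0
      hεo0.le hεδ (by linarith) (by positivity) (by positivity) hiso
      (fun p hp => (hmono (fun t => (Box.mk x (2 * R)).dist t x p)
        (mul_le_mul_of_nonneg_right (le_max_left ρ₀ 0) (Nat.cast_nonneg R))).trans
        (real_le_of_le_ofReal he0.le (hreach x R (by omega) p hp)))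
      (fun p => (real_fewGood_le hGm hGε (Box.mk p L) L).trans hL)
      ((hmono (fun t => N.tileW x R t)
        (mul_le_mul_of_nonneg_right (le_max_left K₀ 0) (Nat.cast_nonneg R))).trans
        (real_le_of_le_ofReal he0.le (htile x R (by omega))))
    have hcardD : ((steps (Box.mk x D)).card : ℝ) ≤ J := by
      calc ((steps (Box.mk x D)).card : ℝ) ≤ ((4 * (2 * D + 1) ^ 2 : ℕ) : ℝ) := by
            exact_mod_cast card_steps_le (Box.mk x D)
        _ ≤ ((4 * (3 * R) ^ 2 : ℕ) : ℝ) := by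
            have : (2 * D + 1) ≤ 3 * R := by omega
            exact_mod_cast Nat.mul_le_mul_left 4 (Nat.pow_le_pow_left this 2)
        _ = J := by rw [hJ]; push_cast; ring
    refine h.trans ?_
    have hcnt := count_le (R := (R : ℝ)) (K := K) (ρ := ρ) (Cl := Cl) (η := η) (εo := εo)
      (le_max_right _ _) (le_max_right _ _) (Nat.cast_nonneg R) hCl0 hη hεη
    have := mul_le_mul_of_nonneg_right hcardD (show (0 : ℝ) ≤ 5 * e + (weightMeasure G).real (QA x)
      + (weightMeasure G).real (QC x) by positivity)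
    simp only [QA, QC, B, hD] at this ⊢
    linarith
  have hE : ∀ x ∈ half M, {t | (N.fr B 1 t).RootEv (Box.mk x r) b δ t} ⊆
      ⋃ d ∈ steps (Box.mk x r), Rooted N B b δ d := fun x _ t ⟨p, q, i, hp, hq, hs⟩ =>
    Set.mem_iUnion₂.2 ⟨(p, q), mem_steps.2 ⟨hp, hq, hs.1.2.2.1.1⟩, i, hs.1, hs.2.1, hs.2.2⟩
  have hwin := avg_window_le (Rooted N B b δ) _ (show r + 1 ≤ D by omega)
    (show D ≤ M / 2 by omega) hE hQ
  refine hwin.trans ?_
  have hcard := card_half_pos M
  have hA : avg G M QA ≤ 2 * e := by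
    have h1 : ∀ x ∈ half M, (weightMeasure G).real (QA x) ≤
        Km * (weightMeasure G).real {t | N.Adm B t b ∧ ∃ k ≤ n, B.Hit (Box.mk x R) t
          (B.pos (B.gridPos n k)) (B.pos b)} + e :=
      fun x hx => hmated M n b (by omega) (by omega) hb x hx
    have h2 := (hM₁ M (by omega) b hb).2
    have h3 : avg G M QA ≤ Km * avg G M (fun x => {t | N.Adm B t b ∧ ∃ k ≤ n,
        B.Hit (Box.mk x R) t (B.pos (B.gridPos n k)) (B.pos b)}) + e := by
      rw [avg, avg, ← mul_div_assoc, div_le_iff₀ hcard, add_mul, div_mul_cancel₀ _ hcard.ne']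
      refine (sum_le_sum h1).trans (le_of_eq ?_)
      rw [sum_add_distrib, ← mul_sum, sum_const, nsmul_eq_mul, mul_comm e]
    have h4 : Km * (e / (Km + 1)) ≤ e := by
      rw [mul_div_assoc', div_le_iff₀ (by positivity)]
      linarith
    have := mul_le_mul_of_nonneg_left h2 hKm
    linarith
  have hCb : avg G M QC ≤ e := hM₂ M (by omega)
  have hJ0 : 0 ≤ J := by positivity
  have havg : (∑ x ∈ half M, J * ((weightMeasure G).real (QA x) + (weightMeasure G).real (QC x))) /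
      ((half M).card : ℝ) ≤ J * (3 * e) := by
    rw [← mul_sum, sum_add_distrib, mul_div_assoc, add_div]
    refine mul_le_mul_of_nonneg_left ?_ hJ0
    simp only [avg] at hA hCb
    linarith
  have hNumle : Num ≤ κ0 / 2 * (R : ℝ) ^ 2 := by
    refine num_le ha hc hCl0 hR1 ?_ ?_
    · have := le_max_right (1 : ℝ) (4 * (a * c) / κ0)
      rw [div_le_iff₀ hκ00] at this
      rw [hCl]
      linarith
    · have h3 : (⌈4 * (4 * a / Cl + c + 4) / κ0⌉₊ : ℝ) ≤ R := by exact_mod_cast (by omega)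
      have h4 := (Nat.le_ceil (4 * (4 * a / Cl + c + 4) / κ0)).trans h3
      rw [div_le_iff₀ hκ00] at h4
      linarith
  have hden : (R : ℝ) / 4 ≤ (D : ℝ) - r := by
    have h : R + 4 * r ≤ 4 * D := by omega
    have h' : (R : ℝ) + 4 * r ≤ 4 * D := by exact_mod_cast h
    linarith
  exact final_le (e := e) (J := J) (Num := Num) (κ0 := κ0) hR1 hden hε.le hκ0 he hJ hNumle havg
    (add_nonneg (by positivity) (div_nonneg (sum_nonneg fun x _ => by positivity) hcard.le))

end Vale.Agent.P158.NB
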