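import Vale.Agent.P158.NB.Spec
import Vale.Agent.P158.NB.Lower
import Vale.Agent.P158.NB.Horizontal

/-!
Lemma U (`PROOF.md`, section 8): two segments near a window whose second endpoint functions
differ have a large mixed excess, off an event of small average probability.
-/

open Finset MeasureTheory
open scoped ENNReal

namespace Vale.Agent.P158.NB

namespace Box

variable {B : Box} {t : Env} {x y p q a b : V}

/-- A step optimal towards an intermediate vertex is optimal towards the end. -/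
lemma Thru.trans (h : B.Thru t x y p q) (h' : B.Thru t x p a b) (ht : ∀ e, 0 ≤ t e)
    (hx : B.Mem x) (hy : B.Mem y) : B.Thru t x y a b := by
  obtain ⟨hn, ha, hb, he⟩ := h'
  have h1 := h.dist_right ht hx hy
  have h2 := h.2.2.2
  have h3 := dist_triangle ht hb h.mem_left hy
  have h4 := dist_le_through ht hx hy ha hb hn
  exact ⟨hn, ha, hb, by linarith⟩

end Box

variable {G : Measure ℝ}

/-- A window at an inner point does not see the outside of the three-quarter box. -/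
lemma innerLowering_of_window {M R : ℕ} {x : V} {t t' : Env} (hx : (Box.mk 0 (M / 2)).Mem x)
    (hR : M / 2 + R ≤ 3 * M / 4) (h0 : ∀ e, 0 ≤ t' e ∧ t' e ≤ t e)
    (heq : ∀ e, e ∉ (Box.mk x R).pairs → t' e = t e) :
    (Box.mk 0 M).InnerLowering t t' := by
  refine ⟨h0, fun u v hu => heq _ fun h => hu ?_⟩
  have h1 := (Box.mem_pairs.1 h).1
  simp only [Box.mem_iff, Prod.fst_zero, Prod.snd_zero] at hx h1 ⊢
  omega

/-- The outcome of the first lowering: one step optimal for two segments with a common first end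
whose second ends share no bin. -/
def UShared (N : Nets G) (B : Box) (n : ℕ) (W : Box) (t : Env) : Prop :=
  (∀ e, 0 < t e) ∧ (N.fr B n t).Valid ∧ ∃ a b i j j', W.Mem a ∧ W.Mem b ∧
    i ≤ B.len ∧ j ≤ B.len ∧ j' ≤ B.len ∧ N.Adm B t i ∧ N.Adm B t j ∧ N.Adm B t j' ∧
    B.Thru t (B.pos i) (B.pos j) a b ∧ B.Thru t (B.pos i) (B.pos j') a b ∧
    ∀ l, (N.fr B n t).InBin l j → ¬ (N.fr B n t).InBin l j'

/-- The first stage of Lemma U. -/
theorem uBad_lower (N : Nets G) {M n r L : ℕ} {x : V} {δ ε C η κ : ℝ} {Good : Set ℝ}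
    {T : Finset (Set ℝ)} {t : Env} (hT : ∀ S ∈ T, S ⊆ Set.Ioi 0)
    (hGood : ∀ v ∈ Good, ∃ S ∈ T, S ⊆ Set.Icc (v - η) (v - κ)) (hκ : 0 < κ)
    (hL : C < L / 2 * κ) (hx : (Box.mk 0 (M / 2)).Mem x) (hr : M / 2 + r + L < M)
    (hR : M / 2 + (r + L) ≤ 3 * M / 4) (ht : ∀ e, 0 < t e)
    (hv : (N.fr (Box.mk 0 M) n t).Valid)
    (hcont : ¬ (N.fr (Box.mk 0 M) n t).ContBad (Box.mk x r) δ (ε / 2) t)
    (hfew : t ∉ FewGood Good (Box.mk x (r + L)) L)
    (h : (N.fr (Box.mk 0 M) 1 t).UBad (Box.mk x r) δ ε C t) :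
    ∃ E ⊆ (Box.mk x (r + L)).pairs, ∃ S : Sym2 V → Set ℝ, (∀ e ∈ E, S e ∈ T) ∧
      ∀ s : Env, (∀ e ∈ E, s e ∈ S e) →
        UShared N (Box.mk 0 M) n (Box.mk x (r + L)) (E.piecewise s t) := by
  classical
  obtain ⟨p, q, p', q', i, j, i', j', hp, hq, hp', hq', hs1, hs2, hosc, hexc⟩ := h
  set B := Box.mk 0 M with hB
  set F := N.fr B n t with hF
  have ht0 : ∀ e, 0 ≤ t e := fun e => (ht e).le
  -- the second endpoints share no bin
  have hne : ∀ l, F.InBin l j → ¬ F.InBin l j' := by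
    intro l hl hl'
    refine hosc fun z w hz hw => ?_
    have e1 : OscLe (Box.mk x r) (F.B.diff t (F.B.pos (F.g l)) (F.B.pos j)) (ε / 2) := by
      by_contra hh
      exact hcont ⟨p, q, i, j, l, F.g l, hp, hq, hs1, hl, Or.inl rfl, hh⟩
    have e2 : OscLe (Box.mk x r) (F.B.diff t (F.B.pos (F.g l)) (F.B.pos j')) (ε / 2) := by
      by_contra hh
      exact hcont ⟨p', q', i', j', l, F.g l, hp', hq', hs2, hl', Or.inl rfl, hh⟩
    have a1 := e1 w z hw hz
    have a2 := e2 z w hz hw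
    simp only [Box.diff, hF, Nets.fr] at a1 a2 ⊢
    linarith
  have hth : B.Thru t (B.pos i) (B.pos j) p q := hs1.1.2.2.1
  have hi : i ≤ B.len := hs1.1.1
  have hj : j ≤ B.len := hs1.1.2.1
  have hj' : j' ≤ B.len := hs2.1.2.1
  have mi := B.pos_mem hi
  have mj := B.pos_mem hj
  have mj' := B.pos_mem hj'
  -- the last steps of an optimal walk to `p`
  obtain ⟨m, g, hg, hgs, hgc⟩ := Box.exists_optimal ht0 mi hth.mem_left
  have hstep : ∀ d ≤ m, (Box.mk x (r + d)).Mem (g (m - d)) := by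
    intro d
    induction d with
    | zero =>
      intro _
      rw [Nat.sub_zero, hg.1.2.1]
      exact hp
    | succ d ih =>
      intro hd
      have h1 := ih (by omega)
      have h2 := hg.1.2.2 (m - (d + 1)) (by omega)
      rw [show m - (d + 1) + 1 = m - d by omega] at h2
      simp only [Box.mem_iff, Nat.cast_add, Nat.cast_one] at h1 ⊢
      have h3 := Box.nbr_cases h2
      omega
  have hLm : L ≤ m := by
    by_contra hlt
    have h1 := hstep m le_rfl
    rw [Nat.sub_self, hg.1.1] at h1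
    refine (B.pos_bdry hi).2 ?_
    simp only [Box.mem_iff, Box.inner_iff, hB, Prod.fst_zero, Prod.snd_zero] at h1 hx ⊢
    omega
  set v₀ := g (m - L) with hv₀
  have hfw : B.IsWalk (fun l => g (m - L + l)) L v₀ p := by
    have := hg.suffix (i := m - L) (Nat.sub_le _ _)
    rwa [show m - (m - L) = L by omega] at this
  have hfs : IsSimple (fun l => g (m - L + l)) L := fun a ha b hb e => by
    have := hgs (m - L + a) (by omega) (m - L + b) (by omega) e
    omega
  have hfM : ∀ l ≤ L, (Box.mk x (r + L)).Mem (g (m - L + l)) := fun l hl => by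
    have h1 := hstep (L - l) (by omega)
    rw [show m - (L - l) = m - L + l by omega] at h1
    simp only [Box.mem_iff] at h1 ⊢
    omega
  obtain ⟨J, hJ, hJc, hJg⟩ := many_good_of_not_fewGood hfew (f := fun l => g (m - L + l)) le_rfl
    (by simpa using hfM 0 (Nat.zero_le _)) (fun l hl => hfw.1.2.2 l hl) hfs
  set E := J.image fun l => s(g (m - L + l), g (m - L + (l + 1))) with hE
  have hEW : E ⊆ (Box.mk x (r + L)).pairs := fun e he => by
    obtain ⟨l, hl, rfl⟩ := mem_image.1 he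
    have := mem_range.1 (hJ hl)
    exact Box.mem_pairs.2 ⟨hfM l (by omega), hfM (l + 1) (by omega)⟩
  have hEg : E ⊆ pathEdges g m := fun e he => by
    obtain ⟨l, hl, rfl⟩ := mem_image.1 he
    have := mem_range.1 (hJ hl)
    exact mem_image.2 ⟨m - L + l, mem_range.2 (by omega), by rw [add_assoc]⟩
  have hcard : E.card = J.card := card_image_of_injOn fun a ha b hb he => by
    have := mem_range.1 (hJ ha)
    have := mem_range.1 (hJ hb)
    exact hfs.edge_inj (by omega) (by omega) he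
  have hsel : ∀ e ∈ E, ∃ S ∈ T, S ⊆ Set.Icc (t e - η) (t e - κ) := fun e he => by
    obtain ⟨l, hl, rfl⟩ := mem_image.1 he
    exact hGood _ (hJg l hl)
  choose! S hS hSs using hsel
  refine ⟨E, hEW, S, hS, fun s hs => ?_⟩
  set t' := E.piecewise s t with ht'def
  have hin : ∀ e ∈ E, t' e = s e := fun e he => piecewise_eq_of_mem _ _ _ he
  have hout : ∀ e, e ∉ E → t' e = t e := fun e he => piecewise_eq_of_notMem _ _ _ he
  have hpos : ∀ e, 0 < t' e := fun e => by
    by_cases he : e ∈ E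
    · rw [hin e he]; exact hT _ (hS e he) (hs e he)
    · rw [hout e he]; exact ht e
  have ht' : ∀ e, 0 ≤ t' e := fun e => (hpos e).le
  have hle : ∀ e, t' e ≤ t e := fun e => by
    by_cases he : e ∈ E
    · rw [hin e he]; linarith [(hSs e he (hs e he)).2]
    · rw [hout e he]
  have hlow : (L : ℝ) / 2 * κ ≤ ∑ e ∈ E, (t e - t' e) := by
    refine le_trans ?_ (card_nsmul_le_sum E _ κ fun e he => by
      rw [hin e he]; linarith [(hSs e he (hs e he)).2])
    rw [nsmul_eq_mul, hcard]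
    refine mul_le_mul_of_nonneg_right ?_ hκ.le
    rw [div_le_iff₀ two_pos]
    exact_mod_cast (by omega : L ≤ J.card * 2)
  obtain ⟨hl1, hl2⟩ := Box.lower_optimal ht' hle hout hg hgs hgc hEg
  have hij := Box.dist_lower ht' hle E hout mi mj
  have hte : t' s(p, q) ≤ t s(p, q) := hle _
  have hth' : B.Thru t' (B.pos i) (B.pos j) p q := by
    refine ⟨hth.1, hth.mem_left, hth.mem_right, ?_⟩
    have h1 := Box.dist_le_through ht' mi mj hth.mem_left hth.mem_right hth.1
    have h2 := Box.dist_mono ht' hle hth.mem_right mj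
    have h3 := hth.2.2.2
    linarith
  have hdrop : B.dist t' (B.pos i) (B.pos j') < B.dist t (B.pos i) (B.pos j') := by
    have h1 := Box.dist_le_through ht' mi mj' hth.mem_left hth.mem_right hth.1
    have h2 := Box.dist_mono ht' hle hth.mem_right mj'
    have h3 : B.dist t (B.pos i) p + t s(p, q) + B.dist t q (B.pos j')
        - B.dist t (B.pos i) (B.pos j') ≤ C := hexc
    linarith
  obtain ⟨a, b, hab, hT2⟩ := Box.forced_thru ht' hle hout mi mj' hdrop
  obtain ⟨l, hl, hla⟩ := mem_image.1 hab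
  have hl' := mem_range.1 (hJ hl)
  have hT1 : B.Thru t' (B.pos i) (B.pos j) (g (m - L + l)) (g (m - L + l + 1)) :=
    hth'.trans (Box.thru_of_optimal ht' hg hl2 (by omega)).1 ht' mi mj
  rw [← add_assoc] at hla
  obtain ⟨hb', ha'⟩ := hT1.symm.same_root hT2.symm ht' (hpos _) mj mj' mi
    (by rw [Sym2.eq_swap, ← hla, Sym2.eq_swap])
  subst ha' hb'
  have hlow' := innerLowering_of_window (t := t) (t' := t') hx hR
    (fun e => ⟨ht' e, hle e⟩) fun e he => hout e fun hm => he (hEW hm)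
  have hadm : ∀ k, N.Adm B t k → N.Adm B t' k := N.adm_lower B t t' hlow'
  refine ⟨hpos, ⟨hv.zero, hv.last, hv.mono, hv.le, fun k hk => hadm _ (hv.adm k hk)⟩,
    _, _, i, j, j', hfM l (by omega), ?_, hi, hj, hj', hadm _ hs1.2.1, hadm _ hs1.2.2,
    hadm _ hs2.2.2, hT1, hT2, hne⟩
  rw [add_assoc]
  exact hfM (l + 1) (by omega)

/-- The second stage of Lemma U: after one more lowering there is a margin segment to the grid. -/
theorem uShared_lower (N : Nets G) {M n R : ℕ} {x : V} {t : Env}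
    (h : UShared N (Box.mk 0 M) n (Box.mk x R) t) (hn : 0 < n)
    (hx : (Box.mk 0 (M / 2)).Mem x) (hR : M / 2 + R ≤ 3 * M / 4) {κ : ℝ} (hκ : 0 < κ) :
    ∃ e ∈ (Box.mk x R).pairs, ∀ u : ℝ, 0 < u → u ≤ t e - κ →
      ∃ l ≤ n, (N.fr (Box.mk 0 M) 1 (Function.update t e u)).RootEv (Box.mk x R)
        ((Box.mk 0 M).gridPos n l) κ (Function.update t e u) := by
  classical
  obtain ⟨hpos, hv, a, b, i, j, j', ha, hb, hi, hj, hj', hai, haj, haj', h1, h2, hne⟩ := h
  refine ⟨s(a, b), Box.mem_pairs.2 ⟨ha, hb⟩, fun u hu huκ => ?_⟩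
  set B := Box.mk 0 M with hB
  set t' := Function.update t s(a, b) u with ht'
  have ht0 : ∀ e, 0 ≤ t e := fun e => (hpos e).le
  have hadm : ∀ k, N.Adm B t k → N.Adm B t' k := by
    refine N.adm_lower B t t' (innerLowering_of_window hx hR (fun e => ⟨Box.update_nonneg ht0
      hu.le e, Box.le_update_of_le (by linarith) e⟩) fun e he => Function.update_of_ne ?_ _ _)
    rintro rfl
    exact he (Box.mem_pairs.2 ⟨ha, hb⟩)
  have hpos' : ∀ e, 0 < t' e := fun e => by
    by_cases he : e = s(a, b)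
    · subst he; simpa [ht'] using hu
    · simpa [ht', he] using hpos e
  have hv' : (N.fr B n t').Valid :=
    ⟨hv.zero, hv.last, hv.mono, hv.le, fun k hk => hadm _ (hv.adm k hk)⟩
  obtain ⟨l, hl, hs⟩ := Frame.exists_grid_seg_right (F := N.fr B n t') hv' hn hpos' hκ
    (a := i) (b₁ := j) (b₂ := j')
    ⟨h1.lower_seg hi hj ht0 (hpos _) hu.le hκ.le huκ, hadm _ hai, hadm _ haj⟩
    ⟨h2.lower_seg hi hj' ht0 (hpos _) hu.le hκ.le huκ, hadm _ hai, hadm _ haj'⟩ hne
  refine ⟨l, hl, a, b, i, ha, hb, ?_⟩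
  have hl' : (N.fr B n t').g l = B.gridPos n l :=
    congrArg (B.gridPos n) (min_eq_left (show l ≤ n from hl))
  rw [hl'] at hs
  exact hs

lemma avg_le_add_mul {M : ℕ} {E E' : V → Set Env} {a c : ℝ}
    (h : ∀ x ∈ half M, (weightMeasure G).real (E x) ≤ a + c * (weightMeasure G).real (E' x)) :
    avg G M E ≤ a + c * avg G M E' := by
  rw [avg, avg, div_le_iff₀ (card_half_pos M)]
  refine (sum_le_sum h).trans (le_of_eq ?_)
  have := card_half_pos M
  rw [sum_add_distrib, sum_const, nsmul_eq_mul, ← mul_sum]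
  field_simp

/-- Lemma U. -/
theorem uStmt [IsProbabilityMeasure G] (hG : GoodLaw G) (N : Nets G) (hF : FrameStmt N)
    (hC : ContStmt N) (hR : RootStmt N) : UStmt N := by
  classical
  intro r δ hδ ε hε C ε' hε'
  obtain ⟨κ, hκ, -, T, Good, hT, hGm, hGc, hGood⟩ := exists_steps G hG.nonneg hG.atomless
    (η := 1) one_pos (ε := (1 / 16) ^ 2) (ENNReal.pow_pos (by simp) 2)
  -- the number of lowered steps
  obtain ⟨L, hL, hLp⟩ : ∃ L : ℕ, C < L / 2 * κ ∧
      ((2 * (r + L) + 1) ^ 2 : ℕ) * (1 / 2 : ℝ) ^ L ≤ ε' / 5 := by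
    have h1 : Filter.Tendsto (fun L : ℕ => ((2 * (r + L) + 1) ^ 2 : ℕ) * (1 / 2 : ℝ) ^ L)
        Filter.atTop (nhds 0) := by
      have a := tendsto_pow_const_mul_const_pow_of_lt_one 2 (r := (1 / 2 : ℝ)) (by norm_num)
        (by norm_num)
      have b := tendsto_pow_atTop_nhds_zero_of_lt_one (r := (1 / 2 : ℝ)) (by norm_num) (by norm_num)
      have c := tendsto_pow_const_mul_const_pow_of_lt_one 1 (r := (1 / 2 : ℝ)) (by norm_num)
        (by norm_num)
      have := ((a.const_mul 4).add (c.const_mul (4 * (2 * (r : ℝ) + 1)))).add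
        (b.const_mul ((2 * (r : ℝ) + 1) ^ 2))
      simp only [mul_zero, add_zero] at this
      refine this.congr fun L => ?_
      push_cast
      ring
    have h2 : ∀ᶠ L : ℕ in Filter.atTop, C < L / 2 * κ := by
      obtain ⟨L₀, hL₀⟩ := exists_nat_gt (2 * C / κ)
      refine Filter.eventually_atTop.2 ⟨L₀, fun L hL => ?_⟩
      rw [div_lt_iff₀ hκ] at hL₀
      have : (L₀ : ℝ) * κ ≤ L * κ := mul_le_mul_of_nonneg_right (by exact_mod_cast hL) hκ.le
      linarith
    obtain ⟨L, a, b⟩ := (h2.and (h1.eventually (ge_mem_nhds (by positivity : (0 : ℝ) < ε' / 5)))).exists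
    exact ⟨L, a, b⟩
  set R := r + L with hRdef
  set K := ((2 * R + 1) ^ 2 + 1).choose 2
  obtain ⟨C₁, hC₁, hopt₁⟩ :=
    exists_option_const G T (fun S hS => ⟨(hT S hS).1, (hT S hS).2.1⟩) K
  set c₁ := C₁.toReal with hc₁
  have hc₁0 : 0 ≤ c₁ := ENNReal.toReal_nonneg
  set ε₂ := ε' / 5 / ((c₁ + 1) * (K + 1)) with hε₂
  have hε₂0 : 0 < ε₂ := by positivity
  obtain ⟨κ₂, hκ₂, -, T₂, Good₂, hT₂, hGm₂, hGc₂, hGood₂⟩ := exists_steps G hG.nonneg hG.atomless
    (η := 1) one_pos (ε := ENNReal.ofReal ε₂) (ENNReal.ofReal_pos.2 hε₂0)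
  obtain ⟨C₂, hC₂, hopt₂⟩ := stage_two G T₂ hT₂ hGood₂ K
  set c₂ := C₂.toReal with hc₂
  have hc₂0 : 0 ≤ c₂ := ENNReal.toReal_nonneg
  obtain ⟨n₁, hn₁⟩ := hF 1 one_pos (ε' / 5) (by positivity)
  obtain ⟨n₂, hn₂⟩ := hC r δ hδ (ε / 2) (by positivity) (ε' / 5) (by positivity)
  set n := max (max n₁ n₂) 1 with hn
  have hn0 : 0 < n := lt_of_lt_of_le Nat.one_pos (le_max_right _ _)
  obtain ⟨M₁, hM₁⟩ := hn₁ n ((le_max_left _ _).trans (le_max_left _ _))
  obtain ⟨M₂, hM₂⟩ := hn₂ n ((le_max_right _ _).trans (le_max_left _ _))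
  obtain ⟨M₃, hM₃⟩ := hR R κ₂ hκ₂ (ε' / 5 / ((c₁ + 1) * (c₂ + 1) * (n + 1))) (by positivity)
  refine ⟨max (max M₁ M₂) (max M₃ (8 * (R + 1))), fun M hM => ?_⟩
  have hMR : 8 * (R + 1) ≤ M := le_trans (le_trans (le_max_right _ _) (le_max_right _ _)) hM
  have hMa := hM₁ M (le_trans (le_trans (le_max_left _ _) (le_max_left _ _)) hM)
  have hMb := hM₂ M (le_trans (le_trans (le_max_right _ _) (le_max_left _ _)) hM)
  have hMc := hM₃ M (le_trans (le_trans (le_max_left _ _) (le_max_right _ _)) hM)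
  set B := Box.mk 0 M with hB
  set P := weightMeasure G with hP
  have : IsProbabilityMeasure P := by rw [hP]; unfold weightMeasure; infer_instance
  set Root : V → Set Env := fun x => ⋃ l ∈ range (n + 1),
    {t | (N.fr B 1 t).RootEv (Box.mk x R) (B.gridPos n l) κ₂ t} with hRoot
  have key : avg G M (fun x => {t | (N.fr B 1 t).UBad (Box.mk x r) δ ε C t}) ≤
      P.real {t | ¬ N.FrameOk B n (Box.mk 0 (5 * M / 8)) 1 t} +
        avg G M (fun x => {t | (N.fr B n t).ContBad (Box.mk x r) δ (ε / 2) t}) +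
        (((2 * R + 1) ^ 2 : ℕ) * (1 / 2 : ℝ) ^ L + c₁ * (K * ε₂)) + c₁ * c₂ * avg G M Root := by
    set A : V → Set Env := fun x => {t | (N.fr B 1 t).UBad (Box.mk x r) δ ε C t} \
      ({t | ¬ N.FrameOk B n (Box.mk 0 (5 * M / 8)) 1 t} ∪
        {t | (N.fr B n t).ContBad (Box.mk x r) δ (ε / 2) t}) with hA
    refine (avg_mono G (E' := fun x => ({t | ¬ N.FrameOk B n (Box.mk 0 (5 * M / 8)) 1 t} ∪
      {t | (N.fr B n t).ContBad (Box.mk x r) δ (ε / 2) t}) ∪ A x) fun x _ t ht => by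
        by_cases hb : t ∈ {t | ¬ N.FrameOk B n (Box.mk 0 (5 * M / 8)) 1 t} ∪
          {t | (N.fr B n t).ContBad (Box.mk x r) δ (ε / 2) t}
        exacts [Or.inl hb, Or.inr ⟨ht, hb⟩]).trans ?_
    refine (avg_union_le G).trans ?_
    refine le_trans (add_le_add (avg_union_le G) (avg_le_add_mul (E' := Root)
      (a := ((2 * R + 1) ^ 2 : ℕ) * (1 / 2 : ℝ) ^ L + c₁ * (K * ε₂)) (c := c₁ * c₂)
      fun x hx => ?_)) (le_of_eq (by rw [avg_const]; ring))
    have hx' := mem_half.1 hx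
    have hR' : M / 2 + R ≤ 3 * M / 4 := by omega
    set few := FewGood Good (Box.mk x R) L
    set Sh : Set Env := {t | UShared N B n (Box.mk x R) t}
    set exc : Set Env := ⋃ e ∈ (Box.mk x R).pairs, {t | t e ∉ Good₂}
    have hcard : (Box.mk x R).pairs.card ≤ K := Box.card_pairs_le _
    have s1 : P (A x \ few) ≤ C₁ * P Sh := by
      refine hopt₁ (Box.mk x R).pairs hcard _ _ fun t ht => ?_
      obtain ⟨⟨hu, hb⟩, hfew⟩ := ht
      simp only [Set.mem_union, Set.mem_ofPred_eq, not_or, not_not] at hb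
      exact uBad_lower N (fun S hS => (hT S hS).2.2) hGood hκ hL hx' (by omega) (by omega)
        hb.1.1 hb.1.2.1 hb.2 hfew hu
    have s2 : P (Sh \ exc) ≤ C₂ * P (Root x) := by
      refine hopt₂ (Box.mk x R).pairs hcard _ _ fun t ht => ?_
      obtain ⟨e, he, hu⟩ := uShared_lower N ht.1 hn0 hx' hR' hκ₂
      refine ⟨e, he, not_not.1 fun hh => ht.2 (Set.mem_iUnion₂.2 ⟨e, he, hh⟩),
        fun u h1 _ h3 => ?_⟩
      obtain ⟨l, hl, hev⟩ := hu u h1 h3
      exact Set.mem_iUnion₂.2 ⟨l, mem_range.2 (Nat.lt_succ_of_le hl), hev⟩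
    have r1 : P.real (A x \ few) ≤ c₁ * P.real Sh := by
      rw [measureReal_def, measureReal_def, hc₁, ← ENNReal.toReal_mul]
      exact ENNReal.toReal_mono (ENNReal.mul_ne_top hC₁ (measure_ne_top _ _)) s1
    have r2 : P.real (Sh \ exc) ≤ c₂ * P.real (Root x) := by
      rw [measureReal_def, measureReal_def, hc₂, ← ENNReal.toReal_mul]
      exact ENNReal.toReal_mono (ENNReal.mul_ne_top hC₂ (measure_ne_top _ _)) s2
    have r3 : P.real few ≤ ((2 * R + 1) ^ 2 : ℕ) * (1 / 2 : ℝ) ^ L := by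
      refine (ENNReal.toReal_mono (by finiteness) (fewGood_le G hGm hGc (Box.mk x R) L)).trans
        (le_of_eq ?_)
      rw [ENNReal.toReal_mul, ENNReal.toReal_natCast, ENNReal.toReal_pow, ENNReal.toReal_div]
      norm_num
    have r4 : P.real exc ≤ K * ε₂ := by
      refine (measureReal_biUnion_finset_le _ _).trans ?_
      refine (sum_le_card_nsmul _ _ ε₂ fun e _ => ?_).trans ?_
      · rw [measureReal_def, hP, weightMeasure_coord_notMem G hGm₂]
        exact (ENNReal.toReal_mono ENNReal.ofReal_ne_top hGc₂).trans_eq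
          (ENNReal.toReal_ofReal hε₂0.le)
      · rw [nsmul_eq_mul]
        exact mul_le_mul_of_nonneg_right (by exact_mod_cast hcard) hε₂0.le
    have u1 : P.real (A x) ≤ P.real few + P.real (A x \ few) :=
      (weight_real_mono G (by rw [Set.union_sdiff_self]; exact Set.subset_union_right)).trans
        (measureReal_union_le few _)
    have u2 : P.real Sh ≤ P.real exc + P.real (Sh \ exc) :=
      (weight_real_mono G (by rw [Set.union_sdiff_self]; exact Set.subset_union_right)).trans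
        (measureReal_union_le exc _)
    have u3 := mul_le_mul_of_nonneg_left (u2.trans (add_le_add r4 r2)) hc₁0
    linarith
  have hroot : avg G M Root ≤ ((n : ℝ) + 1) * (ε' / 5 / ((c₁ + 1) * (c₂ + 1) * (n + 1))) := by
    refine (avg_biUnion_le G (range (n + 1))
      (fun l x => {t | (N.fr B 1 t).RootEv (Box.mk x R) (B.gridPos n l) κ₂ t})).trans ?_
    refine (sum_le_card_nsmul _ _ _ fun l hl => hMc _ ?_).trans (le_of_eq ?_)
    · exact Nat.div_le_of_le_mul
        (Nat.mul_le_mul_right _ (Nat.lt_succ_iff.1 (mem_range.1 hl)))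
    · rw [card_range, nsmul_eq_mul]; push_cast; ring
  have hq1 : c₁ * (K * ε₂) ≤ ε' / 5 := by
    have h : c₁ * K ≤ (c₁ + 1) * (K + 1) :=
      mul_le_mul (by linarith) (by linarith) (Nat.cast_nonneg _) (by positivity)
    calc c₁ * (K * ε₂) = c₁ * K * ε₂ := by ring
      _ ≤ (c₁ + 1) * (K + 1) * ε₂ := mul_le_mul_of_nonneg_right h hε₂0.le
      _ = ε' / 5 := by rw [hε₂]; field_simp
  have hq2 : c₁ * c₂ * avg G M Root ≤ ε' / 5 := by
    refine (mul_le_mul_of_nonneg_left hroot (mul_nonneg hc₁0 hc₂0)).trans ?_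
    calc c₁ * c₂ * (((n : ℝ) + 1) * (ε' / 5 / ((c₁ + 1) * (c₂ + 1) * (n + 1))))
        ≤ (c₁ + 1) * (c₂ + 1) * (((n : ℝ) + 1) * (ε' / 5 / ((c₁ + 1) * (c₂ + 1) * (n + 1)))) :=
          mul_le_mul_of_nonneg_right (mul_le_mul (by linarith) (by linarith) hc₂0 (by positivity))
            (by positivity)
      _ = ε' / 5 := by field_simp
  linarith

end Vale.Agent.P158.NB
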