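import Vale.Agent.P158.NB.MainEvents
import Vale.Agent.P158.NB.Exit
import Vale.Agent.P158.NB.FrMeas

/-!
Tools for the probability part of section 9: labels of pieces on a tile, measurability, double
counting and choices of centres.
-/

open MeasureTheory Finset Filter
open scoped ENNReal

namespace Vale.Agent.P158.NB

/-- A piece as a tuple. -/
def SegPiece.tup (u : SegPiece) : ℕ × ℕ × V × V := (u.i, u.j, u.p, u.q)

lemma SegPiece.tup_injective : Function.Injective SegPiece.tup := fun u v h => by
  cases u; cases v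
  simpa [SegPiece.tup] using h

instance : Countable SegPiece := SegPiece.tup_injective.countable

namespace Frame

variable {F : Frame} {t : Env}

/-- A segment through the window can be oriented with its low end first. -/
lemma exists_low (hv : F.Valid) (hn : 0 < F.n) (ht : ∀ e, 0 ≤ t e) {W : Box} (hs : F.Short W t)
    {i j : ℕ} {p q : V} {δ : ℝ} (h : F.Seg t i j p q δ) (hp : W.Mem p) (hq : W.Mem q) :
    F.Low i j ∨ F.Low j i := by
  obtain ⟨l, m, h | h⟩ := exists_lowSeg hv hn ht hs h hp hq
  · exact Or.inl ⟨l, m, h.2.2.2.1, h.2.2.2.2.1, h.2.2.2.2.2⟩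
  · exact Or.inr ⟨l, m, h.2.2.2.1, h.2.2.2.2.1, h.2.2.2.2.2⟩

variable (F) in
/-- The pieces at a tile. -/
noncomputable def pieces (T : Box) : Finset SegPiece :=
  open scoped Classical in
  (range (F.B.len + 1) ×ˢ range (F.B.len + 1) ×ˢ T.verts ×ˢ T.verts).image fun a =>
    ⟨a.1, a.2.1, a.2.2.1, a.2.2.2⟩

lemma mem_pieces {T : Box} {u : SegPiece} {δ : ℝ} (h : F.Seg t u.i u.j u.p u.q δ) (hp : T.Mem u.p)
    (hq : T.Mem u.q) : u ∈ F.pieces T := by
  classical
  exact mem_image.2 ⟨(u.i, u.j, u.p, u.q), by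
    simp only [mem_product, mem_range, Box.mem_verts]
    exact ⟨Nat.lt_succ_of_le h.1.1, Nat.lt_succ_of_le h.1.2.1, hp, hq⟩, rfl⟩

/-- Labels of pieces on a tile. -/
theorem exists_piece_labels {G : Measure ℝ} (Ns : Nets G) {W : Box} {x : V} {r : ℕ}
    {δ η C X : ℝ} (hX : Ns.tileW x r t ≤ X) (hv : F.Valid) (ht : ∀ e, 0 < t e) (hδ : 0 < δ)
    (hW : ∀ z, W.Mem z → F.B.Mem z) (hTW : ∀ z, (Box.mk x r).Mem z → W.Mem z)
    (h2 : ∀ z, (Box.mk x (2 * r)).Mem z → F.B.Mem z) (hC : 0 < C) (hg : ¬ F.GridBad W t)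
    (hcont : ¬ F.ContBad W δ η t) :
    ∃ lab : SegPiece → ℕ,
      (∀ u : SegPiece, (Box.mk x r).Mem u.p → (Box.mk x r).Mem u.q → F.Seg t u.i u.j u.p u.q δ →
        F.Low u.i u.j → (lab u : ℝ) ≤ 12 * X / C) ∧
      ∀ u v : SegPiece, (Box.mk x r).Mem u.p → (Box.mk x r).Mem u.q → F.Seg t u.i u.j u.p u.q δ →
        F.Low u.i u.j → (Box.mk x r).Mem v.p → (Box.mk x r).Mem v.q →
        F.Seg t v.i v.j v.p v.q δ → F.Low v.i v.j → lab u = lab v →
        F.PNear (Box.mk x r) t (C + 2 * η) u v := by
  classical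
  obtain ⟨N, z, w, hmem, hsum, hframe⟩ := exists_tile_frame Ns (fun e => (ht e).le) x r h2
  obtain ⟨lab, hb, hl⟩ := exists_classes (X := X) hmem (hsum.trans hX) hframe hv ht hδ hW hTW hC hg
    hcont
  let f : SegPiece → ℕ := fun u =>
    if h : F.Low u.i u.j then lab h.choose h.choose_spec.choose else 0
  have hf : ∀ u : SegPiece, (Box.mk x r).Mem u.p → (Box.mk x r).Mem u.q →
      F.Seg t u.i u.j u.p u.q δ → F.Low u.i u.j →
      ∃ l m, F.LowSeg W δ t l m u.i u.j u.p u.q ∧ f u = lab l m := fun u hp hq hs hl =>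
    ⟨hl.choose, hl.choose_spec.choose, ⟨hs, hTW _ hp, hTW _ hq, hl.choose_spec.choose_spec.1,
      hl.choose_spec.choose_spec.2.1, hl.choose_spec.choose_spec.2.2⟩, dif_pos hl⟩
  refine ⟨f, fun u hp hq hs hlow => ?_, fun u v a b c d a' b' c' d' he => ?_⟩
  · obtain ⟨l, m, h, e⟩ := hf u hp hq hs hlow
    rw [e]
    exact hb _ _ _ _ _ _ h
  · obtain ⟨l, m, h, e⟩ := hf u a b c d
    obtain ⟨l', m', h', e'⟩ := hf v a' b' c' d'
    exact hl _ _ _ _ _ _ _ _ _ _ _ _ h h' (e.symm.trans (he.trans e'))

/-! Measurability. -/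

variable (F) (S R W : Box) {T : Env → Set ℕ} (hT : ∀ k, Measurable fun t => k ∈ T t)

include hT in
lemma measurable_good (δ η C : ℝ) (u : SegPiece) :
    Measurable fun t => (F.withT (T t)).Good S R t δ η C u :=
  (F.measurable_seg hT _ _ _ _ δ).and (measurable_const.and (measurable_const.and
    ((measurable_reg R η C u.p).and (measurable_reg R η C u.q))))

lemma measurable_pnear (C : ℝ) (u v : SegPiece) : Measurable fun t => F.PNear W t C u v :=
  (Box.measurable_oscLe_diff F.B W _ _ C).and (Box.measurable_oscLe_diff F.B W _ _ C)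

include hT in
lemma measurable_heavy (N : ℕ) (C κ : ℝ) (p q : V) :
    Measurable fun t => (F.withT (T t)).Heavy W N C κ p q t := by
  simp only [Heavy, Low, PNear, withT_inBin, withT_B]
  exact Measurable.exists fun P => measurable_const.and ((Measurable.forall fun v =>
    measurable_const.imp (measurable_const.and (measurable_const.and
      ((F.measurable_seg hT _ _ _ _ κ).and measurable_const)))).and
    (Measurable.forall fun v => measurable_const.imp (Measurable.forall fun w =>
      measurable_const.imp (measurable_const.imp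
        (F.measurable_pnear W C v w).not))))

end Frame

/-! Probability tools. -/

variable {G : Measure ℝ} [IsProbabilityMeasure G]

/-- Double counting over a finite family of measurable events. -/
theorem sum_real_le_of_count {ι : Type*} (s : Finset ι) {E : ι → Set Env}
    (hE : ∀ x ∈ s, MeasurableSet (E x)) {bad : Set Env} {N : ℝ} (hN : 0 ≤ N)
    (h : ∀ t ∉ bad, ∀ s' ⊆ s, (∀ x ∈ s', t ∈ E x) → (s'.card : ℝ) ≤ N) :
    ∑ x ∈ s, (weightMeasure G).real (E x) ≤ s.card * (weightMeasure G).real bad + N := by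
  classical
  set P := weightMeasure G
  set W := toMeasurable P bad
  have hW : MeasurableSet W := measurableSet_toMeasurable P bad
  have hWr : P.real W = P.real bad := by simp [W, measureReal_def, measure_toMeasurable]
  have hm : ∀ x ∈ s, MeasurableSet (E x \ W) := fun x hx => (hE x hx).diff hW
  have h1 : ∑ x ∈ s, P.real (E x \ W) ≤ N := by
    calc ∑ x ∈ s, P.real (E x \ W)
        = ∫ t, ∑ x ∈ s, (E x \ W).indicator (fun _ => (1 : ℝ)) t ∂P := by
          rw [integral_finsetSum _ fun x hx => (integrable_const (1 : ℝ)).indicator (hm x hx)]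
          exact sum_congr rfl fun x hx => (integral_indicator_one (hm x hx)).symm
      _ ≤ ∫ _t, N ∂P := by
          refine integral_mono (integrable_finsetSum _ fun x hx =>
            (integrable_const (1 : ℝ)).indicator (hm x hx)) (integrable_const N) fun t => ?_
          dsimp only
          by_cases ht : t ∈ W
          · rw [sum_eq_zero fun x _ => Set.indicator_of_notMem (fun hx => hx.2 ht) _]
            exact hN
          · simp only [Set.indicator_apply, sum_boole]
            exact h t (fun hb => ht (subset_toMeasurable P bad hb)) _ (filter_subset _ _)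
              fun x hx => (mem_filter.1 hx).2.1
      _ = N := by simp
  have h2 : ∑ x ∈ s, P.real (E x) ≤ ∑ x ∈ s, (P.real W + P.real (E x \ W)) :=
    sum_le_sum fun x _ =>
      (weight_real_mono G (show E x ⊆ W ∪ (E x \ W) from fun t ht => by
        by_cases hw : t ∈ W
        exacts [Or.inl hw, Or.inr ⟨ht, hw⟩])).trans (measureReal_union_le _ _)
  rw [sum_add_distrib, sum_const, nsmul_eq_mul, hWr] at h2
  linarith

/-- Markov's inequality for finitely many arbitrary events. -/
theorem real_many_le {ι : Type*} (s : Finset ι) (E : ι → Set Env) {N : ℕ} (hN : 0 < N) :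
    (weightMeasure G).real {t | ∃ I ⊆ s, N ≤ I.card ∧ ∀ i ∈ I, t ∈ E i} * N ≤
      ∑ i ∈ s, (weightMeasure G).real (E i) := by
  classical
  set P := weightMeasure G
  set W : ι → Set Env := fun i => toMeasurable P (E i)
  have hW : ∀ i, MeasurableSet (W i) := fun i => measurableSet_toMeasurable P _
  set many : Set Env := {t | (N : ℝ) ≤ ∑ i ∈ s, (W i).indicator (fun _ => (1 : ℝ)) t}
  have hsub : {t | ∃ I ⊆ s, N ≤ I.card ∧ ∀ i ∈ I, t ∈ E i} ⊆ many := by
    rintro t ⟨I, hI, hc, hmem⟩
    refine le_trans ?_ (sum_le_sum_of_subset_of_nonneg hI fun i _ _ =>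
      Set.indicator_nonneg (fun _ _ => zero_le_one' ℝ) _)
    rw [sum_congr rfl fun i hi => Set.indicator_of_mem (subset_toMeasurable P _ (hmem i hi)) _]
    simpa using hc
  have hint : Integrable (fun t => ∑ i ∈ s, (W i).indicator (fun _ => (1 : ℝ)) t) P :=
    integrable_finsetSum _ fun i _ => (integrable_const (1 : ℝ)).indicator (hW i)
  have hmk := mul_meas_ge_le_integral_of_nonneg (μ := P)
    (Eventually.of_forall fun t => sum_nonneg fun i _ =>
      Set.indicator_nonneg (fun _ _ => zero_le_one' ℝ) t) hint (N : ℝ)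
  rw [integral_finsetSum _ fun i _ => (integrable_const (1 : ℝ)).indicator (hW i)] at hmk
  replace hmk := hmk.trans_eq (sum_congr rfl fun i _ => integral_indicator_one (hW i))
  calc P.real {t | ∃ I ⊆ s, N ≤ I.card ∧ ∀ i ∈ I, t ∈ E i} * N
      ≤ P.real many * N := mul_le_mul_of_nonneg_right (weight_real_mono G hsub) (Nat.cast_nonneg N)
    _ = N * P.real many := mul_comm _ _
    _ ≤ ∑ i ∈ s, P.real (W i) := hmk
    _ = ∑ i ∈ s, P.real (E i) := by simp [W, measureReal_def, measure_toMeasurable]

variable (G) in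
omit [IsProbabilityMeasure G] in
/-- A centre in the quarter box at most nine times as bad as the average over the half box. -/
theorem exists_quarter (M : ℕ) (E : V → Set Env) :
    ∃ x, (Box.mk 0 (M / 4)).Mem x ∧ (weightMeasure G).real (E x) ≤ 9 * avg G M E := by
  set s := (Box.mk 0 (M / 4)).verts
  have hsub : s ⊆ half M := fun x hx => by
    have := Box.mem_verts.1 hx
    refine mem_half.2 ?_
    simp only [Box.mem_iff] at this ⊢
    omega
  have hcard : ((half M).card : ℝ) ≤ 9 * s.card := by
    have h : 2 * (M / 2) + 1 ≤ 3 * (2 * (M / 4) + 1) := by omega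
    have h2 := Nat.pow_le_pow_left h 2
    rw [mul_pow] at h2
    simp only [half, s, Box.card_verts]
    exact_mod_cast h2
  obtain ⟨x, hx, hle⟩ := exists_le_of_sum_le (s := s)
    (f := fun x => (weightMeasure G).real (E x)) (g := fun _ => 9 * avg G M E)
    ⟨0, Box.mem_verts.2 (by simp only [Box.mem_iff, Prod.fst_zero, Prod.snd_zero]; omega)⟩ (by
      rw [sum_const, nsmul_eq_mul]
      refine (sum_le_sum_of_subset_of_nonneg hsub fun _ _ _ => measureReal_nonneg).trans ?_
      calc ∑ x ∈ half M, (weightMeasure G).real (E x) = (half M).card * avg G M E := by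
            rw [avg, mul_div_cancel₀ _ (card_half_pos M).ne']
        _ ≤ 9 * s.card * avg G M E := mul_le_mul_of_nonneg_right hcard (avg_nonneg G)
        _ = s.card * (9 * avg G M E) := by ring)
  exact ⟨x, Box.mem_verts.1 hx, hle⟩

/-- Small weights are rare. -/
theorem exists_iso (hG : GoodLaw G) {ε : ℝ} (hε : 0 < ε) :
    ∃ η : ℝ, 0 < η ∧ ∀ p, (weightMeasure G).real {t | ¬ Iso η p t} ≤ ε := by
  have hz : G (Set.Iic 0) = 0 := by
    rw [← Set.Iio_union_right]
    exact measure_union_null hG.nonneg (hG.atomless 0)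
  have hinter : ⋂ n : ℕ, Set.Iio (1 / ((n : ℝ) + 1)) = Set.Iic 0 := by
    ext x
    simp only [Set.mem_iInter, Set.mem_Iio, Set.mem_Iic]
    constructor
    · intro h
      by_contra hc
      obtain ⟨n, hn⟩ := exists_nat_one_div_lt (not_le.1 hc)
      exact absurd (h n) (not_lt.2 hn.le)
    · exact fun h n => h.trans_lt (by positivity)
  have hlim := tendsto_measure_iInter_atTop (μ := G) (s := fun n : ℕ => Set.Iio (1 / ((n : ℝ) + 1)))
    (fun _ => measurableSet_Iio.nullMeasurableSet)
    (fun m n hmn => Set.Iio_subset_Iio (one_div_le_one_div_of_le (by positivity) (by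
      have : (m : ℝ) ≤ n := by exact_mod_cast hmn
      linarith))) ⟨0, measure_ne_top _ _⟩
  rw [hinter, hz] at hlim
  obtain ⟨n, hn⟩ := eventually_atTop.1
    (hlim.eventually (eventually_le_nhds (ENNReal.ofReal_pos.2 (show 0 < ε / 4 by positivity))))
  refine ⟨1 / ((n : ℝ) + 1), by positivity, fun p => ?_⟩
  classical
  set nb : Finset V := {(p.1 + 1, p.2), (p.1 - 1, p.2), (p.1, p.2 + 1), (p.1, p.2 - 1)}
  have hsub : {t | ¬ Iso (1 / ((n : ℝ) + 1)) p t} ⊆
      ⋃ y ∈ nb, {t : Env | t s(p, y) ∈ Set.Iio (1 / ((n : ℝ) + 1))} := by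
    intro t ht
    simp only [Iso, Set.mem_ofPred_eq, not_forall, not_le] at ht
    obtain ⟨y, hy, hlt⟩ := ht
    have hmem : y ∈ nb := by
      simp only [nb, mem_insert, mem_singleton, Prod.ext_iff]
      exact Box.nbr_cases hy
    exact Set.mem_iUnion₂.2 ⟨y, hmem, hlt⟩
  refine (weight_real_mono G hsub).trans ((measureReal_biUnion_finset_le _ _).trans
    ((sum_le_card_nsmul _ _ (ε / 4) fun y _ => ?_).trans ?_))
  · have h : (weightMeasure G).map (fun t : Env => t s(p, y)) = G :=
      Measure.infinitePi_map_eval _ _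
    have h' : weightMeasure G {t : Env | t s(p, y) ∈ Set.Iio (1 / ((n : ℝ) + 1))} =
        G (Set.Iio (1 / ((n : ℝ) + 1))) := by
      conv_rhs => rw [← h, Measure.map_apply (measurable_pi_apply _) measurableSet_Iio]
      rfl
    rw [measureReal_def, h']
    exact ENNReal.toReal_le_of_le_ofReal (by positivity) (hn n le_rfl)
  · rw [nsmul_eq_mul]
    calc (nb.card : ℝ) * (ε / 4) ≤ 4 * (ε / 4) :=
          mul_le_mul_of_nonneg_right (by exact_mod_cast card_le_four) (by positivity)
      _ = ε := by ring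

end Vale.Agent.P158.NB
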