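import Vale.Agent.P158.NB.MainStages

/-!
The three averaged bounds of section 9 of `PROOF.md`: one scale, many bad scales against a margin
segment, and heavy steps of the final tile.
-/

open MeasureTheory Finset
open scoped ENNReal

namespace Vale.Agent.P158.NB

variable {G : Measure ℝ} [IsProbabilityMeasure G]

/-- The configurations in which the frame fails on the window. -/
def Nets.WinBad (N : Nets G) (B : Box) (n : ℕ) (W : Box) (δ η : ℝ) : Set Env :=
  {t | ¬ ((∀ e, 0 < t e) ∧ (N.fr B n t).Valid ∧ ¬ (N.fr B n t).GridBad W t ∧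
    ¬ (N.fr B n t).ContBad W δ η t)}

/-- The edge `x, x + e` is bad at the scale of the tile `Box z r` with sub-box `S`. -/
def Nets.ScaleBad (N : Nets G) (B : Box) (n : ℕ) (δ ηi Cr Cl Cb : ℝ) (r : ℕ) (z : V) (S : Box)
    (x e : V) : Set Env :=
  {t | Cr < (Box.mk z (2 * r)).dist t z x} ∪ {t | Cr < (Box.mk z (2 * r)).dist t z (x + e)} ∪
    {t | (N.fr B n t).BadAt (Box.mk z r) (Box.mk z (2 * r)) S δ ηi Cr Cl Cb x e t}

/-- One scale: some offset of the tiles is good for most edges of the region. -/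
theorem Nets.exists_scale_offset (N : Nets G) {B : Box} {n : ℕ} {x₀ e o : V} {R r Ms : ℕ}
    {δ ηi ε C η Cr X Cb θ : ℝ} (he : Nbr 0 e) (hδ : 0 < δ) (hε : 0 ≤ ε) (hεδ : 2 * ε < δ)
    (hεη : 3 * ε < ηi) (hC : 0 < C) (hCr : 0 ≤ Cr) (hX : 0 ≤ X) (hr : 2 ≤ r) (hrR : r ≤ R)
    (hMs : 4 * r + 4 ≤ Ms) (ho : (Box.mk 0 (Ms / 4)).Mem o)
    (hWB : ∀ w, (Box.mk x₀ (4 * R)).Mem w → B.Mem w)
    (hS2 : ∀ z, (Box.mk x₀ (2 * R)).Mem z → ∀ w, (Box.mk (z + o) (2 * Ms)).Mem w → B.Mem w)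
    (hwin : (weightMeasure G).real (N.WinBad B n (Box.mk x₀ (4 * R)) δ η) ≤ θ)
    (htile : ∀ z, (weightMeasure G).real {t | X < N.tileW z r t} ≤ θ)
    (hexit : ∀ z, (weightMeasure G).real {t | ¬ (Box.mk (z + o) Ms).ExitOk N.Adm t} ≤ θ)
    (hub : ∀ z, (weightMeasure G).real
      {t | (N.fr (Box.mk (z + o) Ms) 1 t).UBad (Box.mk z r) δ ε (Cb + 6 * Cr) t} ≤ θ)
    (hreach : ∀ z p, (Box.mk z r).Mem p →
      (weightMeasure G).real {t | Cr < (Box.mk z (2 * r)).dist t z p} ≤ θ)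
    (hbound : (12 * X / C + 1) * (4 * (2 * Cr / (ηi - 3 * ε) + 1)) ≤ θ * (r : ℝ) ^ 2) :
    ∃ v, (Box.mk 0 (r / 2)).Mem v ∧
      ∑ x ∈ (Box.mk x₀ R).verts, (weightMeasure G).real
          (N.ScaleBad B n δ ηi Cr (C + 2 * η) Cb r (x - v) (Box.mk (x - v + o) Ms) x e) ≤
        200 * θ * (Box.mk x₀ R).verts.card := by
  set P := weightMeasure G
  have hθ : 0 ≤ θ := measureReal_nonneg.trans hwin
  have he0 : e ≠ 0 := by
    rintro rfl
    exact absurd he (by simp [P158.Nbr])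
  have hne := Box.nbr_cases he
  simp only [Prod.fst_zero, Prod.snd_zero] at hne
  set f : V → V → ℝ := fun x z => P.real {t | (N.fr B n t).BadAt (Box.mk z r) (Box.mk z (2 * r))
    (Box.mk (z + o) Ms) δ ηi Cr (C + 2 * η) Cb x e t}
  obtain ⟨v, hv, hle⟩ := exists_tile_offset (show 0 < r by omega) hrR x₀ f
    (fun _ _ => measureReal_nonneg) (b := 37 * θ * (r : ℝ) ^ 2) (by
      intro z hz
      refine (N.sum_badAt (Wf := Box.mk x₀ (4 * R)) (X := X) he0 hδ hε hεδ hεη hC hCr hX hWB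
        (fun w hw => ?_) (hS2 z hz) (show 0 < Ms by omega) (fun w hw => ?_) fun w hw => ?_).trans ?_
      · simp only [Box.mem_iff, Nat.cast_mul, Nat.cast_ofNat] at hz hw ⊢; omega
      · simp only [Box.mem_iff, Nat.cast_mul, Nat.cast_ofNat, Prod.fst_add, Prod.snd_add,
          Prod.fst_zero, Prod.snd_zero] at ho hw ⊢
        omega
      · simp only [Box.mem_iff, Nat.cast_mul, Nat.cast_ofNat, Prod.fst_add, Prod.snd_add,
          Prod.fst_zero, Prod.snd_zero] at ho hw ⊢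
        omega
      have hbad : P.real (N.TileBad B n (Box.mk x₀ (4 * R)) (Box.mk (z + o) Ms) z r δ ε η X
          (Cb + 6 * Cr)) ≤ 4 * θ := by
        refine (weight_real_mono G (show _ ⊆ N.WinBad B n (Box.mk x₀ (4 * R)) δ η ∪
            {t | X < N.tileW z r t} ∪ ({t | ¬ (Box.mk (z + o) Ms).ExitOk N.Adm t} ∪
            {t | (N.fr (Box.mk (z + o) Ms) 1 t).UBad (Box.mk z r) δ ε (Cb + 6 * Cr) t})
          from fun t ht => ?_)).trans ?_
        · by_contra hno
          simp only [Nets.WinBad, Set.mem_union, Set.mem_ofPred_eq, not_or, not_not, not_lt] at hno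
          obtain ⟨⟨⟨a, b, c, d⟩, e'⟩, f', g⟩ := hno
          exact ht ⟨a, b, c, d, e', f', g⟩
        · refine (ContAvg.real_union (ContAvg.real_union hwin (htile z))
            (ContAvg.real_union (hexit z) (hub z))).trans ?_
          linarith
      have hcard : ((Box.mk z r).verts.card : ℝ) ≤ 9 * (r : ℝ) ^ 2 := by
        rw [Box.card_verts]
        have := Nat.pow_le_pow_left (show 2 * r + 1 ≤ 3 * r by omega) 2
        rw [mul_pow] at this
        exact_mod_cast this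
      calc ((Box.mk z r).verts.card : ℝ) * _ + _ ≤ 9 * (r : ℝ) ^ 2 * (4 * θ) + θ * (r : ℝ) ^ 2 :=
            add_le_add (mul_le_mul hcard hbad measureReal_nonneg (by positivity)) hbound
        _ = 37 * θ * (r : ℝ) ^ 2 := by ring)
  refine ⟨v, hv, ?_⟩
  have hmem : ∀ x, (Box.mk (x - v) r).Mem x ∧ (Box.mk (x - v) r).Mem (x + e) := fun x => by
    simp only [Box.mem_iff, Prod.fst_sub, Prod.snd_sub, Prod.fst_add, Prod.snd_add,
      Prod.fst_zero, Prod.snd_zero] at hv ⊢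
    omega
  have hsplit : ∀ x, P.real
      (N.ScaleBad B n δ ηi Cr (C + 2 * η) Cb r (x - v) (Box.mk (x - v + o) Ms) x e) ≤
        θ + θ + f x (x - v) := fun x =>
    ContAvg.real_union (ContAvg.real_union (hreach _ _ (hmem x).1) (hreach _ _ (hmem x).2)) le_rfl
  refine (sum_le_sum fun x _ => hsplit x).trans ?_
  rw [sum_add_distrib, sum_const, nsmul_eq_mul]
  have hr2 : (0 : ℝ) < (r : ℝ) ^ 2 := by positivity
  have h4 : 4 * ((Box.mk x₀ R).verts.card : ℝ) * (37 * θ * (r : ℝ) ^ 2) / (r : ℝ) ^ 2 =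
      148 * θ * (Box.mk x₀ R).verts.card := by field_simp; ring
  rw [h4] at hle
  have : 0 ≤ θ * ((Box.mk x₀ R).verts.card : ℝ) := by positivity
  linarith

/-- A margin segment at an edge makes it rich unless many scales are bad. -/
theorem Nets.seg_le_rich (N : Nets G) {n : ℕ} {M : ℕ} {x e : V} {W : Box} {δ ηi Cl Cb θ : ℝ}
    {Cr : ℕ → ℝ} {L N' : ℕ} (r : ℕ → ℕ) (ctr : ℕ → V) (sub win : ℕ → Box) (hn : 0 < n)
    (hδ : 0 ≤ δ) (hN : 0 < N')
    (hx : (Box.mk 0 (M / 2)).Mem x) (hxe : (Box.mk 0 M).Inner (x + e))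
    (hxW : W.Mem x ∧ W.Mem (x + e)) (hW : ∀ w, W.Mem w → (Box.mk 0 (5 * M / 8)).Mem w)
    (hM : 0 < M)
    (htile : ∀ i < 2 * N', ∀ p, p = x ∨ p = x + e → ∀ z, (Box.mk p (L + 1)).Mem z →
      (Box.mk (ctr i) (r i)).Mem z)
    (hwin : ∀ i < 2 * N', ∀ z, (sub i).Mem z → (win i).Mem z)
    (hframe : (weightMeasure G).real
      {t | ¬ N.FrameOk (Box.mk 0 M) n (Box.mk 0 (5 * M / 8)) 1 t} ≤ θ)
    (hexit : (weightMeasure G).real {t | ¬ (Box.mk 0 M).ExitOk N.Adm t} ≤ θ)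
    (hiso : ∀ p, (weightMeasure G).real {t | ¬ Iso ηi p t} ≤ θ) :
    (weightMeasure G).real {t | ∃ i j, (Box.mk 0 (2 * M)).Seg t i j x (x + e) δ} ≤
      4 * θ + (weightMeasure G).real {t | (N.fr (Box.mk 0 M) n t).Rich
          (fun i => Box.mk (ctr i) (r i)) (fun i => Box.mk (ctr i) (2 * r i)) win (2 * N') N'
          δ ηi Cl Cb Cr L x (x + e) t} +
        (weightMeasure G).real {t | (N.fr (Box.mk 0 M) n t).Rich
          (fun i => Box.mk (ctr i) (r i)) (fun i => Box.mk (ctr i) (2 * r i)) win (2 * N') N'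
          δ ηi Cl Cb Cr L (x + e) x t} +
        (∑ i ∈ range (2 * N'), (weightMeasure G).real
          (N.ScaleBad (Box.mk 0 M) n δ ηi (Cr i) Cl Cb (r i) (ctr i) (sub i) x e)) / N' := by
  classical
  set P := weightMeasure G
  set B : Box := Box.mk 0 M
  set many : Set Env := {t | ∃ I ⊆ range (2 * N'), N' ≤ I.card ∧ ∀ i ∈ I,
    t ∈ N.ScaleBad B n δ ηi (Cr i) Cl Cb (r i) (ctr i) (sub i) x e}
  have hmany : P.real many ≤ (∑ i ∈ range (2 * N'), P.real
      (N.ScaleBad B n δ ηi (Cr i) Cl Cb (r i) (ctr i) (sub i) x e)) / N' := by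
    rw [le_div_iff₀ (by exact_mod_cast hN)]
    exact real_many_le _ _ hN
  refine (weight_real_mono G (show _ ⊆ ({t | ¬ N.FrameOk B n (Box.mk 0 (5 * M / 8)) 1 t} ∪
      {t | ¬ B.ExitOk N.Adm t} ∪ ({t | ¬ Iso ηi x t} ∪ {t | ¬ Iso ηi (x + e) t})) ∪
      {t | (N.fr B n t).Rich (fun i => Box.mk (ctr i) (r i)) (fun i => Box.mk (ctr i) (2 * r i))
        win (2 * N') N' δ ηi Cl Cb Cr L x (x + e) t} ∪
      {t | (N.fr B n t).Rich (fun i => Box.mk (ctr i) (r i)) (fun i => Box.mk (ctr i) (2 * r i))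
        win (2 * N') N' δ ηi Cl Cb Cr L (x + e) x t} ∪ many from fun t ht => ?_)).trans ?_
  · by_contra hno
    simp only [Set.mem_union, Set.mem_ofPred_eq, not_or, not_not] at hno
    obtain ⟨⟨⟨⟨⟨hok, hex⟩, hi1, hi2⟩, hr1⟩, hr2⟩, hnm⟩ := hno
    obtain ⟨hpos, hv, hshort, -⟩ := hok
    have ht0 : ∀ e, 0 ≤ t e := fun e => (hpos e).le
    obtain ⟨i, j, hs⟩ := ht
    have hB2 : ∀ w, B.Mem w → (Box.mk 0 (2 * M)).Mem w := fun w hw => by
      simp only [B, Box.mem_iff, Nat.cast_mul, Nat.cast_ofNat] at hw ⊢; omega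
    have hxi : B.Inner x := by
      simp only [B, Box.mem_iff, Box.inner_iff] at hx ⊢; omega
    obtain ⟨k, l, hkl⟩ := Box.exists_exits hs ht0 (hpos _) hδ hB2 hxi hxe
    obtain ⟨hk, hl⟩ := Box.exits_adm hex ht0 (fun w hw => hw) hs hx hkl
    set I := (range (2 * N')).filter fun i =>
      t ∉ N.ScaleBad B n δ ηi (Cr i) Cl Cb (r i) (ctr i) (sub i) x e
    have hI : N' ≤ I.card := by
      by_contra hlt
      refine hnm ⟨(range (2 * N')).filter fun i =>
        t ∈ N.ScaleBad B n δ ηi (Cr i) Cl Cb (r i) (ctr i) (sub i) x e, filter_subset _ _, ?_,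
        fun i hi => (mem_filter.1 hi).2⟩
      have h2 := card_filter_add_card_filter_not (s := range (2 * N'))
        (fun i => t ∈ N.ScaleBad B n δ ηi (Cr i) Cl Cb (r i) (ctr i) (sub i) x e)
      rw [card_range] at h2
      simp only [I] at hlt
      omega
    rcases Frame.rich_of_scales (F := N.fr B n t) (W := W) (Cl := Cl) (Cb := Cb) (Cr := Cr) (L := L)
      (fun i => Box.mk (ctr i) (r i)) (fun i => Box.mk (ctr i) (2 * r i)) sub win hv hn ht0
      (hshort.mono hW) hxW.1 hxW.2 ⟨hkl.1, hk, hl⟩ ⟨hi1, hi2⟩ I (filter_subset _ _) hI htile hwin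
      (fun i hi => by
        have h := (mem_filter.1 hi).2
        simp only [Nets.ScaleBad, Set.mem_union, Set.mem_ofPred_eq, not_or, not_lt] at h
        exact ⟨h.1.1, h.1.2, h.2⟩) with h | h
    exacts [hr1 h, hr2 h]
  · refine (ContAvg.real_union (ContAvg.real_union (ContAvg.real_union (ContAvg.real_union
      (ContAvg.real_union hframe hexit) (ContAvg.real_union (hiso x) (hiso (x + e)))) le_rfl)
      le_rfl) hmany).trans ?_
    linarith

/-- Heavy steps near the points of a region are rare. -/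
theorem Nets.sum_heavyNear (N : Nets G) {B : Box} {n : ℕ} {x₀ : V} {R L N₁ : ℕ}
    {κ η' ε C' η ρ X θ : ℝ} (hN : 0 < N₁) (hκ : 0 < κ) (hε : 0 ≤ ε) (hεκ : 2 * ε < κ)
    (hεη : 3 * ε < η') (hε1 : ε ≤ 1) (hC : 0 < C') (hCε : C' + 2 * η ≤ ε) (hρ : 0 ≤ ρ)
    (hX : 0 ≤ X) (hL : L + 2 ≤ R) (hWB : ∀ w, (Box.mk x₀ (4 * R)).Mem w → B.Mem w)
    (hwin : (weightMeasure G).real (N.WinBad B n (Box.mk x₀ (4 * R)) κ η) ≤ θ)
    (htile : (weightMeasure G).real {t | X < N.tileW x₀ (2 * R) t} ≤ θ)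
    (hreach : ∀ p, (Box.mk x₀ (2 * R)).Mem p →
      (weightMeasure G).real {t | ρ < (Box.mk x₀ (2 * (2 * R))).dist t x₀ p} ≤ θ)
    (hiso : ∀ p, (weightMeasure G).real {t | ¬ Iso η' p t} ≤ θ) :
    ∑ x ∈ (Box.mk x₀ R).verts, (weightMeasure G).real
        {t | (N.fr B n t).HeavyNear x L (Box.mk x₀ (2 * R)) N₁ 1 κ t} ≤
      ((2 * (L + 2) + 1) ^ 2 : ℕ) * (4 * (Box.mk x₀ R).verts.card * (4 * θ) +
        (12 * X / C' + 1) * (2 * (4 * (2 * ρ / (η' - 3 * ε) + 1))) / N₁) := by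
  classical
  set P := weightMeasure G
  set S : Box := Box.mk x₀ (2 * R)
  set Rb : Box := Box.mk x₀ (2 * (2 * R))
  set H : V → Set Env := fun p => {t | Reg Rb η' ρ p t ∧
    ∃ q, S.Mem q ∧ (N.fr B n t).Heavy S N₁ 1 κ p q t}
  have hθ : 0 ≤ θ := measureReal_nonneg.trans hwin
  have hgap : 0 < η' - 3 * ε := by linarith
  set bd : ℝ := (12 * X / C' + 1) * (2 * (4 * (2 * ρ / (η' - 3 * ε) + 1)))
  have hbd : 0 ≤ bd := by positivity
  -- few heavy steps
  have hH : ∑ p ∈ S.verts, P.real (H p) ≤ S.verts.card * (2 * θ) + bd / N₁ := by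
    refine (sum_real_le_of_count (N := bd / N₁) _ (fun p _ => measurableSet_setOfPred.2
      ((measurable_reg Rb η' ρ p).and (Measurable.exists fun q => measurable_const.and
        ((Nets.baseFr B n).measurable_heavy S (N.adm_measurable B) N₁ 1 κ p q))))
      (bad := N.WinBad B n (Box.mk x₀ (4 * R)) κ η ∪ {t | X < N.tileW x₀ (2 * R) t})
      (by positivity) fun t ht s hs hsE => ?_).trans
      (add_le_add (mul_le_mul_of_nonneg_left
        ((ContAvg.real_union hwin htile).trans (by linarith)) (Nat.cast_nonneg _)) le_rfl)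
    simp only [Nets.WinBad, Set.mem_union, Set.mem_ofPred_eq, not_or, not_not, not_lt] at ht
    obtain ⟨⟨hpos, hv, hg, hc⟩, hXt⟩ := ht
    set F := N.fr B n t
    obtain ⟨lab, hb, hl⟩ := Frame.exists_piece_labels (F := F) N hXt hv hpos hκ hWB
      (fun w hw => by simp only [Box.mem_iff, Nat.cast_mul, Nat.cast_ofNat] at hw ⊢; omega)
      (fun w hw => hWB w (by simp only [Box.mem_iff, Nat.cast_mul, Nat.cast_ofNat] at hw ⊢; omega))
      hC hg hc
    have hex : ∀ p ∈ s, ∃ q, S.Mem q ∧ F.Heavy S N₁ 1 κ p q t := fun p hp => (hsE p hp).2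
    have : Nonempty V := ⟨0⟩
    choose! sel hsel1 hsel2 using hex
    have hcard := F.card_heavy (S := S) (R := Rb) (ε := ε) (κ := κ) (C := (1 : ℝ)) (W := S) (N := N₁)
      (η' := η') (ρ := ρ) (Λ := 12 * X / C') (s.image fun p => (p, sel p)) hpos hε hεκ hεη hε1 hρ
      (fun w hw => hWB w (by
        simp only [S, Box.mem_iff, Nat.cast_mul, Nat.cast_ofNat] at hw ⊢; omega))
      (fun w hw => by simp only [S, Rb, Box.mem_iff, Nat.cast_mul, Nat.cast_ofNat] at hw ⊢; omega)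
      (fun w hw => hWB w (by
        simp only [Rb, Box.mem_iff, Nat.cast_mul, Nat.cast_ofNat] at hw ⊢; omega))
      (by simp [Rb, Box.Mem]) (fun w hw => hw)
      (fun d hd => by
        obtain ⟨p, hp, rfl⟩ := mem_image.1 hd
        exact ⟨Box.mem_verts.1 (hs hp), hsel1 p hp, (hsE p hp).1⟩)
      (fun d hd => by obtain ⟨p, hp, rfl⟩ := mem_image.1 hd; exact hsel2 p hp)
      lab (by positivity) (fun v a b c d => hb v a b c d)
      (fun v w a b c d a' b' c' d' he =>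
        Box.Near.mono (hl v w a b c d a' b' c' d' he) (fun z hz => hz) hCε)
    rw [card_image_of_injective _ (fun p p' h => (Prod.ext_iff.1 h).1)] at hcard
    rw [le_div_iff₀ (by exact_mod_cast hN), mul_comm]
    exact hcard
  -- near each point
  have hsub : ∀ x ∈ (Box.mk x₀ R).verts,
      P.real {t | (N.fr B n t).HeavyNear x L S N₁ 1 κ t} ≤
        ∑ p ∈ (Box.mk x (L + 2)).verts, (P.real (H p) + 2 * θ) := by
    intro x hx
    have hin : ∀ p, (Box.mk x (L + 2)).Mem p → S.Mem p := fun p hp => by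
      have := Box.mem_verts.1 hx
      simp only [S, Box.mem_iff, Nat.cast_mul, Nat.cast_add, Nat.cast_ofNat] at this hp ⊢
      omega
    refine (weight_real_mono G (show _ ⊆ ⋃ p ∈ (Box.mk x (L + 2)).verts,
        (H p ∪ ({t | ¬ Iso η' p t} ∪ {t | ρ < Rb.dist t x₀ p})) from fun t ht => ?_)).trans
      ((measureReal_biUnion_finset_le _ _).trans (sum_le_sum fun p hp => ?_))
    · obtain ⟨p, q, hp, hq, hh⟩ := ht
      refine Set.mem_iUnion₂.2 ⟨p, Box.mem_verts.2 hp, ?_⟩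
      by_cases h1 : Iso η' p t
      · by_cases h2 : Rb.dist t x₀ p ≤ ρ
        · exact Or.inl ⟨⟨h1, h2⟩, q, hin q hq, hh⟩
        · exact Or.inr (Or.inr (not_le.1 h2))
      · exact Or.inr (Or.inl h1)
    · refine (ContAvg.real_union le_rfl
        (ContAvg.real_union (hiso p) (hreach p (hin p (Box.mem_verts.1 hp))))).trans ?_
      linarith
  refine (sum_le_sum hsub).trans ?_
  rw [sum_comm' (t' := S.verts) (s' := fun p => (Box.mk x₀ R).verts.filter fun x =>
    p ∈ (Box.mk x (L + 2)).verts) (fun x p => ?_)]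
  · refine (sum_le_sum fun p _ => ((sum_const _).trans_le (le_of_eq (nsmul_eq_mul _ _))).trans
      (show _ ≤ (((2 * (L + 2) + 1) ^ 2 : ℕ) : ℝ) * (P.real (H p) + 2 * θ) from
        mul_le_mul_of_nonneg_right ?_
          (add_nonneg measureReal_nonneg (mul_nonneg zero_le_two hθ)))).trans ?_
    · refine Nat.cast_le.2 ((card_le_card (t := (Box.mk p (L + 2)).verts) fun x hx => ?_).trans
        (le_of_eq (Box.card_verts _)))
      obtain ⟨h1, h2⟩ := Box.mem_verts.1 (mem_filter.1 hx).2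
      exact Box.mem_verts.2 ⟨by rwa [abs_sub_comm], by rwa [abs_sub_comm]⟩
    · rw [← mul_sum, sum_add_distrib, sum_const, nsmul_eq_mul]
      refine mul_le_mul_of_nonneg_left ?_ (Nat.cast_nonneg _)
      have hS : (S.verts.card : ℝ) ≤ 4 * (Box.mk x₀ R).verts.card := by
        simp only [S, Box.card_verts]
        have := Nat.pow_le_pow_left (show 2 * (2 * R) + 1 ≤ 2 * (2 * R + 1) by omega) 2
        rw [mul_pow] at this
        exact_mod_cast this
      calc ∑ p ∈ S.verts, P.real (H p) + (S.verts.card : ℝ) * (2 * θ)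
          ≤ S.verts.card * (4 * θ) + bd / N₁ := by linarith
        _ ≤ 4 * (Box.mk x₀ R).verts.card * (4 * θ) + bd / N₁ :=
            add_le_add (mul_le_mul_of_nonneg_right hS (by positivity)) le_rfl
  · simp only [mem_filter]
    constructor
    · rintro ⟨hx, hp⟩
      refine ⟨⟨hx, hp⟩, Box.mem_verts.2 ?_⟩
      have h1 := Box.mem_verts.1 hx
      have h2 := Box.mem_verts.1 hp
      simp only [S, Box.mem_iff, Nat.cast_mul, Nat.cast_add, Nat.cast_ofNat] at h1 h2 ⊢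
      omega
    · rintro ⟨⟨hx, hp⟩, -⟩
      exact ⟨hx, hp⟩

end Vale.Agent.P158.NB
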