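import Vale.Agent.P158.NB.BoxBasic
import Mathlib.Algebra.Order.BigOperators.Ring.Finset
import Mathlib.Combinatorics.Pigeonhole

/-!
# The deterministic core of section 9 of `PROOF.md`

Mates of one base segment at different scales are far apart; after lowering the last edges of the
base segment many of them share an edge; far pairs stay far and hence get different labels.
-/

open Finset

namespace Vale.Agent.P158.NB

namespace Box

variable {B S T W : Box} {t t' : Env} {x y x' y' x'' y'' p q p' q' v : V} {C C' : ℝ}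

/-- The two pairs of targets have the same increments on `S` up to `C`. -/
def Near (B : Box) (t : Env) (S : Box) (x y x' y' : V) (C : ℝ) : Prop :=
  OscLe S (B.diff t x x') C ∧ OscLe S (B.diff t y y') C

lemma Near.symm (h : B.Near t S x y x' y' C) : B.Near t S x' y' x y C :=
  ⟨fun z w hz hw => by have := h.1 w z hw hz; simp only [diff] at this ⊢; linarith,
    fun z w hz hw => by have := h.2 w z hw hz; simp only [diff] at this ⊢; linarith⟩

lemma Near.trans (h : B.Near t S x y x' y' C) (h' : B.Near t S x' y' x'' y'' C') :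
    B.Near t S x y x'' y'' (C + C') :=
  ⟨fun z w hz hw => by
      have := h.1 z w hz hw; have := h'.1 z w hz hw; simp only [diff] at *; linarith,
    fun z w hz hw => by
      have := h.2 z w hz hw; have := h'.2 z w hz hw; simp only [diff] at *; linarith⟩

lemma Near.mono (h : B.Near t S x y x' y' C) (hT : ∀ z, T.Mem z → S.Mem z) (hC : C ≤ C') :
    B.Near t T x y x' y' C' :=
  ⟨fun z w hz hw => (h.1 z w (hT z hz) (hT w hw)).trans hC,
    fun z w hz hw => (h.2 z w (hT z hz) (hT w hw)).trans hC⟩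

/-- Mates at two scales are far apart. -/
lemma not_near_of_scales (hij : ∀ z, S.Mem z → T.Mem z) (hW : ∀ z, S.Mem z → W.Mem z)
    (hfar : ¬ B.Near t S x y x' y' C) (hnear : B.Near t T x y x'' y'' C') :
    ¬ B.Near t W x' y' x'' y'' (C - C') := fun h => hfar (by
  have h' := (hnear.mono hij le_rfl).trans (h.mono hW le_rfl).symm
  rwa [add_sub_cancel] at h')

/-- The excesses of two near segments through each other's edge are small. -/
lemma excess_add_le (h : B.Thru t x y p q) (h' : B.Thru t x' y' p' q')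
    (hN : B.Near t S x y x' y' C) (hp : S.Mem p) (hq : S.Mem q) (hp' : S.Mem p')
    (hq' : S.Mem q') :
    (B.dist t x p' + t s(p', q') + B.dist t q' y - B.dist t x y) +
      (B.dist t x' p + t s(p, q) + B.dist t q y' - B.dist t x' y') ≤ 2 * C := by
  have a := hN.1 p' p hp' hp
  have b := hN.2 q' q hq' hq
  simp only [diff] at a b
  rw [dist_comm B t p' x, dist_comm B t p' x', dist_comm B t p x, dist_comm B t p x'] at a
  linarith [h.2.2.2, h'.2.2.2]

/-- A near segment reaches the start of a piece of the base segment at small excess. -/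
lemma excess_at_start (ht : ∀ e, 0 ≤ t e) (h : B.Thru t x y p q) (h' : B.Thru t x' y' p' q')
    (hN : B.Near t S x y x' y' C) (hx : B.Mem x) (hy : B.Mem y) (hp : S.Mem p) (hq : S.Mem q)
    (hp' : S.Mem p') (hq' : S.Mem q') (hv : S.Mem v)
    (hvp : B.dist t x p = B.dist t x v + B.dist t v p) :
    B.dist t x' v + B.dist t v p + t s(p, q) + B.dist t q y' ≤ B.dist t x' y' + 3 * C := by
  have a := excess_add_le h h' hN hp hq hp' hq'
  have b := dist_le_through (t := t) ht hx hy h'.mem_left h'.mem_right h'.1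
  have c := hN.1 p v hp hv
  simp only [diff] at c
  rw [dist_comm B t p x, dist_comm B t p x', dist_comm B t v x, dist_comm B t v x'] at c
  linarith

/-- If lowering the weights on `F` lowers a distance, an optimal walk steps through `F`. -/
lemma thru_of_lt (ht : ∀ e, 0 ≤ t e) (ht' : ∀ e, 0 ≤ t' e) (F : Finset (Sym2 V))
    (hF : ∀ e, e ∉ F → t' e = t e) (hx : B.Mem x) (hy : B.Mem y)
    (hlt : B.dist t' x y < B.dist t x y) :
    ∃ p q, s(p, q) ∈ F ∧ B.Thru t' x y p q := by
  obtain ⟨m, f, hf, -, hc⟩ := exists_optimal ht' hx hy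
  by_contra hno
  push Not at hno
  refine absurd ((dist_le ht hf).trans (le_of_eq ?_)) (not_le.2 hlt)
  rw [← hc]
  refine sum_congr rfl fun k hk => (hF _ fun hmem => ?_).symm
  exact hno _ _ hmem (thru_of_optimal ht' hf hc (mem_range.1 hk)).1

variable {f : ℕ → V} {n : ℕ} {G : ℝ}

/-- Lowering the end of the base segment forces a near segment onto a lowered edge. -/
lemma forced (ht : ∀ e, 0 ≤ t e) (ht' : ∀ e, 0 ≤ t' e) (hle : ∀ e, t' e ≤ t e)
    (F : Finset (Sym2 V)) (hF : ∀ e, e ∉ F → t' e = t e)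
    (h : B.Thru t x y p q) (h' : B.Thru t x' y' p' q') (hN : B.Near t S x y x' y' C)
    (hx : B.Mem x) (hy : B.Mem y) (hx' : B.Mem x') (hy' : B.Mem y')
    (hp : S.Mem p) (hq : S.Mem q) (hp' : S.Mem p') (hq' : S.Mem q') (hv : S.Mem v)
    (hvp : B.dist t x p = B.dist t x v + B.dist t v p)
    (hf : B.IsWalk f n v q) (hcost : pathCost t' f n + G ≤ B.dist t v p + t s(p, q))
    (hG : 3 * C < G) :
    ∃ p'' q'', s(p'', q'') ∈ F ∧ B.Thru t' x' y' p'' q'' := by
  refine thru_of_lt ht ht' F hF hx' hy' ?_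
  have hvB := hf.mem_left
  have hqB := hf.mem_right
  have a := excess_at_start ht h h' hN hx hy hp hq hp' hq' hv hvp
  linarith [dist_triangle ht' hx' hvB hy', dist_triangle ht' hvB hqB hy', dist_le ht' hf,
    dist_mono ht' hle hx' hvB, dist_mono ht' hle hqB hy']

/-- Near pairs after lowering by a total of at most `G` were near before. -/
lemma near_of_lower (ht' : ∀ e, 0 ≤ t' e) (hle : ∀ e, t' e ≤ t e) (F : Finset (Sym2 V))
    (hF : ∀ e, e ∉ F → t' e = t e) (hsum : ∑ e ∈ F, (t e - t' e) ≤ G)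
    (hS : ∀ z, S.Mem z → B.Mem z) (hx : B.Mem x) (hy : B.Mem y) (hx' : B.Mem x')
    (hy' : B.Mem y') (h : B.Near t' S x y x' y' C) : B.Near t S x y x' y' (C + 2 * G) := by
  have key : ∀ a b : V, B.Mem a → B.Mem b →
      B.dist t' a b ≤ B.dist t a b ∧ B.dist t a b ≤ B.dist t' a b + G := fun a b ha hb =>
    ⟨dist_mono ht' hle ha hb, by linarith [dist_lower ht' hle F hF ha hb]⟩
  refine ⟨fun z w hz hw => ?_, fun z w hz hw => ?_⟩
  · have := h.1 z w hz hw
    have := key z x (hS z hz) hx; have := key z x' (hS z hz) hx'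
    have := key w x (hS w hw) hx; have := key w x' (hS w hw) hx'
    simp only [diff] at *
    linarith
  · have := h.2 z w hz hw
    have := key z y (hS z hz) hy; have := key z y' (hS z hz) hy'
    have := key w y (hS w hw) hy; have := key w y' (hS w hw) hy'
    simp only [diff] at *
    linarith

lemma not_near_of_lower (ht' : ∀ e, 0 ≤ t' e) (hle : ∀ e, t' e ≤ t e) (F : Finset (Sym2 V))
    (hF : ∀ e, e ∉ F → t' e = t e) (hsum : ∑ e ∈ F, (t e - t' e) ≤ G)
    (hS : ∀ z, S.Mem z → B.Mem z) (hx : B.Mem x) (hy : B.Mem y) (hx' : B.Mem x')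
    (hy' : B.Mem y') (h : ¬ B.Near t S x y x' y' C) : ¬ B.Near t' S x y x' y' (C - 2 * G) :=
  fun h' => h (by
    have := near_of_lower ht' hle F hF hsum hS hx hy hx' hy' h'
    rwa [sub_add_cancel] at this)

/-- After lowering the end `f` of the base segment, many mates share a directed edge of it. -/
theorem exists_shared {ι : Type*} (I : Finset ι) (mx my mp mq : ι → V) (tile : ι → Box)
    (ht : ∀ e, 0 ≤ t e) (ht' : ∀ e, 0 ≤ t' e) (hle : ∀ e, t' e ≤ t e)
    (hF : ∀ e, (∀ k < n, e ≠ s(f k, f (k + 1))) → t' e = t e)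
    (h : B.Thru t x y p q) (hx : B.Mem x) (hy : B.Mem y)
    (hmem : ∀ i ∈ I, B.Mem (mx i) ∧ B.Mem (my i))
    (hmate : ∀ i ∈ I, B.Thru t (mx i) (my i) (mp i) (mq i))
    (hnear : ∀ i ∈ I, B.Near t (tile i) x y (mx i) (my i) C)
    (htile : ∀ i ∈ I, (tile i).Mem p ∧ (tile i).Mem q ∧ (tile i).Mem (mp i) ∧
      (tile i).Mem (mq i) ∧ (tile i).Mem v)
    (hvp : B.dist t x p = B.dist t x v + B.dist t v p)
    (hf : B.IsWalk f n v q) (hn : 0 < n)
    (hcost : pathCost t' f n + G ≤ B.dist t v p + t s(p, q)) (hG : 3 * C < G) :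
    ∃ p' q', (∃ k < n, s(p', q') = s(f k, f (k + 1))) ∧ ∃ J ⊆ I, I.card ≤ 2 * n * J.card ∧
      ∀ i ∈ J, B.Thru t' (mx i) (my i) p' q' := by
  classical
  set F := pathEdges f n with hFdef
  have hF' : ∀ e, e ∉ F → t' e = t e := fun e he => hF e fun k hk hek =>
    he (mem_image.2 ⟨k, mem_range.2 hk, hek.symm⟩)
  set D : Finset (V × V) := ((range n).image fun k => (f k, f (k + 1))) ∪
    (range n).image fun k => (f (k + 1), f k) with hD
  have hmaps : ∀ i ∈ I, ∃ d ∈ D, B.Thru t' (mx i) (my i) d.1 d.2 := by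
    intro i hi
    obtain ⟨h1, h2, h3, h4, h5⟩ := htile i hi
    obtain ⟨p', q', he, hth⟩ := forced ht ht' hle F hF' h (hmate i hi) (hnear i hi) hx hy
      (hmem i hi).1 (hmem i hi).2 h1 h2 h3 h4 h5 hvp hf hcost hG
    obtain ⟨k, hk, hek⟩ := mem_image.1 he
    rcases Sym2.eq_iff.1 hek with ⟨e1, e2⟩ | ⟨e1, e2⟩
    · exact ⟨(p', q'), mem_union_left _ (mem_image.2 ⟨k, hk, by rw [e1, e2]⟩), hth⟩
    · exact ⟨(p', q'), mem_union_right _ (mem_image.2 ⟨k, hk, by rw [e1, e2]⟩), hth⟩
  have hDne : D.Nonempty :=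
    ⟨_, mem_union_left _ (mem_image.2 ⟨0, mem_range.2 hn, rfl⟩)⟩
  obtain ⟨d, hd, hmax⟩ := exists_max_image D
    (fun d => (I.filter fun i => B.Thru t' (mx i) (my i) d.1 d.2).card) hDne
  refine ⟨d.1, d.2, ?_, _, filter_subset _ _, ?_, fun i hi => (mem_filter.1 hi).2⟩
  · rcases mem_union.1 hd with hd | hd <;> obtain ⟨k, hk, rfl⟩ := mem_image.1 hd
    · exact ⟨k, mem_range.1 hk, rfl⟩
    · exact ⟨k, mem_range.1 hk, Sym2.eq_swap⟩
  have hcover : I ⊆ D.biUnion fun d => I.filter fun i => B.Thru t' (mx i) (my i) d.1 d.2 :=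
    fun i hi => by
      obtain ⟨d, hd, hth⟩ := hmaps i hi
      exact mem_biUnion.2 ⟨d, hd, mem_filter.2 ⟨hi, hth⟩⟩
  refine (card_le_card hcover).trans ((card_biUnion_le_card_mul _ _ _ hmax).trans ?_)
  refine Nat.mul_le_mul_right _ ((card_union_le _ _).trans ?_)
  have h1 := card_image_le (s := range n) (f := fun k => (f k, f (k + 1)))
  have h2 := card_image_le (s := range n) (f := fun k => (f (k + 1), f k))
  rw [card_range] at h1 h2
  omega

variable {a b a' b' : V} {ρ : ℝ}

/-- Two segments through a sub-box which are near on it give a small mixed excess inside it.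
The exits are `a, b` for the first one and `b'` for the second one. -/
theorem sub_excess_le (ht : ∀ e, 0 ≤ t e) (hS : ∀ z, S.Mem z → B.Mem z)
    (hx : B.Mem x) (hy : B.Mem y) (hx' : B.Mem x') (hy' : B.Mem y')
    (h : B.Thru t x y p q) (h' : B.Thru t x' y' p' q')
    (ha : S.Mem a) (hb' : S.Mem b') (hp : S.Mem p) (hq : S.Mem q) (hp' : S.Mem p')
    (hq' : S.Mem q')
    (hap : B.dist t x p = B.dist t x a + B.dist t a p) (hSa : S.dist t a p = B.dist t a p)
    (hb : B.dist t q' y' = B.dist t q' b' + B.dist t b' y')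
    (hSb : S.dist t q' b' = B.dist t q' b')
    (hN : OscLe W (B.diff t x x') C) (hWp : W.Mem p) (hWb : W.Mem b')
    (hpp : S.dist t p p' ≤ ρ) (hqq : S.dist t q q' ≤ ρ) (hpq : S.dist t p q ≤ ρ) :
    S.dist t a p + t s(p, q) + S.dist t q b' ≤ S.dist t a b' + C + 3 * ρ := by
  have haB := hS a ha
  have hbB := hS b' hb'
  have hpB := hS p hp
  have hp'B := hS p' hp'
  have w1 := dist_le_sub ht hS ha hb'
  have w2 := dist_triangle ht hx haB hbB
  have w3 := hN p b' hWp hWb
  simp only [diff] at w3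
  rw [dist_comm B t p x, dist_comm B t p x', dist_comm B t b' x, dist_comm B t b' x'] at w3
  have w4 := dist_triangle ht hx' hbB hy'
  have w5 := h'.2.2.2
  have w6 := dist_triangle ht hx' hp'B hpB
  have w7 : B.dist t p' p ≤ S.dist t p p' := by
    rw [dist_comm B t p' p]; exact dist_le_sub ht hS hp hp'
  have w8 := dist_triangle ht hq hq' hb'
  have w9 := h.dist_left ht hx hy
  have w10 := dist_triangle ht hx hpB h.mem_right
  have w11 := dist_le_sub ht hS hp hq
  have w12 := ht s(p', q')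
  linarith

/-- Two segments which are near around a sub-box and whose sub-segments (exits `k, l` and `k', l'`,
as given by `Seg.sub`) are not near on the tile make a pair of sub-segments with different targets
and small mixed excess. -/
theorem ubad_of_near {δ ε : ℝ} {i j i' j' k l k' l' : ℕ} (ht : ∀ e, 0 ≤ t e)
    (hS : ∀ z, S.Mem z → B.Mem z) (hSW : ∀ z, S.Mem z → W.Mem z)
    (hs : B.Seg t i j p q δ) (hs' : B.Seg t i' j' p' q' δ)
    (hsub : S.Seg t k l p q δ) (hsub' : S.Seg t k' l' p' q' δ)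
    (e1 : S.dist t (S.pos k) p = B.dist t (S.pos k) p)
    (e2 : S.dist t q (S.pos l) = B.dist t q (S.pos l))
    (e3 : B.dist t (B.pos i) p = B.dist t (B.pos i) (S.pos k) + B.dist t (S.pos k) p)
    (e4 : B.dist t q (B.pos j) = B.dist t q (S.pos l) + B.dist t (S.pos l) (B.pos j))
    (e1' : S.dist t (S.pos k') p' = B.dist t (S.pos k') p')
    (e2' : S.dist t q' (S.pos l') = B.dist t q' (S.pos l'))
    (e3' : B.dist t (B.pos i') p' = B.dist t (B.pos i') (S.pos k') + B.dist t (S.pos k') p')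
    (e4' : B.dist t q' (B.pos j') = B.dist t q' (S.pos l') + B.dist t (S.pos l') (B.pos j'))
    (hp : S.Mem p) (hq : S.Mem q) (hp' : S.Mem p') (hq' : S.Mem q')
    (hN : B.Near t W (B.pos i) (B.pos j) (B.pos i') (B.pos j') C)
    (hpp : S.dist t p p' ≤ ρ) (hqq : S.dist t q q' ≤ ρ) (hpq : S.dist t p q ≤ ρ)
    (hfar : ¬ S.Near t T (S.pos k) (S.pos l) (S.pos k') (S.pos l') ε) :
    (¬ OscLe T (S.diff t (S.pos l) (S.pos l')) ε ∧
      S.dist t (S.pos k) p + t s(p, q) + S.dist t q (S.pos l') ≤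
        S.dist t (S.pos k) (S.pos l') + C + 3 * ρ) ∨
    (¬ OscLe T (S.diff t (S.pos k) (S.pos k')) ε ∧
      S.dist t (S.pos l) q + t s(q, p) + S.dist t p (S.pos k') ≤
        S.dist t (S.pos l) (S.pos k') + C + 3 * ρ) := by
  obtain ⟨hi, hj, hth, -⟩ := hs
  obtain ⟨hi', hj', hth', -⟩ := hs'
  have hk := S.pos_mem hsub.1
  have hl := S.pos_mem hsub.2.1
  have hk' := S.pos_mem hsub'.1
  have hl' := S.pos_mem hsub'.2.1
  by_cases hg : OscLe T (S.diff t (S.pos l) (S.pos l')) ε
  · -- the first endpoints differ: reverse both segments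
    refine Or.inr ⟨fun h => hfar ⟨h, hg⟩, ?_⟩
    refine sub_excess_le (W := W) (p' := q') (q' := p') ht hS (B.pos_mem hj) (B.pos_mem hi)
      (B.pos_mem hj') (B.pos_mem hi') hth.symm hth'.symm hl hk' hq hp hq' hp'
      ?_ ?_ ?_ ?_ hN.2 (hSW q hq) (hSW _ hk') hqq hpp (by rwa [dist_comm])
    · rw [dist_comm B t (B.pos j) q, dist_comm B t (B.pos j) (S.pos l), dist_comm B t (S.pos l) q,
        e4]
      linarith [e2]
    · rw [dist_comm S t (S.pos l) q, dist_comm B t (S.pos l) q, e2]
    · rw [dist_comm B t p' (B.pos i'), dist_comm B t p' (S.pos k'),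
        dist_comm B t (S.pos k') (B.pos i'), e3']
      linarith [e1']
    · rw [dist_comm S t p' (S.pos k'), dist_comm B t p' (S.pos k'), e1']
  · exact Or.inl ⟨hg, sub_excess_le (W := W) ht hS (B.pos_mem hi) (B.pos_mem hj) (B.pos_mem hi')
      (B.pos_mem hj') hth hth' hk hl' hp hq hp' hq' e3 e1 e4' e2' hN.1 (hSW p hp) (hSW _ hl')
      hpp hqq hpq⟩

end Box

/-- Pairwise far pairs have pairwise different labels. -/
lemma injOn_label {ι β : Type*} {I : Set ι} {lab : ι → β} {R : ι → ι → Prop}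
    (hsame : ∀ i ∈ I, ∀ j ∈ I, lab i = lab j → R i j)
    (hfar : ∀ i ∈ I, ∀ j ∈ I, i ≠ j → ¬ R i j) : Set.InjOn lab I :=
  fun i hi j hj h => by_contra fun hne => hfar i hi j hj hne (hsame i hi j hj h)

/-- Few edges carry many labels, when every label has at most `E` edges. -/
theorem card_heavy_mul_le {α β : Type*} (U : Finset α) (Λ : Finset β) (R : α → β → Prop)
    [∀ e, DecidablePred (R e)] {N : ℕ} {E : ℝ}
    (hN : ∀ e ∈ U, N ≤ (Λ.filter (R e)).card)
    (hE : ∀ l ∈ Λ, ∀ V ⊆ U, (∀ e ∈ V, R e l) → (V.card : ℝ) ≤ E) :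
    (N : ℝ) * U.card ≤ Λ.card * E := by
  classical
  calc (N : ℝ) * U.card = ∑ _e ∈ U, (N : ℝ) := by simp [mul_comm]
    _ ≤ ∑ e ∈ U, ((Λ.filter (R e)).card : ℝ) := sum_le_sum fun e he => by exact_mod_cast hN e he
    _ = ∑ l ∈ Λ, ((U.filter fun e => R e l).card : ℝ) := by
        simp only [card_filter, Nat.cast_sum]
        exact sum_comm
    _ ≤ Λ.card * E := by
        refine (sum_le_card_nsmul _ _ E fun l hl =>
          hE l hl _ (filter_subset _ _) fun e he => (mem_filter.1 he).2).trans (le_of_eq ?_)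
        rw [nsmul_eq_mul]

/-- Many edges have mates at many scales. -/
theorem many_mates {α : Type*} (U : Finset α) (m : α → ℕ) {k N : ℕ}
    (hm : ∀ e ∈ U, m e ≤ k) :
    ∑ e ∈ U, m e ≤ k * (U.filter fun e => N ≤ m e).card + N * U.card := by
  classical
  calc ∑ e ∈ U, m e ≤ ∑ e ∈ U, ((if N ≤ m e then k else 0) + N) :=
        sum_le_sum fun e he => by have := hm e he; split <;> omega
    _ = k * (U.filter fun e => N ≤ m e).card + N * U.card := by
        rw [sum_add_distrib, ← sum_filter, sum_const, sum_const, smul_eq_mul, smul_eq_mul,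
          mul_comm, mul_comm N]

end Vale.Agent.P158.NB
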