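import Vale.Agent.P158.NB.MainMates
import Vale.Agent.P158.NB.Classify
import Vale.Agent.P158.NB.Lower

/-!
# The events of the main step (`PROOF.md`, section 9)

`Heavy`: many pairwise far segments through one step. `Rich`: many far mates at one edge. The
three steps: lowering turns `Rich` into `Heavy` without margins, lowering once more gives the
margins, and heavy edges are rare.
-/

open Finset MeasureTheory
open scoped ENNReal

namespace Vale.Agent.P158.NB

namespace Frame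

variable (F : Frame)

/-- The segment has its first endpoint in the lower bin. -/
def Low (i j : ℕ) : Prop := ∃ l m, F.InBin l i ∧ F.InBin m j ∧ l < m

/-- At least `N` segments with margin `κ` through the step `p q`, low end first, pairwise far on
`W`. -/
def Heavy (W : Box) (N : ℕ) (C κ : ℝ) (p q : V) (t : Env) : Prop :=
  ∃ P : Finset SegPiece, N ≤ P.card ∧
    (∀ v ∈ P, v.p = p ∧ v.q = q ∧ F.Seg t v.i v.j p q κ ∧ F.Low v.i v.j) ∧
    ∀ v ∈ P, ∀ w ∈ P, v ≠ w → ¬ F.PNear W t C v w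

/-- At least `N` scales at which the edge `pq` carries a base segment with a far mate, the tiles
containing the ball of radius `L` at `p`. -/
def Rich (tile reach win : ℕ → Box) (k N : ℕ) (δ ηi Cl Cb : ℝ) (Cr : ℕ → ℝ) (L : ℕ) (p q : V)
    (t : Env) : Prop :=
  ∃ u : SegPiece, u.p = p ∧ u.q = q ∧ F.Seg t u.i u.j p q δ ∧ F.Low u.i u.j ∧
    ∃ (I : Finset ℕ) (mate : ℕ → SegPiece), I ⊆ range k ∧ N ≤ I.card ∧ ∀ i ∈ I,
      ((tile i).Mem q ∧ ∀ z, (Box.mk p L).Mem z → (tile i).Mem z) ∧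
      F.Good (tile i) (reach i) t δ ηi (Cr i) (mate i) ∧ F.PNear (tile i) t Cl u (mate i) ∧
      F.Low (mate i).i (mate i).j ∧ ¬ F.PNear (win i) t Cb u (mate i)

variable {F} {W : Box} {N : ℕ} {C κ : ℝ} {p q : V} {t : Env}

lemma Seg.zero {i j : ℕ} {D : ℝ} (h : F.Seg t i j p q D) (ht : ∀ e, 0 ≤ t e) (hD : 0 ≤ D) :
    F.Seg t i j p q 0 :=
  ⟨⟨h.1.1, h.1.2.1, h.1.2.2.1, h.1.2.2.2.mono ht le_rfl hD h.mem_left h.mem_right⟩, h.2⟩

lemma thru_seg {i j : ℕ} (hi : i ∈ F.T) (hj : j ∈ F.T) (hi' : i ≤ F.B.len) (hj' : j ≤ F.B.len)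
    (ht : ∀ e, 0 ≤ t e) (h : F.B.Thru t (F.B.pos i) (F.B.pos j) p q) : F.Seg t i j p q 0 := by
  refine ⟨⟨hi', hj', h, ?_⟩, hi, hj⟩
  unfold Box.Marg
  rw [add_zero]
  exact Box.dist_le_raise ht _ le_rfl (F.B.pos_mem hi') (F.B.pos_mem hj')

/-- Lowering the heavy edge gives the margin and loses `2 η` of separation. -/
theorem Heavy.lower (h : F.Heavy W N C 0 p q t) (ht : ∀ e, 0 ≤ t e) (hpos : 0 < t s(p, q))
    {u η : ℝ} (hu : 0 ≤ u) (hκ : 0 ≤ κ) (hlo : t s(p, q) - η ≤ u) (hhi : u ≤ t s(p, q) - κ)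
    (hW : ∀ z, W.Mem z → F.B.Mem z) {T' : Set ℕ} (hT : F.T ⊆ T') :
    ({ F with T := T' } : Frame).Heavy W N (C - 2 * η) κ p q
      (Function.update t s(p, q) u) := by
  obtain ⟨P, hN, hP, hfar⟩ := h
  refine ⟨P, hN, fun v hv => ?_, fun v hv w hw hne => ?_⟩
  · obtain ⟨h1, h2, hs, hlow⟩ := hP v hv
    exact ⟨h1, h2, ⟨hs.1.2.2.1.lower_seg hs.1.1 hs.1.2.1 ht hpos hu hκ hhi, hT hs.2.1, hT hs.2.2⟩,
      hlow⟩
  · obtain ⟨-, -, hsv, -⟩ := hP v hv
    obtain ⟨-, -, hsw, -⟩ := hP w hw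
    refine Box.not_near_of_lower (Box.update_nonneg ht hu)
      (Box.le_update_of_le (by linarith)) {s(p, q)} (fun d hd => ?_) ?_ hW hsv.mem_left
      hsv.mem_right hsw.mem_left hsw.mem_right (hfar v hv w hw hne)
    · rw [Function.update_of_ne (mem_singleton.not.1 hd)]
    · simp only [sum_singleton, Function.update_self]
      linarith

/-- The first stage: lowering good edges at the end of the base segment makes some step nearby
heavy, for every choice of targets. -/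
theorem Rich.lower {tile reach win : ℕ → Box} {k L : ℕ} {δ ηi Cl Cb : ℝ} {Cr : ℕ → ℝ}
    (h : F.Rich tile reach win k N δ ηi Cl Cb Cr L p q t) (ht : ∀ e, 0 < t e)
    {Good : Set ℝ} {η κ₀ : ℝ} {T : Finset (Set ℝ)} (hT : ∀ S ∈ T, S ⊆ Set.Ici 0)
    (hGood : ∀ v ∈ Good, ∃ S ∈ T, S ⊆ Set.Icc (v - η) (v - κ₀)) (hκ₀ : 0 ≤ κ₀) (hη : 0 ≤ η)
    (hG : 3 * Cl < L / 2 * κ₀) (hsep : 0 ≤ Cb - Cl - 2 * (L * η))
    (hfew : t ∉ FewGood Good (Box.mk p L) L)
    (hball : ∀ z, (Box.mk p L).Mem z → F.B.Inner z)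
    (hnest : ∀ i < k, ∀ j < k, i < j → ∀ z, (win i).Mem z → (tile j).Mem z)
    (hW : ∀ i < k, ∀ z, (win i).Mem z → W.Mem z) (hWB : ∀ z, W.Mem z → F.B.Mem z)
    (T' : Env → Set ℕ)
    (hadm : ∀ t' : Env, (∀ e, 0 ≤ t' e ∧ t' e ≤ t e) →
      (∀ e, e ∉ (Box.mk p (L + 1)).pairs → t' e = t e) → F.T ⊆ T' t') :
    ∃ E ⊆ (Box.mk p (L + 1)).pairs, ∃ S : Sym2 V → Set ℝ, (∀ e ∈ E, S e ∈ T) ∧
      ∀ s : Env, (∀ e ∈ E, s e ∈ S e) → ∃ p' q', (Box.mk p (L + 1)).Mem p' ∧
        (Box.mk p (L + 1)).Mem q' ∧ ∃ n, N ≤ 2 * (L + 1) * n ∧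
          ({ F with T := T' (E.piecewise s t) } : Frame).Heavy W n
            (Cb - Cl - 2 * (L * η)) 0 p' q' (E.piecewise s t) := by
  classical
  obtain ⟨u, rfl, rfl, hu, hlow, I, mate, hI, hN, hm⟩ := h
  have ht0 : ∀ e, 0 ≤ t e := fun e => (ht e).le
  have hth := hu.1.2.2.1
  have hx := hu.mem_left
  have hy := hu.mem_right
  -- the end of an optimal walk to `p`
  obtain ⟨m, g, hg, hgs, hgc⟩ := Box.exists_optimal ht0 hx hth.mem_left
  have hstep : ∀ d ≤ m, (Box.mk u.p d).Mem (g (m - d)) := by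
    intro d
    induction d with
    | zero =>
      intro _
      simp [Box.Mem, hg.1.2.1]
    | succ d ih =>
      intro hd
      have h1 := ih (by omega)
      have h2 := hg.1.2.2 (m - (d + 1)) (by omega)
      rw [show m - (d + 1) + 1 = m - d by omega] at h2
      simp only [Box.mem_iff, Nat.cast_add, Nat.cast_one] at h1 ⊢
      have h3 := Box.nbr_cases h2
      omega
  have hLm : L ≤ m := by
    by_contra hlt
    have h1 := hstep m le_rfl
    rw [Nat.sub_self, hg.1.1] at h1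
    exact (F.B.pos_bdry hu.1.1).2 (hball _ (by
      simp only [Box.mem_iff] at h1 ⊢
      omega))
  set v₀ := g (m - L) with hv₀
  have hv₀M : (Box.mk u.p L).Mem v₀ := hstep L hLm
  set f := Box.append (fun l => g (m - L + l)) L (fun l => if l = 0 then u.p else u.q) with hf
  have hg2 : F.B.IsWalk (fun l => g (m - L + l)) L v₀ u.p := by
    have := hg.suffix (i := m - L) (Nat.sub_le _ _)
    rwa [show m - (m - L) = L by omega] at this
  have hfw : F.B.IsWalk f (L + 1) v₀ u.q :=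
    hg2.append (Box.isWalk_edge hth.mem_left hth.mem_right hth.1)
  have hsplit : F.B.dist t (F.B.pos u.i) u.p
      = F.B.dist t (F.B.pos u.i) v₀ + F.B.dist t v₀ u.p ∧
      pathCost t (fun l => g (m - L + l)) L = F.B.dist t v₀ u.p := by
    have h1 := Box.dist_le ht0 (hg.initSeg (i := m - L) (Nat.sub_le _ _))
    have h2 := Box.dist_le ht0 hg2
    have h3 := Box.dist_triangle ht0 hx hg2.mem_left hth.mem_left
    have h4 := pathCost_split t g (show m - L ≤ m from Nat.sub_le _ _)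
    rw [show m - (m - L) = L by omega] at h4
    rw [← hv₀] at h1
    constructor <;> linarith
  have hfcost : pathCost t f (L + 1) = F.B.dist t v₀ u.p + t s(u.p, u.q) := by
    rw [hf, Box.pathCost_append t (by simp [show m - L + L = m by omega, hg.1.2.1]) 1, hsplit.2]
    simp [pathCost]
  have hqg : ∀ l ≤ m, g l ≠ u.q := by
    intro l hl hlq
    have h1 := Box.dist_le ht0 (hg.initSeg (i := l) hl)
    have h2 := hth.dist_left ht0 hx hy
    have h4 := pathCost_split t g hl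
    have h5 := pathCost_nonneg ht0 (fun r => g (l + r)) (m - l)
    rw [hlq] at h1
    linarith [ht s(u.p, u.q)]
  have hfv : ∀ l ≤ L, f l = g (m - L + l) := fun l hl => by rw [hf, Box.append_left hl]
  have hfq : f (L + 1) = u.q := by simp [hf, Box.append]
  have hfs : IsSimple f (L + 1) := by
    intro a ha b hb hab
    rcases Nat.lt_or_ge a (L + 1) with ha' | ha' <;> rcases Nat.lt_or_ge b (L + 1) with hb' | hb'
    · rw [hfv a (by omega), hfv b (by omega)] at hab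
      have := hgs _ (by omega) _ (by omega) hab
      omega
    · rw [hfv a (by omega), show b = L + 1 by omega, hfq] at hab
      exact absurd hab (hqg _ (by omega))
    · rw [hfv b (by omega), show a = L + 1 by omega, hfq] at hab
      exact absurd hab.symm (hqg _ (by omega))
    · omega
  -- the lowered edges
  obtain ⟨J, hJ, hJc, hJg⟩ := many_good_of_not_fewGood hfew (f := f) (m := L + 1) (Nat.le_succ L)
    (by rw [hfv 0 (Nat.zero_le _)]; simpa using hv₀M) (fun i hi => hfw.1.2.2 i hi) hfs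
  set E := J.image fun l => s(f l, f (l + 1)) with hE
  have hfM : ∀ l ≤ L + 1, (Box.mk u.p (L + 1)).Mem (f l) := by
    intro l hl
    rcases Nat.lt_or_ge l (L + 1) with hl' | hl'
    · rw [hfv l (by omega)]
      have h1 := hstep (L - l) (by omega)
      rw [show m - (L - l) = m - L + l by omega] at h1
      simp only [Box.mem_iff] at h1 ⊢
      omega
    · rw [show l = L + 1 by omega, hfq]
      have := Box.nbr_cases hth.1
      simp only [Box.mem_iff]
      omega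
  have hEp : E ⊆ (Box.mk u.p (L + 1)).pairs := fun e he => by
    obtain ⟨l, hl, rfl⟩ := mem_image.1 he
    have hlL := mem_range.1 (hJ hl)
    exact Box.mem_pairs.2 ⟨hfM l (by omega), hfM (l + 1) (by omega)⟩
  have hsel : ∀ e ∈ E, ∃ S ∈ T, S ⊆ Set.Icc (t e - η) (t e - κ₀) := fun e he => by
    obtain ⟨l, hl, rfl⟩ := mem_image.1 he
    exact hGood _ (hJg l hl)
  choose! S hS hSs using hsel
  refine ⟨E, hEp, S, hS, fun s hs => ?_⟩
  set t' := E.piecewise s t with ht'def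
  have hin : ∀ e ∈ E, t' e = s e := fun e he => piecewise_eq_of_mem _ _ _ he
  have hout : ∀ e, e ∉ E → t' e = t e := fun e he => piecewise_eq_of_notMem _ _ _ he
  have hbd : ∀ e ∈ E, t e - η ≤ s e ∧ s e ≤ t e - κ₀ := fun e he => hSs e he (hs e he)
  have ht' : ∀ e, 0 ≤ t' e := fun e => by
    by_cases he : e ∈ E
    · rw [hin e he]; exact hT _ (hS e he) (hs e he)
    · rw [hout e he]; exact ht0 e
  have hle : ∀ e, t' e ≤ t e := fun e => by
    by_cases he : e ∈ E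
    · rw [hin e he]; linarith [(hbd e he).2]
    · rw [hout e he]
  have hEpath : E ⊆ pathEdges f (L + 1) :=
    image_subset_image (hJ.trans (range_subset_range.2 (Nat.le_succ L)))
  have hcard : E.card = J.card := card_image_of_injOn fun a ha b hb he => by
    have := mem_range.1 (hJ ha); have := mem_range.1 (hJ hb)
    exact hfs.edge_inj (by omega) (by omega) he
  have hsum : ∑ e ∈ pathEdges f (L + 1), (t e - t' e) = ∑ e ∈ E, (t e - t' e) :=
    (sum_subset hEpath fun e _ he => by rw [hout e he, sub_self]).symm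
  have hlow' : (L : ℝ) / 2 * κ₀ ≤ ∑ e ∈ E, (t e - t' e) := by
    refine le_trans ?_ (card_nsmul_le_sum E _ κ₀ fun e he => by
      rw [hin e he]; linarith [(hbd e he).2])
    rw [nsmul_eq_mul, hcard]
    refine mul_le_mul_of_nonneg_right ?_ hκ₀
    rw [div_le_iff₀ two_pos]
    exact_mod_cast (by omega : L ≤ J.card * 2)
  have hhigh : ∑ e ∈ pathEdges f (L + 1), (t e - t' e) ≤ L * η := by
    rw [hsum]
    refine (sum_le_card_nsmul E _ η fun e he => by
      rw [hin e he]; linarith [(hbd e he).1]).trans ?_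
    rw [nsmul_eq_mul, hcard]
    refine mul_le_mul_of_nonneg_right ?_ hη
    have := card_le_card hJ
    rw [card_range] at this
    exact_mod_cast this
  have hc' := Box.pathCost_lower_of_subset hout hfs hEpath
  have hIk : ∀ i ∈ I, i < k := fun i hi => mem_range.1 (hI hi)
  obtain ⟨p', q', ⟨l, hl, hpq⟩, J', hJ', hcardJ, hthru, hfar⟩ :=
    exists_far_shared (F := F) (u := u) I tile reach win W mate Cr
    (v₀ := v₀) (G := L / 2 * κ₀) (Gs := L * η) (Cb := Cb) ht0 ht' hle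
    (fun e he => hout e fun hm' => by
      obtain ⟨r, hr, rfl⟩ := mem_image.1 (hEpath hm')
      exact he r (mem_range.1 hr) rfl)
    hhigh hu
    (fun i hi => ⟨(hm i hi).1.2 _ (by simp [Box.Mem]), (hm i hi).1.1, (hm i hi).1.2 _ hv₀M⟩)
    (fun i hi => ⟨(hm i hi).2.1, (hm i hi).2.2.1⟩) (fun i hi => (hm i hi).2.2.2.2)
    (fun i hi j hj => hnest i (hIk i hi) j (hIk j hj)) (fun i hi => hW i (hIk i hi)) hWB
    hsplit.1 hfw (Nat.succ_pos L) (by linarith [hfcost, hc']) hG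
  have hp'q' : (Box.mk u.p (L + 1)).Mem p' ∧ (Box.mk u.p (L + 1)).Mem q' := by
    rcases Sym2.eq_iff.1 hpq with ⟨rfl, rfl⟩ | ⟨rfl, rfl⟩
    exacts [⟨hfM l hl.le, hfM (l + 1) hl⟩, ⟨hfM (l + 1) hl, hfM l hl.le⟩]
  have hinjJ : Set.InjOn (fun i => SegPiece.mk (mate i).i (mate i).j p' q') J' := by
    intro a ha b hb hab
    simp only [SegPiece.mk.injEq] at hab
    by_contra hne
    refine hfar a ha b hb hne ⟨fun z w _ _ => ?_, fun z w _ _ => ?_⟩ <;>
      simp only [Box.diff, hab.1, hab.2.1, sub_self]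
    all_goals linarith
  refine ⟨p', q', hp'q'.1, hp'q'.2, J'.card, by omega,
    J'.image fun i => SegPiece.mk (mate i).i (mate i).j p' q', (card_image_of_injOn hinjJ).ge,
    fun v hv => ?_, fun v hv w hw hne => ?_⟩
  · obtain ⟨i, hi, rfl⟩ := mem_image.1 hv
    obtain ⟨-, hgood, -, hlowi, -⟩ := hm i (hJ' hi)
    have hadm' := hadm t' (fun e => ⟨ht' e, hle e⟩)
      fun e he => hout e fun hm' => he (hEp hm')
    exact ⟨rfl, rfl, thru_seg (F := { F with T := T' t' }) (hadm' hgood.1.2.1) (hadm' hgood.1.2.2)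
      hgood.1.1.1 hgood.1.1.2.1 ht' (hthru i hi), hlowi⟩
  · obtain ⟨a, ha, rfl⟩ := mem_image.1 hv
    obtain ⟨b, hb, rfl⟩ := mem_image.1 hw
    exact hfar a ha b hb fun hab => hne (by rw [hab])

/-- Segments of a tile with a far mate at scale of the tile. -/
def FarMated (F : Frame) (U : Finset SegPiece) (T W : Box) (t : Env) (Cl Cb : ℝ) (u : SegPiece) : Prop :=
  ∃ v ∈ U, F.PNear T t Cl u v ∧ ¬ F.PNear W t Cb u v

/-- On a tile where `UBad` does not happen, few edges carry segments without a far mate. -/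
theorem card_not_farMated {F' : Frame} {S T R : Box} {δ ε ηi Cr Cl Cb Λ : ℝ} (U : Finset SegPiece)
    (ht : ∀ e, 0 < t e) (hδ : 0 ≤ δ) (hε : 0 ≤ ε) (hεδ : 2 * ε < δ) (hεη : 3 * ε < ηi)
    (hCr : 0 ≤ Cr) (hS : F'.B = S) (hSB : ∀ z, S.Mem z → F.B.Mem z)
    (hSW : ∀ z, S.Mem z → W.Mem z) (hTS : ∀ z, T.Mem z → S.Inner z)
    (hTR : ∀ z, T.Mem z → R.Mem z) (hRS : ∀ z, R.Mem z → S.Mem z) (hRc : R.Mem R.c)
    (hgood : ∀ u ∈ U, F.Good T R t δ ηi Cr u)
    (hadm : ∀ u ∈ U, ∀ k l, F.B.Exits S t δ u.i u.j u.p u.q k l → k ∈ F'.T ∧ l ∈ F'.T)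
    (hU : ¬ F'.UBad T δ ε (Cb + 6 * Cr) t) (lab : SegPiece → ℕ) (hΛ : ∀ u ∈ U, (lab u : ℝ) ≤ Λ)
    (hlab : ∀ u ∈ U, ∀ v ∈ U, lab u = lab v → F.PNear T t Cl u v) (hΛ0 : 0 ≤ Λ) :
    open scoped Classical in
    (((U.filter fun u => ¬ F.FarMated U T W t Cl Cb u).image fun u => s(u.p, u.q)).card : ℝ) ≤
      (Λ + 1) * (4 * (2 * Cr / (ηi - 3 * ε) + 1)) := by
  classical
  set A := U.filter fun u => ¬ F.FarMated U T W t Cl Cb u with hA
  set K := 4 * (2 * Cr / (ηi - 3 * ε) + 1) with hK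
  have hK0 : 0 ≤ K := by
    have : 0 < ηi - 3 * ε := by linarith
    positivity
  have hsub : A.image (fun u => s(u.p, u.q)) ⊆ (range (⌊Λ⌋₊ + 1)).biUnion
      fun l => (A.filter fun u => lab u = l).image fun u => s(u.p, u.q) := fun e he => by
    obtain ⟨u, hu, rfl⟩ := mem_image.1 he
    exact mem_biUnion.2 ⟨lab u,
      mem_range.2 (Nat.lt_succ_of_le (Nat.le_floor (hΛ u (mem_filter.1 hu).1))),
      mem_image.2 ⟨u, mem_filter.2 ⟨hu, rfl⟩, rfl⟩⟩
  have hle := (card_le_card hsub).trans card_biUnion_le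
  refine (Nat.cast_le.2 hle).trans ?_
  rw [Nat.cast_sum]
  refine (sum_le_card_nsmul _ _ K fun l _ => ?_).trans ?_
  · refine card_unmated (S := S) (T := T) (R := R) (Cl := Cl) _ ht hδ hε hεδ hεη hCr hSB hTS
      hTR hRS hRc (fun u hu => hgood u (mem_filter.1 (mem_filter.1 hu).1).1)
      (fun u hu v hv => hlab u (mem_filter.1 (mem_filter.1 hu).1).1 v
        (mem_filter.1 (mem_filter.1 hv).1).1 ((mem_filter.1 hu).2.trans (mem_filter.1 hv).2.symm))
      fun u hu v hv hm => ?_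
    obtain ⟨huA, -⟩ := mem_filter.1 hu
    obtain ⟨huU, hnf⟩ := mem_filter.1 huA
    have hvU := (mem_filter.1 (mem_filter.1 hv).1).1
    refine hnf ⟨v, hvU, hm.2.1, not_pnear_of_mate (fun e => (ht e).le) hS ?_ hSB hSW hTR hRS hRc
      (hgood u huU) hm hU⟩
    rintro w (rfl | rfl)
    exacts [hadm _ huU, hadm _ hvU]
  · rw [card_range, nsmul_eq_mul]
    push_cast
    exact mul_le_mul_of_nonneg_right (by linarith [Nat.floor_le hΛ0]) hK0

/-- Heavy steps are rare: their segments have as many labels as there are segments. -/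
theorem card_heavy {S R : Box} {η' ρ ε Λ : ℝ} (U : Finset (V × V)) (ht : ∀ e, 0 < t e)
    (hε : 0 ≤ ε) (hεκ : 2 * ε < κ) (hεη : 3 * ε < η') (hεC : ε ≤ C) (hρ : 0 ≤ ρ)
    (hSB : ∀ z, S.Mem z → F.B.Mem z) (hSR : ∀ z, S.Mem z → R.Mem z)
    (hRB : ∀ z, R.Mem z → F.B.Mem z) (hRc : R.Mem R.c) (hSW : ∀ z, W.Mem z → S.Mem z)
    (hreg : ∀ d ∈ U, S.Mem d.1 ∧ S.Mem d.2 ∧ Reg R η' ρ d.1 t)
    (hheavy : ∀ d ∈ U, F.Heavy W N C κ d.1 d.2 t) (lab : SegPiece → ℕ) (hΛ0 : 0 ≤ Λ)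
    (hΛ : ∀ v : SegPiece, S.Mem v.p → S.Mem v.q → F.Seg t v.i v.j v.p v.q κ → F.Low v.i v.j →
      (lab v : ℝ) ≤ Λ)
    (hlab : ∀ v w : SegPiece, S.Mem v.p → S.Mem v.q → F.Seg t v.i v.j v.p v.q κ → F.Low v.i v.j →
      S.Mem w.p → S.Mem w.q → F.Seg t w.i w.j w.p w.q κ → F.Low w.i w.j →
      lab v = lab w → F.PNear S t ε v w) :
    (N : ℝ) * U.card ≤ (Λ + 1) * (2 * (4 * (2 * ρ / (η' - 3 * ε) + 1))) := by
  classical
  choose! P hP1 hP2 hP3 using hheavy
  have hmem : ∀ d ∈ U, ∀ v ∈ P d, S.Mem v.p ∧ S.Mem v.q ∧ F.Seg t v.i v.j v.p v.q κ ∧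
      F.Low v.i v.j := fun d hd v hv => by
    obtain ⟨h1, h2, h3, h4⟩ := hP2 d hd v hv
    rw [h1, h2]
    exact ⟨(hreg d hd).1, (hreg d hd).2.1, h3, h4⟩
  set E := 2 * (4 * (2 * ρ / (η' - 3 * ε) + 1)) with hE
  have hE0 : 0 ≤ E := by
    have : 0 < η' - 3 * ε := by linarith
    positivity
  refine (card_heavy_mul_le U (range (⌊Λ⌋₊ + 1)) (fun d l => ∃ v ∈ P d, lab v = l) (N := N)
    (E := E) (fun d hd => (hP1 d hd).trans ?_) (fun l _ U' hU' hl => ?_)).trans ?_
  · refine card_le_card_of_injOn lab (fun v hv => ?_) ?_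
    · obtain ⟨h1, h2, h3, h4⟩ := hmem d hd v hv
      exact mem_filter.2
        ⟨mem_range.2 (Nat.lt_succ_of_le (Nat.le_floor (hΛ v h1 h2 h3 h4))), v, hv, rfl⟩
    · intro v hv w hw he
      by_contra hne
      obtain ⟨h1, h2, h3, h4⟩ := hmem d hd v hv
      obtain ⟨g1, g2, g3, g4⟩ := hmem d hd w hw
      exact hP3 d hd v hv w hw hne
        (Box.Near.mono (hlab v w h1 h2 h3 h4 g1 g2 g3 g4 he) hSW hεC)
  · have : Nonempty SegPiece := ⟨⟨0, 0, (0, 0), (0, 0)⟩⟩
    choose! sel hsel1 hsel2 using hl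
    have h := card_class_edges F.B ht S hSB U' (fun d => F.B.pos (sel d).i)
      (fun d => F.B.pos (sel d).j) Prod.fst Prod.snd (c := R.c) (δ := κ) (η := η') (ρ := ρ)
      (ε := ε) (hRB _ hRc) hρ hε hεκ hεη
      (fun d hd => ⟨(hP2 d (hU' hd) _ (hsel1 d hd)).2.2.1.mem_left,
        (hP2 d (hU' hd) _ (hsel1 d hd)).2.2.1.mem_right⟩)
      (fun d hd => (hP2 d (hU' hd) _ (hsel1 d hd)).2.2.1.1.2.2)
      (fun d hd => ⟨(hreg d (hU' hd)).1, (hreg d (hU' hd)).2.1⟩)
      (fun d hd d' hd' => by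
        obtain ⟨h1, h2, h3, h4⟩ := hmem d (hU' hd) _ (hsel1 d hd)
        obtain ⟨g1, g2, g3, g4⟩ := hmem d' (hU' hd') _ (hsel1 d' hd')
        exact hlab _ _ h1 h2 h3 h4 g1 g2 g3 g4 ((hsel2 d hd).trans (hsel2 d' hd').symm))
      (fun d hd d' hd' hne => (hreg d (hU' hd)).2.2.1.le_dist (fun e => (ht e).le)
        (hSB _ (hreg d (hU' hd)).1) (hSB _ (hreg d' (hU' hd')).1) hne)
      (fun d hd => (Box.dist_le_sub (fun e => (ht e).le) hRB hRc (hSR _ (hreg d (hU' hd)).1)).trans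
        (hreg d (hU' hd)).2.2.2)
    have hcard : U'.card ≤ 2 * (U'.image fun d => s(d.1, d.2)).card := by
      refine card_le_mul_card_image U' 2 fun e _ => ?_
      induction e using Sym2.ind with
      | _ a b =>
        refine (card_le_card (t := {(a, b), (b, a)}) fun d hd => ?_).trans card_le_two
        obtain ⟨-, hd⟩ := mem_filter.1 hd
        rcases Sym2.eq_iff.1 hd with ⟨h1, h2⟩ | ⟨h1, h2⟩
        · exact mem_insert.2 (Or.inl (Prod.ext h1 h2))
        · exact mem_insert.2 (Or.inr (mem_singleton.2 (Prod.ext h1 h2)))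
    calc (U'.card : ℝ) ≤ ((2 * (U'.image fun d => s(d.1, d.2)).card : ℕ) : ℝ) := by
          exact_mod_cast hcard
      _ ≤ E := by push_cast; linarith
  · rw [card_range]
    push_cast
    exact mul_le_mul_of_nonneg_right (by linarith [Nat.floor_le hΛ0]) hE0

end Frame

end Vale.Agent.P158.NB
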