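import Vale.Agent.P158.NB.MainBounds
import Vale.Agent.P158.NB.FirstStep

/-!
The main step, section 9 of `PROOF.md`: constants, scales and the contradiction. No step lies on
a bigeodesic with positive probability.
-/

open MeasureTheory Finset
open scoped ENNReal

namespace Vale.Agent.P158.NB

variable {G : Measure ℝ} [IsProbabilityMeasure G]

/-- For every radius of a tile a sub-box size and an offset at which exits are admissible and
`UBad` is rare. -/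
lemma Nets.exists_subbox (N : Nets G) (hU : UStmt N) {δ ε C θ : ℝ} (hδ : 0 < δ) (hε : 0 < ε)
    (hθ : 0 < θ) (r : ℕ) :
    ∃ (Ms : ℕ) (o : V), 4 * r + 4 ≤ Ms ∧ (Box.mk 0 (Ms / 4)).Mem o ∧ ∀ z,
      (weightMeasure G).real {t | ¬ (Box.mk (z + o) Ms).ExitOk N.Adm t} ≤ θ ∧
      (weightMeasure G).real {t | (N.fr (Box.mk (z + o) Ms) 1 t).UBad (Box.mk z r) δ ε C t} ≤
        10 * θ := by
  obtain ⟨M₁, h₁⟩ := N.exit_prob θ hθ
  obtain ⟨M₂, h₂⟩ := hU r δ hδ ε hε C θ hθ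
  set Ms := max (max M₁ M₂) (4 * r + 4)
  obtain ⟨o, ho, hz⟩ := N.exists_offset_uBad Ms 1 r δ ε C
  refine ⟨Ms, o, le_max_right _ _, ho, fun z => ⟨?_, (hz z).trans ?_⟩⟩
  · exact real_le_of_le_ofReal hθ.le (h₁ _ ((le_max_left M₁ M₂).trans (le_max_left _ _)))
  · exact mul_le_mul_of_nonneg_left (h₂ Ms ((le_max_right M₁ M₂).trans (le_max_left _ _)))
      (by norm_num)

/-- The radii of the tiles: each window of a scale fits well inside the tiles of the later ones. -/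
def scales (base : ℕ) (Ms : ℕ → ℕ) : ℕ → ℕ
  | 0 => base
  | i + 1 => 2 * (scales base Ms i + 2 * Ms (scales base Ms i)) + 2

lemma le_scales (base : ℕ) (Ms : ℕ → ℕ) (i : ℕ) : base ≤ scales base Ms i := by
  induction i with
  | zero => exact le_rfl
  | succ i ih => simp only [scales]; omega

lemma scales_lt (base : ℕ) (Ms : ℕ → ℕ) {i j : ℕ} (h : i < j) :
    2 * (scales base Ms i + 2 * Ms (scales base Ms i)) + 2 ≤ scales base Ms j := by
  induction j, (Nat.succ_le_of_lt h) using Nat.le_induction with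
  | base => exact le_rfl
  | succ j hj ih =>
    have h1 : scales base Ms j ≤ scales base Ms (j + 1) := by simp only [scales]; omega
    exact (ih hj).trans h1

/-- The constants of the tiles: every large scale has an offset that is good for most edges. -/
lemma Nets.exists_tile_consts (hG : GoodLaw G) (N : Nets G) {δ θ : ℝ} (hδ : 0 < δ) (hθ : 0 < θ) :
    ∃ (ηi ε Cr C : ℝ) (b : ℕ), 0 < ε ∧ 0 < C ∧ 0 ≤ Cr ∧
      (∀ p, (weightMeasure G).real {t | ¬ Iso ηi p t} ≤ θ) ∧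
      ∀ (B : Box) (n : ℕ) (x₀ e o : V) (R r Ms : ℕ) (Cb : ℝ), Nbr 0 e → b ≤ r → r ≤ R →
        4 * r + 4 ≤ Ms → (Box.mk 0 (Ms / 4)).Mem o →
        (∀ w, (Box.mk x₀ (4 * R)).Mem w → B.Mem w) →
        (∀ z, (Box.mk x₀ (2 * R)).Mem z → ∀ w, (Box.mk (z + o) (2 * Ms)).Mem w → B.Mem w) →
        (weightMeasure G).real (N.WinBad B n (Box.mk x₀ (4 * R)) δ (C / 2)) ≤ 30 * θ →
        (∀ z, (weightMeasure G).real {t | ¬ (Box.mk (z + o) Ms).ExitOk N.Adm t} ≤ θ ∧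
          (weightMeasure G).real
            {t | (N.fr (Box.mk (z + o) Ms) 1 t).UBad (Box.mk z r) δ ε (Cb + 6 * (Cr * r)) t} ≤
              10 * θ) →
        ∃ v, (Box.mk 0 (r / 2)).Mem v ∧
          ∑ x ∈ (Box.mk x₀ R).verts, (weightMeasure G).real
              (N.ScaleBad B n δ ηi (Cr * r) (C + 2 * (C / 2)) Cb r (x - v)
                (Box.mk (x - v + o) Ms) x e) ≤ 6000 * θ * (Box.mk x₀ R).verts.card := by
  obtain ⟨ηi, hηi, hiso⟩ := exists_iso hG hθ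
  obtain ⟨ε, hεdef⟩ : ∃ x : ℝ, x = min δ ηi / 8 := ⟨_, rfl⟩
  have hε : 0 < ε := by rw [hεdef]; exact div_pos (lt_min hδ hηi) (by norm_num)
  have hεδ : 2 * ε < δ := by rw [hεdef]; linarith [min_le_left δ ηi]
  have hεη : 3 * ε < ηi := by rw [hεdef]; linarith [min_le_right δ ηi]
  have hg : 0 < ηi - 3 * ε := by linarith
  obtain ⟨C₀, r₀, hreach⟩ := N.reach_prob θ hθ
  obtain ⟨K₀, r₁, htile⟩ := N.tile_prob θ hθ
  obtain ⟨Cr, hCrdef⟩ : ∃ x : ℝ, x = max C₀ 0 := ⟨_, rfl⟩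
  have hCr : 0 ≤ Cr := hCrdef ▸ le_max_right _ _
  obtain ⟨K, hKdef⟩ : ∃ x : ℝ, x = max K₀ 0 := ⟨_, rfl⟩
  have hK : 0 ≤ K := hKdef ▸ le_max_right _ _
  obtain ⟨A₂, hA₂def⟩ : ∃ x : ℝ, x = 4 * (2 * Cr / (ηi - 3 * ε) + 1) := ⟨_, rfl⟩
  have hA₂ : 0 < A₂ := by rw [hA₂def]; positivity
  obtain ⟨C, hCdef⟩ : ∃ x : ℝ, x = 12 * K * A₂ / θ + 1 := ⟨_, rfl⟩
  have hC0 : 0 < C := by rw [hCdef]; positivity
  obtain ⟨b, hb⟩ : ∃ b : ℕ, r₀ ≤ b ∧ r₁ ≤ b ∧ 2 ≤ b ∧ ⌈A₂ / θ⌉₊ ≤ b :=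
    ⟨r₀ + r₁ + 2 + ⌈A₂ / θ⌉₊, by omega, by omega, by omega, by omega⟩
  refine ⟨ηi, ε, Cr, C, b, hε, hC0, hCr, hiso, ?_⟩
  intro B n x₀ e o R r Ms Cb he hbr hrR hMs ho hWB hS2 hwin hsub
  have hr1 : (1 : ℝ) ≤ r := by exact_mod_cast (show 1 ≤ r by omega)
  have h1 : 4 * (2 * (Cr * r) / (ηi - 3 * ε) + 1) ≤ A₂ * r := by
    rw [hA₂def, show 2 * (Cr * r) / (ηi - 3 * ε) = 2 * Cr / (ηi - 3 * ε) * r by ring]
    linarith
  have h2 : A₂ ≤ θ * r := by
    have h3 : A₂ / θ ≤ r := (Nat.le_ceil _).trans (by exact_mod_cast hb.2.2.2.trans hbr)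
    rw [div_le_iff₀ hθ] at h3
    linarith
  have h4 : 12 * K * A₂ / C ≤ θ := by
    rw [div_le_iff₀ hC0, hCdef, mul_add, mul_div_cancel₀ _ hθ.ne']
    linarith
  have hbound : (12 * (K * r) / C + 1) * (4 * (2 * (Cr * r) / (ηi - 3 * ε) + 1)) ≤
      30 * θ * (r : ℝ) ^ 2 := by
    calc (12 * (K * r) / C + 1) * (4 * (2 * (Cr * r) / (ηi - 3 * ε) + 1))
        ≤ (12 * (K * r) / C + 1) * (A₂ * r) := mul_le_mul_of_nonneg_left h1 (by positivity)
      _ = 12 * K * A₂ / C * (r : ℝ) ^ 2 + A₂ * r := by ring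
      _ ≤ θ * (r : ℝ) ^ 2 + θ * r * r := by gcongr
      _ = 2 * θ * (r : ℝ) ^ 2 := by ring
      _ ≤ 30 * θ * (r : ℝ) ^ 2 := by
          exact mul_le_mul_of_nonneg_right (by linarith) (by positivity)
  obtain ⟨v, hv, hle⟩ := N.exists_scale_offset (X := K * r) (Cb := Cb) (θ := 30 * θ) he hδ hε.le hεδ
    hεη hC0 (mul_nonneg hCr (Nat.cast_nonneg r)) (mul_nonneg hK (Nat.cast_nonneg r)) (by omega) hrR
    hMs ho hWB hS2 hwin
    (fun z => ((weight_real_mono G fun t (ht : K * r < N.tileW z r t) =>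
      lt_of_le_of_lt (mul_le_mul_of_nonneg_right (hKdef ▸ le_max_left _ _) (Nat.cast_nonneg _))
        ht).trans (real_le_of_le_ofReal hθ.le (htile z r (by omega)))).trans (by linarith))
    (fun z => (hsub z).1.trans (by linarith)) (fun z => (hsub z).2.trans (by linarith))
    (fun z p hp => ((weight_real_mono G fun t (ht : Cr * r < (Box.mk z (2 * r)).dist t z p) =>
      lt_of_le_of_lt (mul_le_mul_of_nonneg_right (hCrdef ▸ le_max_left _ _) (Nat.cast_nonneg _))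
        ht).trans (real_le_of_le_ofReal hθ.le (hreach z r (by omega) p hp))).trans (by linarith))
    hbound
  exact ⟨v, hv, hle.trans (le_of_eq (by ring))⟩

/-- The constants of the final tile: heavy steps have density `O(1 / N₁)`. -/
lemma Nets.exists_heavy_const (hG : GoodLaw G) (N : Nets G) {κ θ : ℝ} (hκ : 0 < κ) (hθ : 0 < θ) :
    ∃ (η A : ℝ) (b : ℕ), 0 < η ∧ 0 ≤ A ∧ ∀ (B : Box) (n : ℕ) (x₀ : V) (R L N₁ : ℕ), b ≤ R →
      L + 2 ≤ R → 0 < N₁ → (∀ w, (Box.mk x₀ (4 * R)).Mem w → B.Mem w) →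
      (weightMeasure G).real (N.WinBad B n (Box.mk x₀ (4 * R)) κ η) ≤ 28 * θ →
      ∑ x ∈ (Box.mk x₀ R).verts, (weightMeasure G).real
          {t | (N.fr B n t).HeavyNear x L (Box.mk x₀ (2 * R)) N₁ 1 κ t} ≤
        (((2 * (L + 2) + 1) ^ 2 : ℕ) : ℝ) * (4 * (Box.mk x₀ R).verts.card * (4 * (28 * θ)) +
          A * (Box.mk x₀ R).verts.card / N₁) := by
  obtain ⟨η', hη', hiso⟩ := exists_iso hG hθ
  obtain ⟨εf, hεfdef⟩ : ∃ x : ℝ, x = min 1 (min κ η') / 8 := ⟨_, rfl⟩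
  have hεf : 0 < εf := by
    rw [hεfdef]; exact div_pos (lt_min one_pos (lt_min hκ hη')) (by norm_num)
  have hεfκ : 2 * εf < κ := by
    rw [hεfdef]; linarith [min_le_right (1 : ℝ) (min κ η'), min_le_left κ η']
  have hεfη : 3 * εf < η' := by
    rw [hεfdef]; linarith [min_le_right (1 : ℝ) (min κ η'), min_le_right κ η']
  have hεf1 : εf ≤ 1 := by rw [hεfdef]; linarith [min_le_left (1 : ℝ) (min κ η')]
  have hg : 0 < η' - 3 * εf := by linarith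
  obtain ⟨C₁, r₀, hreach⟩ := N.reach_prob θ hθ
  obtain ⟨K₁, r₁, htile⟩ := N.tile_prob θ hθ
  obtain ⟨Cr, hCrdef⟩ : ∃ x : ℝ, x = max C₁ 0 := ⟨_, rfl⟩
  have hCr : 0 ≤ Cr := hCrdef ▸ le_max_right _ _
  obtain ⟨K, hKdef⟩ : ∃ x : ℝ, x = max K₁ 0 := ⟨_, rfl⟩
  have hK : 0 ≤ K := hKdef ▸ le_max_right _ _
  obtain ⟨A, hAdef⟩ : ∃ x : ℝ,
      x = (12 * (K * 2) / (εf / 2) + 1) * (2 * (4 * (2 * (Cr * 2) / (η' - 3 * εf) + 1))) :=
    ⟨_, rfl⟩
  refine ⟨εf / 4, A, r₀ + r₁ + 1, by positivity, by rw [hAdef]; positivity, ?_⟩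
  intro B n x₀ R L N₁ hbR hL hN₁ hWB hwin
  refine (N.sum_heavyNear (x₀ := x₀) (R := R) (ε := εf) (C' := εf / 2) (η := εf / 4)
    (ρ := Cr * ((2 * R : ℕ) : ℝ)) (X := K * ((2 * R : ℕ) : ℝ)) (θ := 28 * θ) hN₁ hκ hεf.le hεfκ hεfη
    hεf1 (by positivity) (by linarith) (mul_nonneg hCr (Nat.cast_nonneg _))
    (mul_nonneg hK (Nat.cast_nonneg _)) hL hWB hwin ?_ (fun p hp => ?_)
    (fun p => (hiso p).trans (by linarith))).trans ?_
  · refine ((weight_real_mono G fun t (ht : K * ((2 * R : ℕ) : ℝ) < N.tileW x₀ (2 * R) t) =>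
      ?_).trans (real_le_of_le_ofReal hθ.le (htile x₀ (2 * R) (by omega)))).trans (by linarith)
    exact lt_of_le_of_lt (mul_le_mul_of_nonneg_right (hKdef ▸ le_max_left _ _) (Nat.cast_nonneg _)) ht
  · refine ((weight_real_mono G fun t
      (ht : Cr * ((2 * R : ℕ) : ℝ) < (Box.mk x₀ (2 * (2 * R))).dist t x₀ p) => ?_).trans
      (real_le_of_le_ofReal hθ.le (hreach x₀ (2 * R) (by omega) p hp))).trans (by linarith)
    exact lt_of_le_of_lt (mul_le_mul_of_nonneg_right (hCrdef ▸ le_max_left _ _) (Nat.cast_nonneg _))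
      ht
  · refine mul_le_mul_of_nonneg_left (add_le_add le_rfl ?_) (Nat.cast_nonneg _)
    refine div_le_div_of_nonneg_right ?_ (Nat.cast_nonneg _)
    have hR1 : (1 : ℝ) ≤ R := by exact_mod_cast (show 1 ≤ R by omega)
    have hR2 : (R : ℝ) ^ 2 ≤ (Box.mk x₀ R).verts.card := by
      simp only [Box.card_verts]
      exact_mod_cast Nat.pow_le_pow_left (show R ≤ 2 * R + 1 by omega) 2
    have h1 : 12 * (K * ((2 * R : ℕ) : ℝ)) / (εf / 2) + 1 ≤
        (12 * (K * 2) / (εf / 2) + 1) * R := by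
      push_cast
      rw [show 12 * (K * (2 * (R : ℝ))) / (εf / 2) = 12 * (K * 2) / (εf / 2) * R by ring]
      linarith
    have h2 : 2 * (4 * (2 * (Cr * ((2 * R : ℕ) : ℝ)) / (η' - 3 * εf) + 1)) ≤
        2 * (4 * (2 * (Cr * 2) / (η' - 3 * εf) + 1)) * R := by
      push_cast
      rw [show 2 * (Cr * (2 * (R : ℝ))) / (η' - 3 * εf) =
        2 * (Cr * 2) / (η' - 3 * εf) * R by ring]
      linarith
    calc _ ≤ (12 * (K * 2) / (εf / 2) + 1) * R *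
          (2 * (4 * (2 * (Cr * 2) / (η' - 3 * εf) + 1)) * R) :=
          mul_le_mul h1 h2 (by positivity) (by positivity)
      _ = A * (R : ℝ) ^ 2 := by rw [hAdef]; ring
      _ ≤ A * (Box.mk x₀ R).verts.card :=
          mul_le_mul_of_nonneg_left hR2 (by rw [hAdef]; positivity)

/-- A box, a number of bins and a centre at which the frame is good around a window. -/
lemma Nets.exists_centre (N : Nets G) (hF : FrameStmt N) (hGr : GridStmt N) (hC : ContStmt N)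
    {δ η κ η' θ : ℝ} (hδ : 0 < δ) (hη : 0 < η) (hκ : 0 < κ) (hη' : 0 < η') (hθ : 0 < θ) (R : ℕ) :
    ∃ (n M : ℕ) (x₀ : V), 0 < n ∧ 32 * R + 32 ≤ M ∧ (Box.mk 0 (M / 4)).Mem x₀ ∧
      (weightMeasure G).real
        {t | ¬ N.FrameOk (Box.mk 0 M) n (Box.mk 0 (5 * M / 8)) 1 t} ≤ θ ∧
      (weightMeasure G).real {t | ¬ (Box.mk 0 M).ExitOk N.Adm t} ≤ θ ∧
      (weightMeasure G).real (N.WinBad (Box.mk 0 M) n (Box.mk x₀ (4 * R)) δ η) ≤ 28 * θ ∧
      (weightMeasure G).real (N.WinBad (Box.mk 0 M) n (Box.mk x₀ (4 * R)) κ η') ≤ 28 * θ := by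
  obtain ⟨n₁, hn₁⟩ := hF 1 one_pos θ hθ
  obtain ⟨n₂, hn₂⟩ := hGr (4 * R) θ hθ
  obtain ⟨n₃, hn₃⟩ := hC (4 * R) δ hδ η hη θ hθ
  obtain ⟨n₄, hn₄⟩ := hC (4 * R) κ hκ η' hη' θ hθ
  obtain ⟨n, hn⟩ : ∃ n : ℕ, n₁ ≤ n ∧ n₂ ≤ n ∧ n₃ ≤ n ∧ n₄ ≤ n ∧ 0 < n :=
    ⟨n₁ + n₂ + n₃ + n₄ + 1, by omega, by omega, by omega, by omega, by omega⟩
  obtain ⟨M₁, hM₁⟩ := hn₁ n hn.1
  obtain ⟨M₂, hM₂⟩ := hn₂ n hn.2.1
  obtain ⟨M₃, hM₃⟩ := hn₃ n hn.2.2.1
  obtain ⟨M₄, hM₄⟩ := hn₄ n hn.2.2.2.1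
  obtain ⟨M₅, hM₅⟩ := N.exit_prob θ hθ
  obtain ⟨M, hM⟩ : ∃ M : ℕ, M₁ ≤ M ∧ M₂ ≤ M ∧ M₃ ≤ M ∧ M₄ ≤ M ∧ M₅ ≤ M ∧ 32 * R + 32 ≤ M :=
    ⟨M₁ + M₂ + M₃ + M₄ + M₅ + (32 * R + 32), by omega, by omega, by omega, by omega, by omega,
      by omega⟩
  obtain ⟨x₀, hx₀, hx₀P⟩ := exists_quarter G M fun x =>
    {t | (N.fr (Box.mk 0 M) n t).GridBad (Box.mk x (4 * R)) t} ∪
      {t | (N.fr (Box.mk 0 M) n t).ContBad (Box.mk x (4 * R)) δ η t} ∪
      {t | (N.fr (Box.mk 0 M) n t).ContBad (Box.mk x (4 * R)) κ η' t}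
  set E := {t | (N.fr (Box.mk 0 M) n t).GridBad (Box.mk x₀ (4 * R)) t} ∪
      {t | (N.fr (Box.mk 0 M) n t).ContBad (Box.mk x₀ (4 * R)) δ η t} ∪
      {t | (N.fr (Box.mk 0 M) n t).ContBad (Box.mk x₀ (4 * R)) κ η' t}
  have hE : (weightMeasure G).real E ≤ 27 * θ := by
    refine hx₀P.trans ?_
    have h1 := (hM₂ M hM.2.1 0 (Nat.zero_le _)).1
    have h2 := hM₃ M hM.2.2.1
    have h3 := hM₄ M hM.2.2.2.1
    have h4 := (avg_union_le G (M := M)).trans (add_le_add ((avg_union_le G (M := M)).trans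
      (add_le_add h1 h2)) h3)
    linarith
  have hok := hM₁ M hM.1
  have hboth := (ContAvg.real_union hok hE).trans (show θ + 27 * θ ≤ 28 * θ by linarith)
  refine ⟨n, M, x₀, hn.2.2.2.2, hM.2.2.2.2.2, hx₀, hok,
    real_le_of_le_ofReal hθ.le (hM₅ _ hM.2.2.2.2.1), (weight_real_mono G fun t ht => ?_).trans hboth,
    (weight_real_mono G fun t ht => ?_).trans hboth⟩
  · by_contra hno
    simp only [E, Set.mem_union, Set.mem_ofPred_eq, not_or, not_not] at hno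
    exact ht ⟨hno.1.1, hno.1.2.1, hno.2.1.1, hno.2.1.2⟩
  · by_contra hno
    simp only [E, Set.mem_union, Set.mem_ofPred_eq, not_or, not_not] at hno
    exact ht ⟨hno.1.1, hno.1.2.1, hno.2.1.1, hno.2.2⟩

/-- The bound at one edge: few bad scales or a heavy step nearby. -/
lemma Nets.edge_bound (N : Nets G) {n M R L N₁ : ℕ} {x₀ x e : V} {q δ ηi Cl Cb κ Kc θ : ℝ}
    {Cr : ℕ → ℝ} (r Ms : ℕ → ℕ) (v o : ℕ → V) (hn : 0 < n) (hδ : 0 ≤ δ) (hN₁ : 0 < N₁)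
    (he : Nbr 0 e) (hM : 32 * R + 32 ≤ M) (hx₀ : (Box.mk 0 (M / 4)).Mem x₀)
    (hx : (Box.mk x₀ R).Mem x) (hLR : L + 2 ≤ R)
    (hstage : ∀ (Ns : Nets G) (B : Box) (n : ℕ) (x p q : V) (tile reach win : ℕ → Box) (W : Box)
        (k N₁ : ℕ) (δ ηi : ℝ) (Cr : ℕ → ℝ), (Box.mk x 1).Mem p →
        (∀ z, (Box.mk x (L + 2)).Mem z → (Box.mk B.c (3 * B.M / 4)).Mem z) → 0 < B.M →
        (∀ i < k, ∀ j < k, i < j → ∀ z, (win i).Mem z → (tile j).Mem z) →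
        (∀ i < k, ∀ z, (win i).Mem z → W.Mem z) → (∀ z, W.Mem z → B.Mem z) →
        (weightMeasure G).real
            {t | (Ns.fr B n t).Rich tile reach win k (2 * (L + 1) * N₁) δ ηi Cl Cb Cr L p q t} ≤
          θ + Kc * (weightMeasure G).real {t | (Ns.fr B n t).HeavyNear x L W N₁ 1 κ t})
    (hseg : ∀ (B : Box) (x : V), B.Inner x → B.Inner (x + e) →
      q ≤ (weightMeasure G).real {t | ∃ i j, B.Seg t i j x (x + e) δ})
    (hscale : ∀ i < 2 * (2 * (L + 1) * N₁),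
      2 * L + 6 ≤ r i ∧ r i + 2 * Ms i ≤ R ∧ 4 * r i + 4 ≤ Ms i ∧
        (Box.mk 0 (r i / 2)).Mem (v i) ∧ (Box.mk 0 (Ms i / 4)).Mem (o i))
    (hnest : ∀ i j, i < j → 2 * (r i + 2 * Ms i) + 2 ≤ r j)
    (hframe : (weightMeasure G).real
      {t | ¬ N.FrameOk (Box.mk 0 M) n (Box.mk 0 (5 * M / 8)) 1 t} ≤ θ)
    (hexit : (weightMeasure G).real {t | ¬ (Box.mk 0 M).ExitOk N.Adm t} ≤ θ)
    (hiso : ∀ p, (weightMeasure G).real {t | ¬ Iso ηi p t} ≤ θ) :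
    q ≤ 6 * θ +
      (∑ i ∈ range (2 * (2 * (L + 1) * N₁)), (weightMeasure G).real
        (N.ScaleBad (Box.mk 0 M) n δ ηi (Cr i) Cl Cb (r i) (x - v i)
          (Box.mk (x - v i + o i) (Ms i)) x e)) / ((2 * (L + 1) * N₁ : ℕ) : ℝ) +
      2 * Kc * (weightMeasure G).real
        {t | (N.fr (Box.mk 0 M) n t).HeavyNear x L (Box.mk x₀ (2 * R)) N₁ 1 κ t} := by
  have hne := Box.nbr_cases he
  simp only [Prod.fst_zero, Prod.snd_zero] at hne
  simp only [Box.mem_iff, Prod.fst_zero, Prod.snd_zero] at hx hx₀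
  have hN'0 : 0 < 2 * (L + 1) * N₁ := by positivity
  have hq' := hseg (Box.mk 0 (2 * M)) x
    (by simp only [Box.inner_iff, Nat.cast_mul, Nat.cast_ofNat, Prod.fst_zero, Prod.snd_zero]; omega)
    (by simp only [Box.inner_iff, Nat.cast_mul, Nat.cast_ofNat, Prod.fst_zero, Prod.snd_zero,
          Prod.fst_add, Prod.snd_add]; omega)
  have hrich := N.seg_le_rich (M := M) (x := x) (e := e) (W := Box.mk x₀ (2 * R)) (δ := δ)
    (ηi := ηi) (Cl := Cl) (Cb := Cb) (θ := θ) (Cr := Cr) (L := L) (N' := 2 * (L + 1) * N₁) r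
    (fun i => x - v i) (fun i => Box.mk (x - v i + o i) (Ms i))
    (fun i => Box.mk x (r i + 2 * Ms i)) hn hδ hN'0
    (by simp only [Box.mem_iff, Prod.fst_zero, Prod.snd_zero]; omega)
    (by simp only [Box.inner_iff, Prod.fst_zero, Prod.snd_zero, Prod.fst_add, Prod.snd_add]; omega)
    ⟨by simp only [Box.mem_iff, Nat.cast_mul, Nat.cast_ofNat]; omega,
      by simp only [Box.mem_iff, Nat.cast_mul, Nat.cast_ofNat, Prod.fst_add, Prod.snd_add]; omega⟩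
    (fun w hw => by
      simp only [Box.mem_iff, Nat.cast_mul, Nat.cast_ofNat, Prod.fst_zero, Prod.snd_zero] at hw ⊢
      omega)
    (by omega)
    (fun i hi p hp z hz => by
      obtain ⟨h1, -, -, h2, -⟩ := hscale i hi
      rcases hp with rfl | rfl <;>
        simp only [Box.mem_iff, Nat.cast_add, Nat.cast_one, Prod.fst_sub, Prod.snd_sub,
          Prod.fst_add, Prod.snd_add, Prod.fst_zero, Prod.snd_zero] at hz h2 ⊢ <;> omega)
    (fun i hi z hz => by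
      obtain ⟨-, -, -, h2, h3⟩ := hscale i hi
      simp only [Box.mem_iff, Nat.cast_add, Nat.cast_mul, Nat.cast_ofNat, Prod.fst_sub,
        Prod.snd_sub, Prod.fst_add, Prod.snd_add, Prod.fst_zero, Prod.snd_zero] at hz h2 h3 ⊢
      omega)
    hframe hexit hiso
  have hball : ∀ z, (Box.mk x (L + 2)).Mem z → (Box.mk 0 (3 * M / 4)).Mem z := fun z hz => by
    simp only [Box.mem_iff, Nat.cast_add, Nat.cast_ofNat, Prod.fst_zero, Prod.snd_zero] at hz ⊢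
    omega
  have hst : ∀ p p', (Box.mk x 1).Mem p →
      (weightMeasure G).real {t | (N.fr (Box.mk 0 M) n t).Rich
        (fun i => Box.mk (x - v i) (r i)) (fun i => Box.mk (x - v i) (2 * r i))
        (fun i => Box.mk x (r i + 2 * Ms i)) (2 * (2 * (L + 1) * N₁)) (2 * (L + 1) * N₁)
        δ ηi Cl Cb Cr L p p' t} ≤ θ + Kc * (weightMeasure G).real
        {t | (N.fr (Box.mk 0 M) n t).HeavyNear x L (Box.mk x₀ (2 * R)) N₁ 1 κ t} := by
    intro p p' hp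
    refine hstage N (Box.mk 0 M) n x p p' _ _ _ _ _ N₁ δ ηi _ hp hball (show 0 < M by omega)
      (fun i _ j hj hij z hz => ?_) (fun i hi z hz => ?_) fun w hw => ?_
    · obtain ⟨-, -, -, h2, -⟩ := hscale j hj
      have := hnest i j hij
      simp only [Box.mem_iff, Nat.cast_add, Nat.cast_mul, Nat.cast_ofNat, Prod.fst_sub,
        Prod.snd_sub, Prod.fst_zero, Prod.snd_zero] at hz h2 ⊢
      omega
    · obtain ⟨-, h2, -⟩ := hscale i hi
      simp only [Box.mem_iff, Nat.cast_add, Nat.cast_mul, Nat.cast_ofNat] at hz ⊢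
      omega
    · simp only [Box.mem_iff, Nat.cast_mul, Nat.cast_ofNat, Prod.fst_zero, Prod.snd_zero] at hw ⊢
      omega
  have h1 := hst x (x + e) (by simp [Box.Mem])
  have h2 := hst (x + e) x (by
    simp only [Box.mem_iff, Nat.cast_one, Prod.fst_add, Prod.snd_add]; omega)
  linarith [hq'.trans hrich]

/-- Margin segments at one edge cannot be found with positive probability in all boxes. -/
theorem Nets.no_margin_steps (hG : GoodLaw G) (N : Nets G) (hF : FrameStmt N) (hGr : GridStmt N)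
    (hC : ContStmt N) (hU : UStmt N) {δ q : ℝ} (hδ : 0 < δ) (hq : 0 < q) {e : V} (he : Nbr 0 e)
    (hseg : ∀ (B : Box) (x : V), B.Inner x → B.Inner (x + e) →
      q ≤ (weightMeasure G).real {t | ∃ i j, B.Seg t i j x (x + e) δ}) : False := by
  obtain ⟨ε₀, hε₀def⟩ : ∃ x : ℝ, x = q / 20000 := ⟨_, rfl⟩
  have hε₀ : 0 < ε₀ := by rw [hε₀def]; positivity
  obtain ⟨ηi, ε, Cr, C, b, hε, hC0, hCr, hiso, htiles⟩ := N.exists_tile_consts hG hδ hε₀
  obtain ⟨L, Cb, κ, Kc, hκ, hKc, hstage⟩ := exists_stages hG (Cl := C + 2 * (C / 2)) hε₀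
  obtain ⟨BL, hBLdef⟩ : ∃ x : ℝ, x = (((2 * (L + 2) + 1) ^ 2 : ℕ) : ℝ) := ⟨_, rfl⟩
  have hBL : 1 ≤ BL := by
    rw [hBLdef]; exact_mod_cast Nat.one_le_pow _ _ (by omega)
  obtain ⟨ε₃, hε₃def⟩ : ∃ x : ℝ, x = ε₀ / (1000 * ((Kc + 1) * BL)) := ⟨_, rfl⟩
  have hε₃ : 0 < ε₃ := by rw [hε₃def]; positivity
  have hε₃le : ε₃ ≤ ε₀ := by
    rw [hε₃def]
    refine div_le_self hε₀.le ?_
    nlinarith [mul_nonneg hKc (zero_le_one.trans hBL)]
  have hε₃Kc : 896 * (Kc * BL * ε₃) ≤ ε₀ := by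
    have h0 : Kc * BL * ε₃ * 1000 ≤ (Kc + 1) * BL * ε₃ * 1000 := by
      nlinarith [mul_nonneg (zero_le_one.trans hBL) hε₃.le]
    have h1 : (Kc + 1) * BL * ε₃ * 1000 = ε₀ := by rw [hε₃def]; field_simp
    nlinarith [mul_nonneg (mul_nonneg hKc (zero_le_one.trans hBL)) hε₃.le]
  obtain ⟨η', A, b', hη', hA, hheavy⟩ := N.exists_heavy_const hG hκ hε₃
  obtain ⟨N₁, hN₁⟩ := exists_nat_gt (2 * Kc * BL * A / ε₀)
  have hN₁0 : 0 < N₁ := by
    have h0 : (0 : ℝ) ≤ 2 * Kc * BL * A / ε₀ := by positivity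
    exact_mod_cast lt_of_le_of_lt h0 hN₁
  choose Ms o hMs ho hsub using fun r : ℕ =>
    N.exists_subbox hU (C := Cb + 6 * (Cr * r)) hδ hε hε₀ r
  obtain ⟨base, hbase⟩ : ∃ x : ℕ, x = b + 2 * L + 6 := ⟨_, rfl⟩
  obtain ⟨r, hr⟩ : ∃ r : ℕ → ℕ, r = scales base Ms := ⟨_, rfl⟩
  obtain ⟨k, hk⟩ : ∃ k : ℕ, k = 2 * (2 * (L + 1) * N₁) := ⟨_, rfl⟩
  obtain ⟨R, hR⟩ : ∃ R : ℕ, R = b' + L + 2 + ∑ i ∈ range k, (r i + 2 * Ms (r i)) := ⟨_, rfl⟩
  have hrb : ∀ i, base ≤ r i := fun i => hr ▸ le_scales base Ms i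
  have hrR : ∀ i < k, r i + 2 * Ms (r i) ≤ R := fun i hi => by
    have := single_le_sum (f := fun i => r i + 2 * Ms (r i)) (fun _ _ => Nat.zero_le _)
      (mem_range.2 hi)
    omega
  obtain ⟨n, M, x₀, hn, hMR, hx₀, hok, hexit, hwin, hwin'⟩ :=
    N.exists_centre hF hGr hC hδ (half_pos hC0) hκ hη' hε₃ R
  have hx₀' := Box.mem_iff.1 hx₀
  simp only [Prod.fst_zero, Prod.snd_zero] at hx₀'
  have hWB : ∀ w, (Box.mk x₀ (4 * R)).Mem w → (Box.mk 0 M).Mem w := fun w hw => by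
    simp only [Box.mem_iff, Nat.cast_mul, Nat.cast_ofNat, Prod.fst_zero, Prod.snd_zero] at hw ⊢
    omega
  have hscale : ∀ i < k, ∃ v, (Box.mk 0 (r i / 2)).Mem v ∧
      ∑ x ∈ (Box.mk x₀ R).verts, (weightMeasure G).real (N.ScaleBad (Box.mk 0 M) n δ ηi (Cr * r i)
        (C + 2 * (C / 2)) Cb (r i) (x - v) (Box.mk (x - v + o (r i)) (Ms (r i))) x e) ≤
        6000 * ε₀ * (Box.mk x₀ R).verts.card := by
    intro i hi
    have hi' := hrR i hi
    refine htiles _ n x₀ e (o (r i)) R (r i) (Ms (r i)) Cb he (by have := hrb i; omega) (by omega)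
      (hMs (r i)) (ho (r i)) hWB (fun z hz w hw => ?_) (hwin.trans (by linarith)) (hsub (r i))
    have ho' := ho (r i)
    simp only [Box.mem_iff, Nat.cast_mul, Nat.cast_ofNat, Prod.fst_add, Prod.snd_add,
      Prod.fst_zero, Prod.snd_zero] at hz hw ho' ⊢
    omega
  choose! v hv hvsum using hscale
  have hpoint : ∀ x ∈ (Box.mk x₀ R).verts, q ≤ 6 * ε₀ +
      (∑ i ∈ range k, (weightMeasure G).real (N.ScaleBad (Box.mk 0 M) n δ ηi (Cr * r i)
        (C + 2 * (C / 2)) Cb (r i) (x - v i) (Box.mk (x - v i + o (r i)) (Ms (r i))) x e)) /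
        ((2 * (L + 1) * N₁ : ℕ) : ℝ) +
      2 * Kc * (weightMeasure G).real
        {t | (N.fr (Box.mk 0 M) n t).HeavyNear x L (Box.mk x₀ (2 * R)) N₁ 1 κ t} := fun x hx => by
    subst hk
    exact N.edge_bound (Cr := fun i => Cr * r i) r (fun i => Ms (r i)) v (fun i => o (r i)) hn
      hδ.le hN₁0 he hMR hx₀ (Box.mem_verts.1 hx) (by omega) hstage hseg
      (fun i hi => ⟨by have := hrb i; omega, hrR i hi, hMs (r i), hv i hi, ho (r i)⟩)
      (fun i j hij => hr ▸ scales_lt base Ms hij) (hok.trans hε₃le) (hexit.trans hε₃le) hiso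
  have hH := hheavy _ n x₀ R L N₁ (by omega) (by omega) hN₁0 hWB hwin'
  rw [← hBLdef] at hH
  obtain ⟨cD, hcD⟩ : ∃ c : ℝ, c = ((Box.mk x₀ R).verts.card : ℝ) := ⟨_, rfl⟩
  rw [← hcD] at hH hvsum
  have hD0 : 0 < cD := by
    rw [hcD, Box.card_verts]
    exact_mod_cast pow_pos (show 0 < 2 * R + 1 by omega) 2
  have hbad : ∑ x ∈ (Box.mk x₀ R).verts,
      (∑ i ∈ range k, (weightMeasure G).real (N.ScaleBad (Box.mk 0 M) n δ ηi (Cr * r i)
        (C + 2 * (C / 2)) Cb (r i) (x - v i) (Box.mk (x - v i + o (r i)) (Ms (r i))) x e)) /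
        ((2 * (L + 1) * N₁ : ℕ) : ℝ) ≤ 12000 * ε₀ * cD := by
    have h0 : 0 < 2 * (L + 1) * N₁ := by positivity
    rw [← sum_div, div_le_iff₀ (Nat.cast_pos.2 h0), sum_comm]
    refine (sum_le_sum fun i hi => hvsum i (mem_range.1 hi)).trans (le_of_eq ?_)
    rw [sum_const, card_range, nsmul_eq_mul, hk]
    push_cast
    ring
  have hsum := sum_le_sum hpoint
  simp only [sum_add_distrib, sum_const, nsmul_eq_mul, ← mul_sum, ← hcD] at hsum
  have h1 : 2 * Kc * (BL * (4 * cD * (4 * (28 * ε₃)) + A * cD / N₁)) ≤ 2 * ε₀ * cD := by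
    have e1 : 2 * Kc * BL * A / N₁ ≤ ε₀ := by
      rw [div_lt_iff₀ hε₀] at hN₁
      rw [div_le_iff₀ (Nat.cast_pos.2 hN₁0)]
      linarith
    calc 2 * Kc * (BL * (4 * cD * (4 * (28 * ε₃)) + A * cD / N₁))
        = 896 * (Kc * BL * ε₃) * cD + 2 * Kc * BL * A / N₁ * cD := by ring
      _ ≤ ε₀ * cD + ε₀ * cD := by gcongr
      _ = 2 * ε₀ * cD := by ring
  have h2 := (mul_le_mul_of_nonneg_left hH (show (0 : ℝ) ≤ 2 * Kc by positivity)).trans h1
  have h3 : cD * q ≤ cD * (q * (12008 / 20000)) := by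
    rw [hε₀def] at hsum hbad h2
    linarith
  have h4 := le_of_mul_le_mul_left h3 hD0
  linarith

/-- No step lies on a bigeodesic with positive probability. -/
theorem Nets.bigeoStep_null (hG : GoodLaw G) (N : Nets G) (hF : FrameStmt N) (hGr : GridStmt N)
    (hC : ContStmt N) (hU : UStmt N) (p q : V) : weightMeasure G (BigeoStep p q) = 0 := by
  by_contra h
  obtain ⟨t, v, ⟨-, hnbr, -⟩, i, hip, hiq⟩ :=
    nonempty_of_measure_ne_zero (μ := weightMeasure G) h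
  have hpq : Nbr p q := hip ▸ hiq ▸ hnbr i
  obtain ⟨δ, hδ, c, hc, hB⟩ := exists_margin_step hG.nonneg hG.atomless h
  have hctop : c ≠ ∞ :=
    ne_top_of_le_ne_top (measure_ne_top _ _) (hB (Box.mk p 2)
      (by simp [Box.Inner])
      (by have := Box.nbr_cases hpq; simp only [Box.inner_iff]; omega))
  refine N.no_margin_steps hG hF hGr hC hU hδ (q := c.toReal) (ENNReal.toReal_pos hc.ne' hctop)
    (e := q - p) ((nbr_add p).1 (by simpa using hpq)) fun B x hx hxe => ?_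
  set w := x - p with hw
  have hBs : (B.shift (-w)).shift w = B := by simp [Box.shift]
  have e1 : p + w = x := by simp [hw]
  have e2 : q + w = x + (q - p) := by simp only [hw]; abel
  have hpin : (B.shift (-w)).Inner p := (Box.shift_inner w).1 (by rwa [hBs, e1])
  have hqin : (B.shift (-w)).Inner q := (Box.shift_inner w).1 (by rwa [hBs, e2])
  refine ENNReal.toReal_mono (measure_ne_top _ _) ((hB _ hpin hqin).trans (le_of_eq ?_))
  rw [← prob_shift G w]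
  congr 1
  ext s
  simp only [Set.mem_preimage, Set.mem_ofPred_eq, ← Box.seg_shift, hBs, e1, e2]

end Vale.Agent.P158.NB
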