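import Vale.Agent.P158.NB.MainTile
import Vale.Agent.P158.NB.ContAvg

/-!
The two lowering stages of section 9 of `PROOF.md`: a rich edge is, up to a small error and a
constant, no more likely than a nearby step with many pairwise far margin segments.
-/

open MeasureTheory Finset Filter
open scoped ENNReal

namespace Vale.Agent.P158.NB

namespace Frame

/-- Some step near `x` carries many pairwise far segments. -/
def HeavyNear (F : Frame) (x : V) (L : ℕ) (W : Box) (N : ℕ) (C κ : ℝ) (t : Env) : Prop :=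
  ∃ p q, (Box.mk x (L + 2)).Mem p ∧ (Box.mk x (L + 2)).Mem q ∧ F.Heavy W N C κ p q t

end Frame

variable {G : Measure ℝ} [IsProbabilityMeasure G]

/-- Few good values near a point are rare, for a suitable length. -/
lemma exists_few_ball {Good : Set ℝ} (hm : MeasurableSet Good) (hG : G Goodᶜ ≤ (1 / 16) ^ 2)
    {ε : ℝ} (hε : 0 < ε) (L₀ : ℕ) :
    ∃ L ≥ L₀, ∀ p : V, (weightMeasure G).real (FewGood Good (Box.mk p L) L) ≤ ε := by
  have hlim : Tendsto (fun n : ℕ => 9 * ((n : ℝ) ^ 2 * (1 / 2 : ℝ) ^ n)) atTop (nhds 0) := by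
    simpa using (tendsto_pow_const_mul_const_pow_of_abs_lt_one 2
      (r := (1 / 2 : ℝ)) (by norm_num [abs_lt])).const_mul 9
  obtain ⟨n, hn⟩ := eventually_atTop.1 (hlim.eventually (eventually_le_nhds hε))
  refine ⟨max (max n L₀) 1, le_of_max_le_left le_rfl |>.trans' (le_max_right _ _), fun p => ?_⟩
  set L := max (max n L₀) 1
  have h := ENNReal.toReal_mono (by simp [ENNReal.mul_eq_top]) (fewGood_le G hm hG (Box.mk p L) L)
  simp only [ENNReal.toReal_mul, ENNReal.toReal_pow, ENNReal.toReal_natCast, ENNReal.toReal_div,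
    ENNReal.toReal_one, ENNReal.toReal_ofNat] at h
  rw [measureReal_def]
  refine h.trans ((mul_le_mul_of_nonneg_right ?_ (by positivity)).trans
    ((mul_assoc _ _ _).le.trans (hn L ((le_max_left n L₀).trans (le_max_left _ _)))))
  have h3 : (2 * L + 1) ^ 2 ≤ 9 * L ^ 2 := by
    have : 1 ≤ L := le_max_right _ _
    calc (2 * L + 1) ^ 2 ≤ (3 * L) ^ 2 := Nat.pow_le_pow_left (by omega) 2
      _ = 9 * L ^ 2 := by ring
  exact_mod_cast h3

/-- The two stages. -/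
theorem exists_stages (hG : GoodLaw G) {Cl ε₀ : ℝ} (hε₀ : 0 < ε₀) :
    ∃ (L : ℕ) (Cb κ Kc : ℝ), 0 < κ ∧ 0 ≤ Kc ∧
      ∀ (Ns : Nets G) (B : Box) (n : ℕ) (x p q : V) (tile reach win : ℕ → Box) (W : Box)
        (k N₁ : ℕ) (δ ηi : ℝ) (Cr : ℕ → ℝ), (Box.mk x 1).Mem p →
        (∀ z, (Box.mk x (L + 2)).Mem z → (Box.mk B.c (3 * B.M / 4)).Mem z) → 0 < B.M →
        (∀ i < k, ∀ j < k, i < j → ∀ z, (win i).Mem z → (tile j).Mem z) →
        (∀ i < k, ∀ z, (win i).Mem z → W.Mem z) → (∀ z, W.Mem z → B.Mem z) →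
        (weightMeasure G).real
            {t | (Ns.fr B n t).Rich tile reach win k (2 * (L + 1) * N₁) δ ηi Cl Cb Cr L p q t} ≤
          ε₀ + Kc * (weightMeasure G).real
            {t | (Ns.fr B n t).HeavyNear x L W N₁ 1 κ t} := by
  classical
  obtain ⟨κ₀, hκ₀, -, T₁, Good₁, hT₁, hGm₁, hGp₁, hGood₁⟩ :=
    exists_steps G hG.nonneg hG.atomless one_pos (ε := (1 / 16) ^ 2) (ENNReal.pow_pos (ENNReal.div_pos one_ne_zero (by simp)) 2)
  obtain ⟨L, hL, hfew⟩ := exists_few_ball hGm₁ hGp₁ (show 0 < ε₀ / 3 by positivity)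
    (⌈6 * Cl / κ₀⌉₊ + 1)
  have hLg : 3 * Cl < (L : ℝ) / 2 * κ₀ := by
    have h1 : 6 * Cl / κ₀ < L := lt_of_le_of_lt (Nat.le_ceil _) (by exact_mod_cast hL)
    rw [div_lt_iff₀ hκ₀] at h1
    linarith
  set Np : ℕ := ((2 * (L + 2) + 1) ^ 2 + 1).choose 2
  obtain ⟨C₁, hC₁, hone⟩ := exists_option_const G T₁ (fun S hS => ⟨(hT₁ S hS).1, (hT₁ S hS).2.1⟩) Np
  obtain ⟨κ, hκ, -, T₂, Good₂, hT₂, hGm₂, hGp₂, hGood₂⟩ :=
    exists_steps G hG.nonneg hG.atomless one_pos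
      (ε := ENNReal.ofReal (ε₀ / (3 * ((C₁.toReal + 1) * (Np + 1)))))
      (ENNReal.ofReal_pos.2 (by positivity))
  obtain ⟨C₂, hC₂, htwo⟩ := stage_two G T₂ hT₂ hGood₂ Np
  refine ⟨L, Cl + 2 * (L * 1) + 3, κ, C₁.toReal * C₂.toReal, hκ, by positivity, ?_⟩
  intro Ns B n x p q tile reach win W k N₁ δ ηi Cr hp hball hM hnest hW hWB
  set P := weightMeasure G
  set Pos : Set Env := {t | ∀ e, 0 < t e}
  set E₀ : Set Env :=
    {t | (Ns.fr B n t).Rich tile reach win k (2 * (L + 1) * N₁) δ ηi Cl (Cl + 2 * (L * 1) + 3) Cr L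
      p q t}
  set E₁ : Set Env := {t | (∀ e, 0 < t e) ∧ (Ns.fr B n t).HeavyNear x L W N₁ 3 0 t}
  set E₂ : Set Env := {t | (Ns.fr B n t).HeavyNear x L W N₁ 1 κ t}
  set Wx : Finset (Sym2 V) := (Box.mk x (L + 2)).pairs
  have hWx : Wx.card ≤ Np := Box.card_pairs_le _
  set Few₂ : Set Env := {t | ∃ e ∈ Wx, t e ∉ Good₂}
  have hpair : (Box.mk p (L + 1)).pairs ⊆ Wx := by
    intro e he
    induction e using Sym2.ind with
    | _ a b =>
      obtain ⟨ha, hb⟩ := Box.mem_pairs.1 he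
      refine Box.mem_pairs.2 ⟨?_, ?_⟩ <;>
        (simp only [Box.mem_iff, Nat.cast_add, Nat.cast_one, Nat.cast_ofNat] at ha hb hp ⊢; omega)
  -- the first stage
  have h1 : P ((E₀ ∩ Pos) \ FewGood Good₁ (Box.mk p L) L) ≤ C₁ * P E₁ := by
    refine hone Wx hWx _ _ fun t ht => ?_
    obtain ⟨⟨hr, hpos⟩, hf⟩ := ht
    have hpos' : ∀ e, 0 < t e := hpos
    obtain ⟨E, hE, S, hS, hmod⟩ := Frame.Rich.lower (F := Ns.fr B n t) (W := W) hr hpos'
      (T := T₁) (fun S hS v hv => (Set.mem_Ioi.1 ((hT₁ S hS).2.2 hv)).le) hGood₁ hκ₀.le zero_le_one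
      hLg (by linarith) hf
      (fun z hz => by
        have := hball z (by
          simp only [Box.mem_iff, Nat.cast_add, Nat.cast_ofNat] at hz hp ⊢; omega)
        show B.Inner z
        simp only [Box.mem_iff, Box.inner_iff] at this ⊢
        omega)
      hnest hW hWB (fun t' => {j | Ns.Adm B t' j})
      (fun t' hle heq => fun j hj => Ns.adm_lower B t t' ⟨hle, fun u v hu => heq _ fun hmem =>
        hu (hball u (Box.mem_pairs.1 (hpair hmem)).1)⟩ j hj)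
    refine ⟨E, hE.trans hpair, S, hS, fun s hs => ?_⟩
    obtain ⟨p', q', hp', hq', N, hN, hh⟩ := hmod s hs
    refine ⟨fun e => ?_, p', q', ?_, ?_, ?_⟩
    · by_cases he : e ∈ E
      · rw [piecewise_eq_of_mem _ _ _ he]; exact (hT₁ _ (hS e he)).2.2 (hs e he)
      · rw [piecewise_eq_of_notMem _ _ _ he]; exact hpos' e
    · simp only [Box.mem_iff, Nat.cast_add, Nat.cast_one, Nat.cast_ofNat] at hp' hp ⊢; omega
    · simp only [Box.mem_iff, Nat.cast_add, Nat.cast_one, Nat.cast_ofNat] at hq' hp ⊢; omega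
    · obtain ⟨Ps, hPs, hP1, hP2⟩ := hh
      have e : Cl + 2 * ((L : ℝ) * 1) + 3 - Cl - 2 * (L * 1) = 3 := by ring
      rw [e] at hP2
      exact ⟨Ps, (Nat.le_of_mul_le_mul_left hN (by omega)).trans hPs, hP1, hP2⟩
  -- the second stage
  have h2 : P (E₁ \ Few₂) ≤ C₂ * P E₂ := by
    refine htwo Wx hWx _ _ fun t ht => ?_
    obtain ⟨⟨hpos, p', q', hp', hq', hh⟩, hf⟩ := ht
    have hmem : s(p', q') ∈ Wx := Box.mem_pairs.2 ⟨hp', hq'⟩
    refine ⟨_, hmem, by_contra fun h => hf ⟨_, hmem, h⟩, fun u hu hlo hhi => ⟨p', q', hp', hq', ?_⟩⟩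
    have hadm : (Ns.fr B n t).T ⊆ {j | Ns.Adm B (Function.update t s(p', q') u) j} := fun j hj =>
      Ns.adm_lower B t _ ⟨fun e => ⟨Box.update_nonneg (fun e => (hpos e).le) hu.le e,
        Box.le_update_of_le (by linarith) e⟩, fun a b ha => Function.update_of_ne (fun he => ha ?_) _ _⟩
        j hj
    · have hh' := Frame.Heavy.lower hh (fun e => (hpos e).le) (hpos _) (u := u) (η := 1) hu.le
        hκ.le hlo hhi hWB hadm
      rw [show (3 : ℝ) - 2 * 1 = 1 by norm_num] at hh'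
      exact hh'
    · rcases Sym2.eq_iff.1 he with ⟨rfl, -⟩ | ⟨rfl, -⟩
      exacts [hball _ hp', hball _ hq']
  -- the errors
  have hfew₂ : P.real Few₂ ≤ Np * (ε₀ / (3 * ((C₁.toReal + 1) * (Np + 1)))) :=
    (ContAvg.coords_le hGm₂ Wx).trans (mul_le_mul (by exact_mod_cast hWx)
      (ENNReal.toReal_le_of_le_ofReal (by positivity) hGp₂) measureReal_nonneg (Nat.cast_nonneg _))
  have r1 : P.real ((E₀ ∩ Pos) \ FewGood Good₁ (Box.mk p L) L) ≤ C₁.toReal * P.real E₁ :=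
    ContAvg.real_le_mul hC₁ h1
  have r2 : P.real (E₁ \ Few₂) ≤ C₂.toReal * P.real E₂ := ContAvg.real_le_mul hC₂ h2
  have r3 : P.real E₁ ≤ P.real (E₁ \ Few₂) + P.real Few₂ :=
    (weight_real_mono G (show E₁ ⊆ (E₁ \ Few₂) ∪ Few₂ from fun t ht => by
      by_cases h : t ∈ Few₂
      exacts [Or.inr h, Or.inl ⟨ht, h⟩])).trans (measureReal_union_le _ _)
  have r4 : P.real E₀ ≤ P.real ((E₀ ∩ Pos) \ FewGood Good₁ (Box.mk p L) L)
      + (P.real {t | ¬ ∀ e, 0 < t e} + P.real (FewGood Good₁ (Box.mk p L) L)) :=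
    (weight_real_mono G (show E₀ ⊆ ((E₀ ∩ Pos) \ FewGood Good₁ (Box.mk p L) L) ∪
        ({t | ¬ ∀ e, 0 < t e} ∪ FewGood Good₁ (Box.mk p L) L) from fun t ht => by
      by_cases h : t ∈ FewGood Good₁ (Box.mk p L) L
      · exact Or.inr (Or.inr h)
      by_cases h' : ∀ e, 0 < t e
      exacts [Or.inl ⟨⟨ht, h'⟩, h⟩, Or.inr (Or.inl h')])).trans
      ((measureReal_union_le _ _).trans (add_le_add le_rfl (measureReal_union_le _ _)))
  rw [real_not_pos hG] at r4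
  have hsmall : C₁.toReal * (Np * (ε₀ / (3 * ((C₁.toReal + 1) * (Np + 1))))) ≤ ε₀ / 3 := by
    have hc := ENNReal.toReal_nonneg (a := C₁)
    calc C₁.toReal * (Np * (ε₀ / (3 * ((C₁.toReal + 1) * (Np + 1)))))
        = C₁.toReal * Np / ((C₁.toReal + 1) * (Np + 1)) * (ε₀ / 3) := by field_simp
      _ ≤ 1 * (ε₀ / 3) := by
          refine mul_le_mul_of_nonneg_right ((div_le_one (by positivity)).2 ?_) (by positivity)
          nlinarith [(Nat.cast_nonneg Np : (0 : ℝ) ≤ Np)]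
      _ = ε₀ / 3 := one_mul _
  calc P.real E₀ ≤ C₁.toReal * P.real E₁ + ε₀ / 3 := by linarith [hfew p]
    _ ≤ C₁.toReal * (C₂.toReal * P.real E₂ + Np * (ε₀ / (3 * ((C₁.toReal + 1) * (Np + 1)))))
        + ε₀ / 3 := by
        gcongr
        linarith
    _ ≤ ε₀ + C₁.toReal * C₂.toReal * P.real E₂ := by
        rw [mul_add, ← mul_assoc]
        linarith

end Vale.Agent.P158.NB
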