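import Vale.Agent.P158.NB.MainAux

/-!
One scale of section 9 of `PROOF.md`: on average over a tile few edges carry segments without a
far mate, so some offset of the tiles is good for most edges of a region; and many good scales at
an edge make it rich.
-/

open MeasureTheory Finset
open scoped ENNReal

namespace Vale.Agent.P158.NB

namespace Frame

variable (F : Frame) {t : Env}

/-- The edge `x, x + e` carries a good segment of the tile `T` without a mate far on `S`. -/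
def BadAt (T R S : Box) (δ ηi Cr Cl Cb : ℝ) (x e : V) (t : Env) : Prop :=
  ∃ v : SegPiece, s(v.p, v.q) = s(x, x + e) ∧ F.Good T R t δ ηi Cr v ∧ F.Low v.i v.j ∧
    ∀ w : SegPiece, F.Good T R t δ ηi Cr w → F.Low w.i w.j → F.PNear T t Cl v w →
      F.PNear S t Cb v w

lemma measurable_badAt {T' : Env → Set ℕ} (hT : ∀ k, Measurable fun t => k ∈ T' t) (T R S : Box)
    (δ ηi Cr Cl Cb : ℝ) (x e : V) :
    Measurable fun t => (F.withT (T' t)).BadAt T R S δ ηi Cr Cl Cb x e t := by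
  simp only [BadAt, Low, PNear, withT_inBin, withT_B]
  exact Measurable.exists fun v => measurable_const.and ((F.measurable_good T R hT δ ηi Cr v).and
    (measurable_const.and (Measurable.forall fun w => (F.measurable_good T R hT δ ηi Cr w).imp
      (measurable_const.imp ((F.measurable_pnear T Cl v w).imp (F.measurable_pnear S Cb v w))))))

variable {F}

/-- Good scales at an edge with a segment make the edge rich. -/
theorem rich_of_scales {W : Box} {x e : V} {i₀ j₀ : ℕ} {δ ηi Cl Cb : ℝ} {Cr : ℕ → ℝ} {L k N : ℕ}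
    (tile reach sub win : ℕ → Box) (hv : F.Valid) (hn : 0 < F.n) (ht : ∀ e, 0 ≤ t e)
    (hshort : F.Short W t) (hxW : W.Mem x) (heW : W.Mem (x + e))
    (hs : F.Seg t i₀ j₀ x (x + e) δ) (hiso : Iso ηi x t ∧ Iso ηi (x + e) t)
    (I : Finset ℕ) (hI : I ⊆ range k) (hN : N ≤ I.card)
    (htile : ∀ i < k, ∀ p, p = x ∨ p = x + e → ∀ z, (Box.mk p (L + 1)).Mem z → (tile i).Mem z)
    (hwin : ∀ i < k, ∀ z, (sub i).Mem z → (win i).Mem z)
    (hgood : ∀ i ∈ I, (reach i).dist t (reach i).c x ≤ Cr i ∧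
      (reach i).dist t (reach i).c (x + e) ≤ Cr i ∧
      ¬ F.BadAt (tile i) (reach i) (sub i) δ ηi (Cr i) Cl Cb x e t) :
    F.Rich tile reach win k N δ ηi Cl Cb Cr L x (x + e) t ∨
      F.Rich tile reach win k N δ ηi Cl Cb Cr L (x + e) x t := by
  classical
  have key : ∀ u : SegPiece, s(u.p, u.q) = s(x, x + e) → F.Seg t u.i u.j u.p u.q δ →
      F.Low u.i u.j → F.Rich tile reach win k N δ ηi Cl Cb Cr L u.p u.q t := by
    intro u he hu hlow
    have hend : (u.p = x ∧ u.q = x + e) ∨ (u.p = x + e ∧ u.q = x) := Sym2.eq_iff.1 he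
    have hm : ∀ i ∈ I, ∃ v : SegPiece, F.Good (tile i) (reach i) t δ ηi (Cr i) v ∧
        F.PNear (tile i) t Cl u v ∧ F.Low v.i v.j ∧ ¬ F.PNear (win i) t Cb u v := by
      intro i hi
      have hik := mem_range.1 (hI hi)
      obtain ⟨h1, h2, h3⟩ := hgood i hi
      have hg : F.Good (tile i) (reach i) t δ ηi (Cr i) u := by
        refine ⟨hu, ?_, ?_, ?_, ?_⟩
        · exact htile i hik u.p (hend.imp (·.1) (·.1)) _ (by simp [Box.Mem]; omega)
        · exact htile i hik u.q ((hend.imp (·.2) (·.2)).symm) _ (by simp [Box.Mem]; omega)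
        · rcases hend with ⟨a, -⟩ | ⟨a, -⟩ <;> rw [a]
          exacts [⟨hiso.1, h1⟩, ⟨hiso.2, h2⟩]
        · rcases hend with ⟨-, a⟩ | ⟨-, a⟩ <;> rw [a]
          exacts [⟨hiso.2, h2⟩, ⟨hiso.1, h1⟩]
      by_contra hno
      push Not at hno
      exact h3 ⟨u, he, hg, hlow, fun w hw hwl hwn => Box.Near.mono (hno w hw hwn hwl)
        (hwin i hik) le_rfl⟩
    have : Nonempty SegPiece := ⟨u⟩
    choose! mate hmate using hm
    refine ⟨u, rfl, rfl, hu, hlow, I, mate, hI, hN, fun i hi => ?_⟩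
    obtain ⟨a, b, c, d⟩ := hmate i hi
    have hik := mem_range.1 (hI hi)
    refine ⟨⟨htile i hik u.q ((hend.imp (·.2) (·.2)).symm) _ (by simp [Box.Mem]; omega),
      fun z hz => htile i hik u.p (hend.imp (·.1) (·.1)) z ?_⟩, a, b, c, d⟩
    simp only [Box.mem_iff, Nat.cast_add, Nat.cast_one] at hz ⊢
    omega
  rcases exists_low hv hn ht hshort hs hxW heW with h | h
  · exact Or.inl (key ⟨i₀, j₀, x, x + e⟩ rfl hs h)
  · exact Or.inr (key ⟨j₀, i₀, x + e, x⟩ Sym2.eq_swap hs.symm h)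

end Frame

variable {G : Measure ℝ} [IsProbabilityMeasure G]

/-- The exceptional configurations of one tile. -/
def Nets.TileBad (N : Nets G) (B : Box) (n : ℕ) (Wf S : Box) (z : V) (r : ℕ)
    (δ ε η X Cb : ℝ) : Set Env :=
  {t | ¬ ((∀ e, 0 < t e) ∧ (N.fr B n t).Valid ∧ ¬ (N.fr B n t).GridBad Wf t ∧
    ¬ (N.fr B n t).ContBad Wf δ η t ∧ N.tileW z r t ≤ X ∧ S.ExitOk N.Adm t ∧
    ¬ (N.fr S 1 t).UBad (Box.mk z r) δ ε Cb t)}

/-- On average few edges of a tile carry a good segment without a far mate. -/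
theorem Nets.sum_badAt (N : Nets G) {B : Box} {n : ℕ} {Wf S : Box} {z e : V} {r : ℕ}
    {δ ηi ε C η Cr X Cb : ℝ} (he : e ≠ 0) (hδ : 0 < δ) (hε : 0 ≤ ε) (hεδ : 2 * ε < δ)
    (hεη : 3 * ε < ηi) (hC : 0 < C) (hCr : 0 ≤ Cr) (hX : 0 ≤ X)
    (hWB : ∀ w, Wf.Mem w → B.Mem w) (hTW : ∀ w, (Box.mk z (2 * r)).Mem w → Wf.Mem w)
    (hS2 : ∀ w, (Box.mk S.c (2 * S.M)).Mem w → B.Mem w) (hM : 0 < S.M)
    (hTS : ∀ w, (Box.mk z r).Mem w → (Box.mk S.c (S.M / 2)).Mem w)
    (h2S : ∀ w, (Box.mk z (2 * r)).Mem w → S.Mem w) :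
    ∑ x ∈ (Box.mk z r).verts, (weightMeasure G).real
        {t | (N.fr B n t).BadAt (Box.mk z r) (Box.mk z (2 * r)) S δ ηi Cr (C + 2 * η) Cb x e t} ≤
      (Box.mk z r).verts.card *
          (weightMeasure G).real (N.TileBad B n Wf S z r δ ε η X (Cb + 6 * Cr)) +
        (12 * X / C + 1) * (4 * (2 * Cr / (ηi - 3 * ε) + 1)) := by
  classical
  have hgap : 0 < ηi - 3 * ε := by linarith
  refine sum_real_le_of_count _ (fun x _ => measurableSet_setOfPred.2
    ((Nets.baseFr B n).measurable_badAt (N.adm_measurable B) _ _ _ δ ηi Cr _ Cb x e))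
    (by positivity) fun t ht s' _ hs' => ?_
  obtain ⟨hpos, hv, hg, hc, hXt, hex, hU⟩ : _ ∧ _ ∧ _ ∧ _ ∧ _ ∧ _ ∧ _ := not_not.1 ht
  set F := N.fr B n t
  set T : Box := Box.mk z r
  set R : Box := Box.mk z (2 * r)
  have ht0 : ∀ e, 0 ≤ t e := fun e => (hpos e).le
  have hTR : ∀ w, T.Mem w → R.Mem w := fun w hw => by
    simp only [T, R, Box.mem_iff, Nat.cast_mul, Nat.cast_ofNat] at hw ⊢
    omega
  have hSB : ∀ w, S.Mem w → F.B.Mem w := fun w hw => hS2 w (by
    simp only [Box.mem_iff, Nat.cast_mul, Nat.cast_ofNat] at hw ⊢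
    omega)
  set U := (F.pieces T).filter fun u => F.Good T R t δ ηi Cr u ∧ F.Low u.i u.j
  obtain ⟨lab, hb, hl⟩ := Frame.exists_piece_labels (F := F) N hXt hv hpos hδ hWB
    (fun w hw => hTW w (hTR w hw)) (fun w hw => hWB w (hTW w hw)) hC hg hc
  have hcount := F.card_not_farMated (F' := N.fr S 1 t) (S := S) (W := S) (Cl := C + 2 * η)
    (Cb := Cb) (Λ := 12 * X / C) U hpos hδ.le hε hεδ hεη hCr rfl hSB (fun w hw => hw)
    (fun w hw => by
      have := hTS w hw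
      simp only [Box.mem_iff, Box.inner_iff] at this ⊢
      omega)
    hTR h2S (by simp [R, Box.Mem])
    (fun u hu => (mem_filter.1 hu).2.1)
    (fun u hu k l hkl => by
      obtain ⟨⟨hs, hp, -⟩, -⟩ := (mem_filter.1 hu).2
      exact Box.exits_adm hex ht0 hS2 hs.1 (hTS _ hp) hkl)
    hU lab
    (fun u hu => by
      obtain ⟨⟨hs, hp, hq, -⟩, hlow⟩ := (mem_filter.1 hu).2
      exact hb u hp hq hs hlow)
    (fun u hu v hv' he => by
      obtain ⟨⟨a, b, c, -⟩, d⟩ := (mem_filter.1 hu).2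
      obtain ⟨⟨a', b', c', -⟩, d'⟩ := (mem_filter.1 hv').2
      exact hl u v b c a d b' c' a' d' he)
    (by positivity)
  refine le_trans ?_ hcount
  refine Nat.cast_le.2 (card_le_card_of_injOn (fun x => s(x, x + e)) (fun x hx => ?_) ?_)
  · obtain ⟨v, hve, hgood, hlow, hno⟩ := hs' x hx
    refine mem_image.2 ⟨v, mem_filter.2 ⟨mem_filter.2
      ⟨Frame.mem_pieces hgood.1 hgood.2.1 hgood.2.2.1, hgood, hlow⟩, ?_⟩, hve⟩
    rintro ⟨w, hw, hn, hf⟩
    exact hf (hno w (mem_filter.1 hw).2.1 (mem_filter.1 hw).2.2 hn)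
  · intro x _ y _ h
    rcases Sym2.eq_iff.1 h with ⟨h1, -⟩ | ⟨h1, h2⟩
    · exact h1
    · exfalso
      apply he
      simp only [Prod.ext_iff, Prod.fst_add, Prod.snd_add, Prod.fst_zero, Prod.snd_zero] at h1 h2 ⊢
      omega

/-- Averaging over the offsets of the tiles. -/
theorem exists_tile_offset {r R : ℕ} (hr : 0 < r) (hrR : r ≤ R) (x₀ : V) (f : V → V → ℝ)
    (hf : ∀ x z, 0 ≤ f x z) {b : ℝ}
    (h : ∀ z, (Box.mk x₀ (2 * R)).Mem z → ∑ x ∈ (Box.mk z r).verts, f x z ≤ b) :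
    ∃ v, (Box.mk 0 (r / 2)).Mem v ∧
      ∑ x ∈ (Box.mk x₀ R).verts, f x (x - v) ≤ 4 * (Box.mk x₀ R).verts.card * b / (r : ℝ) ^ 2 := by
  classical
  set D := (Box.mk x₀ R).verts
  set Vs := (Box.mk 0 (r / 2)).verts
  set D' := (Box.mk x₀ (2 * R)).verts
  have hb : 0 ≤ b := (sum_nonneg fun x _ => hf x x₀).trans
    (h x₀ (by simp [Box.Mem]))
  have h1 : ∑ v ∈ Vs, ∑ x ∈ D, f x (x - v) ≤ ∑ z ∈ D', ∑ x ∈ (Box.mk z r).verts, f x z := by
    rw [← sum_product' (f := fun v x => f x (x - v)), ← sum_sigma D' (fun z => (Box.mk z r).verts)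
      (fun p => f p.2 p.1)]
    set g : V × V → (_ : V) × V := fun p => ⟨p.2 - p.1, p.2⟩ with hg
    have hinj : Set.InjOn g ↑(Vs ×ˢ D) := by
      intro p _ q _ hpq
      simp only [hg, Sigma.mk.injEq, heq_eq_eq] at hpq
      have := hpq.1
      rw [hpq.2, sub_right_inj] at this
      exact Prod.ext this hpq.2
    rw [show ∑ p ∈ Vs ×ˢ D, f p.2 (p.2 - p.1) = ∑ q ∈ (Vs ×ˢ D).image g, f q.2 q.1 from
      (sum_image (f := fun q : (_ : V) × V => f q.2 q.1) hinj).symm]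
    refine sum_le_sum_of_subset_of_nonneg (fun q hq => ?_) fun p _ _ => hf _ _
    obtain ⟨p, hp, rfl⟩ := mem_image.1 hq
    simp only [mem_product, Vs, D, Box.mem_verts] at hp
    simp only [hg, mem_sigma, D', Box.mem_verts]
    obtain ⟨hv, hx⟩ := hp
    simp only [Box.mem_iff, Nat.cast_mul, Nat.cast_ofNat, Prod.fst_sub, Prod.snd_sub,
      Prod.fst_zero, Prod.snd_zero] at hv hx ⊢
    omega
  have h2 : ∑ v ∈ Vs, ∑ x ∈ D, f x (x - v) ≤ D'.card * b := by
    refine h1.trans ((sum_le_card_nsmul _ _ b fun z hz => h z (Box.mem_verts.1 hz)).trans_eq ?_)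
    rw [nsmul_eq_mul]
  obtain ⟨v, hv, hle⟩ := exists_le_of_sum_le (s := Vs) (f := fun v => ∑ x ∈ D, f x (x - v))
    (g := fun _ => 4 * D.card * b / (r : ℝ) ^ 2)
    ⟨0, Box.mem_verts.2 (by simp only [Box.mem_iff, Prod.fst_zero, Prod.snd_zero]; omega)⟩ (by
      refine h2.trans ?_
      rw [sum_const, nsmul_eq_mul, ← mul_div_assoc, le_div_iff₀ (by positivity)]
      have hV : (r : ℝ) ^ 2 ≤ Vs.card := by
        simp only [Vs, Box.card_verts]
        exact_mod_cast Nat.pow_le_pow_left (show r ≤ 2 * (r / 2) + 1 by omega) 2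
      have hD : (D'.card : ℝ) ≤ 4 * D.card := by
        simp only [D', D, Box.card_verts]
        have := Nat.pow_le_pow_left (show 2 * (2 * R) + 1 ≤ 2 * (2 * R + 1) by omega) 2
        rw [mul_pow] at this
        exact_mod_cast this
      calc (D'.card : ℝ) * b * (r : ℝ) ^ 2 ≤ 4 * D.card * b * Vs.card :=
            mul_le_mul (mul_le_mul_of_nonneg_right hD hb) hV (by positivity) (by positivity)
        _ = Vs.card * (4 * D.card * b) := by ring)
  exact ⟨v, Box.mem_verts.1 hv, hle⟩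

end Vale.Agent.P158.NB
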