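import Vale.Agent.P158.NB.NetTools

/-!
# Admissible positions and bins for an arbitrary law (section 10 of `PROOF.md`)
-/

open MeasureTheory Finset
open scoped ENNReal

namespace Vale.Agent.P158.NB

lemma gridPos_mono (B : Box) (n : ℕ) {l l' : ℕ} (h : l ≤ l') :
    B.gridPos n l ≤ B.gridPos n l' := Nat.div_le_div_right (Nat.mul_le_mul_right _ h)

lemma gridPos_le_len (B : Box) {n l : ℕ} (hl : l ≤ n) : B.gridPos n l ≤ B.len := by
  rcases Nat.eq_zero_or_pos n with rfl | hn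
  · simp [Box.gridPos]
  · exact Nat.div_le_of_le_mul (Nat.mul_le_mul_right _ hl)

lemma gridPos_gap (B : Box) (n l : ℕ) :
    B.gridPos n (l + 1) + 1 - B.gridPos n l ≤ B.len / n + 2 := by
  rcases Nat.eq_zero_or_pos n with rfl | hn
  · simp [Box.gridPos]
  · have : (l + 1) * B.len / n ≤ l * B.len / n + B.len / n + 1 := by
      rw [add_mul, one_mul, Nat.add_div hn]
      split_ifs <;> omega
    simp only [Box.gridPos]
    generalize B.len / n = c at this ⊢
    generalize (l + 1) * B.len / n = d at this ⊢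
    generalize l * B.len / n = b at this ⊢
    omega

section

variable {c₀ : ℝ}

/-- The boundary as a walk. -/
lemma isWalk_arc (B : Box) {k k' : ℕ} (hkk : k ≤ k') (hk' : k' ≤ B.len) :
    B.IsWalk (fun i => B.pos (k + i)) (k' - k) (B.pos k) (B.pos k') :=
  ⟨⟨rfl, by simp [Nat.add_sub_cancel' hkk], fun i hi => B.nbr_pos (by omega)⟩,
    fun i hi => B.pos_mem (by omega)⟩

theorem net_dist_le (hc : 0 ≤ c₀) (B : Box) (t : Env) (ht : ∀ e, 0 ≤ t e) (n l k k' : ℕ)
    (hl : l < n) (hk : B.gridPos n l ≤ k) (hk2 : k ≤ B.gridPos n (l + 1))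
    (hk' : B.gridPos n l ≤ k') (hk2' : k' ≤ B.gridPos n (l + 1))
    (ha : netAdm c₀ B t k) (ha' : netAdm c₀ B t k') :
    B.dist t (B.pos k) (B.pos k') ≤ netBinW c₀ B t n l := by
  wlog hkk : k ≤ k' generalizing k k'
  · rw [B.dist_comm]
    exact this k' k hk' hk2' hk hk2 ha' ha (le_of_not_ge hkk)
  have hlen : B.gridPos n (l + 1) ≤ B.len := gridPos_le_len B hl
  have hw := isWalk_arc B hkk (hk2'.trans hlen)
  unfold netBinW
  split_ifs with hR
  · set β := B.outBad c₀ t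
    obtain ⟨u, hu, hud⟩ := ha hR
    obtain ⟨u', hu', hud'⟩ := ha' hR
    have hsum := Box.dist_reps_walk hR.small hR.big ht hc hw
      (fun i hi w hw v hn => Box.cheap_reps_bdry hR (B.pos_bdry (by omega)) hw hn) hu hu'
    have hB : ∀ {z w : V}, w ∈ B.reps β z → B.Mem w := fun hw => (Box.reps_subset hw).1.1
    have := Box.dist_triangle (B := B) ht (B.pos_mem (hk2.trans hlen)) (hB hu)
      (B.pos_mem (hk2'.trans hlen))
    have := Box.dist_triangle (B := B) ht (hB hu) (hB hu') (B.pos_mem (hk2'.trans hlen))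
    rw [B.dist_comm t u' (B.pos k')] at this
    have hle : ∑ i ∈ range (k' - k + 1),
        (2 * c₀ * ((4 * B.rad β (B.pos (k + i)) + 3 : ℕ) : ℝ) ^ 2 + c₀) ≤
        ∑ j ∈ Finset.Icc (B.gridPos n l) (B.gridPos n (l + 1)), B.loc c₀ β (B.pos j) := by
      rw [show (∑ i ∈ range (k' - k + 1),
          (2 * c₀ * ((4 * B.rad β (B.pos (k + i)) + 3 : ℕ) : ℝ) ^ 2 + c₀)) =
          ∑ j ∈ Finset.Ico k (k' + 1), B.loc c₀ β (B.pos j) by
        rw [Finset.sum_Ico_eq_sum_range, show k' + 1 - k = k' - k + 1 by omega]; rfl]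
      refine sum_le_sum_of_subset_of_nonneg (fun j hj => ?_) fun j _ _ => Box.loc_nonneg hc _
      simp only [Finset.mem_Ico, Finset.mem_Icc] at hj ⊢
      omega
    linarith
  · refine (Box.dist_le ht hw).trans ?_
    rw [Box.arcSum, pathCost,
      show (∑ i ∈ range (k' - k), t s(B.pos (k + i), B.pos (k + (i + 1)))) =
        ∑ j ∈ Finset.Ico k k', t s(B.pos j, B.pos (j + 1)) by
      rw [Finset.sum_Ico_eq_sum_range]; rfl]
    refine sum_le_sum_of_subset_of_nonneg (fun j hj => ?_) fun j _ _ => ht _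
    simp only [Finset.mem_Ico] at hj ⊢
    omega

theorem net_adm_lower (B : Box) (t t' : Env) (h : B.InnerLowering t t') (k : ℕ)
    (ha : netAdm c₀ B t k) : netAdm c₀ B t' k := by
  unfold netAdm
  rw [Box.outBad_eq_of_lowering h]
  intro hR
  obtain ⟨u, hu, hud⟩ := ha hR
  by_cases hk : B.Mem (B.pos k)
  · exact ⟨u, hu, (Box.dist_mono (fun e => (h.1 e).1) (fun e => (h.1 e).2) hk
      (Box.reps_subset hu).1.1).trans hud⟩
  · refine ⟨u, hu, ?_⟩
    have : ∀ s : Env, B.dist s (B.pos k) u = 0 := fun s => by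
      have : B.costs s (B.pos k) u = ∅ := Set.eq_empty_of_forall_notMem
        fun r ⟨m, f, hf, _⟩ => hk hf.mem_left
      rw [Box.dist, this, Real.sInf_empty]
    rw [this]
    exact Real.sqrt_nonneg _

theorem net_binW_lower (B : Box) (t t' : Env) (h : B.InnerLowering t t') (n l : ℕ) :
    netBinW c₀ B t' n l = netBinW c₀ B t n l := by
  unfold netBinW
  rw [Box.outBad_eq_of_lowering h]
  split_ifs with hR
  · rfl
  · refine sum_congr rfl fun j hj => h.2 _ _ ?_
    rcases Nat.eq_zero_or_pos B.M with hM | hM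
    · simp [Box.gridPos, Box.len, hM] at hj
    · rcases Nat.lt_or_ge l n with hl | hl
      · refine Box.not_threeQ_of_bdry (B.pos_bdry ?_) hM
        have := gridPos_le_len B (show l + 1 ≤ n from hl)
        simp only [Finset.mem_Ico] at hj
        omega
      · unfold Box.pos
        simp only [Box.mem_iff]
        split_ifs <;> dsimp only <;> omega

lemma measurableSet_outBad_pred (B : Box) (c₀ : ℝ) (P : Set V → Prop) :
    MeasurableSet {t : Env | P (B.outBad c₀ t)} := by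
  refine Box.measurableSet_bad_pred (fun t z hz => hz.1) (fun z => ?_) P
  by_cases h : B.Mem z ∧ ¬ B.threeQ.Mem z
  · convert Box.measurableSet_badV c₀ z using 1
    ext t
    simp [Box.outBad, h.1, h.2]
  · have : {t : Env | z ∈ B.outBad c₀ t} = ∅ := Set.eq_empty_of_forall_notMem
      fun t ht => h ⟨ht.1, ht.2.1⟩
    rw [this]
    exact MeasurableSet.empty

theorem net_adm_meas (B : Box) (k : ℕ) : MeasurableSet {t | netAdm c₀ B t k} := by
  have : {t | netAdm c₀ B t k} = {t | ¬ B.Ready (B.outBad c₀ t)} ∪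
      ⋃ u : V, {t : Env | u ∈ B.reps (B.outBad c₀ t) (B.pos k)} ∩
        {t : Env | B.dist t (B.pos k) u ≤ Real.sqrt B.M} := by
    ext t
    simp only [netAdm, Set.mem_ofPred_eq, Set.mem_union, Set.mem_iUnion, Set.mem_inter_iff,
      imp_iff_not_or]
  rw [this]
  exact (measurableSet_outBad_pred B c₀ fun s => ¬ B.Ready s).union (MeasurableSet.iUnion fun u =>
    (measurableSet_outBad_pred B c₀ fun s => u ∈ B.reps s (B.pos k)).inter
      (measurableSet_le (Box.measurable_dist B _ _) measurable_const))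

theorem net_adm_shift (B : Box) (v : V) (t : Env) (k : ℕ) :
    netAdm c₀ (B.shift v) t k ↔ netAdm c₀ B (P158.shift v t) k := by
  set β := B.outBad c₀ (P158.shift v t)
  have hmem : ∀ z, (B.shift v).Mem z ↔ B.Mem (z - v) := fun z => by
    conv_lhs => rw [← sub_add_cancel z v]
    exact Box.shift_mem v
  have hout : (B.shift v).outBad c₀ t = moved v β := by
    ext z
    have h3 : (B.shift v).threeQ.Mem z ↔ B.threeQ.Mem (z - v) := by
      conv_lhs => rw [← sub_add_cancel z v]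
      exact Box.shift_mem (B := B.threeQ) v
    simp only [Box.outBad, β, moved, Set.mem_ofPred_eq, hmem z, h3, badV, P158.shift_apply,
      sub_add_cancel]
    refine and_congr_right fun _ => and_congr_right fun _ =>
      ⟨fun ⟨w, hn, hw⟩ => ⟨w - v, (nbr_add' v _ _).1 (by simpa using hn), by simpa using hw⟩,
        fun ⟨w, hn, hw⟩ => ⟨w + v, by simpa using (nbr_add' v _ _).2 hn, hw⟩⟩
  have hgood : (B.shift v).goodSet (moved v β) = moved v (B.goodSet β) := by
    ext z; simp [Box.goodSet, moved, hmem z]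
  have hlink : ∀ S a b, Link Nbr (moved v S) a b ↔ Link Nbr S (a - v) (b - v) := fun S a b => by
    simpa using link_moved nbr_add' v S (a - v) (b - v)
  have hgiant : (B.shift v).giant (moved v β) = moved v (B.giant β) := by
    ext z
    constructor
    · rintro ⟨hz, a, b, ha, hb, hab⟩
      rw [hgood] at hz ha hb
      refine ⟨hz, a - v, b - v, (hlink _ _ _).1 ha, (hlink _ _ _).1 hb, ?_⟩
      rw [← cheb_add v, sub_add_cancel, sub_add_cancel]
      exact hab
    · rintro ⟨hz, a, b, ha, hb, hab⟩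
      refine ⟨?_, a + v, b + v, ?_, ?_, by rw [cheb_add]; exact hab⟩ <;> rw [hgood]
      · exact hz
      · exact (hlink _ _ _).2 (by rwa [add_sub_cancel_right])
      · exact (hlink _ _ _).2 (by rwa [add_sub_cancel_right])
  have hholes : (B.shift v).holes (moved v β) = moved v (B.holes β) := by
    ext z
    show (B.shift v).Mem z ∧ z ∉ (B.shift v).giant (moved v β) ↔ _
    rw [hgiant, hmem z]
    rfl
  have hreps : ∀ z w : V, w + v ∈ (B.shift v).reps (moved v β) (z + v) ↔ w ∈ B.reps β z := by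
    intro z w
    simp only [Box.reps, hgiant, hholes, Set.mem_ofPred_eq]
    refine or_congr (by simp [moved]) (and_congr (by simp [moved]) (and_congr (by simp [moved])
      ⟨fun ⟨d, hd, hn⟩ => ⟨d - v, by simpa using (hlink _ _ _).1 hd,
        (nbr_add' v _ _).1 (by simpa using hn)⟩,
      fun ⟨d, hd, hn⟩ => ⟨d + v, (hlink _ _ _).2 (by simpa using hd), (nbr_add' v _ _).2 hn⟩⟩))
  have hking : ∀ a b, Link King {z | (B.shift v).Mem z ∧ z ∈ moved v β} a b ↔
      Link King {z | B.Mem z ∧ z ∈ β} (a - v) (b - v) := fun a b => by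
    have : {z | (B.shift v).Mem z ∧ z ∈ moved v β} = moved v {z | B.Mem z ∧ z ∈ β} := by
      ext z; simp [moved, hmem z]
    rw [this]
    simpa using link_moved king_add v {z | B.Mem z ∧ z ∈ β} (a - v) (b - v)
  have hready : (B.shift v).Ready (moved v β) ↔ B.Ready β := by
    simp only [Box.Ready, Box.SmallBad, show (B.shift v).M = B.M from rfl]
    refine and_congr_left' ⟨fun h a b ha hm hl => ?_, fun h a b ha hm hl => ?_⟩
    · rw [← cheb_add v]
      exact h (a + v) (b + v) (by simpa [moved] using ha) ((Box.shift_mem v).2 hm)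
        ((hking _ _).2 (by simpa using hl))
    · have := h (a - v) (b - v) ha ((hmem a).1 hm) ((hking _ _).1 hl)
      rw [← cheb_add v] at this
      simpa using this
  simp only [netAdm, hout, hready, show (B.shift v).M = B.M from rfl, Box.shift_pos]
  refine imp_congr_right fun _ => ⟨fun ⟨u, hu, hd⟩ => ⟨u - v, ?_, ?_⟩,
    fun ⟨u, hu, hd⟩ => ⟨u + v, (hreps _ _).2 hu, by rw [Box.dist_shift]; exact hd⟩⟩
  · exact (hreps (B.pos k) (u - v)).1 (by simpa using hu)
  · rw [← Box.dist_shift]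
    simpa using hd

end

variable {G : Measure ℝ} [IsProbabilityMeasure G] {c₀ : ℝ}

theorem net_adm_prob (h0 : G (Set.Iio 0) = 0) (hq : G (Set.Ioi c₀) ≤ (72⁻¹ : ℝ≥0∞) ^ 2) :
    ∀ ε > (0 : ℝ), ∃ M₀ : ℕ, ∀ B : Box, M₀ ≤ B.M → ∀ k ≤ B.len,
      weightMeasure G {t | ¬ netAdm c₀ B t k} ≤ ENNReal.ofReal ε := by
  intro ε hε
  have he : (0 : ℝ≥0∞) < ENNReal.ofReal (ε / 3) := ENNReal.ofReal_pos.2 (by linarith)
  obtain ⟨d, hd⟩ := rad_tail hq he
  obtain ⟨M₁, hM₁⟩ := ready_prob hq he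
  obtain ⟨K, hK0, hK⟩ := walk_cost_tight G (2 * d + 1) he
  obtain ⟨N, hN⟩ := exists_nat_ge (K ^ 2)
  refine ⟨M₁ + 2 * d + 1 + N, fun B hB k hk => ?_⟩
  obtain ⟨f, x, hf, hx⟩ := Box.exists_segment (B.pos_mem hk) (show 2 * d + 1 ≤ B.M by omega)
  set S₁ : Set Env := {t | ¬ B.Ready (B.outBad c₀ t)}
  set S₂ : Set Env := {t | d ≤ B.rad (B.outBad c₀ t) (B.pos k)}
  set S₃ : Set Env := {t | K < pathCost t f (2 * d + 1)}
  have hnn : weightMeasure G {t | ¬ ∀ e, 0 ≤ t e} = 0 := ae_iff.1 (ae_nonneg h0)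
  refine le_trans (measure_mono (t := ((S₁ ∪ S₂) ∪ S₃) ∪ {t | ¬ ∀ e, 0 ≤ t e})
    fun t (ht : ¬ netAdm c₀ B t k) => ?_) ?_
  · by_contra hcon
    simp only [Set.mem_union, S₁, S₂, S₃, Set.mem_ofPred_eq, not_or, not_not, not_le, not_lt] at hcon
    obtain ⟨⟨⟨h1, h2⟩, h3⟩, h4⟩ := hcon
    refine ht fun hR => ?_
    obtain ⟨u, hu, hud⟩ := Box.exists_reps_near hR.small hR.big h4 hf (by omega)
    refine ⟨u, hu, hud.trans (h3.trans ?_)⟩
    rw [← Real.sqrt_sq hK0]
    exact Real.sqrt_le_sqrt (hN.trans (Nat.cast_le.2 (by omega)))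
  · refine (measure_union_le _ _).trans ?_
    rw [hnn, add_zero, show ε = ε / 3 + ε / 3 + ε / 3 by ring,
      ENNReal.ofReal_add (by linarith) (by linarith), ENNReal.ofReal_add (by linarith) (by linarith)]
    refine (measure_union_le _ _).trans (add_le_add ((measure_union_le _ _).trans
      (add_le_add ?_ ?_)) ?_)
    · exact hM₁ B (by omega) _ fun t => Box.outBad_subset _ _ _
    · exact hd B _ _ fun t => Box.outBad_subset _ _ _
    · exact hK f _ le_rfl

theorem net_bins_prob (hc : 0 ≤ c₀) (hq : G (Set.Ioi c₀) ≤ (72⁻¹ : ℝ≥0∞) ^ 2) :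
    ∀ δ > (0 : ℝ), ∀ ε > (0 : ℝ), ∃ n₀ : ℕ, ∀ n ≥ n₀, ∃ M₀ : ℕ, ∀ B : Box, M₀ ≤ B.M →
      weightMeasure G {t | δ * (B.M : ℝ) ^ 2 < ∑ l ∈ range n, netBinW c₀ B t n l ^ 2}
        ≤ ENNReal.ofReal ε := by
  intro δ hδ ε hε
  set μ := weightMeasure G
  set Q : ℝ≥0∞ := (3 ^ 4 : ℕ) + ∑' ℓ, radSeries 4 ℓ with hQ
  have hQt : Q ≠ ∞ := ENNReal.add_ne_top.2 ⟨ENNReal.natCast_ne_top _, radSeries_ne_top 4⟩
  set a : ℝ := 20 * (c₀ + 1) ^ 2 with ha
  have hapos : 0 < a := by positivity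
  have hQ0 : 0 ≤ Q.toReal := ENNReal.toReal_nonneg
  obtain ⟨n₀, hn₀⟩ := exists_nat_ge ((200 * a * (Q.toReal + 1)) / (δ * (ε / 2)) + 1)
  refine ⟨n₀, fun n hn => ?_⟩
  have hnr : (200 * a * (Q.toReal + 1)) / (δ * (ε / 2)) + 1 ≤ (n : ℝ) :=
    hn₀.trans (Nat.cast_le.2 hn)
  have hfrac : 0 ≤ (200 * a * (Q.toReal + 1)) / (δ * (ε / 2)) := by positivity
  have hn1 : (1 : ℝ) ≤ n := by linarith
  have he : (0 : ℝ≥0∞) < ENNReal.ofReal (ε / 2) := ENNReal.ofReal_pos.2 (by linarith)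
  obtain ⟨M₁, hM₁⟩ := ready_prob hq he
  obtain ⟨M₂, hM₂⟩ := exists_nat_ge (16 * n / δ + n + 1)
  refine ⟨M₁ + M₂, fun B hB => ?_⟩
  have hM : 16 * (n : ℝ) / δ + n + 1 ≤ (B.M : ℝ) := hM₂.trans (Nat.cast_le.2 (by omega))
  have hq16 : 0 ≤ 16 * (n : ℝ) / δ := by positivity
  set S : Env → ℕ := fun t => ∑ l ∈ range n,
    ∑ j ∈ Finset.Icc (B.gridPos n l) (B.gridPos n (l + 1)),
      (4 * B.rad (B.outBad c₀ t) (B.pos j) + 3) ^ 4 with hS
  have hSm : Measurable fun t => (S t : ℝ≥0∞) := by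
    refine (Measurable.of_discrete (f := fun m : ℕ => (m : ℝ≥0∞))).comp
      (measurable_to_countable' fun m => ?_)
    exact measurableSet_outBad_pred B c₀ fun s => ∑ l ∈ range n,
      ∑ j ∈ Finset.Icc (B.gridPos n l) (B.gridPos n (l + 1)),
        (4 * B.rad s (B.pos j) + 3) ^ 4 = m
  set w : ℝ := (δ / 2) * B.M * n / (10 * a) with hw
  have hwpos : 0 < w := by
    have : (0 : ℝ) < B.M := by linarith
    positivity
  have hgap : ∀ l, ((Finset.Icc (B.gridPos n l) (B.gridPos n (l + 1))).card : ℝ) ≤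
      10 * (B.M : ℝ) / n := by
    intro l
    rw [Nat.card_Icc]
    refine (Nat.cast_le.2 (gridPos_gap B n l)).trans ?_
    rw [Nat.cast_add, le_div_iff₀ (by linarith)]
    have h1 : ((B.len / n : ℕ) : ℝ) * n ≤ 8 * (B.M : ℝ) := by
      rw [← Nat.cast_mul]
      refine (Nat.cast_le.2 (Nat.div_mul_le_self _ _)).trans ?_
      simp [Box.len]
    push_cast
    linarith
  have hdet : ∀ t, B.Ready (B.outBad c₀ t) →
      δ * (B.M : ℝ) ^ 2 < ∑ l ∈ range n, netBinW c₀ B t n l ^ 2 → w < (S t : ℝ) := by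
    intro t hR hlt
    by_contra hcon
    push Not at hcon
    have hbin : ∀ l ∈ range n, netBinW c₀ B t n l ^ 2 ≤ 8 * (B.M : ℝ) + a * (10 * (B.M : ℝ) / n) *
        ∑ j ∈ Finset.Icc (B.gridPos n l) (B.gridPos n (l + 1)),
          ((4 * B.rad (B.outBad c₀ t) (B.pos j) + 3 : ℕ) : ℝ) ^ 4 := by
      intro l _
      rw [netBinW, if_pos hR]
      set I := Finset.Icc (B.gridPos n l) (B.gridPos n (l + 1))
      have h1 : (2 * Real.sqrt B.M + ∑ j ∈ I, B.loc c₀ (B.outBad c₀ t) (B.pos j)) ^ 2 ≤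
          8 * (B.M : ℝ) + 2 * (∑ j ∈ I, B.loc c₀ (B.outBad c₀ t) (B.pos j)) ^ 2 := by
        nlinarith [Real.sq_sqrt (Nat.cast_nonneg (α := ℝ) B.M),
          sq_nonneg (2 * Real.sqrt B.M - ∑ j ∈ I, B.loc c₀ (B.outBad c₀ t) (B.pos j))]
      have h2 := sq_sum_le_card_mul_sum_sq (s := I)
        (f := fun j => B.loc c₀ (B.outBad c₀ t) (B.pos j))
      have h3 : ∀ j ∈ I, B.loc c₀ (B.outBad c₀ t) (B.pos j) ^ 2 ≤
          a / 2 * ((4 * B.rad (B.outBad c₀ t) (B.pos j) + 3 : ℕ) : ℝ) ^ 4 := by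
        intro j _
        set r := ((4 * B.rad (B.outBad c₀ t) (B.pos j) + 3 : ℕ) : ℝ)
        have hr : (1 : ℝ) ≤ r ^ 2 := one_le_pow₀ (Nat.one_le_cast.2 (by omega))
        have hl : B.loc c₀ (B.outBad c₀ t) (B.pos j) ≤ 3 * (c₀ + 1) * r ^ 2 := by
          unfold Box.loc
          nlinarith [mul_le_mul_of_nonneg_left hr hc]
        calc _ ≤ (3 * (c₀ + 1) * r ^ 2) ^ 2 := pow_le_pow_left₀ (Box.loc_nonneg hc _) hl 2
          _ = 9 * (c₀ + 1) ^ 2 * r ^ 4 := by ring
          _ ≤ a / 2 * r ^ 4 := mul_le_mul_of_nonneg_right (by rw [ha]; nlinarith) (by positivity)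
      have h4 := sum_le_sum h3
      rw [← mul_sum] at h4
      have h5 : 0 ≤ ∑ j ∈ I, ((4 * B.rad (B.outBad c₀ t) (B.pos j) + 3 : ℕ) : ℝ) ^ 4 := by
        positivity
      have h6 := mul_le_mul (hgap l) h4 (sum_nonneg fun j _ => sq_nonneg _) (by positivity)
      nlinarith
    have := (sum_le_sum hbin)
    rw [sum_add_distrib, sum_const, card_range, nsmul_eq_mul, ← mul_sum] at this
    have hS' : ∑ l ∈ range n, ∑ j ∈ Finset.Icc (B.gridPos n l) (B.gridPos n (l + 1)),
        ((4 * B.rad (B.outBad c₀ t) (B.pos j) + 3 : ℕ) : ℝ) ^ 4 = (S t : ℝ) := by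
      simp [hS]
    rw [hS'] at this
    have h7 : a * (10 * (B.M : ℝ) / n) * (S t : ℝ) ≤ δ / 2 * (B.M : ℝ) ^ 2 := by
      refine (mul_le_mul_of_nonneg_left hcon (by positivity)).trans_eq ?_
      rw [hw]
      field_simp
    have h8 : (n : ℝ) * (8 * B.M) ≤ δ / 2 * (B.M : ℝ) ^ 2 := by
      have h9 : 16 * (n : ℝ) ≤ (B.M : ℝ) * δ := by
        rw [← div_le_iff₀ hδ]; linarith
      have := mul_le_mul_of_nonneg_right h9 (Nat.cast_nonneg (α := ℝ) B.M)
      linarith
    linarith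
  have hint : ∫⁻ t, (S t : ℝ≥0∞) ∂μ ≤ ((10 * B.M : ℕ) : ℝ≥0∞) * Q := by
    calc ∫⁻ t, (S t : ℝ≥0∞) ∂μ = ∑ l ∈ range n,
          ∑ j ∈ Finset.Icc (B.gridPos n l) (B.gridPos n (l + 1)),
            ∫⁻ t, (((4 * B.rad (B.outBad c₀ t) (B.pos j) + 3) ^ 4 : ℕ) : ℝ≥0∞) ∂μ := by
          have hm : ∀ j, Measurable fun t =>
              (((4 * B.rad (B.outBad c₀ t) (B.pos j) + 3) ^ 4 : ℕ) : ℝ≥0∞) := fun j =>
            (Measurable.of_discrete (f := fun m : ℕ => (m : ℝ≥0∞))).comp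
              (measurable_to_countable' fun m => measurableSet_outBad_pred B c₀
                fun s => (4 * B.rad s (B.pos j) + 3) ^ 4 = m)
          simp only [hS, Nat.cast_sum]
          rw [lintegral_finsetSum _ fun l _ => Finset.measurable_sum _ fun j _ => hm j]
          exact sum_congr rfl fun l _ => lintegral_finsetSum _ fun j _ => hm j
      _ ≤ ∑ l ∈ range n, ∑ _j ∈ Finset.Icc (B.gridPos n l) (B.gridPos n (l + 1)), Q :=
          sum_le_sum fun l _ => sum_le_sum fun j _ =>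
            lintegral_rad_le hq 4 B _ _ fun t => Box.outBad_subset _ _ _
      _ ≤ ((10 * B.M : ℕ) : ℝ≥0∞) * Q := by
          simp only [sum_const, nsmul_eq_mul, ← Finset.sum_mul, ← Nat.cast_sum]
          refine mul_le_mul_left (Nat.cast_le.2 ?_) _
          refine (sum_le_sum fun l _ => (Nat.card_Icc _ _).trans_le (gridPos_gap B n l)).trans ?_
          rw [sum_const, card_range, smul_eq_mul, mul_add]
          have := Nat.mul_div_le B.len n
          have : n ≤ B.M := by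
            have : (n : ℝ) ≤ B.M := by linarith
            exact_mod_cast this
          simp only [Box.len] at *
          omega
  refine le_trans (measure_mono (t := {t | ¬ B.Ready (B.outBad c₀ t)} ∪
    {t | ENNReal.ofReal w ≤ (S t : ℝ≥0∞)}) fun t ht => ?_) ?_
  · by_cases hR : B.Ready (B.outBad c₀ t)
    · refine .inr (show ENNReal.ofReal w ≤ _ from ?_)
      rw [← ENNReal.ofReal_natCast]
      exact ENNReal.ofReal_le_ofReal (hdet t hR ht).le
    · exact .inl hR
  refine (measure_union_le _ _).trans ?_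
  rw [show ε = ε / 2 + ε / 2 by ring, ENNReal.ofReal_add (by linarith) (by linarith)]
  refine add_le_add (hM₁ B (by omega) _ fun t => Box.outBad_subset _ _ _) ?_
  refine (meas_ge_le_lintegral_div hSm.aemeasurable (ENNReal.ofReal_pos.2 hwpos).ne'
    ENNReal.ofReal_ne_top).trans ?_
  refine (ENNReal.div_le_div_right hint _).trans ?_
  refine ENNReal.div_le_of_le_mul ?_
  rw [← ENNReal.ofReal_toReal hQt, ← ENNReal.ofReal_natCast,
    ← ENNReal.ofReal_mul (Nat.cast_nonneg _), ← ENNReal.ofReal_mul (by linarith)]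
  refine ENNReal.ofReal_le_ofReal ?_
  push_cast
  rw [hw, ← mul_div_assoc, le_div_iff₀ (by positivity)]
  have h1 : 200 * a * (Q.toReal + 1) ≤ (n : ℝ) * (δ * (ε / 2)) := by
    have := (div_le_iff₀ (by positivity)).1
      (show (200 * a * (Q.toReal + 1)) / (δ * (ε / 2)) ≤ (n : ℝ) by linarith)
    linarith
  have hM0 : (0 : ℝ) ≤ B.M := Nat.cast_nonneg _
  nlinarith [mul_le_mul_of_nonneg_left h1 hM0, mul_nonneg hM0 hapos.le]

end Vale.Agent.P158.NB
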