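import Vale.Agent.P158.NB.Radius
import Vale.Agent.P158.NB.NetSpec

/-!
# Definitions of the nets for an arbitrary law (section 10 of `PROOF.md`)
-/

open MeasureTheory Finset
open scoped ENNReal

namespace Vale.Agent.P158.NB

/-- The cap on the size of bad clusters in a box of radius `M`. -/
def rhoOf (M : ℕ) : ℕ := Nat.sqrt (Nat.sqrt (Nat.sqrt M))

namespace Box

/-- The three-quarter box. -/
def threeQ (B : Box) : Box := ⟨B.c, 3 * B.M / 4⟩

/-- The bad vertices of the box which are outside the three-quarter box. -/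
def outBad (B : Box) (c₀ : ℝ) (t : Env) : Set V :=
  {z | B.Mem z ∧ ¬ B.threeQ.Mem z ∧ z ∈ badV c₀ t}

/-- The bad vertices of the box. -/
def allBad (B : Box) (c₀ : ℝ) (t : Env) : Set V := {z | B.Mem z ∧ z ∈ badV c₀ t}

/-- The local cost of a vertex. -/
noncomputable def loc (B : Box) (c₀ : ℝ) (β : Set V) (z : V) : ℝ :=
  2 * c₀ * ((4 * B.rad β z + 3 : ℕ) : ℝ) ^ 2 + c₀

/-- The bad clusters are small and the box is large. -/
def Ready (B : Box) (β : Set V) : Prop :=
  B.SmallBad β (rhoOf B.M) ∧ 16 * rhoOf B.M + 16 < B.M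

variable {B : Box} {β : Set V} {c₀ : ℝ} {t : Env}

lemma Ready.small (h : B.Ready β) : B.SmallBad β (rhoOf B.M) := h.1

lemma Ready.big (h : B.Ready β) : 4 * rhoOf B.M + 4 < B.M := by
  have := h.2
  omega

lemma outBad_subset (B : Box) (c₀ : ℝ) (t : Env) : B.outBad c₀ t ⊆ badV c₀ t := fun _ h => h.2.2

lemma allBad_subset (B : Box) (c₀ : ℝ) (t : Env) : B.allBad c₀ t ⊆ badV c₀ t := fun _ h => h.2

lemma loc_nonneg (hc : 0 ≤ c₀) (z : V) : 0 ≤ B.loc c₀ β z := by unfold loc; positivity

lemma not_threeQ_of_bdry {z : V} (hz : B.Bdry z) (hM : 0 < B.M) : ¬ B.threeQ.Mem z := by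
  obtain ⟨h1, h2⟩ := hz
  rw [mem_iff] at h1 ⊢
  rw [inner_iff] at h2
  simp only [threeQ]
  omega

/-- A good vertex outside the three-quarter box has cheap edges. -/
lemma cheap_out {w v : V} (hw : w ∈ B.goodSet (B.outBad c₀ t)) (h : ¬ B.threeQ.Mem w)
    (hn : Nbr w v) : t s(w, v) ≤ c₀ := by
  by_contra hlt
  exact hw.2 ⟨hw.1, h, v, hn, not_le.1 hlt⟩

/-- A good vertex has cheap edges. -/
lemma cheap_all {w v : V} (hw : w ∈ B.goodSet (B.allBad c₀ t)) (hn : Nbr w v) :
    t s(w, v) ≤ c₀ := by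
  by_contra hlt
  exact hw.2 ⟨hw.1, v, hn, not_le.1 hlt⟩

/-- Representatives of boundary vertices have cheap edges. -/
lemma cheap_reps_bdry (h : B.Ready (B.outBad c₀ t)) {z w v : V} (hz : B.Bdry z)
    (hw : w ∈ B.reps (B.outBad c₀ t) z) (hn : Nbr w v) : t s(w, v) ≤ c₀ := by
  refine cheap_out (reps_subset hw).1 (fun hq => ?_) hn
  have h1 := cheb_reps_le h.small h.big hz.1 hw
  have h2 := rad_le h.small (β := B.outBad c₀ t) z
  have h3 := h.2
  obtain ⟨hz1, hz2⟩ := hz
  rw [mem_iff] at hz1 hq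
  rw [inner_iff] at hz2
  simp only [threeQ] at hq
  simp only [cheb] at h1
  omega

lemma outBad_eq_of_lowering {t' : Env} (h : B.InnerLowering t t') :
    B.outBad c₀ t' = B.outBad c₀ t := by
  ext z
  simp only [outBad, badV, Set.mem_ofPred_eq]
  refine and_congr_right fun _ => and_congr_right fun hq => exists_congr fun v => ?_
  rw [h.2 z v hq]

/-- Predicates of the set of bad vertices in a box are measurable. -/
lemma measurableSet_bad_pred {F : Env → Set V} (hF : ∀ t, ∀ z ∈ F t, B.Mem z)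
    (hm : ∀ z, MeasurableSet {t | z ∈ F t}) (P : Set V → Prop) :
    MeasurableSet {t | P (F t)} := by
  classical
  have key : {t | P (F t)} = ⋃ s ∈ (B.memFinset.powerset.filter fun s : Finset V => P s),
      ⋂ z ∈ B.memFinset, {t | z ∈ F t ↔ z ∈ s} := by
    ext t
    simp only [Set.mem_ofPred_eq, Set.mem_iUnion, Set.mem_iInter, Finset.mem_filter,
      Finset.mem_powerset, exists_prop]
    constructor
    · intro h
      refine ⟨B.memFinset.filter (· ∈ F t), ⟨Finset.filter_subset _ _, ?_⟩, fun z hz => by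
        simp [hz]⟩
      convert h
      ext z
      simp only [Finset.coe_filter, Set.mem_ofPred_eq, B.mem_memFinset]
      exact ⟨fun h => h.2, fun h => ⟨hF t z h, h⟩⟩
    · rintro ⟨s, ⟨hs, hP⟩, hz⟩
      convert hP
      ext z
      exact ⟨fun h => (hz z (B.mem_memFinset.2 (hF t z h))).1 h, fun h => (hz z (hs h)).2 h⟩
  rw [key]
  refine Finset.measurableSet_biUnion _ fun s _ => Finset.measurableSet_biInter _ fun z _ => ?_
  by_cases hz : z ∈ s
  · simpa [hz] using hm z
  · simpa [hz, Set.compl_ofPred] using (hm z).compl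

lemma measurableSet_badV (c₀ : ℝ) (z : V) : MeasurableSet {t : Env | z ∈ badV c₀ t} := by
  have : {t : Env | z ∈ badV c₀ t} = ⋃ v : V, {t : Env | Nbr z v ∧ c₀ < t s(z, v)} := by
    ext t; simp [badV]
  rw [this]
  refine MeasurableSet.iUnion fun v => ?_
  by_cases h : Nbr z v
  · simpa [h] using measurableSet_lt measurable_const (measurable_pi_apply (s(z, v)))
  · simp [h]

end Box

/-- A position is admissible when it is within the slack of a representative of its vertex. -/
def netAdm (c₀ : ℝ) (B : Box) (t : Env) (k : ℕ) : Prop :=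
  B.Ready (B.outBad c₀ t) →
    ∃ u ∈ B.reps (B.outBad c₀ t) (B.pos k), B.dist t (B.pos k) u ≤ Real.sqrt B.M

open scoped Classical in
/-- The width of a bin. -/
noncomputable def netBinW (c₀ : ℝ) (B : Box) (t : Env) (n l : ℕ) : ℝ :=
  if B.Ready (B.outBad c₀ t) then
    2 * Real.sqrt B.M + ∑ j ∈ Finset.Icc (B.gridPos n l) (B.gridPos n (l + 1)),
      B.loc c₀ (B.outBad c₀ t) (B.pos j)
  else B.arcSum t (B.gridPos n l) (B.gridPos n (l + 1))

end Vale.Agent.P158.NB
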