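import Vale.Agent.P158.NB.NetDefs
import Vale.Agent.P158.NB.EventsMeas

/-!
# Common tools for the nets: good boxes are ready, short segments are cheap, translations
-/

open MeasureTheory Finset
open scoped ENNReal

namespace Vale.Agent.P158.NB

lemma succ_le_rhoOf_pow (M : ℕ) : M + 1 ≤ (rhoOf M + 1) ^ 8 := by
  have h1 : M < (Nat.sqrt M + 1) ^ 2 := Nat.lt_succ_sqrt' M
  have h2 : Nat.sqrt M < (Nat.sqrt (Nat.sqrt M) + 1) ^ 2 := Nat.lt_succ_sqrt' _
  have h3 : Nat.sqrt (Nat.sqrt M) < (rhoOf M + 1) ^ 2 := Nat.lt_succ_sqrt' _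
  calc M + 1 ≤ (Nat.sqrt M + 1) ^ 2 := h1
    _ ≤ ((Nat.sqrt (Nat.sqrt M) + 1) ^ 2) ^ 2 := Nat.pow_le_pow_left h2 _
    _ ≤ (((rhoOf M + 1) ^ 2) ^ 2) ^ 2 := Nat.pow_le_pow_left (Nat.pow_le_pow_left h3 _) _
    _ = (rhoOf M + 1) ^ 8 := by rw [← pow_mul, ← pow_mul]

lemma rhoOf_pow_le (M : ℕ) : rhoOf M ^ 8 ≤ M := by
  have h1 : Nat.sqrt M ^ 2 ≤ M := Nat.sqrt_le' M
  have h2 : Nat.sqrt (Nat.sqrt M) ^ 2 ≤ Nat.sqrt M := Nat.sqrt_le' _
  have h3 : rhoOf M ^ 2 ≤ Nat.sqrt (Nat.sqrt M) := Nat.sqrt_le' _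
  calc rhoOf M ^ 8 = ((rhoOf M ^ 2) ^ 2) ^ 2 := by rw [← pow_mul, ← pow_mul]
    _ ≤ (Nat.sqrt (Nat.sqrt M) ^ 2) ^ 2 := Nat.pow_le_pow_left (Nat.pow_le_pow_left h3 _) _
    _ ≤ Nat.sqrt M ^ 2 := Nat.pow_le_pow_left h2 _
    _ ≤ M := h1

lemma le_rhoOf {d M : ℕ} (h : d ^ 8 ≤ M) : d ≤ rhoOf M := by
  by_contra hlt
  have h1 := Nat.pow_le_pow_left (show rhoOf M + 1 ≤ d by omega) 8
  have := succ_le_rhoOf_pow M
  omega

variable (G : Measure ℝ) [IsProbabilityMeasure G]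

/-- Large values are rare. -/
lemma exists_tail {ε : ℝ≥0∞} (hε : 0 < ε) : ∃ K : ℝ, 0 ≤ K ∧ G (Set.Ioi K) ≤ ε := by
  have hanti : Antitone fun k : ℕ => Set.Ioi (k : ℝ) := fun a b hab =>
    Set.Ioi_subset_Ioi (Nat.cast_le.2 hab)
  have hi : (⋂ k : ℕ, Set.Ioi (k : ℝ)) = ∅ := by
    refine Set.eq_empty_of_forall_notMem fun r hr => ?_
    obtain ⟨k, hk⟩ := exists_nat_ge r
    exact absurd (Set.mem_iInter.1 hr k) (not_lt.2 hk)
  have ht := tendsto_measure_iInter_atTop (μ := G) (fun k => measurableSet_Ioi.nullMeasurableSet)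
    hanti ⟨0, measure_ne_top _ _⟩
  rw [hi, measure_empty] at ht
  obtain ⟨k, hk⟩ := (ht.eventually (eventually_le_nhds hε)).exists
  exact ⟨k, k.cast_nonneg, hk⟩

/-- The cost of a walk of given length is tight, uniformly in the walk. -/
lemma walk_cost_tight (L : ℕ) {ε : ℝ≥0∞} (hε : 0 < ε) :
    ∃ K : ℝ, 0 ≤ K ∧ ∀ (f : ℕ → V) (m : ℕ), m ≤ L →
      weightMeasure G {t | K < pathCost t f m} ≤ ε := by
  rcases Nat.eq_zero_or_pos L with rfl | hL
  · refine ⟨0, le_rfl, fun f m hm => ?_⟩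
    obtain rfl : m = 0 := by omega
    simp [pathCost]
  obtain ⟨K, hK0, hK⟩ := exists_tail G
    (ENNReal.div_pos hε.ne' (ENNReal.natCast_ne_top L))
  refine ⟨L * K, by positivity, fun f m hm => ?_⟩
  calc weightMeasure G {t | (L : ℝ) * K < pathCost t f m}
      ≤ weightMeasure G (⋃ k ∈ range m, {t | K < t s(f k, f (k + 1))}) := by
        refine measure_mono fun t (ht : (L : ℝ) * K < pathCost t f m) => ?_
        by_contra h
        simp only [Set.mem_iUnion, Set.mem_ofPred_eq, exists_prop, not_exists, not_and, not_lt,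
          mem_range] at h
        have : pathCost t f m ≤ m * K := by
          refine (sum_le_card_nsmul _ _ K fun k hk => h k (mem_range.1 hk)).trans ?_
          simp
        have h2 : (m : ℝ) * K ≤ L * K := mul_le_mul_of_nonneg_right (Nat.cast_le.2 hm) hK0
        linarith
    _ ≤ ∑ _k ∈ range m, ε / L := by
        refine (measure_biUnion_finset_le _ _).trans (sum_le_sum fun k _ => ?_)
        have h : (weightMeasure G).map (fun t => t s(f k, f (k + 1))) = G :=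
          Measure.infinitePi_map_eval _ _
        calc weightMeasure G {t | K < t s(f k, f (k + 1))} = G (Set.Ioi K) := by
              conv_rhs => rw [← h]
              rw [Measure.map_apply (measurable_pi_apply _) measurableSet_Ioi]
              rfl
          _ ≤ ε / L := hK
    _ ≤ ε := by
        rw [sum_const, card_range, nsmul_eq_mul]
        calc (m : ℝ≥0∞) * (ε / L) ≤ L * (ε / L) := by
              exact mul_le_mul_left (Nat.cast_le.2 hm) _
          _ = ε := ENNReal.mul_div_cancel (by simp; omega) (ENNReal.natCast_ne_top L)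

variable {G} {c₀ : ℝ}

/-- Large boxes are ready with high probability. -/
theorem ready_prob (hq : G (Set.Ioi c₀) ≤ (72⁻¹ : ℝ≥0∞) ^ 2) {ε : ℝ≥0∞} (hε : 0 < ε) :
    ∃ M₀ : ℕ, ∀ B : Box, M₀ ≤ B.M → ∀ F : Env → Set V, (∀ t, F t ⊆ badV c₀ t) →
      weightMeasure G {t | ¬ B.Ready (F t)} ≤ ε := by
  have hR := (((summable_pow_mul_geometric_of_norm_lt_one 16
    (show ‖(1 / 2 : ℝ)‖ < 1 by norm_num)).tendsto_atTop_zero).comp
    (Filter.tendsto_add_atTop_nat 1)).const_mul (8 : ℝ)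
  rw [mul_zero] at hR
  have hE : Filter.Tendsto (fun r : ℕ => ENNReal.ofReal (8 * (((r + 1 : ℕ) : ℝ) ^ 16 *
      (1 / 2) ^ (r + 1)))) Filter.atTop (nhds 0) := by
    simpa using ENNReal.tendsto_ofReal hR
  obtain ⟨R, hR'⟩ := Filter.eventually_atTop.1 (hE.eventually (eventually_le_nhds hε))
  refine ⟨(R + 3) ^ 8, fun B hB F hF => ?_⟩
  have hρ := le_rhoOf hB
  set ρ := rhoOf B.M with hρdef
  have hbig : 16 * ρ + 16 < B.M := by
    have h1 := rhoOf_pow_le B.M
    rw [← hρdef] at h1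
    have h2 : 3 ^ 7 * ρ ≤ ρ ^ 8 := by
      rw [pow_succ ρ 7]
      exact Nat.mul_le_mul_right _ (Nat.pow_le_pow_left (by omega) 7)
    omega
  refine le_trans ((measure_mono fun t (ht : ¬ B.Ready (F t)) =>
    show ¬ B.SmallBad (F t) ρ from fun hS => ht ⟨hS, hbig⟩).trans
    (measure_not_smallBad_le hq B ρ F hF)) (le_trans ?_ (hR' ρ (by omega)))
  have hM := succ_le_rhoOf_pow B.M
  rw [← hρdef] at hM
  have hnat : (2 * B.M + 1) ^ 2 ≤ 4 * (ρ + 1) ^ 16 := by
    calc (2 * B.M + 1) ^ 2 ≤ (2 * (ρ + 1) ^ 8) ^ 2 := Nat.pow_le_pow_left (by omega) 2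
      _ = 4 * (ρ + 1) ^ 16 := by ring
  calc (((2 * B.M + 1) ^ 2 : ℕ) : ℝ≥0∞) * (2⁻¹ : ℝ≥0∞) ^ ρ
      ≤ ((4 * (ρ + 1) ^ 16 : ℕ) : ℝ≥0∞) * (2⁻¹ : ℝ≥0∞) ^ ρ :=
        mul_le_mul_left (Nat.cast_le.2 hnat) _
    _ = ENNReal.ofReal ((((4 * (ρ + 1) ^ 16 : ℕ)) : ℝ) * (1 / 2) ^ ρ) := by
        rw [ENNReal.ofReal_mul (Nat.cast_nonneg _), ENNReal.ofReal_natCast,
          ENNReal.ofReal_pow (by norm_num), one_div, ENNReal.ofReal_inv_of_pos two_pos,
          ENNReal.ofReal_ofNat]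
    _ = ENNReal.ofReal (8 * (((ρ + 1 : ℕ) : ℝ) ^ 16 * (1 / 2) ^ (ρ + 1))) := by
        rw [Nat.cast_mul, Nat.cast_pow, Nat.cast_ofNat, pow_succ (1 / 2 : ℝ) ρ]
        generalize ((ρ + 1 : ℕ) : ℝ) ^ 16 = a
        generalize (1 / 2 : ℝ) ^ ρ = b
        congr 1
        ring

namespace Box

variable {B : Box} {β : Set V} {t : Env}

/-- A walk ending at `z` which starts far away bounds the distance to a representative. -/
lemma exists_reps_near {ρ : ℕ} (hS : B.SmallBad β ρ) (hρ : 4 * ρ + 4 < B.M) (ht : ∀ e, 0 ≤ t e)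
    {f : ℕ → V} {m : ℕ} {x z : V} (hf : B.IsWalk f m x z)
    (hfar : 2 * B.rad β z < cheb z x) : ∃ u ∈ B.reps β z, B.dist t z u ≤ pathCost t f m := by
  obtain ⟨l, hl, hu⟩ := walk_meets_reps hS hρ hf hfar
  refine ⟨f l, hu, ?_⟩
  rw [B.dist_comm]
  refine (dist_le ht (hf.suffix hl)).trans ?_
  rw [pathCost_split t f hl]
  linarith [pathCost_nonneg ht f l]

/-- A straight segment of length `L` into the box ends at each vertex. -/
lemma exists_segment {z : V} (hz : B.Mem z) {L : ℕ} (hL : L ≤ B.M) :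
    ∃ (f : ℕ → V) (x : V), B.IsWalk f L x z ∧ cheb z x = L := by
  rw [mem_iff] at hz
  obtain ⟨s, hs, hside⟩ : ∃ s : ℤ, (s = 1 ∨ s = -1) ∧
      B.c.1 - B.M ≤ z.1 + s * L ∧ z.1 + s * L ≤ B.c.1 + B.M := by
    rcases le_total z.1 B.c.1 with h | h
    · exact ⟨1, .inl rfl, by omega⟩
    · exact ⟨-1, .inr rfl, by omega⟩
  refine ⟨fun i => (z.1 + s * ((L : ℤ) - i), z.2), (z.1 + s * L, z.2),
    ⟨⟨by simp, by simp, fun i hi => ?_⟩, fun i hi => ?_⟩, ?_⟩
  · rcases hs with rfl | rfl <;> simp [Nbr]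
  · rw [mem_iff]
    dsimp only
    rcases hs with rfl | rfl <;> omega
  · rcases hs with rfl | rfl <;> simp [cheb]

end Box

/-- Translation of a set. -/
def moved (v : V) (S : Set V) : Set V := {z | z - v ∈ S}

lemma link_moved {R : V → V → Prop} (hR : ∀ v a b, R (a + v) (b + v) ↔ R a b) (v : V) (S : Set V)
    (a b : V) : Link R (moved v S) (a + v) (b + v) ↔ Link R S a b := by
  constructor
  · intro h
    have := h.induct (P := fun y => Link R S a (y - v)) (by simpa using Link.refl a)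
      fun x y hx hy hn hl => hl.trans (Link.single hx hy (by
        have := (hR v (x - v) (y - v)).1 (by simpa using hn)
        exact this))
    simpa using this
  · intro h
    exact h.induct (P := fun y => Link R (moved v S) (a + v) (y + v)) (Link.refl _)
      fun x y hx hy hn hl => hl.trans (Link.single (by simpa [moved] using hx)
        (by simpa [moved] using hy) ((hR v x y).2 hn))

lemma king_add (v a b : V) : King (a + v) (b + v) ↔ King a b := by simp [King]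

lemma nbr_add' (v a b : V) : Nbr (a + v) (b + v) ↔ Nbr a b := nbr_add v

lemma cheb_add (v a b : V) : cheb (a + v) (b + v) = cheb a b := by simp [cheb]

end Vale.Agent.P158.NB
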