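import Vale.Agent.P158.NB.Reps

/-!
# Bad clusters are small (section 10 of `PROOF.md`)

A vertex is bad when one of its edges costs more than a high level `c₀`. Chains of bad vertices
have exponentially small probability, so the radius of the bad clusters has all moments.
-/

open MeasureTheory Finset
open scoped ENNReal

namespace Vale.Agent.P158.NB

/-- The vertices with an edge of weight above `c₀`. -/
def badV (c₀ : ℝ) (t : Env) : Set V := {z | ∃ v, Nbr z v ∧ c₀ < t s(z, v)}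

/-- A chain of `d + 1` distinct bad vertices starts at `a`. -/
def BadChain (c₀ : ℝ) (a : V) (d : ℕ) : Set Env :=
  {t | ∃ f : ℕ → V, f 0 = a ∧ (∀ i < d, King (f i) (f (i + 1))) ∧ IsSimple f d ∧
    ∀ i ≤ d, f i ∈ badV c₀ t}

/-- The chain with the given steps. -/
def kingWalk (a : V) {d : ℕ} (g : Fin d → Fin 3 × Fin 3) : ℕ → V
  | 0 => a
  | k + 1 => if h : k < d then
      kingWalk a g k + ((((g ⟨k, h⟩).1 : ℕ) : ℤ) - 1, (((g ⟨k, h⟩).2 : ℕ) : ℤ) - 1)
    else kingWalk a g k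

lemma exists_kingWalk {a : V} {d : ℕ} {f : ℕ → V} (h0 : f 0 = a)
    (hK : ∀ i < d, King (f i) (f (i + 1))) :
    ∃ g : Fin d → Fin 3 × Fin 3, ∀ k ≤ d, kingWalk a g k = f k := by
  refine ⟨fun i => (⟨((f (i + 1)).1 - (f i).1 + 1).toNat, ?_⟩,
    ⟨((f (i + 1)).2 - (f i).2 + 1).toNat, ?_⟩), fun k => ?_⟩
  · have := hK i i.2
    simp only [King, abs_le] at this
    omega
  · have := hK i i.2
    simp only [King, abs_le] at this
    omega
  · induction k with
    | zero => intro _; exact h0.symm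
    | succ k ih =>
      intro hk
      have := hK k (by omega)
      simp only [King, abs_le] at this
      simp only [kingWalk, dif_pos (show k < d by omega), ih (by omega)]
      ext <;> simp only [Prod.fst_add, Prod.snd_add] <;> omega

variable (G : Measure ℝ) [IsProbabilityMeasure G]

/-- Given vertices are all bad with exponentially small probability. -/
lemma measure_all_bad_le {c₀ : ℝ} {s : ℝ≥0∞} (hs : s ≤ 1) (hq : G (Set.Ioi c₀) ≤ s ^ 2)
    (S : Finset V) :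
    weightMeasure G {t | ∀ z ∈ S, z ∈ badV c₀ t} ≤ (4 * s) ^ S.card := by
  classical
  set E : ({z // z ∈ S} → Fin 4) → Finset (Sym2 V) := fun g =>
    S.attach.image fun z => s(z.1, z.1 + unit4 (g z)) with hE
  have hsub : {t : Env | ∀ z ∈ S, z ∈ badV c₀ t} ⊆
      ⋃ g : {z // z ∈ S} → Fin 4, (↑(E g) : Set (Sym2 V)).pi fun _ => Set.Ioi c₀ := by
    intro t ht
    choose v hv hlt using ht
    choose j hj using fun z : {z // z ∈ S} => exists_unit4 (hv z.1 z.2)
    refine Set.mem_iUnion.2 ⟨j, fun e he => ?_⟩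
    simp only [hE, Finset.coe_image, Set.mem_image, Finset.mem_coe, Finset.mem_attach, true_and]
      at he
    obtain ⟨z, rfl⟩ := he
    rw [← hj z]
    exact hlt z.1 z.2
  refine (measure_mono hsub).trans ((measure_iUnion_fintype_le _ _).trans ?_)
  refine (sum_le_card_nsmul _ _ (s ^ S.card) fun g _ => ?_).trans ?_
  · rw [weightMeasure, Measure.infinitePi_pi _ fun _ _ => measurableSet_Ioi, prod_const]
    refine (pow_le_pow_left' hq _).trans ?_
    rw [← pow_mul]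
    refine pow_le_pow_of_le_one zero_le hs ?_
    have := card_le_mul_card_image (s := S.attach) (f := fun z => s(z.1, z.1 + unit4 (g z))) 2
      fun e _ => ?_
    · rw [card_attach] at this
      exact this
    · induction e using Sym2.ind with
      | h a b =>
      refine (card_le_card_of_injOn (fun z : {z // z ∈ S} => z.1) ?_ ?_).trans
        (card_le_two (a := a) (b := b))
      · intro z hz
        simp only [Finset.mem_coe, Finset.mem_filter] at hz
        have hmem : z.1 ∈ (s(a, b) : Sym2 V) := hz.2 ▸ Sym2.mem_mk_left _ _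
        simpa using Sym2.mem_iff.1 hmem
      · intro z _ w _ h
        exact Subtype.ext h
  · simp [mul_pow]

/-- Bad chains are exponentially unlikely. -/
lemma measure_badChain_le {c₀ : ℝ} (hq : G (Set.Ioi c₀) ≤ (72⁻¹ : ℝ≥0∞) ^ 2) (a : V) (d : ℕ) :
    weightMeasure G (BadChain c₀ a d) ≤ (2⁻¹ : ℝ≥0∞) ^ d := by
  classical
  have h72 : (72⁻¹ : ℝ≥0∞) ≤ 1 := ENNReal.inv_le_one.2 (by norm_num)
  set U : (Fin d → Fin 3 × Fin 3) → Set Env := fun g =>
    if ((range (d + 1)).image (kingWalk a g)).card = d + 1 then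
      {t | ∀ z ∈ (range (d + 1)).image (kingWalk a g), z ∈ badV c₀ t} else ∅ with hU
  have hsub : BadChain c₀ a d ⊆ ⋃ g, U g := by
    rintro t ⟨f, h0, hK, hs, hb⟩
    obtain ⟨g, hg⟩ := exists_kingWalk h0 hK
    refine Set.mem_iUnion.2 ⟨g, ?_⟩
    have hc : ((range (d + 1)).image (kingWalk a g)).card = d + 1 := by
      rw [card_image_of_injOn, card_range]
      intro i hi j hj e
      simp only [coe_range, Set.mem_Iio, Nat.lt_succ_iff] at hi hj
      rw [hg i hi, hg j hj] at e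
      exact hs i hi j hj e
    simp only [hU, hc, if_true, Set.mem_ofPred_eq, Finset.mem_image, mem_range]
    rintro z ⟨i, hi, rfl⟩
    rw [hg i (by omega)]
    exact hb i (by omega)
  refine (measure_mono hsub).trans ((measure_iUnion_fintype_le _ _).trans ?_)
  refine (sum_le_card_nsmul _ _ ((4 * (72⁻¹ : ℝ≥0∞)) ^ (d + 1)) fun g _ => ?_).trans ?_
  · by_cases hc : ((range (d + 1)).image (kingWalk a g)).card = d + 1
    · simp only [hU, hc, if_true]
      exact (measure_all_bad_le G h72 hq _).trans (by rw [hc])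
    · simp [hU, hc]
  · rw [card_univ, Fintype.card_fun, Fintype.card_prod, Fintype.card_fin, Fintype.card_fin,
      nsmul_eq_mul, Nat.cast_pow, pow_succ, ← mul_assoc, ← mul_pow]
    have h36 : ((3 * 3 : ℕ) : ℝ≥0∞) * (4 * 72⁻¹) = 2⁻¹ := by
      rw [← mul_assoc, show ((3 * 3 : ℕ) : ℝ≥0∞) * 4 = 36 by norm_num]
      rw [← ENNReal.toReal_eq_toReal_iff' (ENNReal.mul_ne_top (by norm_num) (by norm_num))
        (by norm_num)]
      norm_num
    rw [h36]
    refine (mul_le_mul_right ?_ _).trans (mul_one _).le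
    rw [← ENNReal.toReal_le_toReal (ENNReal.mul_ne_top (by norm_num) (by norm_num)) (by norm_num)]
    norm_num

/-- A level above which weights are rare. -/
lemma exists_level : ∃ c₀ ≥ (0 : ℝ), G (Set.Ioi c₀) ≤ (72⁻¹ : ℝ≥0∞) ^ 2 := by
  have hanti : Antitone fun k : ℕ => Set.Ioi (k : ℝ) := fun a b hab =>
    Set.Ioi_subset_Ioi (Nat.cast_le.2 hab)
  have hi : (⋂ k : ℕ, Set.Ioi (k : ℝ)) = ∅ := by
    refine Set.eq_empty_of_forall_notMem fun r hr => ?_
    obtain ⟨k, hk⟩ := exists_nat_ge r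
    exact absurd (Set.mem_iInter.1 hr k) (not_lt.2 hk)
  have ht := tendsto_measure_iInter_atTop (μ := G) (fun k => measurableSet_Ioi.nullMeasurableSet)
    hanti ⟨0, measure_ne_top _ _⟩
  rw [hi, measure_empty] at ht
  obtain ⟨k, hk⟩ := (ht.eventually (eventually_le_nhds (ENNReal.pow_pos (ENNReal.inv_pos.2 (by simp : (72 : ℝ≥0∞) ≠ ∞)) 2))).exists
  exact ⟨k, k.cast_nonneg, hk⟩

/-- Some bad chain of length `ℓ` starts within `ℓ` of `z`. -/
def NearChain (c₀ : ℝ) (z : V) (ℓ : ℕ) : Set Env :=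
  ⋃ w ∈ Finset.Icc (z.1 - ℓ) (z.1 + ℓ) ×ˢ Finset.Icc (z.2 - ℓ) (z.2 + ℓ), BadChain c₀ w ℓ

variable {G} {c₀ : ℝ}

lemma measure_nearChain_le (hq : G (Set.Ioi c₀) ≤ (72⁻¹ : ℝ≥0∞) ^ 2) (z : V) (ℓ : ℕ) :
    weightMeasure G (NearChain c₀ z ℓ) ≤ ((2 * ℓ + 1) ^ 2 : ℕ) * (2⁻¹ : ℝ≥0∞) ^ ℓ := by
  refine (measure_biUnion_finset_le _ _).trans ((sum_le_card_nsmul _ _ _
    fun w _ => measure_badChain_le G hq w ℓ).trans ?_)
  rw [card_product, Int.card_Icc, Int.card_Icc, nsmul_eq_mul,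
    show (z.1 + (ℓ : ℤ) + 1 - (z.1 - ℓ)).toNat = 2 * ℓ + 1 by omega,
    show (z.2 + (ℓ : ℤ) + 1 - (z.2 - ℓ)).toNat = 2 * ℓ + 1 by omega, ← sq]

/-- A link of bad vertices contains chains up to its diameter. -/
lemma badChain_of_link {β : Set V} {t : Env} {B : Box} {a b : V} {d : ℕ}
    (hβ : β ⊆ badV c₀ t) (ha : a ∈ β) (hl : Link King {z | B.Mem z ∧ z ∈ β} a b)
    (hd : d ≤ cheb a b) : t ∈ BadChain c₀ a d := by
  obtain ⟨m, f, h0, hm, hf, hs⟩ := hl.exists_chain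
  have hdist : ∀ k ≤ m, cheb a (f k) ≤ k := by
    intro k
    induction k with
    | zero => intro _; rw [h0, cheb_self]
    | succ k ih =>
      intro hk
      have := cheb_triangle a (f k) (f (k + 1))
      have := king_iff.1 (hf k (by omega)).2.2
      have := ih (by omega)
      omega
  have hdm : d ≤ m := hd.trans (hm ▸ hdist m le_rfl)
  refine ⟨f, h0, fun i hi => (hf i (by omega)).2.2, hs.mono hdm, fun i hi => ?_⟩
  rcases Nat.eq_zero_or_pos i with rfl | hi'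
  · rw [h0]; exact hβ ha
  · obtain ⟨j, rfl⟩ : ∃ j, i = j + 1 := ⟨i - 1, by omega⟩
    exact hβ (hf j (by omega)).2.1.2

/-- The radius is witnessed by a nearby chain. -/
lemma nearChain_of_rad {β : Set V} {t : Env} {B : Box} {z : V} (hβ : β ⊆ badV c₀ t)
    (h : B.rad β z ≠ 0) : t ∈ NearChain c₀ z (B.rad β z) := by
  classical
  unfold Box.rad at h ⊢
  set F : V × V → ℕ := fun q =>
    if q.1 ∈ β ∧ cheb z q.1 ≤ cheb q.1 q.2 ∧ Link King {x | B.Mem x ∧ x ∈ β} q.1 q.2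
    then cheb q.1 q.2 else 0 with hF
  obtain ⟨q, -, hq⟩ := Finset.exists_mem_eq_sup (B.memFinset ×ˢ B.memFinset)
    (by rw [Finset.nonempty_iff_ne_empty]; intro he; simp [he] at h) F
  rw [hq] at h ⊢
  simp only [hF] at h ⊢
  split_ifs at h ⊢ with hc
  swap
  · exact absurd rfl h
  · refine Set.mem_iUnion₂.2 ⟨q.1, ?_, badChain_of_link hβ hc.1 hc.2.2 le_rfl⟩
    have := hc.2.1
    simp only [cheb] at this ⊢
    simp only [Finset.mem_product, Finset.mem_Icc]
    omega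

/-- Failure of `SmallBad` produces a chain. -/
lemma not_smallBad {β : Set V} {t : Env} {B : Box} {ρ : ℕ} (hβ : β ⊆ badV c₀ t)
    (h : ¬ B.SmallBad β ρ) : ∃ a ∈ B.memFinset, t ∈ BadChain c₀ a ρ := by
  simp only [Box.SmallBad, not_forall, not_lt] at h
  obtain ⟨a, b, ha, hm, hl, hd⟩ := h
  exact ⟨a, (B.mem_memFinset).2 hm, badChain_of_link hβ ha hl hd⟩

lemma measure_not_smallBad_le (hq : G (Set.Ioi c₀) ≤ (72⁻¹ : ℝ≥0∞) ^ 2) (B : Box) (ρ : ℕ)
    (β : Env → Set V) (hβ : ∀ t, β t ⊆ badV c₀ t) :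
    weightMeasure G {t | ¬ B.SmallBad (β t) ρ} ≤
      ((2 * B.M + 1) ^ 2 : ℕ) * (2⁻¹ : ℝ≥0∞) ^ ρ := by
  refine (measure_mono (t := ⋃ a ∈ B.memFinset, BadChain c₀ a ρ) fun t ht => ?_).trans
    ((measure_biUnion_finset_le _ _).trans ((sum_le_card_nsmul _ _ _
      fun w _ => measure_badChain_le G hq w ρ).trans ?_))
  · obtain ⟨a, ha, h⟩ := not_smallBad (hβ t) ht
    exact Set.mem_iUnion₂.2 ⟨a, ha, h⟩
  · rw [Box.memFinset, card_product, Int.card_Icc, Int.card_Icc, nsmul_eq_mul,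
      show (B.c.1 + (B.M : ℤ) + 1 - (B.c.1 - B.M)).toNat = 2 * B.M + 1 by omega,
      show (B.c.2 + (B.M : ℤ) + 1 - (B.c.2 - B.M)).toNat = 2 * B.M + 1 by omega, ← sq]

/-- The series which bounds the moments of the radius. -/
noncomputable def radSeries (k : ℕ) (ℓ : ℕ) : ℝ≥0∞ :=
  ((4 * ℓ + 3) ^ k * (2 * ℓ + 1) ^ 2 : ℕ) * (2⁻¹ : ℝ≥0∞) ^ ℓ

lemma radSeries_ne_top (k : ℕ) : ∑' ℓ, radSeries k ℓ ≠ ∞ := by
  have hsum : Summable fun ℓ : ℕ => (((4 * ℓ + 3) ^ k * (2 * ℓ + 1) ^ 2 : ℕ) : ℝ) * (1 / 2) ^ ℓ := by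
    refine Summable.of_nonneg_of_le (fun ℓ => by positivity) (fun ℓ => ?_)
      ((((summable_pow_mul_geometric_of_norm_lt_one (k + 2)
        (show ‖(1 / 2 : ℝ)‖ < 1 by norm_num)).add
        (summable_geometric_of_lt_one (by norm_num : (0 : ℝ) ≤ 1 / 2) (by norm_num))).mul_left
        ((14 : ℝ) ^ (k + 2))))
    have h1 : ((4 * ℓ + 3) ^ k * (2 * ℓ + 1) ^ 2 : ℕ) ≤ 14 ^ (k + 2) * (ℓ ^ (k + 2) + 1) := by
      rcases Nat.eq_zero_or_pos ℓ with rfl | hl
      · simp only [mul_zero, zero_add, one_pow, mul_one, ne_eq, Nat.add_eq_zero_iff,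
          OfNat.ofNat_ne_zero, and_false, not_false_eq_true, zero_pow]
        exact (Nat.pow_le_pow_left (by norm_num) k).trans
          (Nat.pow_le_pow_right (by norm_num) (by omega))
      · calc (4 * ℓ + 3) ^ k * (2 * ℓ + 1) ^ 2 ≤ (14 * ℓ) ^ k * (14 * ℓ) ^ 2 :=
              Nat.mul_le_mul (Nat.pow_le_pow_left (by omega) k) (Nat.pow_le_pow_left (by omega) 2)
          _ = 14 ^ (k + 2) * ℓ ^ (k + 2) := by rw [← pow_add, mul_pow]
          _ ≤ _ := Nat.mul_le_mul_left _ (Nat.le_succ _)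
    calc (((4 * ℓ + 3) ^ k * (2 * ℓ + 1) ^ 2 : ℕ) : ℝ) * (1 / 2) ^ ℓ
        ≤ ((14 ^ (k + 2) * (ℓ ^ (k + 2) + 1) : ℕ) : ℝ) * (1 / 2) ^ ℓ :=
          mul_le_mul_of_nonneg_right (by exact_mod_cast h1) (by positivity)
      _ = _ := by push_cast; ring
  have : ∀ ℓ, radSeries k ℓ =
      ENNReal.ofReal ((((4 * ℓ + 3) ^ k * (2 * ℓ + 1) ^ 2 : ℕ) : ℝ) * (1 / 2) ^ ℓ) := by
    intro ℓ
    rw [radSeries, ENNReal.ofReal_mul (Nat.cast_nonneg _), ENNReal.ofReal_natCast,
      ENNReal.ofReal_pow (by norm_num), one_div, ENNReal.ofReal_inv_of_pos two_pos]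
    norm_num
  simp_rw [this]
  exact hsum.tsum_ofReal_ne_top

/-- All moments of the radius are bounded. -/
theorem lintegral_rad_le (hq : G (Set.Ioi c₀) ≤ (72⁻¹ : ℝ≥0∞) ^ 2) (k : ℕ) (B : Box) (z : V)
    (β : Env → Set V) (hβ : ∀ t, β t ⊆ badV c₀ t) :
    ∫⁻ t, (((4 * B.rad (β t) z + 3) ^ k : ℕ) : ℝ≥0∞) ∂weightMeasure G
      ≤ (3 ^ k : ℕ) + ∑' ℓ, radSeries k ℓ := by
  set μ := weightMeasure G
  set T : ℕ → Set Env := fun ℓ => toMeasurable μ (NearChain c₀ z ℓ) with hT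
  have hTm : ∀ ℓ, MeasurableSet (T ℓ) := fun ℓ => measurableSet_toMeasurable _ _
  calc ∫⁻ t, (((4 * B.rad (β t) z + 3) ^ k : ℕ) : ℝ≥0∞) ∂μ
      ≤ ∫⁻ t, ((3 ^ k : ℕ) + ∑' ℓ, (T ℓ).indicator
          (fun _ => (((4 * ℓ + 3) ^ k : ℕ) : ℝ≥0∞)) t) ∂μ := by
        refine lintegral_mono fun t => ?_
        by_cases h : B.rad (β t) z = 0
        · rw [h]; simp
        · refine le_add_left ((le_of_eq ?_).trans (ENNReal.le_tsum (B.rad (β t) z)))
          rw [Set.indicator_of_mem (subset_toMeasurable μ _ (nearChain_of_rad (hβ t) h))]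
    _ = (3 ^ k : ℕ) + ∑' ℓ, (((4 * ℓ + 3) ^ k : ℕ) : ℝ≥0∞) * μ (T ℓ) := by
        rw [lintegral_add_left measurable_const, lintegral_const, measure_univ, mul_one,
          lintegral_tsum fun ℓ => (measurable_const.indicator (hTm ℓ)).aemeasurable]
        simp_rw [lintegral_indicator_const (hTm _)]
    _ ≤ _ := by
        refine add_le_add le_rfl (ENNReal.tsum_le_tsum fun ℓ => ?_)
        rw [hT, measure_toMeasurable, radSeries, Nat.cast_mul, mul_assoc]
        exact mul_le_mul_right (measure_nearChain_le hq z ℓ) _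

/-- The radius is tight. -/
theorem rad_tail (hq : G (Set.Ioi c₀) ≤ (72⁻¹ : ℝ≥0∞) ^ 2) {ε : ℝ≥0∞} (hε : 0 < ε) :
    ∃ d : ℕ, ∀ (B : Box) (z : V) (β : Env → Set V), (∀ t, β t ⊆ badV c₀ t) →
      weightMeasure G {t | d ≤ B.rad (β t) z} ≤ ε := by
  obtain ⟨d, hd⟩ := ((ENNReal.tendsto_sum_nat_add (radSeries 0) (radSeries_ne_top 0)).eventually
    (eventually_le_nhds hε)).exists
  refine ⟨d + 1, fun B z β hβ => le_trans ?_ hd⟩
  calc weightMeasure G {t | d + 1 ≤ B.rad (β t) z}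
      ≤ weightMeasure G (⋃ i : ℕ, NearChain c₀ z (i + d)) := by
        refine measure_mono fun t (ht : d + 1 ≤ B.rad (β t) z) => ?_
        exact Set.mem_iUnion.2 ⟨B.rad (β t) z - d, by
          rw [Nat.sub_add_cancel (by omega)]; exact nearChain_of_rad (hβ t) (by omega)⟩
    _ ≤ ∑' i : ℕ, weightMeasure G (NearChain c₀ z (i + d)) := measure_iUnion_le _
    _ ≤ _ := ENNReal.tsum_le_tsum fun i => (measure_nearChain_le hq z (i + d)).trans
        (by simp [radSeries])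

end Vale.Agent.P158.NB
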