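import Vale.Agent.P158.NB.Holes

/-!
# The large good component and the representatives of a vertex (section 10 of `PROOF.md`)

`β` is a set of bad vertices whose king-clusters are small. A vertex is represented by itself if it
lies in the large good component and by the outer boundary of its hole otherwise. Representatives
of neighbours touch, and the representatives of one vertex are linked by short chains.
-/

open Finset Relation

namespace Vale.Agent.P158.NB

namespace Link

variable {R : V → V → Prop} {S : Set V} {a b : V}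

/-- A link stays among the points linked to its origin. -/
lemma restrict (h : Link R S a b) : Link R {x | Link R S a x} a b := by
  induction h with
  | refl => exact refl _
  | tail h' h ih => exact ih.trans (single h' (h'.trans (single h.1 h.2.1 h.2.2)) h.2.2)

end Link

namespace Box

variable (B : Box) (β : Set V)

/-- The good vertices of a box. -/
def goodSet : Set V := {z | B.Mem z ∧ z ∉ β}

/-- The large good component. -/
def giant : Set V :=
  {z | z ∈ B.goodSet β ∧ ∃ a b, Link Nbr (B.goodSet β) z a ∧ Link Nbr (B.goodSet β) z b ∧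
    B.M ≤ cheb a b}

/-- The vertices outside the large good component. -/
def holes : Set V := {z | B.Mem z ∧ z ∉ B.giant β}

/-- The representatives of a vertex. -/
def reps (z : V) : Set V :=
  {u | (z ∈ B.giant β ∧ u = z) ∨
    (z ∉ B.giant β ∧ u ∈ B.giant β ∧ ∃ d, Link Nbr (B.holes β) z d ∧ Nbr d u)}

/-- The king-clusters of bad vertices have diameter less than `ρ`. -/
def SmallBad (ρ : ℕ) : Prop :=
  ∀ a b, a ∈ β → B.Mem a → Link King {z | B.Mem z ∧ z ∈ β} a b → cheb a b < ρ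

/-- The vertices of the box in a finite set. -/
noncomputable def memFinset : Finset V :=
  Finset.Icc (B.c.1 - B.M) (B.c.1 + B.M) ×ˢ Finset.Icc (B.c.2 - B.M) (B.c.2 + B.M)

lemma mem_memFinset {z : V} : z ∈ B.memFinset ↔ B.Mem z := by
  simp only [memFinset, mem_product, Finset.mem_Icc, mem_iff]

open scoped Classical in
/-- The size of the bad clusters which reach to `z`. -/
noncomputable def rad (z : V) : ℕ :=
  (B.memFinset ×ˢ B.memFinset).sup fun q =>
    if q.1 ∈ β ∧ cheb z q.1 ≤ cheb q.1 q.2 ∧ Link King {x | B.Mem x ∧ x ∈ β} q.1 q.2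
    then cheb q.1 q.2 else 0

variable {B β}

lemma link_row {S : Set V} {y a b : ℤ} (h : ∀ x, min a b ≤ x → x ≤ max a b → (x, y) ∈ S) :
    Link Nbr S (a, y) (b, y) := by
  suffices H : ∀ (n : ℕ) (a : ℤ), (∀ x, a ≤ x → x ≤ a + n → (x, y) ∈ S) →
      Link Nbr S (a, y) (a + n, y) by
    rcases le_total a b with hab | hab
    · have := H (b - a).toNat a fun x h1 h2 => h x (by omega) (by omega)
      rwa [show a + ((b - a).toNat : ℤ) = b by omega] at this
    · have := H (a - b).toNat b fun x h1 h2 => h x (by omega) (by omega)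
      rw [show b + ((a - b).toNat : ℤ) = a by omega] at this
      exact this.symm fun _ _ h => h.symm
  intro n
  induction n with
  | zero => intro a _; simpa using Link.refl (a, y)
  | succ n ih =>
    intro a h
    refine (ih a fun x h1 h2 => h x h1 (by omega)).trans
      (Link.single (h _ (by omega) (by omega)) (h _ (by omega) le_rfl) ?_)
    simp [Nbr]

lemma link_col {S : Set V} {x a b : ℤ} (h : ∀ y, min a b ≤ y → y ≤ max a b → (x, y) ∈ S) :
    Link Nbr S (x, a) (x, b) := by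
  suffices H : ∀ (n : ℕ) (a : ℤ), (∀ y, a ≤ y → y ≤ a + n → (x, y) ∈ S) →
      Link Nbr S (x, a) (x, a + n) by
    rcases le_total a b with hab | hab
    · have := H (b - a).toNat a fun y h1 h2 => h y (by omega) (by omega)
      rwa [show a + ((b - a).toNat : ℤ) = b by omega] at this
    · have := H (a - b).toNat b fun y h1 h2 => h y (by omega) (by omega)
      rw [show b + ((a - b).toNat : ℤ) = a by omega] at this
      exact this.symm fun _ _ h => h.symm
  intro n
  induction n with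
  | zero => intro a _; simpa using Link.refl (x, a)
  | succ n ih =>
    intro a h
    refine (ih a fun y h1 h2 => h y h1 (by omega)).trans
      (Link.single (h _ (by omega) (by omega)) (h _ (by omega) le_rfl) ?_)
    simp [Nbr]

/-- The complement of a small square in a box is connected. -/
lemma link_outside {w x y : V} {ℓ : ℕ} (hℓ : ℓ < B.M) (hx : B.Mem x) (hy : B.Mem y)
    (hx' : ℓ < cheb x w) (hy' : ℓ < cheb y w) :
    Link Nbr {z | B.Mem z ∧ ℓ < cheb z w} x y := by
  obtain ⟨X, hX, hX'⟩ : ∃ X : ℤ, (X = B.c.1 - B.M ∨ X = B.c.1 + B.M) ∧ ℓ < (X - w.1).natAbs := by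
    by_cases h : ℓ < (B.c.1 - B.M - w.1).natAbs
    · exact ⟨_, .inl rfl, h⟩
    · exact ⟨_, .inr rfl, by omega⟩
  obtain ⟨Y, hY, hY'⟩ : ∃ Y : ℤ, (Y = B.c.2 - B.M ∨ Y = B.c.2 + B.M) ∧ ℓ < (Y - w.2).natAbs := by
    by_cases h : ℓ < (B.c.2 - B.M - w.2).natAbs
    · exact ⟨_, .inl rfl, h⟩
    · exact ⟨_, .inr rfl, by omega⟩
  have key : ∀ z : V, B.Mem z → ℓ < cheb z w →
      Link Nbr {z | B.Mem z ∧ ℓ < cheb z w} z (X, Y) := by
    rintro ⟨a, b⟩ hz hz'
    rw [mem_iff] at hz
    simp only [cheb] at hz'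
    dsimp only at hz
    have hset : ∀ p q : ℤ, B.c.1 - B.M ≤ p → p ≤ B.c.1 + B.M → B.c.2 - B.M ≤ q →
        q ≤ B.c.2 + B.M → (ℓ < (p - w.1).natAbs ∨ ℓ < (q - w.2).natAbs) →
        (p, q) ∈ {z : V | B.Mem z ∧ ℓ < cheb z w} := by
      intro p q h1 h2 h3 h4 h5
      refine ⟨mem_iff.2 ⟨⟨h1, h2⟩, h3, h4⟩, ?_⟩
      simp only [cheb]; omega
    by_cases h : ℓ < (b - w.2).natAbs
    · exact (link_row (b := X) fun p h1 h2 => hset p b (by omega) (by omega) (by omega) (by omega)
        (.inr h)).trans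
        (link_col fun q h1 h2 => hset X q (by omega) (by omega) (by omega) (by omega) (.inl hX'))
    · exact (link_col (b := Y) fun q h1 h2 => hset a q (by omega) (by omega) (by omega) (by omega)
        (.inl (by omega))).trans
        (link_row fun p h1 h2 => hset p Y (by omega) (by omega) (by omega) (by omega) (.inr hY'))
  exact (key x hx hx').trans ((key y hy hy').symm fun _ _ h => h.symm)

/-- A link from outside `C` to a point of `C` leaves through the boundary. -/
lemma exists_exit {C : Set V} {z a : V} (hzC : z ∉ C) (ha : a ∈ C)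
    (h : Link Nbr {x | B.Mem x} z a) :
    ∃ d u, Link Nbr {x | B.Mem x ∧ x ∉ C} z d ∧ u ∈ C ∧ Nbr d u ∧ B.Mem d ∧ B.Mem u := by
  have := h.induct (P := fun v => (v ∉ C ∧ Link Nbr {x | B.Mem x ∧ x ∉ C} z v) ∨
      ∃ d u, Link Nbr {x | B.Mem x ∧ x ∉ C} z d ∧ u ∈ C ∧ Nbr d u ∧ B.Mem d ∧ B.Mem u)
    (.inl ⟨hzC, Link.refl z⟩) fun u v hu hv hn hP => by
      rcases hP with ⟨huC, hl⟩ | hP
      · by_cases hvC : v ∈ C
        · exact .inr ⟨u, v, hl, hvC, hn, hu, hv⟩
        · exact .inl ⟨hvC, hl.trans (Link.single ⟨hu, huC⟩ ⟨hv, hvC⟩ hn)⟩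
      · exact .inr hP
  rcases this with ⟨h', -⟩ | h'
  exacts [absurd ha h', h']

variable {ρ : ℕ}

/-- The holes of a large connected maximal good set are small. -/
lemma hole_small (hS : B.SmallBad β ρ) (hρ : 4 * ρ + 4 < B.M) {C : Set V}
    (hC : C ⊆ B.goodSet β) (hlink : ∀ a ∈ C, ∀ b ∈ C, Link Nbr C a b)
    (hmax : ∀ a ∈ C, ∀ b, Nbr a b → b ∈ B.goodSet β → b ∈ C)
    (hdiam : ∃ a ∈ C, ∃ b ∈ C, B.M ≤ cheb a b) {z : V} (hz : B.Mem z) (hzC : z ∉ C) :
    ∃ w w', w ∈ β ∧ B.Mem w ∧ B.Mem w' ∧ Link King {x | B.Mem x ∧ x ∈ β} w w' ∧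
      cheb w w' < ρ ∧ ∀ d, Link Nbr {x | B.Mem x ∧ x ∉ C} z d → cheb d w ≤ cheb w w' := by
  classical
  obtain ⟨a, ha, b, hb, hab⟩ := hdiam
  set N : Set V := {x | B.Mem x ∧ x ∉ C} with hN
  set D : Set V := {d | Link Nbr N z d} with hD
  have hDN : ∀ d ∈ D, B.Mem d ∧ d ∉ C := fun d hd => Link.mem hd ⟨hz, hzC⟩
  have hDc : ∀ x ∈ D, ∀ y ∈ D, Link Nbr D x y := fun x hx y hy =>
    ((Link.restrict hx).symm fun _ _ h => h.symm).trans (Link.restrict hy)
  have hout : ∀ d ∈ D, ∀ w, B.Mem w → Nbr d w → w ∉ D → w ∈ C := fun d hd w hw hn hwD => by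
    by_contra hwC
    exact hwD (Link.trans hd (Link.single (hDN d hd) ⟨hw, hwC⟩ hn))
  obtain ⟨w, u, hwD, huC, hwu, hwm, -⟩ := exists_exit hzC ha (link_mem hz (hC ha).1)
  set In : Finset V := B.memFinset.filter fun d => d ∈ D ∧ ∃ k ∈ C, Nbr d k with hIn
  have hwIn : w ∈ In := by
    simp only [hIn, Finset.mem_filter, mem_memFinset]
    exact ⟨hwm, hwD, u, huC, hwu⟩
  have hbad : ∀ d ∈ In, d ∈ β := fun d hd => by
    simp only [hIn, Finset.mem_filter, mem_memFinset] at hd
    obtain ⟨hdm, hdD, k, hk, hdk⟩ := hd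
    by_contra hg
    exact (hDN d hdD).2 (hmax k hk d hdk.symm ⟨hdm, hg⟩)
  obtain ⟨w', hw', hwmax⟩ := In.exists_max_image (cheb w) ⟨w, hwIn⟩
  have hw'' := hw'
  simp only [hIn, Finset.mem_filter, mem_memFinset] at hw''
  have hking : Link King {x | B.Mem x ∧ x ∈ β} w w' :=
    (inner_boundary_linked (fun d hd => (hDN d hd).1) (fun k hk => (hC hk).1)
      (fun d hd => (hDN d hd).2) hDc hlink hout hwD ⟨u, huC, hwu⟩ hw''.2.1 hw''.2.2).mono
      fun x hx => ⟨(hDN x hx.1).1, hbad x (by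
        simp only [hIn, Finset.mem_filter, mem_memFinset]; exact ⟨(hDN x hx.1).1, hx⟩)⟩
  have hlt := hS w w' (hbad w hwIn) hwm hking
  refine ⟨w, w', hbad w hwIn, hwm, hw''.1, hking, hlt, fun d hd => ?_⟩
  by_contra hcon
  push Not at hcon
  obtain ⟨g, hg, hgw⟩ : ∃ g ∈ C, cheb w w' < cheb g w := by
    by_cases h : cheb w w' < cheb a w
    · exact ⟨a, ha, h⟩
    · refine ⟨b, hb, ?_⟩
      have := cheb_triangle a w b
      have := cheb_comm b w
      omega
  have := (link_outside (B := B) (w := w) (ℓ := cheb w w') (by omega) (hDN d hd).1 (hC hg).1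
    hcon hgw).induct (P := fun v => v ∈ D) hd fun x y hx hy hxy hxD => by
      by_contra hyD
      have hxIn : x ∈ In := by
        simp only [hIn, Finset.mem_filter, mem_memFinset]
        exact ⟨hx.1, hxD, y, hout x hxD y hy.1 hxy hyD, hxy⟩
      have := hwmax x hxIn
      have := hx.2
      rw [cheb_comm x w] at this
      omega
  exact (hDN g this).2 hg

lemma giant_subset : B.giant β ⊆ B.goodSet β := fun _ h => h.1

lemma giant_of_link {u v : V} (hu : u ∈ B.giant β) (h : Link Nbr (B.goodSet β) u v) :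
    v ∈ B.giant β := by
  obtain ⟨hug, a, b, ha, hb, hab⟩ := hu
  have h' := h.symm fun _ _ h => h.symm
  exact ⟨h.mem hug, a, b, h'.trans ha, h'.trans hb, hab⟩

lemma link_giant {u v : V} (hu : u ∈ B.giant β) (h : Link Nbr (B.goodSet β) u v) :
    Link Nbr (B.giant β) u v :=
  h.restrict.mono fun _ hx => giant_of_link hu hx

lemma giant_max {a b : V} (ha : a ∈ B.giant β) (hn : Nbr a b) (hb : b ∈ B.goodSet β) :
    b ∈ B.giant β :=
  giant_of_link ha (Link.single ha.1 hb hn)

variable (hS : B.SmallBad β ρ) (hρ : 4 * ρ + 4 < B.M)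

include hS hρ

/-- The large good component is connected. -/
lemma giant_linked {a b : V} (ha : a ∈ B.giant β) (hb : b ∈ B.giant β) :
    Link Nbr (B.giant β) a b := by
  suffices Link Nbr (B.goodSet β) a b from link_giant ha this
  by_contra hcon
  set C : Set V := {x | Link Nbr (B.goodSet β) a x} with hC
  obtain ⟨hag, a₁, a₂, ha₁, ha₂, haa⟩ := ha
  obtain ⟨hbg, b₁, b₂, hb₁, hb₂, hbb⟩ := hb
  obtain ⟨w, w', -, -, -, -, hlt, hnear⟩ := hole_small hS hρ (C := C)
    (fun x hx => Link.mem hx hag)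
    (fun x hx y hy => ((Link.restrict hx).symm fun _ _ h => h.symm).trans (Link.restrict hy))
    (fun x hx y hn hy => Link.trans hx (Link.single (Link.mem hx hag) hy hn))
    ⟨a₁, ha₁, a₂, ha₂, haa⟩ hbg.1 hcon
  have key : ∀ x, Link Nbr (B.goodSet β) b x → cheb x w ≤ cheb w w' := fun x hx =>
    hnear x (hx.restrict.mono fun y hy => ⟨(Link.mem hy hbg).1, fun hyC =>
      hcon (Link.trans hyC (Link.symm (fun _ _ h => h.symm) hy))⟩)
  have := key b₁ hb₁
  have := key b₂ hb₂
  have := cheb_triangle b₁ w b₂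
  have := cheb_comm w b₂
  omega

/-- The large good component exists. -/
lemma giant_nonempty : (B.giant β).Nonempty := by
  classical
  set left : Set V := {z | B.Mem z ∧ z.1 = B.c.1 - B.M} with hleft
  set S : Set V := left ∪ B.goodSet β with hSdef
  set l₀ : V := (B.c.1 - B.M, B.c.2)
  set W : Set V := {z | Link Nbr S l₀ z} with hW
  have hl₀ : l₀ ∈ left := by
    refine ⟨?_, rfl⟩
    rw [mem_iff]; simp only [l₀]; omega
  have hWS : ∀ z ∈ W, z ∈ S := fun z hz => Link.mem hz (.inl hl₀)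
  have hSm : ∀ z ∈ S, B.Mem z := by
    rintro z (h | h)
    exacts [h.1, h.1]
  have hleftW : ∀ z ∈ left, z ∈ W := by
    rintro ⟨a, b⟩ ⟨hm, rfl⟩
    refine link_col (S := S) fun y h1 h2 => .inl ⟨?_, rfl⟩
    rw [mem_iff] at hm ⊢
    dsimp only at hm ⊢
    omega
  set r₀ : V := (B.c.1 + B.M, B.c.2)
  have hr₀ : B.Mem r₀ := by rw [mem_iff]; simp only [r₀]; omega
  by_cases hr : ∃ r ∈ W, r.1 = B.c.1 + B.M
  · obtain ⟨r, hrW, hr1⟩ := hr
    have := Link.induct hrW (P := fun v => v ∈ left ∨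
        ∃ a ∈ B.goodSet β, a.1 ≤ B.c.1 - B.M + 1 ∧ Link Nbr (B.goodSet β) a v)
      (.inl hl₀) fun u v hu hv hn hP => by
        by_cases hvl : v ∈ left
        · exact .inl hvl
        have hvg : v ∈ B.goodSet β := hv.resolve_left hvl
        rcases hP with hP | ⟨a, ha, ha1, hl⟩
        · have := hP.2
          have := nbr_cases hn
          exact .inr ⟨v, hvg, by omega, Link.refl v⟩
        · by_cases hug : u ∈ B.goodSet β
          · exact .inr ⟨a, ha, ha1, hl.trans (Link.single hug hvg hn)⟩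
          · exact absurd (Link.mem hl ha) hug
    rcases this with h | ⟨a, ha, ha1, hl⟩
    · have := h.2
      omega
    · refine ⟨a, ha, a, r, Link.refl a, hl, ?_⟩
      simp only [cheb]
      omega
  · push Not at hr
    exfalso
    set N : Set V := {x | B.Mem x ∧ x ∉ W} with hN
    set D : Set V := {d | Link Nbr N r₀ d} with hD
    have hr₀N : r₀ ∈ N := ⟨hr₀, fun h => hr r₀ h rfl⟩
    have hDN : ∀ d ∈ D, d ∈ N := fun d hd => Link.mem hd hr₀N
    have hDc : ∀ x ∈ D, ∀ y ∈ D, Link Nbr D x y := fun x hx y hy =>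
      ((Link.restrict hx).symm fun _ _ h => h.symm).trans (Link.restrict hy)
    have hWc : ∀ x ∈ W, ∀ y ∈ W, Link Nbr W x y := fun x hx y hy =>
      ((Link.restrict hx).symm fun _ _ h => h.symm).trans (Link.restrict hy)
    have hout : ∀ d ∈ D, ∀ w, B.Mem w → Nbr d w → w ∉ D → w ∈ W := fun d hd w hw hn hwD => by
      by_contra hwC
      exact hwD (Link.trans hd (Link.single (hDN d hd) ⟨hw, hwC⟩ hn))
    have rowcross : ∀ y : ℤ, B.c.2 - B.M ≤ y → y ≤ B.c.2 + B.M →
        ∃ d : V, d.2 = y ∧ d ∈ D ∧ ∃ k ∈ W, Nbr d k := by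
      intro y h1 h2
      have hrow : (B.c.1 + B.M, y) ∈ D := by
        refine link_col (S := N) fun q h3 h4 => ⟨?_, fun h => hr _ h rfl⟩
        rw [mem_iff]; dsimp only; omega
      have := (link_row (S := {x : V | B.Mem x ∧ x.2 = y}) (a := B.c.1 + B.M) (b := B.c.1 - B.M)
        (y := y) fun q h3 h4 => ⟨by rw [mem_iff]; dsimp only; omega, rfl⟩).induct
        (P := fun v => v ∈ D ∨ ∃ d : V, d.2 = y ∧ d ∈ D ∧ ∃ k ∈ W, Nbr d k) (.inl hrow)
        fun u v hu hv hn hP => by
          rcases hP with hP | hP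
          · by_cases hvD : v ∈ D
            · exact .inl hvD
            · exact .inr ⟨u, hu.2, hP, v, hout u hP v hv.1 hn hvD, hn⟩
          · exact .inr hP
      rcases this with h | h
      · exact absurd (hleftW _ ⟨(hDN _ h).1, rfl⟩) (hDN _ h).2
      · exact h
    obtain ⟨d₁, hd₁, hd₁D, hd₁W⟩ := rowcross (B.c.2 + B.M) (by omega) le_rfl
    obtain ⟨d₂, hd₂, hd₂D, hd₂W⟩ := rowcross (B.c.2 - B.M) le_rfl (by omega)
    have hbad : ∀ d ∈ D, (∃ k ∈ W, Nbr d k) → B.Mem d ∧ d ∈ β := by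
      rintro d hd ⟨k, hk, hdk⟩
      refine ⟨(hDN d hd).1, by_contra fun hg => (hDN d hd).2 ?_⟩
      exact Link.trans hk (Link.single (hWS k hk) (.inr ⟨(hDN d hd).1, hg⟩) hdk.symm)
    have hlt := hS d₁ d₂ (hbad d₁ hd₁D hd₁W).2 (hDN d₁ hd₁D).1
      ((inner_boundary_linked (fun d hd => (hDN d hd).1) (fun k hk => hSm k (hWS k hk))
        (fun d hd => (hDN d hd).2) hDc hWc hout hd₁D hd₁W hd₂D hd₂W).mono
        fun d hd => hbad d hd.1 hd.2)
    simp only [cheb] at hlt
    omega

lemma giant_diam : ∃ a ∈ B.giant β, ∃ b ∈ B.giant β, B.M ≤ cheb a b := by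
  obtain ⟨z, hz⟩ := giant_nonempty hS hρ
  obtain ⟨-, a, b, ha, hb, hab⟩ := id hz
  exact ⟨a, giant_of_link hz ha, b, giant_of_link hz hb, hab⟩

/-- Holes lie within `2 * rad` of their points. -/
lemma cheb_hole_le {z d : V} (hz : z ∈ B.holes β) (hd : Link Nbr (B.holes β) z d) :
    cheb z d ≤ 2 * B.rad β z := by
  classical
  obtain ⟨w, w', hwb, hwm, hw'm, hl, -, hnear⟩ := hole_small hS hρ giant_subset
    (fun a ha b hb => giant_linked hS hρ ha hb) (fun a ha b hn hb => giant_max ha hn hb)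
    (giant_diam hS hρ) hz.1 hz.2
  have h1 := hnear z (Link.refl z)
  have h2 := hnear d hd
  have hrad : cheb w w' ≤ B.rad β z := by
    have := le_sup (f := fun q : V × V =>
      if q.1 ∈ β ∧ cheb z q.1 ≤ cheb q.1 q.2 ∧ Link King {x | B.Mem x ∧ x ∈ β} q.1 q.2
      then cheb q.1 q.2 else 0) (b := (w, w'))
      (s := B.memFinset ×ˢ B.memFinset) (by simp [mem_memFinset, hwm, hw'm])
    simp only [hwb, h1, hl, and_self, if_true] at this
    exact this
  have := cheb_triangle z w d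
  have := cheb_comm w d
  omega

omit hρ in
lemma rad_le (z : V) : B.rad β z ≤ ρ := by
  classical
  refine Finset.sup_le fun q hq => ?_
  split_ifs with h
  · simp only [mem_product, mem_memFinset] at hq
    exact (hS q.1 q.2 h.1 hq.1 h.2.2).le
  · exact Nat.zero_le _

/-- A good set which reaches far meets the large component. -/
lemma giant_of_far {u a : V} (hu : u ∈ B.goodSet β) (h : Link Nbr (B.goodSet β) u a)
    (hfar : 2 * ρ < cheb u a) : u ∈ B.giant β := by
  by_contra hcon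
  have := cheb_hole_le hS hρ (z := u) (d := a) ⟨hu.1, hcon⟩ (h.restrict.mono fun x hx =>
    ⟨(Link.mem hx hu).1, fun hxg => hcon (giant_of_link hxg (Link.symm (fun _ _ h => h.symm) hx))⟩)
  have := rad_le hS u
  omega

lemma reps_nonempty {z : V} (hz : B.Mem z) : (B.reps β z).Nonempty := by
  by_cases hzg : z ∈ B.giant β
  · exact ⟨z, .inl ⟨hzg, rfl⟩⟩
  · obtain ⟨g, hg⟩ := giant_nonempty hS hρ
    obtain ⟨d, u, hd, hu, hdu, -, -⟩ := exists_exit hzg hg (link_mem hz hg.1.1)
    exact ⟨u, .inr ⟨hzg, hu, d, hd, hdu⟩⟩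

lemma cheb_reps_le {z u : V} (hz : B.Mem z) (hu : u ∈ B.reps β z) :
    cheb z u ≤ 2 * B.rad β z + 1 := by
  rcases hu with ⟨-, rfl⟩ | ⟨hzg, -, d, hd, hdu⟩
  · simp [cheb_self]
  · have := cheb_hole_le hS hρ ⟨hz, hzg⟩ hd
    have := cheb_triangle z d u
    have := cheb_of_nbr hdu
    omega

omit hS hρ in
lemma reps_subset {z : V} : B.reps β z ⊆ B.giant β := by
  rintro u (⟨h, rfl⟩ | ⟨-, h, -⟩) <;> exact h

lemma reps_linked {z u u' : V} (hz : B.Mem z) (hu : u ∈ B.reps β z) (hu' : u' ∈ B.reps β z) :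
    Link King (B.reps β z) u u' := by
  rcases hu with ⟨hzg, rfl⟩ | ⟨hzg, hu, hd⟩
  · rcases hu' with ⟨-, rfl⟩ | ⟨h, -⟩
    · exact Link.refl _
    · exact absurd hzg h
  rcases hu' with ⟨h, -⟩ | ⟨-, hu', hd'⟩
  · exact absurd h hzg
  have hD : ∀ d ∈ {d | Link Nbr (B.holes β) z d}, d ∈ B.holes β := fun d hd =>
    Link.mem hd ⟨hz, hzg⟩
  refine (outer_boundary_linked (D := {d | Link Nbr (B.holes β) z d}) (K := B.giant β)
    (fun d hd => (hD d hd).1) (fun k hk => hk.1.1) (fun d hd => (hD d hd).2)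
    (fun x hx y hy => ((Link.restrict hx).symm fun _ _ h => h.symm).trans (Link.restrict hy))
    (fun a ha b hb => giant_linked hS hρ ha hb) (fun d hd w hw hn hwD => ?_) hu hd hu' hd').mono
    fun w hw => .inr ⟨hzg, hw.1, hw.2⟩
  by_contra hwg
  exact hwD (Link.trans hd (Link.single (hD d hd) ⟨hw, hwg⟩ hn))

omit hS hρ in
/-- Representatives of neighbours touch. -/
lemma reps_adjacent {z z' : V} (hz : B.Mem z) (hz' : B.Mem z') (hn : Nbr z z')
    (hne : (B.reps β z).Nonempty) :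
    (∃ u, u ∈ B.reps β z ∧ u ∈ B.reps β z') ∨ (z ∈ B.reps β z ∧ z' ∈ B.reps β z') := by
  by_cases hg : z ∈ B.giant β <;> by_cases hg' : z' ∈ B.giant β
  · exact .inr ⟨.inl ⟨hg, rfl⟩, .inl ⟨hg', rfl⟩⟩
  · exact .inl ⟨z, .inl ⟨hg, rfl⟩, .inr ⟨hg', hg, z', Link.refl z', hn.symm⟩⟩
  · exact .inl ⟨z', .inr ⟨hg, hg', z, Link.refl z, hn⟩, .inl ⟨hg', rfl⟩⟩
  · obtain ⟨u, hu⟩ := hne
    refine .inl ⟨u, hu, ?_⟩
    rcases hu with ⟨h, -⟩ | ⟨-, hu, d, hd, hdu⟩
    · exact absurd h hg
    · exact .inr ⟨hg', hu, d, (Link.single (S := B.holes β) ⟨hz', hg'⟩ ⟨hz, hg⟩ hn.symm).trans hd, hdu⟩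

/-- A walk from far away to `z` passes a representative of `z`. -/
lemma walk_meets_reps {f : ℕ → V} {m : ℕ} {x z : V} (hf : B.IsWalk f m x z)
    (hfar : 2 * B.rad β z < cheb z x) : ∃ l ≤ m, f l ∈ B.reps β z := by
  by_contra hcon
  push Not at hcon
  have hz := hf.mem_right
  have hzg : z ∉ B.giant β := fun h => hcon m le_rfl (.inl ⟨h, hf.1.2.1⟩)
  have key : ∀ j ≤ m, Link Nbr (B.holes β) z (f (m - j)) := by
    intro j
    induction j with
    | zero => intro _; rw [Nat.sub_zero, hf.1.2.1]; exact Link.refl z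
    | succ j ih =>
      intro hj
      have h := ih (by omega)
      have e : m - j = m - (j + 1) + 1 := by omega
      have hn : Nbr (f (m - j)) (f (m - (j + 1))) := by
        rw [e]; exact (hf.1.2.2 _ (by omega)).symm
      refine h.trans (Link.single (Link.mem h (show z ∈ B.holes β from ⟨hz, hzg⟩)) ⟨hf.2 _ (by omega), fun hg => ?_⟩ hn)
      exact hcon _ (Nat.sub_le m (j + 1)) (.inr ⟨hzg, hg, _, h, hn⟩)
  have := cheb_hole_le hS hρ ⟨hz, hzg⟩ (key m le_rfl)
  rw [Nat.sub_self, hf.1.1] at this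
  omega

variable {t : Env} {c : ℝ}

/-- Two representatives of one vertex are joined at bounded cost. -/
lemma dist_reps_le (ht : ∀ e, 0 ≤ t e) (hc : 0 ≤ c) {z u u' : V} (hz : B.Mem z)
    (hcheap : ∀ w ∈ B.reps β z, ∀ v, Nbr w v → t s(w, v) ≤ c)
    (hu : u ∈ B.reps β z) (hu' : u' ∈ B.reps β z) :
    B.dist t u u' ≤ 2 * c * ((4 * B.rad β z + 3 : ℕ) : ℝ) ^ 2 := by
  classical
  obtain ⟨m, f, h0, hm, hf, hsimp⟩ := (reps_linked hS hρ hz hu hu').exists_chain
  have hmemf : ∀ i ≤ m, f i ∈ B.reps β z := by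
    intro i hi
    rcases Nat.lt_or_ge i m with h | h
    · exact (hf i h).1
    · obtain rfl : i = m := by omega
      rw [hm]; exact hu'
  have hB : ∀ w ∈ B.reps β z, B.Mem w := fun w hw => (reps_subset hw).1.1
  have hstep : ∀ a b, a ∈ B.reps β z → b ∈ B.reps β z → King a b →
      B.dist t a b ≤ 2 * c := by
    intro a b ha hb hk
    by_cases hab : a = b
    · subst hab; rw [dist_self ht (hB a ha)]; linarith
    by_cases hn : Nbr a b
    · linarith [dist_le_edge ht (hB a ha) (hB b hb) hn, hcheap a ha b hn]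
    · have ha' := hB a ha
      have hb' := hB b hb
      rw [mem_iff] at ha' hb'
      simp only [King, abs_le] at hk
      have hw : B.Mem (a.1, b.2) := by rw [mem_iff]; dsimp only; omega
      obtain ⟨n1, n2⟩ : Nbr a (a.1, b.2) ∧ Nbr b (a.1, b.2) := by
        rcases (show b.1 = a.1 ∨ b.1 = a.1 + 1 ∨ b.1 = a.1 - 1 by omega) with e1 | e1 | e1 <;>
          rcases (show b.2 = a.2 ∨ b.2 = a.2 + 1 ∨ b.2 = a.2 - 1 by omega) with e2 | e2 | e2 <;>
          first
          | exact absurd (Prod.ext e1.symm e2.symm) hab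
          | (refine absurd ?_ hn; simp [Nbr, e1, e2]; done)
          | constructor <;> simp [Nbr, e1, e2]
      have := dist_triangle (B := B) ht (hB a ha) hw (hB b hb)
      have := dist_le_edge ht (hB a ha) hw n1
      have := dist_le_edge ht (hB b hb) hw n2
      rw [dist_comm B t (a.1, b.2) b] at *
      linarith [hcheap a ha _ n1, hcheap b hb _ n2]
  have hsum : ∀ k ≤ m, B.dist t u (f k) ≤ 2 * c * k := by
    intro k
    induction k with
    | zero => intro _; rw [h0, dist_self ht (hB u hu)]; simp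
    | succ k ih =>
      intro hk
      have := dist_triangle (B := B) ht (hB u hu) (hB _ (hmemf k (by omega))) (hB _ (hmemf _ hk))
      have := hstep _ _ (hmemf k (by omega)) (hmemf _ hk) (hf k hk).2.2
      have := ih (by omega)
      push_cast
      linarith
  have hcard : m + 1 ≤ (4 * B.rad β z + 3) ^ 2 := by
    set r := 2 * B.rad β z + 1 with hr
    have := card_le_card_of_injOn (s := range (m + 1))
      (t := Finset.Icc (z.1 - r) (z.1 + r) ×ˢ Finset.Icc (z.2 - r) (z.2 + r)) f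
      (fun i hi => by
        have := cheb_reps_le hS hρ hz (hmemf i (by simpa [Nat.lt_succ_iff] using hi))
        simp only [cheb] at this
        simp only [coe_product, Set.mem_prod, coe_Icc, Set.mem_Icc]
        omega)
      (fun i hi j hj e => hsimp i (by simpa [Nat.lt_succ_iff] using hi) j
        (by simpa [Nat.lt_succ_iff] using hj) e)
    rw [card_range, card_product, Int.card_Icc, Int.card_Icc,
      show (z.1 + (r : ℤ) + 1 - (z.1 - r)).toNat = 4 * B.rad β z + 3 by omega,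
      show (z.2 + (r : ℤ) + 1 - (z.2 - r)).toNat = 4 * B.rad β z + 3 by omega, ← sq] at this
    exact this
  have h1 := hsum m le_rfl
  rw [hm] at h1
  refine h1.trans (mul_le_mul_of_nonneg_left ?_ (by linarith))
  exact_mod_cast (by omega : m ≤ (4 * B.rad β z + 3) ^ 2)

/-- Representatives along a walk are joined at the cost of the local terms. -/
lemma dist_reps_walk (ht : ∀ e, 0 ≤ t e) (hc : 0 ≤ c) {f : ℕ → V} {n : ℕ} {x y : V}
    (hf : B.IsWalk f n x y)
    (hcheap : ∀ i ≤ n, ∀ w ∈ B.reps β (f i), ∀ v, Nbr w v → t s(w, v) ≤ c)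
    {u u' : V} (hu : u ∈ B.reps β x) (hu' : u' ∈ B.reps β y) :
    B.dist t u u' ≤
      ∑ i ∈ range (n + 1), (2 * c * ((4 * B.rad β (f i) + 3 : ℕ) : ℝ) ^ 2 + c) := by
  obtain ⟨⟨rfl, rfl, hfn⟩, hfm⟩ := hf
  suffices H : ∀ k ≤ n, ∀ v ∈ B.reps β (f k), B.dist t u v ≤
      ∑ i ∈ range (k + 1), (2 * c * ((4 * B.rad β (f i) + 3 : ℕ) : ℝ) ^ 2 + c) by
    exact H n le_rfl u' hu'
  intro k
  induction k with
  | zero =>
    intro _ v hv
    have := dist_reps_le hS hρ ht hc (hfm 0 (by omega)) (hcheap 0 (by omega)) hu hv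
    rw [sum_range_one]
    linarith
  | succ k ih =>
    intro hk v hv
    have hk' : k ≤ n := by omega
    have hm := hfm k hk'
    have hm' := hfm (k + 1) hk
    have hn := hfn k (by omega)
    have hB : ∀ {z w : V}, w ∈ B.reps β z → B.Mem w := fun hw => (reps_subset hw).1.1
    rw [sum_range_succ]
    rcases reps_adjacent hm hm' hn (reps_nonempty hS hρ hm) with ⟨w, hw, hw'⟩ | ⟨hw, hw'⟩
    · have := dist_triangle (B := B) ht (hB hu) (hB hw) (hB hv)
      have := dist_reps_le hS hρ ht hc hm' (hcheap _ hk) hw' hv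
      linarith [ih hk' w hw]
    · have := dist_triangle (B := B) ht (hB hu) (hB hw) (hB hw')
      have := dist_triangle (B := B) ht (hB hu) (hB hw') (hB hv)
      have := dist_reps_le hS hρ ht hc hm' (hcheap _ hk) hw' hv
      linarith [ih hk' _ hw, dist_le_edge ht hm hm' hn, hcheap k hk' _ hw _ hn]

end Box

end Vale.Agent.P158.NB
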