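import Vale.Agent.P158.NB.Lower

/-!
The end piece of an optimal walk before a step, and the lowering of its good edges (`PROOF.md`,
sections 7-9).
-/

open Finset MeasureTheory

namespace Vale.Agent.P158.NB

namespace Box

variable {B : Box} {t : Env} {x y p q : V}

/-- The last `L` steps of an optimal walk towards `p`, and the step to `q`. -/
theorem exists_tail (ht : ∀ e, 0 < t e) (hx : B.Bdry x) (hy : B.Mem y) (hth : B.Thru t x y p q)
    {L : ℕ} (hball : ∀ z, (Box.mk p L).Mem z → B.Inner z) :
    ∃ (f : ℕ → V) (v : V), B.IsWalk f (L + 1) v q ∧ IsSimple f (L + 1) ∧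
      (∀ l ≤ L + 1, (Box.mk p (L + 1)).Mem (f l)) ∧ (Box.mk p L).Mem v ∧
      B.dist t x p = B.dist t x v + B.dist t v p ∧
      pathCost t f (L + 1) = B.dist t v p + t s(p, q) := by
  have ht0 : ∀ e, 0 ≤ t e := fun e => (ht e).le
  obtain ⟨m, g, hg, hgs, hgc⟩ := exists_optimal ht0 hx.1 hth.mem_left
  have hstep : ∀ d ≤ m, (Box.mk p d).Mem (g (m - d)) := by
    intro d
    induction d with
    | zero =>
      intro _
      simp [Box.Mem, hg.1.2.1]
    | succ d ih =>
      intro hd
      have h1 := ih (by omega)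
      have h2 := hg.1.2.2 (m - (d + 1)) (by omega)
      rw [show m - (d + 1) + 1 = m - d by omega] at h2
      simp only [mem_iff, Nat.cast_add, Nat.cast_one] at h1 ⊢
      have h3 := nbr_cases h2
      omega
  have hLm : L ≤ m := by
    by_contra hlt
    have h1 := hstep m le_rfl
    rw [Nat.sub_self, hg.1.1] at h1
    exact hx.2 (hball _ (by
      simp only [mem_iff] at h1 ⊢
      omega))
  set v := g (m - L) with hv
  set f := Box.append (fun l => g (m - L + l)) L (fun l => if l = 0 then p else q) with hf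
  have hg2 : B.IsWalk (fun l => g (m - L + l)) L v p := by
    have := hg.suffix (i := m - L) (Nat.sub_le _ _)
    rwa [show m - (m - L) = L by omega] at this
  have hfv : ∀ l ≤ L, f l = g (m - L + l) := fun l hl => by rw [hf, append_left hl]
  have hfq : f (L + 1) = q := by simp [hf, Box.append]
  have hqg : ∀ l ≤ m, g l ≠ q := by
    intro l hl hlq
    have h1 := dist_le ht0 (hg.initSeg (i := l) hl)
    have h2 := hth.dist_left ht0 hx.1 hy
    have h4 := pathCost_split t g hl
    have h5 := pathCost_nonneg ht0 (fun r => g (l + r)) (m - l)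
    rw [hlq] at h1
    linarith [ht s(p, q)]
  refine ⟨f, v, hg2.append (isWalk_edge hth.mem_left hth.mem_right hth.1), ?_, ?_, hstep L hLm, ?_⟩
  · intro a ha b hb hab
    rcases Nat.lt_or_ge a (L + 1) with ha' | ha' <;> rcases Nat.lt_or_ge b (L + 1) with hb' | hb'
    · rw [hfv a (by omega), hfv b (by omega)] at hab
      have := hgs _ (by omega) _ (by omega) hab
      omega
    · rw [hfv a (by omega), show b = L + 1 by omega, hfq] at hab
      exact absurd hab (hqg _ (by omega))
    · rw [hfv b (by omega), show a = L + 1 by omega, hfq] at hab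
      exact absurd hab.symm (hqg _ (by omega))
    · omega
  · intro l hl
    rcases Nat.lt_or_ge l (L + 1) with hl' | hl'
    · rw [hfv l (by omega)]
      have h1 := hstep (L - l) (by omega)
      rw [show m - (L - l) = m - L + l by omega] at h1
      simp only [mem_iff] at h1 ⊢
      omega
    · rw [show l = L + 1 by omega, hfq]
      have := nbr_cases hth.1
      simp only [mem_iff]
      omega
  · have h1 := dist_le ht0 (hg.initSeg (i := m - L) (Nat.sub_le _ _))
    have h2 := dist_le ht0 hg2
    have h3 := dist_triangle ht0 hx.1 hg2.mem_left hth.mem_left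
    have h4 := pathCost_split t g (show m - L ≤ m from Nat.sub_le _ _)
    rw [show m - (m - L) = L by omega] at h4
    rw [← hv] at h1
    refine ⟨by linarith, ?_⟩
    rw [hf, pathCost_append t (f := fun l => g (m - L + l))
      (g := fun l => if l = 0 then p else q) hg2.1.2.1 1]
    have h6 : pathCost t (fun l => if l = 0 then p else q) 1 = t s(p, q) := by simp [pathCost]
    linarith

/-- Options for lowering the good edges of a simple walk of `L + 1` steps by amounts between `κ`
and `η` each: the cost drops by at least `L κ / 2` and the total is at most `L η`. -/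
theorem exists_lowering (ht : ∀ e, 0 < t e) {f : ℕ → V} {L : ℕ}
    (hN : ∀ i < L + 1, Nbr (f i) (f (i + 1))) (hfs : IsSimple f (L + 1))
    (hball : ∀ l ≤ L + 1, (Box.mk p (L + 1)).Mem (f l)) (hf0 : (Box.mk p L).Mem (f 0))
    {Good : Set ℝ} {η κ : ℝ} {T : Finset (Set ℝ)} (hT : ∀ S ∈ T, S ⊆ Set.Ioi 0)
    (hGood : ∀ v ∈ Good, ∃ S ∈ T, S ⊆ Set.Icc (v - η) (v - κ)) (hκ : 0 ≤ κ) (hη : 0 ≤ η)
    (hfew : t ∉ FewGood Good (Box.mk p L) L) :
    ∃ E : Finset (Sym2 V), E ⊆ (Box.mk p (L + 1)).pairs ∧ E ⊆ pathEdges f (L + 1) ∧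
      ∃ S : Sym2 V → Set ℝ, (∀ e ∈ E, S e ∈ T) ∧ ∀ s : Env, (∀ e ∈ E, s e ∈ S e) →
        (∀ e, 0 < E.piecewise s t e) ∧ (∀ e, E.piecewise s t e ≤ t e) ∧
          pathCost (E.piecewise s t) f (L + 1) = pathCost t f (L + 1) -
            ∑ e ∈ E, (t e - E.piecewise s t e) ∧
          L / 2 * κ ≤ ∑ e ∈ E, (t e - E.piecewise s t e) ∧
          ∑ e ∈ E, (t e - E.piecewise s t e) ≤ L * η := by
  classical
  obtain ⟨J, hJ, hJc, hJg⟩ :=
    many_good_of_not_fewGood hfew (f := f) (m := L + 1) (Nat.le_succ L) hf0 hN hfs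
  set E := J.image fun l => s(f l, f (l + 1)) with hE
  have hEp : E ⊆ (Box.mk p (L + 1)).pairs := fun e he => by
    obtain ⟨l, hl, rfl⟩ := mem_image.1 he
    have := mem_range.1 (hJ hl)
    exact mem_pairs.2 ⟨hball l (by omega), hball (l + 1) (by omega)⟩
  have hEf : E ⊆ pathEdges f (L + 1) :=
    image_subset_image (hJ.trans (range_subset_range.2 (Nat.le_succ L)))
  have hcard : E.card = J.card := card_image_of_injOn fun a ha b hb he => by
    have := mem_range.1 (hJ ha); have := mem_range.1 (hJ hb)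
    exact hfs.edge_inj (by omega) (by omega) he
  have hsel : ∀ e ∈ E, ∃ S ∈ T, S ⊆ Set.Icc (t e - η) (t e - κ) := fun e he => by
    obtain ⟨l, hl, rfl⟩ := mem_image.1 he
    exact hGood _ (hJg l hl)
  choose! S hS hSs using hsel
  refine ⟨E, hEp, hEf, S, hS, fun s hs => ?_⟩
  have hout : ∀ e, e ∉ E → E.piecewise s t e = t e := fun e he => piecewise_eq_of_notMem _ _ _ he
  have hin : ∀ e ∈ E, 0 < E.piecewise s t e ∧ t e - η ≤ E.piecewise s t e ∧
      E.piecewise s t e ≤ t e - κ := fun e he => by
    rw [piecewise_eq_of_mem _ _ _ he]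
    exact ⟨hT _ (hS e he) (hs e he), hSs e he (hs e he)⟩
  refine ⟨fun e => ?_, fun e => ?_, pathCost_lower_of_subset hout hfs hEf, ?_, ?_⟩
  · by_cases he : e ∈ E
    · exact (hin e he).1
    · rw [hout e he]; exact ht e
  · by_cases he : e ∈ E
    · linarith [(hin e he).2.2]
    · rw [hout e he]
  · refine le_trans ?_ (card_nsmul_le_sum E _ κ fun e he => by linarith [(hin e he).2.2])
    rw [nsmul_eq_mul, hcard]
    refine mul_le_mul_of_nonneg_right ?_ hκ
    rw [div_le_iff₀ two_pos]
    exact_mod_cast (by omega : L ≤ J.card * 2)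
  · refine (sum_le_card_nsmul E _ η fun e he => by linarith [(hin e he).2.1]).trans ?_
    rw [nsmul_eq_mul, hcard]
    refine mul_le_mul_of_nonneg_right ?_ hη
    have := card_le_card hJ
    rw [card_range] at this
    exact_mod_cast this

/-- An optimal segment whose end piece `f` is lowered on `E` keeps every edge of `f`, directed as
in `f`. -/
theorem thru_tail {t' : Env} {E : Finset (Sym2 V)} {f : ℕ → V} {n : ℕ} {v : V}
    (ht' : ∀ e, 0 ≤ t' e) (hle : ∀ e, t' e ≤ t e)
    (heq : ∀ e, e ∉ E → t' e = t e) (hx : B.Mem x) (hy : B.Mem y) (hth : B.Thru t x y p q)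
    (hvp : B.dist t x p = B.dist t x v + B.dist t v p) (hf : B.IsWalk f n v q)
    (hc : pathCost t' f n = B.dist t v p + t s(p, q) - ∑ e ∈ E, (t e - t' e))
    {k : ℕ} (hk : k < n) : B.Thru t' x y (f k) (f (k + 1)) := by
  have hfk := hf.2 k hk.le
  have hfk1 := hf.2 (k + 1) hk
  refine ⟨hf.1.2.2 k hk, hfk, hfk1, le_antisymm
    (dist_le_through ht' hx hy hfk hfk1 (hf.1.2.2 k hk)) ?_⟩
  have h1 := dist_lower (B := B) ht' hle E heq hx hy
  have h2 := dist_triangle ht' hx hf.mem_left hfk
  have h3 := dist_triangle ht' hfk1 hf.mem_right hy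
  have h4 := dist_mono ht' hle hx hf.mem_left
  have h5 := dist_mono ht' hle hf.mem_right hy
  have h6 := dist_le ht' (hf.initSeg (i := k) hk.le)
  have h7 := dist_le ht' (hf.suffix (i := k + 1) hk)
  have h8 : pathCost t' f n = pathCost t' f k + t' s(f k, f (k + 1))
      + pathCost t' (fun l => f (k + 1 + l)) (n - (k + 1)) := by
    rw [pathCost_split t' f (show k + 1 ≤ n from hk)]
    congr 1
    simp [pathCost, sum_range_succ]
  linarith [hth.2.2.2]

end Box

end Vale.Agent.P158.NB
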