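import Vale.Agent.P158.NB.MainCore
import Vale.Agent.P158.NB.Classify
import Vale.Agent.P158.NB.TailPiece
import Vale.Agent.P158.NB.Horizontal

/-!
Roots in one tile (`PROOF.md`, section 7): segments without a mate use few edges; a mate forces,
after lowering, two roots in different bins with one optimal edge; these give a grid position with
a margin towards the root.
-/

open Finset MeasureTheory

namespace Vale.Agent.P158.NB

namespace Box

variable {B S : Box} {t : Env}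

/-- Another segment to the same root agrees with this one up to `C` on the tile, but not up to
`ε`. -/
def RootMate (B S : Box) (T : Set ℕ) (b : ℕ) (δ C ε : ℝ) (p q : V) (t : Env) : Prop :=
  ∃ i i' p' q', B.Seg t i b p q δ ∧ B.Seg t i' b p' q' δ ∧ i ∈ T ∧ i' ∈ T ∧ b ∈ T ∧
    S.Mem p' ∧ S.Mem q' ∧ OscLe S (B.diff t (B.pos i) (B.pos i')) C ∧
    ¬ OscLe S (B.diff t (B.pos i) (B.pos i')) ε

/-- No bin of the grid holds both positions. -/
def NoBin (B : Box) (n i j : ℕ) : Prop :=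
  ∀ l, ¬ ((Frame.full B n).InBin l i ∧ (Frame.full B n).InBin l j)

/-- Two admissible roots in different bins with one optimal step towards `b` in the window. -/
def RootShared (B S : Box) (n : ℕ) (T : Set ℕ) (b : ℕ) (t : Env) : Prop :=
  ∃ p q i i', S.Mem p ∧ S.Mem q ∧ i ∈ T ∧ i' ∈ T ∧ b ∈ T ∧ i ≤ B.len ∧ i' ≤ B.len ∧
    B.NoBin n i i' ∧ B.Thru t (B.pos i) (B.pos b) p q ∧ B.Thru t (B.pos i') (B.pos b) p q

/-- Segments to one root without mates use few steps. -/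
theorem card_rootless_mates {T : Set ℕ} {b : ℕ} {δ C ε η ρ X : ℝ} {S₂ : Box} {N : ℕ}
    {z w : ℕ → V} (ht : ∀ e, 0 < t e) (hb : b ≤ B.len) (hS₂ : ∀ z, S₂.Mem z → B.Mem z)
    (hS : ∀ z, S.Mem z → S₂.Mem z) (hc : S₂.c = S.c) (hmem : ∀ i < N, B.Mem (z i) ∧ B.Mem (w i))
    (hX : ∑ i ∈ range N, B.dist t (z i) (w i) ≤ X)
    (hframe : ∀ a a', a ≤ B.len → a' ≤ B.len → OscLe S (B.diff t (B.pos a) (B.pos a'))
      (∑ i ∈ range N, |B.diff t (B.pos a) (B.pos a') (z i) - B.diff t (B.pos a) (B.pos a') (w i)|))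
    (hX0 : 0 ≤ X) (hC : 0 < C) (hε : 0 ≤ ε) (hεδ : 2 * ε < δ) (hεη : 3 * ε < η) (hρ : 0 ≤ ρ)
    (U : Finset (V × V))
    (hU : ∀ d ∈ U, S.Mem d.1 ∧ S.Mem d.2 ∧
      (∃ i, B.Seg t i b d.1 d.2 δ ∧ i ∈ T ∧ b ∈ T) ∧ Reg S₂ η ρ d.1 t ∧
      ¬ B.RootMate S T b δ C ε d.1 d.2 t) :
    (U.card : ℝ) ≤ (12 * X / C + 1) * (4 * (2 * ρ / (η - 3 * ε) + 1)) := by
  classical
  have ht0 : ∀ e, 0 ≤ t e := fun e => (ht e).le
  have hSB : ∀ z, S.Mem z → B.Mem z := fun z hz => hS₂ z (hS z hz)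
  have hcc : S₂.Mem S₂.c := by simp [Box.Mem]
  obtain ⟨lab, hlab, hsame⟩ := Labels.exists_labels (c := 6) (by norm_num) hmem hX hframe
    (fun _ _ hz hw _ hk hkl _ => bv_monotone ht0 hz hw hk hkl) (range (B.len + 1)) id (fun _ => b)
    (fun i hi => Nat.lt_succ_iff.1 (mem_range.1 hi)) (fun _ _ => hb) (fun _ _ _ _ _ => le_rfl) hC
  choose! root hseg hrT hbT using fun d (hd : d ∈ U) => (hU d hd).2.2.1
  have hr : ∀ d ∈ U, root d ∈ range (B.len + 1) := fun d hd =>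
    mem_range.2 (Nat.lt_succ_of_le (hseg d hd).1)
  set E := 4 * (2 * ρ / (η - 3 * ε) + 1) with hE
  have hE0 : 0 ≤ E := by
    have : 0 < η - 3 * ε := by linarith
    positivity
  have hkey : ∀ l, ((U.filter fun d => lab (root d) = l).card : ℝ) ≤ E := by
    intro l
    set Ul := U.filter fun d => lab (root d) = l with hUl
    have hmemU : ∀ d ∈ Ul, d ∈ U := fun d hd => (mem_filter.1 hd).1
    have hosc : ∀ d ∈ Ul, ∀ d' ∈ Ul,
        OscLe S (B.diff t (B.pos (root d)) (B.pos (root d'))) ε := by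
      intro d hd d' hd'
      by_contra hn
      exact (hU d (hmemU d hd)).2.2.2.2 ⟨root d, root d', d'.1, d'.2, hseg d (hmemU d hd),
        hseg d' (hmemU d' hd'), hrT d (hmemU d hd), hrT d' (hmemU d' hd'), hbT d (hmemU d hd),
        (hU d' (hmemU d' hd')).1, (hU d' (hmemU d' hd')).2.1,
        (hsame _ (hr d (hmemU d hd)) _ (hr d' (hmemU d' hd'))
          ((mem_filter.1 hd).2.trans (mem_filter.1 hd').2.symm)).1, hn⟩
    have h := card_class_edges B ht S hSB Ul (fun d => B.pos (root d)) (fun _ => B.pos b)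
      Prod.fst Prod.snd (c := S₂.c) (δ := δ) (η := η) (ρ := ρ) (ε := ε) (hS₂ _ hcc) hρ hε hεδ hεη
      (fun d hd => ⟨B.pos_mem (hseg d (hmemU d hd)).1, B.pos_mem hb⟩)
      (fun d hd => ⟨(hseg d (hmemU d hd)).2.2.1, (hseg d (hmemU d hd)).2.2.2⟩)
      (fun d hd => ⟨(hU d (hmemU d hd)).1, (hU d (hmemU d hd)).2.1⟩)
      (fun d hd d' hd' => ⟨hosc d hd d' hd',
        fun z w _ _ => by simp only [Box.diff, sub_self]; exact hε⟩)
      (fun d hd d' hd' hne => (hU d (hmemU d hd)).2.2.2.1.1.le_dist ht0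
        (hSB _ (hU d (hmemU d hd)).1) (hSB _ (hU d' (hmemU d' hd')).1) hne)
      (fun d hd => (dist_le_sub ht0 hS₂ hcc (hS _ (hU d (hmemU d hd)).1)).trans
        (hU d (hmemU d hd)).2.2.2.1.2)
    have hinj : Set.InjOn (fun d : V × V => s(d.1, d.2)) Ul := by
      intro d hd d' hd' he
      have h1 := hseg d (hmemU d hd)
      have h2 := hseg d' (hmemU d' hd')
      obtain ⟨e1, e2⟩ := h1.2.2.1.same_root h2.2.2.1 ht0 (ht _) (B.pos_mem h1.1)
        (B.pos_mem h2.1) (B.pos_mem hb) he.symm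
      exact Prod.ext e1.symm e2.symm
    rw [card_image_of_injOn hinj] at h
    exact h
  have hsub : U ⊆ (range (⌊12 * X / C⌋₊ + 1)).biUnion fun l => U.filter fun d => lab (root d) = l :=
    fun d hd => mem_biUnion.2 ⟨lab (root d), mem_range.2 (Nat.lt_succ_of_le (Nat.le_floor
      ((hlab _ (hr d hd)).trans_eq (by norm_num)))), mem_filter.2 ⟨hd, rfl⟩⟩
  refine (Nat.cast_le.2 ((card_le_card hsub).trans card_biUnion_le)).trans ?_
  rw [Nat.cast_sum]
  refine (sum_le_card_nsmul _ _ E fun l _ => hkey l).trans ?_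
  rw [card_range, nsmul_eq_mul]
  push_cast
  exact mul_le_mul_of_nonneg_right
    (by linarith [Nat.floor_le (show (0 : ℝ) ≤ 12 * X / C by positivity)]) hE0

/-- A mate forces, after lowering the end of the segment, a shared step. -/
theorem rootShared_of_mate {n : ℕ} {T : Set ℕ} {b : ℕ} {δ C ε η κ : ℝ} {p q : V} {L : ℕ}
    {Good : Set ℝ} {Ts : Finset (Set ℝ)} (ht : ∀ e, 0 < t e)
    (hm : B.RootMate S T b δ C ε p q t) (hC : 0 ≤ C)
    (hcont : ¬ (⟨B, n, (Frame.full B n).g, T⟩ : Frame).ContBad S δ (ε / 2) t)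
    (hp : S.Mem p) (hq : S.Mem q) (hball : ∀ z, (Box.mk p (L + 1)).Mem z → S.Mem z)
    (hin : ∀ z, (Box.mk p L).Mem z → B.Inner z)
    (hTs : ∀ A ∈ Ts, A ⊆ Set.Ioi 0) (hGood : ∀ v ∈ Good, ∃ A ∈ Ts, A ⊆ Set.Icc (v - η) (v - κ))
    (hκ : 0 ≤ κ) (hη : 0 ≤ η) (hG : 3 * C < L / 2 * κ)
    (hfew : t ∉ FewGood Good (Box.mk p L) L) :
    ∃ E ⊆ (Box.mk p (L + 1)).pairs, ∃ A : Sym2 V → Set ℝ, (∀ e ∈ E, A e ∈ Ts) ∧
      ∀ s : Env, (∀ e ∈ E, s e ∈ A e) → (∀ e, 0 < E.piecewise s t e) ∧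
        (∀ e, E.piecewise s t e ≤ t e) ∧ ∀ T' : Set ℕ, T ⊆ T' → B.RootShared S n T' b (E.piecewise s t) := by
  classical
  have ht0 : ∀ e, 0 ≤ t e := fun e => (ht e).le
  obtain ⟨i, i', p', q', hu, hv, hiT, hi'T, hbT, hp', hq', hC', hfar⟩ := hm
  have hx := B.pos_mem hu.1
  have hy := B.pos_mem hu.2.1
  have hx' := B.pos_mem hv.1
  have hbin : B.NoBin n i i' := by
    rintro l ⟨hl, hl'⟩
    have key : ∀ {a : ℕ} {p q : V}, B.Seg t a b p q δ → a ∈ T → S.Mem p → S.Mem q →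
        (Frame.full B n).InBin l a →
        OscLe S (B.diff t (B.pos ((Frame.full B n).g (l + 1))) (B.pos a)) (ε / 2) := by
      intro a p q hs haT hp hq hl
      by_contra hn
      exact hcont ⟨q, p, b, a, l, _, hq, hp, ⟨hs.symm, hbT, haT⟩, hl, Or.inr rfl, hn⟩
    have h1 := key hu hiT hp hq hl
    have h2 := key hv hi'T hp' hq' hl'
    refine hfar fun z w hz hw => ?_
    have := h1 w z hw hz
    have := h2 z w hz hw
    simp only [Box.diff] at *
    linarith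
  obtain ⟨f, v, hf, hfs, hfM, hvM, hvp, hfc⟩ :=
    exists_tail ht (B.pos_bdry hu.1) hy hu.2.2.1 (L := L) hin
  obtain ⟨E, hEp, hEf, A, hA, hopt⟩ := exists_lowering ht hf.1.2.2 hfs hfM
    (by rw [hf.1.1]; exact hvM) hTs hGood hκ hη hfew
  refine ⟨E, hEp, A, hA, fun s hs => ?_⟩
  obtain ⟨hpos, hle, hcost, hlow, -⟩ := hopt s hs
  refine ⟨hpos, hle, fun T' hT' => ?_⟩
  set t' := E.piecewise s t with ht'def
  have ht' : ∀ e, 0 ≤ t' e := fun e => (hpos e).le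
  have heq : ∀ e, e ∉ E → t' e = t e := fun e he => piecewise_eq_of_notMem _ _ _ he
  have hvS : S.Mem v := hball v (by
    simp only [mem_iff] at hvM ⊢
    omega)
  obtain ⟨p'', q'', he, hth'⟩ := forced (S := S) (C := C) (G := L / 2 * κ) ht0 ht' hle E heq
    hu.2.2.1 hv.2.2.1 ⟨hC', fun z w _ _ => by simp only [Box.diff, sub_self]; exact hC⟩
    hx hy hx' hy hp hq hp' hq' hvS hvp hf (by linarith) hG
  obtain ⟨k, hk, hke⟩ := mem_image.1 (hEf he)
  have hk' := mem_range.1 hk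
  have hth : B.Thru t' (B.pos i) (B.pos b) (f k) (f (k + 1)) :=
    thru_tail ht' hle heq hx hy hu.2.2.1 hvp hf (by linarith) hk'
  obtain ⟨e1, e2⟩ := hth.same_root hth' ht' (hpos _) hx hx' hy hke.symm
  subst e1 e2
  exact ⟨f k, f (k + 1), i, i', hball _ (hfM k hk'.le), hball _ (hfM (k + 1) hk'), hT' hiT,
    hT' hi'T, hT' hbT, hu.1, hv.1, hbin, hth, hth'⟩

/-- Lowering a shared step gives a grid position whose optimal walks to the root meet the
window. -/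
theorem hit_of_shared {n : ℕ} (hn : 0 < n) {b : ℕ} {p q : V} {i i' : ℕ} {u κ : ℝ}
    (ht : ∀ e, 0 < t e) (hp : S.Mem p) (hq : S.Mem q) (hb : b ≤ B.len) (hi : i ≤ B.len)
    (hi' : i' ≤ B.len) (hbin : B.NoBin n i i') (h1 : B.Thru t (B.pos i) (B.pos b) p q)
    (h2 : B.Thru t (B.pos i') (B.pos b) p q) (hu : 0 < u) (hκ : 0 < κ)
    (huκ : u ≤ t s(p, q) - κ) :
    ∃ k ≤ n, B.Hit S (Function.update t s(p, q) u) (B.pos ((Frame.full B n).g k)) (B.pos b) := by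
  have ht0 : ∀ e, 0 ≤ t e := fun e => (ht e).le
  set t₂ := Function.update t s(p, q) u with ht₂
  have ht2 : ∀ e, 0 < t₂ e := fun e => by
    rw [ht₂, Function.update_apply]
    split
    exacts [hu, ht e]
  have s1 := h1.lower_seg hi hb ht0 (ht _) hu.le hκ.le huκ
  have s2 := h2.lower_seg hi' hb ht0 (ht _) hu.le hκ.le huκ
  obtain ⟨k, hk, hc⟩ := Frame.exists_grid_onArc (Frame.full_valid B hn) hn hi hi'
    (fun l h h' => hbin l ⟨h, h'⟩) b
  have hm := horizontal ht2 hκ ((Frame.full_valid B hn).le k) s1 s2 hc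
  refine ⟨k, hk, fun m f hf _ hfc => ?_⟩
  obtain ⟨l, hl, he⟩ := hm.2.2.2.uses (fun e => (ht2 e).le) hκ hf hfc
  rcases Sym2.eq_iff.1 he with ⟨e1, -⟩ | ⟨e1, -⟩
  · exact ⟨l, hl.le, e1 ▸ hp⟩
  · exact ⟨l, hl.le, e1 ▸ hq⟩

end Box

end Vale.Agent.P158.NB
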