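import Vale.Agent.P158.NB.ContAvg
import Vale.Agent.P158.NB.LemmaR
import Vale.Agent.P158.NB.LemmaU
import Vale.Agent.P158.NB.GainAvg
import Vale.Agent.P158.NB.FrameGood

/-!
The averaged lemmas of `PROOF.md` (frames, grid, C, R, U) hold for all nets of an atomless law.
-/

open MeasureTheory

namespace Vale.Agent.P158.NB

/-- All statements of `Spec`, from the law and the nets alone. -/
theorem allStmts {G : Measure ℝ} [IsProbabilityMeasure G] (hG : GoodLaw G) (N : Nets G) :
    FrameStmt N ∧ GridStmt N ∧ ContStmt N ∧ UStmt N :=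
  have hF := frameStmt hG N
  have hGr := gridStmt hG N
  have hC := contStmt hG N (gainStmt N hF)
  ⟨hF, hGr, hC, uStmt hG N hF hC (rootStmt G hG N hGr hC)⟩

end Vale.Agent.P158.NB
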