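import Vale.Agent.P158.NB.Box

/-!
Boundary sums (Q6 of `PROOF.md`): Markov bounds and the weak law for finitely many arcs.
-/

open MeasureTheory ProbabilityTheory Finset
open scoped ENNReal

namespace Vale.Agent.P158.NB

/-- Two positions of the boundary cycle before its end agree only if they are equal. -/
lemma Box.pos_inj {B : Box} {k l : ℕ} (hk : k < B.len) (hl : l < B.len) (h : B.pos k = B.pos l) :
    k = l := by
  simp only [Box.len] at hk hl
  simp only [Box.pos] at h
  split_ifs at h <;> (try simp only [Prod.mk.injEq] at h) <;> omega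

lemma Box.pos_len_eq (B : Box) : B.pos B.len = B.pos 0 := by
  unfold Box.pos Box.len
  by_cases h : B.M = 0
  · simp [h]
  · rw [if_neg (show ¬ 8 * B.M ≤ 2 * B.M by omega), if_neg (show ¬ 8 * B.M ≤ 4 * B.M by omega),
      if_neg (show ¬ 8 * B.M ≤ 6 * B.M by omega), if_pos (Nat.zero_le _)]
    simp only [Prod.mk.injEq]
    constructor <;> push_cast <;> ring

/-- The boundary edges are pairwise distinct. -/
lemma Box.pos_edge_injOn (B : Box) :
    Set.InjOn (fun k => s(B.pos k, B.pos (k + 1))) (Set.Iio B.len) := by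
  intro k hk l hl h
  simp only [Set.mem_Iio] at hk hl
  have succ : ∀ j < B.len, ∃ j' < B.len, B.pos (j + 1) = B.pos j' ∧
      (j' = j + 1 ∨ (j' = 0 ∧ j + 1 = B.len)) := by
    intro j hj
    by_cases h1 : j + 1 < B.len
    · exact ⟨j + 1, h1, rfl, Or.inl rfl⟩
    · have h2 : j + 1 = B.len := by omega
      exact ⟨0, by omega, by rw [h2, B.pos_len_eq], Or.inr ⟨rfl, h2⟩⟩
  obtain ⟨k', hk', ek, hk''⟩ := succ k hk
  obtain ⟨l', hl', el, hl''⟩ := succ l hl
  rcases Sym2.eq_iff.1 h with ⟨a, -⟩ | ⟨a, b⟩
  · exact B.pos_inj hk hl a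
  · rw [el] at a
    rw [ek] at b
    have a' := B.pos_inj hk hl' a
    have b' := B.pos_inj hk' hl b
    have : B.len = 8 * B.M := rfl
    omega

/-- An arc sum is a sum over distinct edges. -/
lemma Box.arcSum_eq (B : Box) (t : Env) {i j : ℕ} (hj : j ≤ B.len) :
    B.arcSum t i j = ∑ e ∈ (Finset.Ico i j).image (fun k => s(B.pos k, B.pos (k + 1))), t e := by
  rw [Finset.sum_image]
  · rfl
  intro k hk l hl h
  have hk' := (Finset.mem_Ico.1 hk).2
  have hl' := (Finset.mem_Ico.1 hl).2
  exact B.pos_edge_injOn (show k < B.len by omega) (show l < B.len by omega) h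

variable (G : Measure ℝ) [IsProbabilityMeasure G]

lemma integrable_weight (hint : Integrable id G) (e : Sym2 V) :
    Integrable (fun t : Env => t e) (weightMeasure G) :=
  ((integrable_map_measure (g := (id : ℝ → ℝ)) (f := fun t : Env => t e) (μ := weightMeasure G)
    aestronglyMeasurable_id (measurable_pi_apply e).aemeasurable).1
    (by rw [map_eval_weights]; exact hint))

lemma integral_weight (e : Sym2 V) : ∫ t, t e ∂weightMeasure G = ∫ v, v ∂G := by
  conv_rhs => rw [← map_eval_weights (G := G) e]
  exact (integral_map (f := fun v : ℝ => v) (φ := fun t : Env => t e)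
    (measurable_pi_apply e).aemeasurable aestronglyMeasurable_id).symm

/-- Markov: a sum of finitely many weights exceeds `C` with probability at most `mean / C`. -/
theorem measure_sum_gt_le (h0 : G (Set.Iio 0) = 0) (hint : Integrable id G) {ι : Type*}
    (s : Finset ι) (g : ι → Sym2 V) {C : ℝ} (hC : 0 < C) :
    weightMeasure G {t | C < ∑ i ∈ s, t (g i)} ≤ ENNReal.ofReal (s.card * (∫ v, v ∂G) / C) := by
  have hi : Integrable (fun t : Env => ∑ i ∈ s, t (g i)) (weightMeasure G) :=
    integrable_finsetSum s fun i _ => integrable_weight G hint (g i)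
  have hn : 0 ≤ᵐ[weightMeasure G] fun t : Env => ∑ i ∈ s, t (g i) := by
    filter_upwards [ae_nonneg h0] with t ht using sum_nonneg fun i _ => ht _
  have h1 := mul_meas_ge_le_integral_of_nonneg hn hi C
  rw [integral_finsetSum s fun i _ => integrable_weight G hint (g i)] at h1
  simp only [integral_weight, Finset.sum_const, nsmul_eq_mul] at h1
  have hsub : {t : Env | C < ∑ i ∈ s, t (g i)} ⊆ {t : Env | C ≤ ∑ i ∈ s, t (g i)} :=
    Set.ofPred_subset_ofPred.2 fun t ht => le_of_lt ht
  refine (measure_mono hsub).trans ?_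
  rw [← ofReal_measureReal]
  refine ENNReal.ofReal_le_ofReal ((le_div_iff₀ hC).2 ?_)
  linarith

lemma integral_pos_of_atomless (h0 : G (Set.Iio 0) = 0) (hat : ∀ a, G {a} = 0)
    (hint : Integrable id G) : 0 < ∫ v, v ∂G := by
  refine (integral_pos_iff_support_of_nonneg_ae ?_ hint).2 ?_
  · filter_upwards [measure_eq_zero_iff_ae_notMem.1 h0] with v hv
    simpa using hv
  · rw [show Function.support (id : ℝ → ℝ) = {0}ᶜ by ext; simp,
      prob_compl_eq_one_sub (measurableSet_singleton 0), hat 0, tsub_zero]
    exact zero_lt_one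

/-- Weak law without second moment: a sum of at most `m` distinct weights is at most `2αm` with
probability tending to one, uniformly in the edges. -/
theorem exists_tail_sum (h0 : G (Set.Iio 0) = 0) (hint : Integrable id G)
    (hα : 0 < ∫ v, v ∂G) {ε : ℝ} (hε : 0 < ε) :
    ∃ m₀ : ℕ, ∀ m ≥ m₀, ∀ E : Finset (Sym2 V), E.card ≤ m →
      weightMeasure G {t | 2 * (∫ v, v ∂G) * m < ∑ e ∈ E, t e} ≤ ENNReal.ofReal ε := by
  classical
  set α := ∫ v, v ∂G
  -- choose the truncation level
  obtain ⟨K, hK⟩ : ∃ K : ℕ, ∫ v, max (v - K) 0 ∂G < ε * α / 4 := by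
    have hlim : Filter.Tendsto (fun K : ℕ => ∫ v, max (v - K) 0 ∂G) Filter.atTop (nhds 0) := by
      have h := tendsto_integral_of_dominated_convergence (μ := G)
        (F := fun (K : ℕ) v => max (v - K) 0) (f := fun _ => (0 : ℝ)) (fun v => |v|)
        (fun K => ((measurable_id.sub_const _).max measurable_const).aestronglyMeasurable)
        hint.abs (fun K => ae_of_all _ fun v => ?_) (ae_of_all _ fun v => ?_)
      · simpa using h
      · rw [Real.norm_eq_abs, abs_of_nonneg (le_max_right _ _)]
        exact max_le (by linarith [le_abs_self v, (Nat.cast_nonneg K : (0 : ℝ) ≤ K)]) (abs_nonneg v)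
      · refine tendsto_const_nhds.congr' ?_
        obtain ⟨k, hk⟩ := exists_nat_ge v
        filter_upwards [Filter.eventually_ge_atTop k] with j hj
        have : (k : ℝ) ≤ j := by exact_mod_cast hj
        exact (max_eq_right (by linarith)).symm
    exact (hlim.eventually (eventually_lt_nhds (by positivity))).exists
  obtain ⟨m₁, hm₁⟩ := exists_nat_ge (8 * (K : ℝ) ^ 2 / (ε * α ^ 2))
  refine ⟨m₁ + 1, fun m hm E hE => ?_⟩
  set low : Env → ℝ := fun t => ∑ e ∈ E, max 0 (min (t e) K)
  set high : Env → ℝ := fun t => ∑ e ∈ E, max (t e - K) 0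
  have hm0 : (0 : ℝ) < m := by exact_mod_cast (show 0 < m by omega)
  have hmem : ∀ e, MemLp (fun t : Env => max 0 (min (t e) (K : ℝ))) 2 (weightMeasure G) := fun e =>
    MemLp.of_bound (measurable_const.max ((measurable_pi_apply e).min measurable_const)).aestronglyMeasurable
      K (ae_of_all _ fun t => by
        rw [Real.norm_eq_abs, abs_of_nonneg (le_max_left _ _)]
        exact max_le (Nat.cast_nonneg K) (min_le_right _ _))
  have hvar : variance low (weightMeasure G) ≤ m * (K : ℝ) ^ 2 := by
    rw [show low = ∑ e ∈ E, fun t : Env => max 0 (min (t e) (K : ℝ)) by ext t; simp [low]]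
    rw [IndepFun.variance_sum (fun e _ => hmem e) (fun e _ e' _ hne =>
      ((iIndepFun_weights (G := G)).indepFun hne).comp
        (measurable_const.max (measurable_id.min measurable_const))
        (measurable_const.max (measurable_id.min measurable_const)))]
    refine (sum_le_card_nsmul _ _ ((K : ℝ) ^ 2) fun e _ => ?_).trans ?_
    · refine (variance_le_expectation_sq (hmem e).aestronglyMeasurable).trans ?_
      calc ∫ t, ((fun t : Env => max 0 (min (t e) (K : ℝ))) ^ 2) t ∂weightMeasure G
          ≤ ∫ _t, (K : ℝ) ^ 2 ∂weightMeasure G := by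
            refine integral_mono_of_nonneg (ae_of_all _ fun t => sq_nonneg _) (integrable_const _)
              (ae_of_all _ fun t => ?_)
            simp only [Pi.pow_apply]
            exact pow_le_pow_left₀ (le_max_left _ _) (max_le (Nat.cast_nonneg K) (min_le_right _ _)) 2
        _ = (K : ℝ) ^ 2 := by simp
    · rw [nsmul_eq_mul]
      exact mul_le_mul_of_nonneg_right (by exact_mod_cast hE) (sq_nonneg _)
  have hlowint : ∀ e, Integrable (fun t : Env => max 0 (min (t e) (K : ℝ))) (weightMeasure G) :=
    fun e => (hmem e).integrable (by norm_num)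
  have hmean : ∫ t, low t ∂weightMeasure G ≤ α * m := by
    simp only [low]
    rw [integral_finsetSum _ fun e _ => hlowint e]
    refine (sum_le_card_nsmul _ _ α fun e _ => ?_).trans ?_
    · rw [show α = ∫ t : Env, t e ∂weightMeasure G from (integral_weight G e).symm]
      refine integral_mono_ae (hlowint e) (integrable_weight G hint e) ?_
      filter_upwards [ae_nonneg h0] with t ht
      exact max_le (ht e) (min_le_left _ _)
    · rw [nsmul_eq_mul, mul_comm]
      exact mul_le_mul_of_nonneg_left (by exact_mod_cast hE) hα.le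
  have hlowmem : MemLp low 2 (weightMeasure G) := by
    simp only [low]; exact memLp_finsetSum E fun e _ => hmem e
  have hcheb := meas_ge_le_variance_div_sq hlowmem (c := α * m / 2) (by positivity)
  have hhighint : ∀ e, Integrable (fun t : Env => max (t e - K) 0) (weightMeasure G) := fun e =>
    ((integrable_weight G hint e).sub (integrable_const (K : ℝ))).pos_part
  have hhigh := mul_meas_ge_le_integral_of_nonneg (μ := weightMeasure G) (f := high)
    (ae_of_all _ fun t => sum_nonneg fun e _ => le_max_right _ _)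
    (integrable_finsetSum E fun e _ => hhighint e) (α * m / 2)
  have hhigh' : ∫ t, high t ∂weightMeasure G ≤ m * (ε * α / 4) := by
    simp only [high]
    rw [integral_finsetSum _ fun e _ => hhighint e]
    refine (sum_le_card_nsmul _ _ (ε * α / 4) fun e _ => ?_).trans ?_
    · refine le_trans (le_of_eq ?_) hK.le
      conv_rhs => rw [← map_eval_weights (G := G) e]
      exact (integral_map (f := fun v : ℝ => max (v - K) 0) (φ := fun t : Env => t e)
        (measurable_pi_apply e).aemeasurable (by fun_prop)).symm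
    · rw [nsmul_eq_mul]
      exact mul_le_mul_of_nonneg_right (by exact_mod_cast hE) (by positivity)
  have hsub : {t : Env | 2 * α * m < ∑ e ∈ E, t e} ⊆
      {t | α * m / 2 ≤ |low t - ∫ s, low s ∂weightMeasure G|} ∪ {t | α * m / 2 ≤ high t} := by
    intro t ht
    have hsplit : ∑ e ∈ E, t e ≤ low t + high t := by
      rw [← sum_add_distrib]
      refine sum_le_sum fun e _ => ?_
      rcases le_total (t e) K with h | h
      · linarith [le_max_right (t e - K) 0, (min_eq_left h).symm.trans_le (le_max_right (0 : ℝ) (min (t e) K))]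
      · linarith [le_max_left (t e - K) 0, (min_eq_right h).symm.trans_le (le_max_right (0 : ℝ) (min (t e) K))]
    by_cases h : α * m / 2 ≤ high t
    · exact Or.inr h
    · left
      show α * m / 2 ≤ |low t - ∫ s, low s ∂weightMeasure G|
      have ht' : 2 * α * m < ∑ e ∈ E, t e := ht
      exact le_trans (by linarith [not_le.1 h]) (le_abs_self _)
  refine (measure_mono hsub).trans ((measure_union_le _ _).trans ?_)
  have h2 : (weightMeasure G).real {t | α * m / 2 ≤ high t} ≤ ε / 2 := by
    have hp : 0 < α * m / 2 := by positivity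
    refine le_of_mul_le_mul_left ?_ hp
    calc α * m / 2 * (weightMeasure G).real {t | α * m / 2 ≤ high t}
        ≤ ∫ t, high t ∂weightMeasure G := hhigh
      _ ≤ m * (ε * α / 4) := hhigh'
      _ = α * m / 2 * (ε / 2) := by ring
  have h1 : variance low (weightMeasure G) / (α * m / 2) ^ 2 ≤ ε / 2 := by
    rw [div_le_iff₀ (by positivity)]
    refine hvar.trans ?_
    have hm2 : 8 * (K : ℝ) ^ 2 / (ε * α ^ 2) ≤ m :=
      hm₁.trans (by exact_mod_cast (show m₁ ≤ m by omega))
    rw [div_le_iff₀ (by positivity)] at hm2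
    nlinarith [mul_le_mul_of_nonneg_left hm2 hm0.le]
  have h2' : weightMeasure G {t | α * m / 2 ≤ high t} ≤ ENNReal.ofReal (ε / 2) := by
    rw [← ofReal_measureReal]
    exact ENNReal.ofReal_le_ofReal h2
  refine (add_le_add (hcheb.trans (ENNReal.ofReal_le_ofReal h1)) h2').trans_eq ?_
  rw [← ENNReal.ofReal_add (by positivity) (by positivity), add_halves]

/-- The weak law for finitely many arcs of boxes, uniformly in the box. -/
theorem exists_arcs_ok (h0 : G (Set.Iio 0) = 0) (hint : Integrable id G)
    (hα : 0 < ∫ v, v ∂G) (n : ℕ) {ε : ℝ} (hε : 0 < ε) :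
    ∃ m₀ : ℕ, ∀ m ≥ m₀, ∀ (B : Box) (g : ℕ → ℕ), (∀ l < n, g (l + 1) ≤ B.len) →
      (∀ l < n, g (l + 1) - g l ≤ m) →
      weightMeasure G {t | ∃ l < n, 2 * (∫ v, v ∂G) * m < B.arcSum t (g l) (g (l + 1))}
        ≤ ENNReal.ofReal ε := by
  classical
  obtain ⟨m₀, hm₀⟩ := exists_tail_sum G h0 hint hα (ε := ε / (n + 1)) (by positivity)
  refine ⟨m₀, fun m hm B g hlen hstep => ?_⟩
  set E : ℕ → Finset (Sym2 V) := fun l =>
    (Finset.Ico (g l) (g (l + 1))).image fun k => s(B.pos k, B.pos (k + 1))
  have hsub : {t | ∃ l < n, 2 * (∫ v, v ∂G) * m < B.arcSum t (g l) (g (l + 1))} ⊆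
      ⋃ l ∈ range n, {t | 2 * (∫ v, v ∂G) * m < ∑ e ∈ E l, t e} := by
    rintro t ⟨l, hl, h⟩
    rw [B.arcSum_eq t (hlen l hl)] at h
    exact Set.mem_iUnion₂.2 ⟨l, mem_range.2 hl, h⟩
  refine (measure_mono hsub).trans ((measure_biUnion_finset_le _ _).trans ?_)
  refine (sum_le_card_nsmul _ _ _ fun l hl => hm₀ m hm (E l)
    ((card_image_le).trans (by simpa using hstep l (mem_range.1 hl)))).trans ?_
  rw [card_range, ← ENNReal.ofReal_nsmul]
  refine ENNReal.ofReal_le_ofReal ?_
  rw [nsmul_eq_mul, mul_div_assoc', div_le_iff₀ (by positivity)]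
  nlinarith

end Vale.Agent.P158.NB
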